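import Vale.Agent.P119.IND.Lines

/-!
# P119, block IND: long clean chains (`helper810`)

A clean chain of `m` trees from the line `l` at time `s`: pairwise disjoint `ok` trees of depth `≤ L`
of the world whose root lines are hit one after the other (`FL.Chain`), the head being one of the two
outgoing lines, or the undeflected line of the partner.  The expected number of clean chains of `m`
trees is at most `a m * exp (b / 4 |v|²)` with `a m → 0` (even summable), uniformly in `ε`.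
-/

open MeasureTheory Filter Topology Set
open scoped ENNReal

noncomputable section

namespace Vale.Agent.P119.IND

open KU FL M CTree GC MM PB.CT

/-- The three kinds of steps. -/
def kstep {Φ : E3 → ℝ} {ε : ℝ} (hΦ : IsPotential Φ) (hε : ε ≠ 0) : Fin 3 → FL.Step :=
  ![Step.out1 hΦ hε, Step.out2 hΦ hε, Step.old]

/-- The steps of a chain with the pattern `P`. -/
def pat {Φ : E3 → ℝ} {ε : ℝ} (hΦ : IsPotential Φ) (hε : ε ≠ 0) {m : ℕ} (P : Fin m → Fin 3) (n : ℕ) :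
    FL.Step := if h : n < m then kstep hΦ hε (P ⟨n, h⟩) else Step.old

/-- Clean chains of `m` trees, starting with the line `l` at time `s`. -/
structure Clean (Φ : E3 → ℝ) (ε : ℝ) (L : ℕ) (T₀ t : ℝ) (S : ℕ → FL.Step) {m : ℕ} (s : ℝ) (l : Ph)
    (T : Fin m → CTree) : Prop where
  fresh : Fresh Φ ε L T
  ext_le : ∀ k, CTree.ext Φ ε (T k) ≤ T₀
  chain : Chain ε t S m s l fun k => ln Φ ε (T k)

variable {Φ : E3 → ℝ}

theorem measurableSet_clean (hΦ : IsPotential Φ) {ε : ℝ} (hε : ε ≠ 0) (L : ℕ) (T₀ t : ℝ)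
    (S : ℕ → FL.Step) (m : ℕ) {X : Type*} [MeasurableSpace X] {s : X → ℝ} {l : X → Ph}
    (hs : Measurable s) (hl : Measurable l) :
    MeasurableSet {q : X × (Fin m → CTree) | Clean Φ ε L T₀ t S (s q.1) (l q.1) q.2} := by
  have e : {q : X × (Fin m → CTree) | Clean Φ ε L T₀ t S (s q.1) (l q.1) q.2} =
      (Prod.snd ⁻¹' {T : Fin m → CTree | Fresh Φ ε L T}) ∩
      ((⋂ k, {q : X × (Fin m → CTree) | CTree.ext Φ ε (q.2 k) ≤ T₀}) ∩
      {q : X × (Fin m → CTree) | Chain ε t S m (s q.1) (l q.1) fun k => ln Φ ε (q.2 k)}) := by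
    ext q
    simp only [mem_inter_iff, mem_iInter, mem_ofPred_eq, mem_preimage]
    exact ⟨fun h => ⟨h.1, h.2, h.3⟩, fun h => ⟨h.1, h.2.1, h.2.2⟩⟩
  rw [e]
  refine ((measurableSet_fresh hΦ hε m).preimage measurable_snd).inter
    (MeasurableSet.inter (MeasurableSet.iInter fun k => measurableSet_le
      ((M.measurable_ext hΦ hε).comp ((measurable_pi_apply k).comp measurable_snd))
      measurable_const) ?_)
  have h1 : Measurable fun q : X × (Fin m → CTree) =>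
      (s q.1, l q.1, fun k => ln Φ ε (q.2 k)) := by
    refine (hs.comp measurable_fst).prodMk ((hl.comp measurable_fst).prodMk ?_)
    exact measurable_pi_iff.2 fun k => (M.measurable_ln hΦ hε).comp
      ((measurable_pi_apply k).comp measurable_snd)
  exact h1 (measurableSet_chain m S)

/-- **The mass of the clean chains of one pattern.** -/
theorem clean_mass (hΦ : IsPotential Φ) {f₀ : Ph → ℝ} {κ b T₀ M₀ : ℝ}
    (hg : GoodDatum f₀ κ) (hb : 0 < b) (hT : 0 ≤ T₀) (hM : 0 ≤ M₀)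
    (hf : ∀ z, f₀ z ≤ M₀ * Real.exp (-b * ‖z.2‖ ^ 2)) (L : ℕ) :
    ∃ C : ℝ≥0∞, C ≠ ∞ ∧ ∀ ε : ℝ, 0 < ε → ∀ (m : ℕ) (S : ℕ → FL.Step) (t s : ℝ) (l : Ph), s ≤ t →
      (Measure.pi fun _ : Fin m => tree (GC.inten f₀ ε) L) {T | Clean Φ ε L T₀ t S s l T} ≤
        C ^ m * ENNReal.ofReal ((Kc (b / 2) * (t - s)) ^ m / √(m.factorial : ℝ) *
          Real.exp (b / 4 * ‖l.2‖ ^ 2)) := by
  obtain ⟨C, hC, h⟩ := pi_lines_le hΦ hg hb hT hM hf L
  refine ⟨C, hC, fun ε hε m S t s l hst => ?_⟩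
  have hCh : MeasurableSet {p : Fin m → Ph | Chain ε t S m s l p} :=
    (measurable_const.prodMk (measurable_const.prodMk measurable_id) :
      Measurable fun p : Fin m → Ph => (s, l, p)) (measurableSet_chain m S)
  have hGm : Measurable ({p : Fin m → Ph | Chain ε t S m s l p}.indicator fun _ => (1 : ℝ≥0∞)) :=
    measurable_const.indicator hCh
  have h1 := h ε hε m _ hGm
  have hcl : MeasurableSet {T : Fin m → CTree | Clean Φ ε L T₀ t S s l T} := by
    have h2 := measurableSet_clean hΦ hε.ne' L T₀ t S m (X := Unit) (s := fun _ => s)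
      (l := fun _ => l) measurable_const measurable_const
    exact (measurable_const.prodMk measurable_id :
      Measurable fun T : Fin m → CTree => ((), T)) h2
  rw [← lintegral_indicator_one hcl]
  refine le_trans (lintegral_mono fun T => ?_) (h1.trans ?_)
  · by_cases hTc : T ∈ {T : Fin m → CTree | Clean Φ ε L T₀ t S s l T}
    · have h3 : Clean Φ ε L T₀ t S s l T := hTc
      rw [indicator_of_mem hTc, indicator_of_mem
        (show T ∈ {S : Fin m → CTree | ∀ k, S k ∈ okT Φ ε T₀} from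
          fun k => ⟨h3.fresh.ok k, h3.ext_le k⟩), indicator_of_mem
        (show (fun k => ln Φ ε (T k)) ∈ {p : Fin m → Ph | Chain ε t S m s l p} from h3.chain)]
      exact le_rfl
    · rw [indicator_of_notMem hTc]
      exact zero_le
  · gcongr
    have h4 := chain_mass hε (by positivity : 0 < b / 2) m S s l hst
    refine le_trans (le_of_eq ?_) (h4.trans (le_of_eq ?_))
    · refine lintegral_congr fun p => ?_
      by_cases hp : p ∈ {p : Fin m → Ph | Chain ε t S m s l p}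
      · rw [indicator_of_mem hp, indicator_of_mem hp, mul_one]
      · rw [indicator_of_notMem hp, indicator_of_notMem hp, mul_zero]
    · congr 3
      ring

/-- `x^m / √m! → 0`. -/
theorem tendsto_pow_div_sqrt_factorial (x : ℝ) (hx : 0 ≤ x) :
    Tendsto (fun m : ℕ => x ^ m / √(m.factorial : ℝ)) atTop (𝓝 0) := by
  have h1 : Tendsto (fun m : ℕ => (x ^ 2) ^ m / (m.factorial : ℝ)) atTop (𝓝 0) :=
    FloorSemiring.tendsto_pow_div_factorial_atTop (x ^ 2)
  have h2 : (fun m : ℕ => x ^ m / √(m.factorial : ℝ)) =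
      fun m : ℕ => √((x ^ 2) ^ m / (m.factorial : ℝ)) := by
    funext m
    rw [Real.sqrt_div (by positivity), ← pow_mul, mul_comm 2 m, pow_mul,
      Real.sqrt_sq (by positivity)]
  rw [h2]
  have h3 := h1.sqrt
  rwa [Real.sqrt_zero] at h3

/-- **Long clean chains**: mass, all the patterns together. -/
theorem clean_tail (hΦ : IsPotential Φ) {f₀ : Ph → ℝ} {κ b T₀ M₀ : ℝ}
    (hg : GoodDatum f₀ κ) (hb : 0 < b) (hT : 0 ≤ T₀) (hM : 0 ≤ M₀)
    (hf : ∀ z, f₀ z ≤ M₀ * Real.exp (-b * ‖z.2‖ ^ 2)) (L : ℕ) (H : ℝ) (hH : 0 ≤ H) :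
    ∃ a : ℕ → ℝ≥0∞, Tendsto a atTop (𝓝 0) ∧ (∀ m, a m ≠ ∞) ∧
      ∀ (ε : ℝ) (hε : 0 < ε) (m : ℕ) (t s : ℝ) (l : Ph), s ≤ t → t - s ≤ H →
      ∑ P : Fin m → Fin 3, (Measure.pi fun _ : Fin m => tree (GC.inten f₀ ε) L)
          {T | Clean Φ ε L T₀ t (pat hΦ hε.ne' P) s l T} ≤
        a m * ENNReal.ofReal (Real.exp (b / 4 * ‖l.2‖ ^ 2)) := by
  obtain ⟨C, hC, h⟩ := clean_mass hΦ hg hb hT hM hf L
  set x : ℝ := 3 * C.toReal * (Kc (b / 2) * H) with hx
  have hK := Kc_nonneg (b / 2)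
  have hx0 : 0 ≤ x := by rw [hx]; positivity
  refine ⟨fun m => ENNReal.ofReal (x ^ m / √(m.factorial : ℝ)), ?_, fun m => ENNReal.ofReal_ne_top,
    fun ε hε m t s l hst hH' => ?_⟩
  · have h1 := ENNReal.tendsto_ofReal (tendsto_pow_div_sqrt_factorial x hx0)
    rwa [ENNReal.ofReal_zero] at h1
  · refine (Finset.sum_le_sum fun P _ => h ε hε m (pat hΦ hε.ne' P) t s l hst).trans ?_
    rw [Finset.sum_const, Finset.card_univ, Fintype.card_fun, Fintype.card_fin, Fintype.card_fin,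
      nsmul_eq_mul]
    have hts : 0 ≤ t - s := sub_nonneg.2 hst
    have e1 : C ^ m = ENNReal.ofReal (C.toReal ^ m) := by
      rw [ENNReal.ofReal_pow ENNReal.toReal_nonneg, ENNReal.ofReal_toReal hC]
    have e2 : ((3 ^ m : ℕ) : ℝ≥0∞) = ENNReal.ofReal (3 ^ m) := by
      rw [Nat.cast_pow, ENNReal.ofReal_pow (by norm_num)]
      norm_num
    rw [e1, e2, ← ENNReal.ofReal_mul (by positivity), ← ENNReal.ofReal_mul (by positivity),
      ← ENNReal.ofReal_mul (by positivity)]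
    apply ENNReal.ofReal_le_ofReal
    have h2 : (Kc (b / 2) * (t - s)) ^ m ≤ (Kc (b / 2) * H) ^ m := by gcongr
    calc 3 ^ m * (C.toReal ^ m * ((Kc (b / 2) * (t - s)) ^ m / √(m.factorial : ℝ) *
          Real.exp (b / 4 * ‖l.2‖ ^ 2)))
        ≤ 3 ^ m * (C.toReal ^ m * ((Kc (b / 2) * H) ^ m / √(m.factorial : ℝ) *
          Real.exp (b / 4 * ‖l.2‖ ^ 2))) := by gcongr
      _ = _ := by rw [hx, mul_pow, mul_pow]; ring

/-- The world contains a clean chain of `m` trees from `l` at time `s`. -/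
def HasClean (hΦ : IsPotential Φ) {ε : ℝ} (hε : ε ≠ 0) (L : ℕ) (T₀ t : ℝ) (m : ℕ) (W : Set Src)
    (s : ℝ) (l : Ph) : Prop :=
  ∃ (P : Fin m → Fin 3) (T : Fin m → CTree), Clean Φ ε L T₀ t (pat hΦ hε P) s l T ∧ InW W T

/-- **The probability of a long clean chain.** -/
theorem prob_clean_le (hΦ : IsPotential Φ) {f₀ : Ph → ℝ} {κ b T₀ M₀ : ℝ}
    (hg : GoodDatum f₀ κ) (hb : 0 < b) (hT : 0 ≤ T₀) (hM : 0 ≤ M₀)
    (hf : ∀ z, f₀ z ≤ M₀ * Real.exp (-b * ‖z.2‖ ^ 2)) (L : ℕ) (H : ℝ) (hH : 0 ≤ H) :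
    ∃ a : ℕ → ℝ≥0∞, Tendsto a atTop (𝓝 0) ∧ (∀ m, a m ≠ ∞) ∧
      ∀ (ε : ℝ) (hε : 0 < ε) (m : ℕ) (t s : ℝ) (l : Ph), s ≤ t → t - s ≤ H →
      PP f₀ ε {c | HasClean hΦ hε.ne' L T₀ t m (world (pts c : Set Ph)) s l} ≤
        a m * ENNReal.ofReal (Real.exp (b / 4 * ‖l.2‖ ^ 2)) := by
  obtain ⟨a, ha, ha', h⟩ := clean_tail hΦ hg hb hT hM hf L H hH
  refine ⟨a, ha, ha', fun ε hε m t s l hst hH' => ?_⟩
  have hfin : IsFiniteMeasure (inten f₀ ε) := isFiniteMeasure_inten hg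
  refine le_trans ?_ (h ε hε m t s l hst hH')
  rw [← tsum_fintype (L := .unconditional _)]
  refine prob_diag_le (Φ := Φ) (ε := ε) (L := L) (ν := inten f₀ ε) (C := Cx ε)
    (measurableSet_Cx ε) (Cx_symm ε) (Cx_irrefl hε.le) (κ := Fin m → Fin 3) (m := fun _ => m)
    (D := fun P => {T | Clean Φ ε L T₀ t (pat hΦ hε.ne' P) s l T}) (fun P => ?_)
    (fun P S hS => hS.fresh) (Eventually.of_forall fun c hc => ?_)
  · have h2 := measurableSet_clean hΦ hε.ne' L T₀ t (pat hΦ hε.ne' P) m (X := Unit)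
      (s := fun _ => s) (l := fun _ => l) measurable_const measurable_const
    exact (measurable_const.prodMk measurable_id :
      Measurable fun T : Fin m → CTree => ((), T)) h2
  · obtain ⟨P, T, h1, h2⟩ := hc
    exact ⟨P, T, h1, h2⟩

/-- **Long clean chains from finitely many starting lines, integrated over a structure.** -/
theorem lintegral_clean_le (hΦ : IsPotential Φ) {f₀ : Ph → ℝ} {κ b T₀ M₀ : ℝ}
    (hg : GoodDatum f₀ κ) (hb : 0 < b) (hT : 0 ≤ T₀) (hM : 0 ≤ M₀)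
    (hf : ∀ z, f₀ z ≤ M₀ * Real.exp (-b * ‖z.2‖ ^ 2)) (L : ℕ) (H : ℝ) (hH : 0 ≤ H) :
    ∃ a : ℕ → ℝ≥0∞, Tendsto a atTop (𝓝 0) ∧ (∀ m, a m ≠ ∞) ∧
      ∀ (ε : ℝ) (hε : 0 < ε) (m : ℕ) (t : ℝ) {X : Type} [MeasurableSpace X] (law : Measure X)
        (A : X → Finset (ℝ × Ph)), (∀ x, ∀ h ∈ A x, h.1 ≤ t ∧ t - h.1 ≤ H) →
      ∫⁻ x, PP f₀ ε {c | ∃ h ∈ A x,
          HasClean hΦ hε.ne' L T₀ t m (world (pts c : Set Ph)) h.1 h.2} ∂law ≤
        a m * ∫⁻ x, ∑ h ∈ A x, ENNReal.ofReal (Real.exp (b / 4 * ‖h.2.2‖ ^ 2)) ∂law := by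
  obtain ⟨a, ha, ha', h⟩ := prob_clean_le hΦ hg hb hT hM hf L H hH
  refine ⟨a, ha, ha', fun ε hε m t X _ law A hA => ?_⟩
  rw [← lintegral_const_mul' _ _ (ha' m)]
  refine lintegral_mono fun x => ?_
  have e : {c : Conf Ph | ∃ h ∈ A x, HasClean hΦ hε.ne' L T₀ t m (world (pts c : Set Ph)) h.1 h.2} =
      ⋃ h ∈ A x, {c : Conf Ph | HasClean hΦ hε.ne' L T₀ t m (world (pts c : Set Ph)) h.1 h.2} := by
    ext c
    simp
  rw [e]
  refine (measure_biUnion_finset_le _ _).trans ?_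
  rw [Finset.mul_sum]
  exact Finset.sum_le_sum fun q hq => h ε hε m t q.1 q.2 (hA x q hq).1 (hA x q hq).2

end Vale.Agent.P119.IND
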