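import Vale.Agent.P119.M.Good
import Vale.Agent.P119.TL.Glue
import Vale.Agent.P119.TL.Inst

/-!
# P119, block IND: the good event (`helper810`)

`cub V X J = V ∪ ⋃ i ∈ J, X i`: the worlds with the inserted finite sets of sources `X i`, `i ∈ J`.
`IGood V X K t`: the insertions `X i`, `i ∈ K`, are disjoint, disjoint from `V`, and independent up to
the time `t` at the level of the full statuses (`NI` and `NIB` of `helper472`).

* `not_igood`: a failure comes from one index (`¬NI1 V (X i) t`) or from a pair of indices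
  (`¬NI2 V (X i) (X j) t`); these predicates only know the worlds `V`, `V ∪ A`, `V ∪ B`;
* `IGood.good`, `not_good_cases`: the relation with `M.Good` (`helper472`);
* `IGood.cube`: the cube of `helper939`;
* `IGood.lgood`: the hypothesis `LGood` of TREE -> LINES.
-/

open MeasureTheory Filter Topology Set
open scoped ENNReal NNReal

noncomputable section

namespace Vale.Agent.P119.IND

open KU M M.CTree RB TL

variable {Φ : E3 → ℝ} {ε : ℝ} {L : ℕ} {ι : Type*}

/-- The worlds with the insertions `X i`, `i ∈ J`. -/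
def cub (V : Set Src) (X : ι → Set Src) (J : Finset ι) : Set Src := V ∪ ⋃ i ∈ J, X i

theorem cub_empty (V : Set Src) (X : ι → Set Src) : cub V X ∅ = V := by
  unfold cub
  simp

theorem cub_singleton (V : Set Src) (X : ι → Set Src) (i : ι) : cub V X {i} = V ∪ X i := by
  unfold cub
  simp

theorem cub_mono {V : Set Src} {X : ι → Set Src} {J J' : Finset ι} (h : J ⊆ J') :
    cub V X J ⊆ cub V X J' :=
  union_subset_union_right _ (biUnion_subset_biUnion_left h)

/-- The conditions on one inserted set: it is disjoint from the world, and no particle altered by it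
is in contact with an unaltered one which is still alive. -/
structure NI1 (Φ : E3 → ℝ) (ε : ℝ) (L : ℕ) (V A : Set Src) (t : ℝ) : Prop where
  disj : Disjoint V A
  nobad : ∀ s ≤ t, ∀ a b, Same Φ ε L V (V ∪ A) a s → ¬Same Φ ε L V (V ∪ A) b s →
    (stat Φ ε L V a s ≠ none → ¬mcon Φ ε L V s a b) ∧
      (stat Φ ε L (V ∪ A) a s ≠ none → ¬mcon Φ ε L (V ∪ A) s a b)

/-- The conditions on two inserted sets. -/
structure NI2 (Φ : E3 → ℝ) (ε : ℝ) (L : ℕ) (V A B : Set Src) (t : ℝ) : Prop where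
  disj : Disjoint A B
  nohit : ∀ s ≤ t, ∀ T T', ¬(live Φ ε L V T s ↔ live Φ ε L (V ∪ A) T s) →
    ¬(alive Φ ε L V T' s ↔ alive Φ ε L (V ∪ B) T' s) → ¬hit Φ ε T T' s
  notie : ∀ s ≤ t, ∀ T T₁ T₂, live Φ ε L V T s →
    ¬(alive Φ ε L V T₁ s ↔ alive Φ ε L (V ∪ A) T₁ s) →
    ¬(alive Φ ε L V T₂ s ↔ alive Φ ε L (V ∪ B) T₂ s) → hit Φ ε T T₁ s → ¬hit Φ ε T T₂ s
  nocon : ∀ s ≤ t, ∀ a b, a ≠ b → ¬Same Φ ε L V (V ∪ A) a s → ¬Same Φ ε L V (V ∪ B) b s →
    ∀ W W' : Set Src, (W = V ∨ W = V ∪ A) → (W' = V ∨ W' = V ∪ B) → ∀ T T' : CTree,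
    T.root = a → T'.root = b → live Φ ε L W T s → live Φ ε L W' T' s →
    ¬Ctc ε (st Φ ε T s) (st Φ ε T' s)

theorem NI1.mono {V A : Set Src} {s t : ℝ} (h : NI1 Φ ε L V A t) (hst : s ≤ t) :
    NI1 Φ ε L V A s := ⟨h.disj, fun r hr => h.nobad r (hr.trans hst)⟩

theorem NI2.mono {V A B : Set Src} {s t : ℝ} (h : NI2 Φ ε L V A B t) (hst : s ≤ t) :
    NI2 Φ ε L V A B s :=
  ⟨h.disj, fun r hr => h.nohit r (hr.trans hst), fun r hr => h.notie r (hr.trans hst),
    fun r hr => h.nocon r (hr.trans hst)⟩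

/-- **The good event.** -/
structure IGood (Φ : E3 → ℝ) (ε : ℝ) (L : ℕ) (V : Set Src) (X : ι → Set Src) (K : Finset ι)
    (t : ℝ) : Prop where
  /-- one index -/
  one : ∀ i ∈ K, NI1 Φ ε L V (X i) t
  /-- two indices -/
  two : ∀ i ∈ K, ∀ j ∈ K, i ≠ j → NI2 Φ ε L V (X i) (X j) t

/-- The failures. -/
theorem not_igood {V : Set Src} {X : ι → Set Src} {K : Finset ι} {t : ℝ}
    (h : ¬IGood Φ ε L V X K t) : (∃ i ∈ K, ¬NI1 Φ ε L V (X i) t) ∨
      ∃ i ∈ K, ∃ j ∈ K, i ≠ j ∧ ¬NI2 Φ ε L V (X i) (X j) t := by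
  by_contra hcon
  push Not at hcon
  exact h ⟨hcon.1, hcon.2⟩

namespace IGood

variable {V : Set Src} {X : ι → Set Src} {K K' : Finset ι} {s t : ℝ}

theorem mono (h : IGood Φ ε L V X K t) (hst : s ≤ t) : IGood Φ ε L V X K s :=
  ⟨fun i hi => (h.one i hi).mono hst, fun i hi j hj hij => (h.two i hi j hj hij).mono hst⟩

theorem subset (h : IGood Φ ε L V X K t) (hK : K' ⊆ K) : IGood Φ ε L V X K' t :=
  ⟨fun i hi => h.one i (hK hi), fun i hi j hj hij => h.two i (hK hi) j (hK hj) hij⟩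

theorem congr {X' : ι → Set Src} (h : IGood Φ ε L V X K t) (hX : ∀ i ∈ K, X i = X' i) :
    IGood Φ ε L V X' K t := by
  refine ⟨fun i hi => ?_, fun i hi j hj hij => ?_⟩
  · rw [← hX i hi]; exact h.one i hi
  · rw [← hX i hi, ← hX j hj]; exact h.two i hi j hj hij

theorem ni (h : IGood Φ ε L V X K t) : NI Φ ε L (cub V X) K t := by
  refine ⟨fun i hi j hj hij s hs T T' h1 h2 => ?_, fun i hi j hj hij s hs T T₁ T₂ h1 h2 h3 => ?_⟩
  · rw [cub_empty, cub_singleton] at h1 h2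
    exact (h.two i hi j hj hij).nohit s hs T T' h1 h2
  · rw [cub_empty, cub_singleton] at h2 h3
    rw [cub_empty] at h1
    exact (h.two i hi j hj hij).notie s hs T T₁ T₂ h1 h2 h3

theorem cub_cases {i : ι} {I : Finset ι} (hI : I ⊆ {i}) :
    cub V X I = V ∨ cub V X I = V ∪ X i := by
  rcases Finset.subset_singleton_iff.1 hI with rfl | rfl
  · exact Or.inl (cub_empty V X)
  · exact Or.inr (cub_singleton V X i)

theorem nib (h : IGood Φ ε L V X K t) : NIB Φ ε L (cub V X) K t := by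
  refine ⟨fun i hi j hj hij s hs a b hab h1 h2 I hI J hJ T T' h3 h4 h5 h6 => ?_,
    fun i hi s hs a b h1 h2 I hI hn h3 => ?_⟩
  · unfold altd at h1 h2
    rw [cub_empty, cub_singleton] at h1 h2
    exact (h.two i hi j hj hij).nocon s hs a b hab h1 h2 _ _ (cub_cases hI) (cub_cases hJ) T T'
      h3 h4 h5 h6
  · unfold altd at h1 h2
    rw [cub_empty, cub_singleton] at h1 h2
    have h4 := (h.one i hi).nobad s hs a b (not_not.1 h1) h2
    rcases cub_cases (V := V) (X := X) hI with h5 | h5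
    · rw [h5] at h3 hn
      exact h4.1 hn h3
    · rw [h5] at h3 hn
      exact h4.2 hn h3

theorem cubeW [Nonempty ι] (h : IGood Φ ε L V X K t) (hV : V.Finite)
    (hX : ∀ i ∈ K, (X i).Finite) : CubeW (cub V X) K := by
  refine ⟨fun J hJ => hV.union (J.finite_toSet.biUnion fun i hi => hX i (hJ (Finset.mem_coe.1 hi))),
    fun J hJ => cub_mono hJ, fun σ => ?_⟩
  by_cases hσ : ∃ i ∈ K, σ ∈ X i
  · obtain ⟨i, hi, hσi⟩ := hσ
    refine ⟨i, fun J J' hJ hJ' hJJ => ?_⟩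
    have h1 : ∀ J : Finset ι, J ⊆ K → (σ ∈ cub V X J ↔ σ ∈ V ∨ i ∈ J) := by
      intro J hJ
      unfold cub
      rw [mem_union, mem_iUnion₂]
      refine or_congr_right ⟨?_, fun h => ⟨i, h, hσi⟩⟩
      rintro ⟨j, hj, hσj⟩
      by_cases hij : i = j
      · rwa [hij]
      · exact absurd hσj (disjoint_left.1 (h.two i hi j (hJ hj) hij).disj hσi)
    exact (h1 J hJ).trans ((or_congr_right hJJ).trans (h1 J' hJ').symm)
  · push Not at hσ
    have h1 : ∀ J : Finset ι, J ⊆ K → (σ ∈ cub V X J ↔ σ ∈ V) := by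
      intro J hJ
      unfold cub
      rw [mem_union, mem_iUnion₂]
      refine ⟨?_, Or.inl⟩
      rintro (h | ⟨j, hj, hσj⟩)
      · exact h
      · exact absurd hσj (hσ j (hJ hj))
    exact ⟨Classical.arbitrary ι, fun J J' hJ hJ' _ => (h1 J hJ).trans (h1 J' hJ').symm⟩

/-- The full status of every particle depends on one index only. -/
theorem sta_dep [Nonempty ι] [DecidableEq ι] (h : IGood Φ ε L V X K t) (hΦ : IsPotential Φ)
    (hε : 0 < ε) (hV : V.Finite) (hX : ∀ i ∈ K, (X i).Finite) (a : Src) :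
    ∃ i, ∀ J J', J ⊆ K → J' ⊆ K → (i ∈ J ↔ i ∈ J') →
      ∀ s ≤ t, sta Φ ε L (cub V X J) a s = sta Φ ε L (cub V X J') a s :=
  M.sta_dep hΦ hε (h.cubeW hV hX) h.ni h.nib a

/-- **The cube of worlds.** -/
theorem cube [Nonempty ι] [DecidableEq ι] {hΦ : IsPotential Φ} {hε : 0 < ε}
    (h : IGood Φ ε L V X K t) (hV : V.Finite) (hX : ∀ i ∈ K, (X i).Finite)
    {W : Finset ι → Finset Src} (hW : ∀ J, J ⊆ K → (W J : Set Src) = cub V X J) :
    (Y Φ ε L hΦ hε).Cube W K t := by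
  refine cube_of_dep fun a => ?_
  obtain ⟨i, hi⟩ := h.sta_dep hΦ hε hV hX a
  refine ⟨i, fun J J' hJ hJ' hij s hs => ?_⟩
  change sta Φ ε L (W J : Set Src) a s = sta Φ ε L (W J' : Set Src) a s
  rw [hW J hJ, hW J' hJ']
  exact hi J J' hJ hJ' hij s hs

/-- The index of an inserted source. -/
theorem idx (h : IGood Φ ε L V X K t) {i : ι} (hi : i ∈ K) {σ : Src} (hσ : σ ∈ X i) :
    Idx (cub V X) K i σ := by
  intro J hJ hm
  rcases hm with hm | hm
  · exact absurd hσ (disjoint_left.1 (h.one i hi).disj hm)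
  · obtain ⟨j, hj, hσj⟩ := mem_iUnion₂.1 hm
    by_cases hij : i = j
    · rwa [hij]
    · exact absurd hσj (disjoint_left.1 (h.two i hi j (hJ hj) hij).disj hσ)

/-- **The hypothesis `LGood` of TREE -> LINES**: the sources of the histories `x ∈ outs T` have
different indices `i x`. -/
theorem lgood [Nonempty ι] [DecidableEq ι] {V : Finset Src} (h : IGood Φ ε L (V : Set Src) X K t)
    (hΦ : IsPotential Φ) (hε : 0 < ε) {T : CTree} {ρ : ℝ} (i : CTree → ι)
    (hi : InjOn i (outs T)) (hK : ∀ x ∈ outs T, i x ∈ K)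
    (hX : ∀ x ∈ outs T, X (i x) = {msrc Φ ε (rho Φ ε T ρ) x}) :
    LGood Φ ε L V T ρ t := by
  classical
  have hfinO : (outs T).Finite := (exs_finite T).insert T
  set J : Finset ι := (hfinO.toFinset).image i with hJdef
  have hmJ : ∀ {j : ι}, j ∈ J ↔ ∃ x ∈ outs T, i x = j := by
    intro j
    rw [hJdef, Finset.mem_image]
    simp only [Finite.mem_toFinset]
  have hJK : J ⊆ K := by
    intro j hj
    obtain ⟨x, hx, rfl⟩ := hmJ.1 hj
    exact hK x hx
  have hmem : ∀ x ∈ outs T, msrc Φ ε (rho Φ ε T ρ) x ∈ X (i x) := fun x hx => by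
    rw [hX x hx]; exact mem_singleton _
  -- restrict the cube to `J`
  have hJg := h.subset hJK
  have hXf : ∀ j ∈ J, (X j).Finite := by
    intro j hj
    obtain ⟨x, hx, rfl⟩ := hmJ.1 hj
    rw [hX x hx]
    exact finite_singleton _
  have hC := hJg.cubeW V.finite_toSet hXf
  have hl : lwd Φ ε (rho Φ ε T ρ) (V : Set Src) T = cub (V : Set Src) X J := by
    unfold lwd cub
    congr 1
    ext σ
    rw [mem_iUnion₂]
    constructor
    · rintro ⟨x, hx, rfl⟩
      exact ⟨i x, hmJ.2 ⟨x, hx, rfl⟩, hmem x hx⟩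
    · rintro ⟨j, hj, hσ⟩
      obtain ⟨x, hx, rfl⟩ := hmJ.1 hj
      rw [hX x hx, mem_singleton_iff] at hσ
      exact ⟨x, hx, hσ.symm⟩
  have hidx : ∀ x ∈ outs T, Idx (cub (V : Set Src) X) J (i x) (msrc Φ ε (rho Φ ε T ρ) x) :=
    fun x hx => hJg.idx (hmJ.2 ⟨x, hx, rfl⟩) (hmem x hx)
  refine ⟨inj_of_idx hC (Finset.Subset.refl J) hl i hidx hi, fun x hx hm => ?_, ?_⟩
  · exact disjoint_left.1 (h.one (i x) (hK x hx)).disj (Finset.mem_coe.2 hm) (hmem x hx)
  · exact indep_of_NI hΦ hε hC hJg.ni (Finset.Subset.refl J) hl i hidx hi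

/-- **The good event of `helper472`.** -/
theorem good {V : Finset Src} {X : ι → Finset Src}
    (h : IGood Φ ε L (V : Set Src) (fun i => (X i : Set Src)) K t)
    (hV : ∀ a ∈ V, 0 ≤ a.1 ∧ a.2.2 ≤ L) (hX : ∀ i ∈ K, ∀ a ∈ X i, 0 ≤ a.1 ∧ a.2.2 ≤ L) :
    M.Good Φ ε L V X K t := by
  have e : cub (V : Set Src) (fun i => (X i : Set Src)) = fun J => (wF V X J : Set Src) := by
    funext J
    rw [coe_wF]
    rfl
  have h1 := h.ni
  have h2 := h.nib
  rw [e] at h1 h2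
  exact ⟨hV, hX, fun i hi => Finset.disjoint_coe.1 (h.one i hi).disj,
    fun i hi j hj hij => Finset.disjoint_coe.1 (h.two i hi j hj hij).disj, h1, h2⟩

end IGood

/-- **The failures of the good event.** -/
theorem not_good_cases {V : Finset Src} {X : ι → Finset Src} {K : Finset ι} {t : ℝ}
    (hV : ∀ a ∈ V, 0 ≤ a.1 ∧ a.2.2 ≤ L) (hX : ∀ i ∈ K, ∀ a ∈ X i, 0 ≤ a.1 ∧ a.2.2 ≤ L)
    (h : ¬M.Good Φ ε L V X K t) :
    (∃ i ∈ K, ¬NI1 Φ ε L (V : Set Src) (X i : Set Src) t) ∨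
      ∃ i ∈ K, ∃ j ∈ K, i ≠ j ∧ ¬NI2 Φ ε L (V : Set Src) (X i : Set Src) (X j : Set Src) t :=
  not_igood fun hg => h (hg.good hV hX)

end Vale.Agent.P119.IND
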