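import Vale.Agent.P119.IND.Extract3
import Mathlib.Data.Set.Finite.List

/-!
# P119, block IND: connected families of histories, and labelled programs (`helper350`)

* `FE F G x y`: the edges of a family (collisions of histories, ghosts); `FJ F G`: joined;
* `lab F`: the labels (the roots of the histories);
* `PrgOK P`: well formed, connected and closed programs on `Fin n`; `Prg N`: the finite type of all
  these programs with `≤ N` labels and `≤ N` events;
* `relP P`: the relation between the states (birth, line) of the labels: the program runs;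
* `Fam.exists_label`: a connected closed family gives a labelling of its labels in the relation of one
  of these programs.
-/

open MeasureTheory Filter Topology Set
open scoped ENNReal NNReal

set_option linter.unusedSectionVars false

noncomputable section

namespace Vale.Agent.P119.IND

open KU M M.CTree TL

variable {Φ : E3 → ℝ} {ε T : ℝ}

/-! ### Joined labels -/

/-- The edges of a family. -/
def FE (F : Finset CTree) (G : List Gh) (x y : Src) : Prop :=
  (∃ a b, CTree.node a b ∈ F ∧ x = a.root ∧ y = b.root) ∨ ∃ g ∈ G, x = g.1.root ∧ y = g.2.1.root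

/-- Two labels are joined by the collisions and the ghosts of a family. -/
def FJ (F : Finset CTree) (G : List Gh) : Src → Src → Prop := Relation.EqvGen (FE F G)

namespace FJ

variable {F F' : Finset CTree} {G G' : List Gh} {x y z : Src}

theorem refl (F : Finset CTree) (G : List Gh) (x : Src) : FJ F G x x := Relation.EqvGen.refl x

theorem symm (h : FJ F G x y) : FJ F G y x := Relation.EqvGen.symm _ _ h

theorem trans (h : FJ F G x y) (h' : FJ F G y z) : FJ F G x z := Relation.EqvGen.trans _ _ _ h h'

theorem node {a b : CTree} (h : CTree.node a b ∈ F) : FJ F G a.root b.root :=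
  Relation.EqvGen.rel _ _ (Or.inl ⟨a, b, h, rfl, rfl⟩)

theorem ghost {g : Gh} (h : g ∈ G) : FJ F G g.1.root g.2.1.root :=
  Relation.EqvGen.rel _ _ (Or.inr ⟨g, h, rfl, rfl⟩)

theorem mono (h : FJ F G x y) (hF : ∀ P ∈ F, P ∈ F') (hG : ∀ g ∈ G, g ∈ G') : FJ F' G' x y := by
  induction h with
  | rel x y hr =>
    rcases hr with ⟨a, b, hab, rfl, rfl⟩ | ⟨g, hg, rfl, rfl⟩
    · exact node (hF _ hab)
    · exact ghost (hG _ hg)
  | refl x => exact refl _ _ _
  | symm _ _ _ ih => exact ih.symm
  | trans _ _ _ _ _ ih1 ih2 => exact ih1.trans ih2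

/-- The sources of a history are joined to its root. -/
theorem root (hF : Fam Φ ε T F G) {S : CTree} (hS : S ∈ F) : ∀ x ∈ S.leaves, FJ F G x S.root := by
  induction S with
  | leaf σ =>
    intro x hx
    rw [mem_singleton_iff.1 hx]
    exact refl _ _ _
  | node a b iha ihb =>
    have h1 := hF.sub a b hS
    rintro x (hx | hx)
    · exact iha h1.1 x hx
    · exact (ihb h1.2.1 x hx).trans (node hS).symm

theorem leaves (hF : Fam Φ ε T F G) {S : CTree} (hS : S ∈ F) (hx : x ∈ S.leaves)
    (hy : y ∈ S.leaves) : FJ F G x y :=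
  (root hF hS x hx).trans (root hF hS y hy).symm

/-- Induction: an equivalence relation which contains the edges. -/
theorem rec_le {r : Src → Src → Prop} (hr : Equivalence r)
    (hn : ∀ a b, CTree.node a b ∈ F → r a.root b.root) (hg : ∀ g ∈ G, r g.1.root g.2.1.root)
    (h : FJ F G x y) : r x y := by
  induction h with
  | rel x y h =>
    rcases h with ⟨a, b, hab, rfl, rfl⟩ | ⟨g, hg', rfl, rfl⟩
    · exact hn _ _ hab
    · exact hg _ hg'
  | refl x => exact hr.refl x
  | symm _ _ _ ih => exact hr.symm ih
  | trans _ _ _ _ _ ih1 ih2 => exact hr.trans ih1 ih2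

theorem jn [DecidableEq Src] {P : List (Ev Src)} (hP : IsProg Φ ε T F G P) (h : FJ F G x y) :
    Jn (pl T P) x y :=
  h.rec_le ⟨Jn.refl _, Jn.symm, Jn.trans⟩ (fun _ _ hab => hP.jn_node hab)
    (fun _ hg => hP.jn_ghost hg)

end FJ

/-! ### The labels -/

open Classical in
/-- The labels of a family. -/
def lab (F : Finset CTree) : Finset Src := F.image CTree.root

theorem mem_lab {F : Finset CTree} {x : Src} : x ∈ lab F ↔ ∃ P ∈ F, P.root = x := by
  unfold lab
  rw [Finset.mem_image]

theorem rts_eq_lab [DecidableEq Src] (F : Finset CTree) : rts F = lab F := by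
  ext x
  rw [mem_rts, mem_lab]

theorem root_mem_lab {F : Finset CTree} {P : CTree} (h : P ∈ F) : P.root ∈ lab F :=
  mem_lab.2 ⟨P, h, rfl⟩

theorem card_lab_le (F : Finset CTree) : (lab F).card ≤ F.card := Finset.card_image_le

theorem card_nl_le (F : Finset CTree) : (nl F).card ≤ F.card :=
  Finset.card_le_card fun _ hP => (mem_nl.1 hP).1

theorem Fam.leaves_lab {F : Finset CTree} {G : List Gh} (h : Fam Φ ε T F G) {P : CTree}
    (hP : P ∈ F) : P.leaves ⊆ (lab F : Set Src) := by
  classical
  rw [← rts_eq_lab]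
  exact h.leaves_subset hP

/-! ### Programs -/

/-- The relation of a program. -/
def relP (Φ : E3 → ℝ) (ε T : ℝ) {n : ℕ} (P : List (Ev (Fin n))) : Set (Fin n → ℝ × Ph) :=
  {y | Run Φ ε T 0 (pl T P) (fun i => (y i).1) fun i => (y i).2}

theorem measurableSet_relP (hΦ : IsPotential Φ) (hε : ε ≠ 0) {n : ℕ} (P : List (Ev (Fin n))) :
    MeasurableSet (relP Φ ε T P) := by
  have h1 : Measurable fun y : Fin n → ℝ × Ph => fun i => (y i).1 :=
    measurable_pi_iff.2 fun i => measurable_fst.comp (measurable_pi_apply i)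
  have h2 : Measurable fun y : Fin n → ℝ × Ph => fun i => (y i).2 :=
    measurable_pi_iff.2 fun i => measurable_snd.comp (measurable_pi_apply i)
  exact measurableSet_run hΦ hε (pl T P) h1 h2 0

/-- Well formed, connected and closed programs. -/
structure PrgOK {n : ℕ} (T : ℝ) (P : List (Ev (Fin n))) : Prop where
  wf : Wf (pl T P)
  jn : ∀ i k, Jn (pl T P) i k
  cl : Closed (pl T P)

instance finite_ev {n : ℕ} : Finite (Ev (Fin n)) := by
  refine Finite.of_injective (β := Bool × Fin n × Fin n)
    (fun e => match e with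
      | .sc i k => (true, i, k)
      | .gh i k => (false, i, k)) ?_
  rintro (⟨i, k⟩ | ⟨i, k⟩) (⟨i', k'⟩ | ⟨i', k'⟩) h <;> simp_all

/-- The programs with at most `N` labels and at most `N` events. -/
def Prg (T : ℝ) (N : ℕ) : Type :=
  Σ n : Fin (N + 1), {P : List (Ev (Fin n)) // P.length ≤ N ∧ PrgOK T P}

instance finite_prg (T : ℝ) (N : ℕ) : Finite (Prg T N) := by
  have h : ∀ n : Fin (N + 1), Finite {P : List (Ev (Fin n)) // P.length ≤ N ∧ PrgOK T P} :=
    fun n => (List.finite_length_le (Ev (Fin n)) N).subset fun P hP => hP.1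
  unfold Prg
  infer_instance

noncomputable instance fintype_prg (T : ℝ) (N : ℕ) : Fintype (Prg T N) := Fintype.ofFinite _

/-- **The labelled program of a family.** -/
theorem Fam.exists_label (hΦ : IsPotential Φ) (hε : 0 < ε) {F : Finset CTree} {G : List Gh}
    (h : Fam Φ ε T F G) (hne : F.Nonempty) (hJ : ∀ x ∈ lab F, ∀ y ∈ lab F, FJ F G x y)
    (hc : 2 * (lab F).card ≤ (nl F).card + 2 * G.length) :
    ∃ (n : ℕ) (z : Fin n → Src) (P : List (Ev (Fin n))), n = (lab F).card ∧
      2 * P.length = (nl F).card + 2 * G.length ∧ Function.Injective z ∧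
      range z = (lab F : Set Src) ∧ PrgOK T P ∧ (fun i => ((z i).1, (z i).2.1)) ∈ relP Φ ε T P := by
  classical
  obtain ⟨P, hP⟩ := h.exists_prog hΦ hε
  set e := (lab F).equivFin with he
  set z : Fin (lab F).card → Src := fun i => (e.symm i : Src) with hzdef
  have hz : Function.Injective z := fun i k hik => e.symm.injective (Subtype.ext hik)
  have hr : range z = (lab F : Set Src) := by
    ext x
    constructor
    · rintro ⟨i, rfl⟩
      exact (e.symm i).2
    · intro hx
      exact ⟨e ⟨x, hx⟩, by rw [hzdef]; simp⟩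
  obtain ⟨P', h1, h2, h3, h4, h5, h6⟩ := hP.relabel hz (by rw [rts_eq_lab, hr])
  refine ⟨(lab F).card, z, P', rfl, by rw [h2]; exact hP.len, hz, hr, ⟨h4, fun i k => ?_, ?_⟩, h3⟩
  · refine (h5 i k).2 ((hJ _ ?_ _ ?_).jn hP)
    · rw [← Finset.mem_coe, ← hr]; exact ⟨i, rfl⟩
    · rw [← Finset.mem_coe, ← hr]; exact ⟨k, rfl⟩
  · exact h6.2 (hP.closed hne (by rw [rts_eq_lab]; exact hc))

end Vale.Agent.P119.IND
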