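import Vale.Agent.P119.IND.Extract2

/-!
# P119, block IND: merging two programs (`helper810`)

A base program `Q₀` (collisions of the structure) and a trail program `Q₁` which starts from the
final states of `Q₀`: the events of both, in the order of the times, form a program.

* `RunT Φ ε T r Q β Z`: the events of `Q : List (Ev ι × ℝ)` occur at the prescribed times;
* `Run.exists_timed`, `RunT.run`: from runs to timed runs and back;
* `RunT.congr`, `finZ_congr`, `finB_congr`: locality;
* `merge`: the merging theorem.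
-/

open Set
open scoped ENNReal

set_option linter.unusedSectionVars false

noncomputable section

namespace Vale.Agent.P119.IND

open KU

variable {ι : Type} [DecidableEq ι] {Φ : E3 → ℝ} {ε T : ℝ}

variable (Φ ε T) in
/-- The event occurs at the time `s`. -/
def AtS (e : Ev ι) (β : ι → ℝ) (Z : ι → Ph) (s : ℝ) : Prop := ∃ d, At Φ ε T e d β Z s

variable (Φ ε T) in
/-- The events occur at the prescribed times. -/
def RunT : ℝ → List (Ev ι × ℝ) → (ι → ℝ) → (ι → Ph) → Prop
  | _, [], _, _ => True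
  | r, e :: Q, β, Z => r ≤ e.2 ∧ e.2 ≤ T ∧ AtS Φ ε T e.1 β Z e.2 ∧
      RunT e.2 Q (birthApp Φ ε e.1 β Z) (lineApp Φ ε e.1 Z)

theorem RunT.mono {Q : List (Ev ι × ℝ)} {r r' : ℝ} {β : ι → ℝ} {Z : ι → Ph} (h : r' ≤ r)
    (hR : RunT Φ ε T r Q β Z) : RunT Φ ε T r' Q β Z := by
  cases Q with
  | nil => trivial
  | cons e Q => exact ⟨h.trans hR.1, hR.2⟩

theorem RunT.times {Q : List (Ev ι × ℝ)} {r : ℝ} {β : ι → ℝ} {Z : ι → Ph}
    (hR : RunT Φ ε T r Q β Z) : ∀ e ∈ Q, r ≤ e.2 := by
  induction Q generalizing r β Z with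
  | nil => intro e he; exact absurd he List.not_mem_nil
  | cons e Q ih =>
    intro e' he'
    rcases List.mem_cons.1 he' with rfl | he'
    · exact hR.1
    · exact hR.1.trans (ih hR.2.2.2 e' he')

/-! ### Runs and timed runs -/

/-- The times of a run. -/
theorem Run.exists_timed {P : List (Ev ι × ℝ)} {r : ℝ} {β : ι → ℝ} {Z : ι → Ph}
    (h : Run Φ ε T r P β Z) :
    ∃ Q : List (Ev ι × ℝ), Q.map Prod.fst = P.map Prod.fst ∧ RunT Φ ε T r Q β Z := by
  induction P generalizing r β Z with
  | nil => exact ⟨[], rfl, trivial⟩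
  | cons e P ih =>
    obtain ⟨s, h1, h2, h3, h4⟩ := h
    obtain ⟨Q, h5, h6⟩ := ih h4
    exact ⟨(e.1, s) :: Q, by simp [h5], h1, h2, ⟨e.2, h3⟩, h6⟩

theorem birthAppS_nonneg (hΦ : IsPotential Φ) (hε : 0 < ε) {e : Ev ι} {β : ι → ℝ} {Z : ι → Ph}
    {s : ℝ} (h : AtS Φ ε T e β Z s) (hβ : ∀ j, 0 ≤ β j) (j : ι) : 0 ≤ birthApp Φ ε e β Z j := by
  cases e with
  | gh i k => exact hβ j
  | sc i k =>
    obtain ⟨d, h1⟩ := h
    simp only [At] at h1
    have h2 : 0 ≤ sepT Φ ε (Z i, Z k) :=
      ((hβ i).trans_lt (h1.2.2.2.2.1.trans_le (h1.2.2.2.1.symm.le.trans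
        (hitT_lt_sepT hΦ hε h1.2.2.1 h1.2.1.2).le))).le
    simp only [birthApp]
    by_cases hk : j = k
    · subst hk; rw [Function.update_self]; exact h2
    · rw [Function.update_of_ne hk]
      by_cases hi : j = i
      · subst hi; rw [Function.update_self]; exact h2
      · rw [Function.update_of_ne hi]; exact hβ j

theorem AtS.at {e : Ev ι} {β : ι → ℝ} {Z : ι → Ph} {s : ℝ} (h : AtS Φ ε T e β Z s)
    (hβ : ∀ j, 0 ≤ β j) (hs : s ≤ T) : At Φ ε T e T β Z s := by
  obtain ⟨d, h⟩ := h
  cases e with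
  | gh i k =>
    simp only [At] at h ⊢
    refine ⟨h.1, h.2.1, h.2.2.1, h.2.2.2.1, ?_⟩
    have := (hβ i).trans (le_max_left (β i) (β k))
    linarith
  | sc i k =>
    simp only [At] at h ⊢
    refine ⟨h.1, h.2.1, h.2.2.1, h.2.2.2.1, h.2.2.2.2.1, h.2.2.2.2.2.1, h.2.2.2.2.2.2.1, ?_⟩
    have := (hβ i).trans (le_max_left (β i) (β k))
    linarith

/-- A timed run is a run of the plain program. -/
theorem RunT.run (hΦ : IsPotential Φ) (hε : 0 < ε) {Q : List (Ev ι × ℝ)} {r : ℝ} {β : ι → ℝ}
    {Z : ι → Ph} (hβ : ∀ j, 0 ≤ β j) (h : RunT Φ ε T r Q β Z) :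
    Run Φ ε T r (pl T (Q.map Prod.fst)) β Z := by
  induction Q generalizing r β Z with
  | nil => trivial
  | cons e Q ih =>
    obtain ⟨h1, h2, h3, h4⟩ := h
    exact ⟨e.2, h1, h2, h3.at hβ h2, ih (birthAppS_nonneg hΦ hε h3 hβ) h4⟩

/-! ### Final states depend on the events only -/

theorem finZ_fst {P Q : List (Ev ι × ℝ)} (h : P.map Prod.fst = Q.map Prod.fst) (Z : ι → Ph) :
    finZ Φ ε P Z = finZ Φ ε Q Z := by
  induction P generalizing Q Z with
  | nil =>
    rw [List.map_nil, eq_comm, List.map_eq_nil_iff] at h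
    rw [h]
  | cons e P ih =>
    cases Q with
    | nil => exact absurd h (by simp)
    | cons e' Q =>
      rw [List.map_cons, List.map_cons, List.cons.injEq] at h
      unfold finZ
      rw [h.1]
      exact ih h.2 _

theorem finB_fst {P Q : List (Ev ι × ℝ)} (h : P.map Prod.fst = Q.map Prod.fst) (β : ι → ℝ)
    (Z : ι → Ph) : finB Φ ε P β Z = finB Φ ε Q β Z := by
  induction P generalizing Q β Z with
  | nil =>
    rw [List.map_nil, eq_comm, List.map_eq_nil_iff] at h
    rw [h]
  | cons e P ih =>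
    cases Q with
    | nil => exact absurd h (by simp)
    | cons e' Q =>
      rw [List.map_cons, List.map_cons, List.cons.injEq] at h
      unfold finB
      rw [h.1]
      exact ih h.2 _ _

theorem pl_fst (T : ℝ) (Q : List (Ev ι × ℝ)) :
    (pl T (Q.map Prod.fst)).map Prod.fst = Q.map Prod.fst := by
  unfold pl
  rw [List.map_map, List.map_map]
  rfl

theorem wf_fst {P Q : List (Ev ι × ℝ)} (h : P.map Prod.fst = Q.map Prod.fst) (hP : Wf P) :
    Wf Q := by
  induction P generalizing Q with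
  | nil =>
    rw [List.map_nil, eq_comm, List.map_eq_nil_iff] at h
    rw [h]; trivial
  | cons e P ih =>
    cases Q with
    | nil => exact absurd h (by simp)
    | cons e' Q =>
      rw [List.map_cons, List.map_cons, List.cons.injEq] at h
      refine ⟨fun i k hik e₁ he₁ => ?_, ih h.2 hP.2⟩
      have h1 : e₁.1 ∈ P.map Prod.fst := by
        rw [h.2]; exact List.mem_map_of_mem he₁
      obtain ⟨e₂, he₂, h2⟩ := List.mem_map.1 h1
      rw [← h2]
      exact hP.1 i k (h.1.trans hik) e₂ he₂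

/-! ### Locality -/

/-- The events of `Q` do not use the labels of `S`. -/
def Avoid (Q : List (Ev ι × ℝ)) (S : Set ι) : Prop := ∀ e ∈ Q, e.1.fst ∉ S ∧ e.1.snd ∉ S

theorem Avoid.tail {e : Ev ι × ℝ} {Q : List (Ev ι × ℝ)} {S : Set ι} (h : Avoid (e :: Q) S) :
    Avoid Q S := fun e' he' => h e' (List.mem_cons_of_mem _ he')

theorem lineApp_of_ne {e : Ev ι} {j : ι} (h1 : j ≠ e.fst) (h2 : j ≠ e.snd) (Z : ι → Ph) :
    lineApp Φ ε e Z j = Z j := by
  cases e with
  | gh i k => rfl
  | sc i k =>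
    simp only [lineApp, Ev.fst, Ev.snd] at h1 h2 ⊢
    rw [Function.update_of_ne h2, Function.update_of_ne h1]

theorem birthApp_of_ne {e : Ev ι} {j : ι} (h1 : j ≠ e.fst) (h2 : j ≠ e.snd) (β : ι → ℝ)
    (Z : ι → Ph) : birthApp Φ ε e β Z j = β j := by
  cases e with
  | gh i k => rfl
  | sc i k =>
    simp only [birthApp, Ev.fst, Ev.snd] at h1 h2 ⊢
    rw [Function.update_of_ne h2, Function.update_of_ne h1]

theorem lineApp_congr {e : Ev ι} {Z Z' : ι → Ph} (h1 : Z e.fst = Z' e.fst)
    (h2 : Z e.snd = Z' e.snd) {j : ι} (hj : Z j = Z' j) :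
    lineApp Φ ε e Z j = lineApp Φ ε e Z' j := by
  cases e with
  | gh i k => exact hj
  | sc i k =>
    simp only [lineApp, Ev.fst, Ev.snd] at h1 h2 ⊢
    rw [h1, h2]
    by_cases hk : j = k
    · subst hk; rw [Function.update_self, Function.update_self]
    · rw [Function.update_of_ne hk, Function.update_of_ne hk]
      by_cases hi : j = i
      · subst hi; rw [Function.update_self, Function.update_self]
      · rw [Function.update_of_ne hi, Function.update_of_ne hi, hj]

theorem birthApp_congr {e : Ev ι} {β β' : ι → ℝ} {Z Z' : ι → Ph} (h1 : Z e.fst = Z' e.fst)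
    (h2 : Z e.snd = Z' e.snd) {j : ι} (hj : β j = β' j) :
    birthApp Φ ε e β Z j = birthApp Φ ε e β' Z' j := by
  cases e with
  | gh i k => exact hj
  | sc i k =>
    simp only [birthApp, Ev.fst, Ev.snd] at h1 h2 ⊢
    rw [h1, h2]
    by_cases hk : j = k
    · subst hk; rw [Function.update_self, Function.update_self]
    · rw [Function.update_of_ne hk, Function.update_of_ne hk]
      by_cases hi : j = i
      · subst hi; rw [Function.update_self, Function.update_self]
      · rw [Function.update_of_ne hi, Function.update_of_ne hi, hj]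

theorem birthAppS_le {e : Ev ι} {β β' : ι → ℝ} {Z Z' : ι → Ph} (h1 : Z e.fst = Z' e.fst)
    (h2 : Z e.snd = Z' e.snd) {j : ι} (hj : β j ≤ β' j) :
    birthApp Φ ε e β Z j ≤ birthApp Φ ε e β' Z' j := by
  cases e with
  | gh i k => exact hj
  | sc i k =>
    simp only [birthApp, Ev.fst, Ev.snd] at h1 h2 ⊢
    rw [h1, h2]
    by_cases hk : j = k
    · subst hk; rw [Function.update_self, Function.update_self]
    · rw [Function.update_of_ne hk, Function.update_of_ne hk]
      by_cases hi : j = i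
      · subst hi; rw [Function.update_self, Function.update_self]
      · rw [Function.update_of_ne hi, Function.update_of_ne hi]; exact hj

theorem AtS.congr {e : Ev ι} {β β' : ι → ℝ} {Z Z' : ι → Ph} {s : ℝ} (h : AtS Φ ε T e β Z s)
    (h1 : Z' e.fst = Z e.fst) (h2 : Z' e.snd = Z e.snd) (h3 : β' e.fst ≤ β e.fst)
    (h4 : β' e.snd ≤ β e.snd) : AtS Φ ε T e β' Z' s := by
  obtain ⟨d, h⟩ := h
  cases e with
  | gh i k =>
    simp only [At, AtS, Ev.fst, Ev.snd] at h h1 h2 h3 h4 ⊢
    rw [h1, h2]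
    refine ⟨s - max (β' i) (β' k), h.1, h3.trans h.2.1, h4.trans h.2.2.1, h.2.2.2.1, ?_⟩
    linarith
  | sc i k =>
    simp only [At, AtS, Ev.fst, Ev.snd] at h h1 h2 h3 h4 ⊢
    rw [h1, h2]
    refine ⟨s - max (β' i) (β' k), h.1, h.2.1, h.2.2.1, h.2.2.2.1, h3.trans_lt h.2.2.2.2.1,
      h4.trans_lt h.2.2.2.2.2.1, h.2.2.2.2.2.2.1, ?_⟩
    linarith

/-- Later births are harmless. -/
theorem RunT.anti {Q : List (Ev ι × ℝ)} {r : ℝ} {β β' : ι → ℝ} {Z : ι → Ph}
    (h : RunT Φ ε T r Q β' Z) (hβ : ∀ j, β j ≤ β' j) : RunT Φ ε T r Q β Z := by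
  induction Q generalizing r β β' Z with
  | nil => trivial
  | cons e Q ih =>
    obtain ⟨h1, h2, h3, h4⟩ := h
    exact ⟨h1, h2, h3.congr rfl rfl (hβ _) (hβ _), ih h4 fun j => birthAppS_le rfl rfl (hβ j)⟩

theorem finB_le {Q : List (Ev ι × ℝ)} {β β' : ι → ℝ} {Z : ι → Ph} (hβ : ∀ j, β j ≤ β' j) (j : ι) :
    finB Φ ε Q β Z j ≤ finB Φ ε Q β' Z j := by
  induction Q generalizing β β' Z with
  | nil => exact hβ j
  | cons e Q ih => exact ih fun j => birthAppS_le rfl rfl (hβ j)

theorem finB_eq {Q : List (Ev ι × ℝ)} {β β' : ι → ℝ} {Z : ι → Ph} {j : ι} (hβ : β j = β' j) :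
    finB Φ ε Q β Z j = finB Φ ε Q β' Z j := by
  induction Q generalizing β β' Z with
  | nil => exact hβ
  | cons e Q ih => exact ih (birthApp_congr rfl rfl hβ)

/-- The label `j` is scattered by an event of `Q`. -/
def ScUse (Q : List (Ev ι × ℝ)) (j : ι) : Prop :=
  ∃ e ∈ Q, ∃ i k, e.1 = Ev.sc i k ∧ (j = i ∨ j = k)

theorem birthApp_sc {i k j : ι} (hj : j = i ∨ j = k) {β β' : ι → ℝ} {Z Z' : ι → Ph}
    (h1 : Z i = Z' i) (h2 : Z k = Z' k) :
    birthApp Φ ε (Ev.sc i k) β Z j = birthApp Φ ε (Ev.sc i k) β' Z' j := by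
  simp only [birthApp]
  rw [h1, h2]
  by_cases hk : j = k
  · subst hk; rw [Function.update_self, Function.update_self]
  · rw [Function.update_of_ne hk, Function.update_of_ne hk]
    have hi : j = i := hj.resolve_right hk
    subst hi; rw [Function.update_self, Function.update_self]

/-- The final birth of a scattered label does not depend on the births. -/
theorem finB_of_scUse {Q : List (Ev ι × ℝ)} {β β' : ι → ℝ} {Z : ι → Ph} {j : ι}
    (h : ScUse Q j) : finB Φ ε Q β Z j = finB Φ ε Q β' Z j := by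
  induction Q generalizing β β' Z with
  | nil =>
    obtain ⟨e, he, -⟩ := h
    exact absurd he List.not_mem_nil
  | cons e Q ih =>
    obtain ⟨e', he', i, k, h1, h2⟩ := h
    rcases List.mem_cons.1 he' with rfl | he'
    · unfold finB
      rw [h1]
      exact finB_eq (birthApp_sc h2 rfl rfl)
    · exact ih ⟨e', he', i, k, h1, h2⟩

theorem RunT.congr {Q : List (Ev ι × ℝ)} {S : Set ι} (hQ : Avoid Q S) {r : ℝ} {β β' : ι → ℝ}
    {Z Z' : ι → Ph} (h : RunT Φ ε T r Q β Z) (hβ : ∀ j ∉ S, β' j = β j)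
    (hZ : ∀ j ∉ S, Z' j = Z j) : RunT Φ ε T r Q β' Z' := by
  induction Q generalizing r β β' Z Z' with
  | nil => trivial
  | cons e Q ih =>
    obtain ⟨h1, h2, h3, h4⟩ := h
    obtain ⟨he1, he2⟩ := hQ e List.mem_cons_self
    exact ⟨h1, h2, h3.congr (hZ _ he1) (hZ _ he2) (hβ _ he1).le (hβ _ he2).le,
      ih hQ.tail h4 (fun j hj => birthApp_congr (hZ _ he1) (hZ _ he2) (hβ j hj))
        fun j hj => lineApp_congr (hZ _ he1) (hZ _ he2) (hZ j hj)⟩

theorem finZ_congr {Q : List (Ev ι × ℝ)} {S : Set ι} (hQ : Avoid Q S) {Z Z' : ι → Ph}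
    (hZ : ∀ j ∉ S, Z' j = Z j) {j : ι} (hj : j ∉ S) : finZ Φ ε Q Z' j = finZ Φ ε Q Z j := by
  induction Q generalizing Z Z' with
  | nil => exact hZ j hj
  | cons e Q ih =>
    obtain ⟨he1, he2⟩ := hQ e List.mem_cons_self
    exact ih hQ.tail fun j hj => lineApp_congr (hZ _ he1) (hZ _ he2) (hZ j hj)

theorem finB_congr {Q : List (Ev ι × ℝ)} {S : Set ι} (hQ : Avoid Q S) {β β' : ι → ℝ}
    {Z Z' : ι → Ph} (hβ : ∀ j ∉ S, β' j = β j) (hZ : ∀ j ∉ S, Z' j = Z j) {j : ι} (hj : j ∉ S) :
    finB Φ ε Q β' Z' j = finB Φ ε Q β Z j := by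
  induction Q generalizing β β' Z Z' with
  | nil => exact hβ j hj
  | cons e Q ih =>
    obtain ⟨he1, he2⟩ := hQ e List.mem_cons_self
    exact ih hQ.tail (fun j hj => birthApp_congr (hZ _ he1) (hZ _ he2) (hβ j hj))
      fun j hj => lineApp_congr (hZ _ he1) (hZ _ he2) (hZ j hj)

theorem finZ_of_avoid {Q : List (Ev ι × ℝ)} {S : Set ι} (hQ : Avoid Q S) {Z : ι → Ph} {j : ι}
    (hj : j ∈ S) : finZ Φ ε Q Z j = Z j := by
  induction Q generalizing Z with
  | nil => rfl
  | cons e Q ih =>
    obtain ⟨he1, he2⟩ := hQ e List.mem_cons_self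
    exact (ih hQ.tail).trans (lineApp_of_ne (fun h => he1 (h ▸ hj)) (fun h => he2 (h ▸ hj)) Z)

theorem finB_of_avoid {Q : List (Ev ι × ℝ)} {S : Set ι} (hQ : Avoid Q S) {β : ι → ℝ}
    {Z : ι → Ph} {j : ι} (hj : j ∈ S) : finB Φ ε Q β Z j = β j := by
  induction Q generalizing β Z with
  | nil => rfl
  | cons e Q ih =>
    obtain ⟨he1, he2⟩ := hQ e List.mem_cons_self
    exact (ih hQ.tail).trans (birthApp_of_ne (fun h => he1 (h ▸ hj)) (fun h => he2 (h ▸ hj)) β Z)

/-! ### The merging theorem -/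

/-- Two events have a common label. -/
def Shr (e e' : Ev ι) : Prop :=
  e.fst = e'.fst ∨ e.fst = e'.snd ∨ e.snd = e'.fst ∨ e.snd = e'.snd

/-- **Merging a base program and a trail program.** -/
theorem merge (n : ℕ) : ∀ (Q₀ Q₁ : List (Ev ι × ℝ)), Q₀.length + Q₁.length = n →
    ∀ {r : ℝ} {β β' : ι → ℝ} {Z Z' : ι → Ph}, RunT Φ ε T r Q₀ β Z → RunT Φ ε T r Q₁ β' Z' →
    (∀ j, finZ Φ ε Q₀ Z j = Z' j) → (∀ j, finB Φ ε Q₀ β Z j ≤ β' j) →
    (∀ e ∈ Q₀, ∀ e' ∈ Q₁, Shr e.1 e'.1 → e.2 ≤ e'.2) →
    (∀ e ∈ Q₀, ∀ i k, e.1 = Ev.gh i k → ∀ e' ∈ Q₁, e'.1.fst ≠ i ∧ e'.1.snd ≠ i) →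
    Wf Q₀ → Wf Q₁ →
    ∃ M : List (Ev ι × ℝ), M.Perm (Q₀ ++ Q₁) ∧ RunT Φ ε T r M β Z ∧ Wf M ∧
      (∀ j, finZ Φ ε M Z j = finZ Φ ε Q₁ Z' j) ∧
      (∀ j, finB Φ ε M β Z j ≤ finB Φ ε Q₁ β' Z' j) ∧
      ∀ j, (finB Φ ε Q₀ β Z j = β' j ∨ ScUse Q₁ j) →
        finB Φ ε M β Z j = finB Φ ε Q₁ β' Z' j := by
  induction n with
  | zero =>
    intro Q₀ Q₁ hn r β β' Z Z' h0 h1 hZ hB _ _ _ _
    have e0 : Q₀ = [] := List.length_eq_zero_iff.1 (by omega)
    have e1 : Q₁ = [] := List.length_eq_zero_iff.1 (by omega)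
    subst e0 e1
    refine ⟨[], List.Perm.refl _, trivial, trivial, hZ, hB, fun j h => h.elim id ?_⟩
    rintro ⟨e, he, -⟩
    exact absurd he List.not_mem_nil
  | succ n ih =>
    intro Q₀ Q₁ hn r β β' Z Z' h0 h1 hZ hB hS hG hW0 hW1
    cases Q₀ with
    | nil =>
      have eZ : Z = Z' := funext hZ
      subst eZ
      exact ⟨Q₁, List.Perm.refl _, h1.anti hB, hW1, fun j => rfl, fun j => finB_le hB j,
        fun j h => h.elim finB_eq finB_of_scUse⟩
    | cons e Q₀ =>
      cases Q₁ with
      | nil =>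
        refine ⟨e :: Q₀, by simp, h0, hW0, hZ, hB, fun j h => h.elim id ?_⟩
        rintro ⟨e, he, -⟩
        exact absurd he List.not_mem_nil
      | cons e' Q₁ =>
        rcases le_or_gt e.2 e'.2 with hle | hlt
        · -- the event of the base comes first
          have h1' : RunT Φ ε T e.2 (e' :: Q₁) β' Z' := ⟨hle, h1.2⟩
          obtain ⟨M, m1, m2, m3, m4, m5, m6⟩ := ih Q₀ (e' :: Q₁) (by
              simp only [List.length_cons] at hn ⊢; omega) h0.2.2.2 h1' hZ hB
            (fun a ha b hb => hS a (List.mem_cons_of_mem _ ha) b hb)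
            (fun a ha => hG a (List.mem_cons_of_mem _ ha)) hW0.2 hW1
          refine ⟨e :: M, (m1.cons e), ⟨h0.1, h0.2.1, h0.2.2.1, m2⟩, ⟨?_, m3⟩, m4, m5, m6⟩
          intro i k hik a ha
          rcases List.mem_append.1 (m1.subset ha) with h2 | h2
          · exact hW0.1 i k hik a h2
          · exact hG e List.mem_cons_self i k hik a h2
        · -- the event of the trail comes first
          have hns : ∀ a ∈ e :: Q₀, ¬Shr a.1 e'.1 := by
            intro a ha hsh
            have h2 := hS a ha e' List.mem_cons_self hsh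
            have h3 : e.2 ≤ a.2 := by
              rcases List.mem_cons.1 ha with rfl | ha
              · exact le_rfl
              · exact h0.2.2.2.times a ha
            linarith
          set S : Set ι := {j | j = e'.1.fst ∨ j = e'.1.snd} with hSdef
          have hav : Avoid (e :: Q₀) S := by
            intro a ha
            have h2 := hns a ha
            constructor
            · rintro (h3 | h3)
              · exact h2 (Or.inl h3)
              · exact h2 (Or.inr (Or.inl h3))
            · rintro (h3 | h3)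
              · exact h2 (Or.inr (Or.inr (Or.inl h3)))
              · exact h2 (Or.inr (Or.inr (Or.inr h3)))
          have hf : e'.1.fst ∈ S := Or.inl rfl
          have hs : e'.1.snd ∈ S := Or.inr rfl
          have z1 : Z e'.1.fst = Z' e'.1.fst := by
            rw [← hZ, finZ_of_avoid hav hf]
          have z2 : Z e'.1.snd = Z' e'.1.snd := by
            rw [← hZ, finZ_of_avoid hav hs]
          have b1 : β e'.1.fst ≤ β' e'.1.fst := by
            have := hB e'.1.fst
            rwa [finB_of_avoid hav hf] at this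
          have b2 : β e'.1.snd ≤ β' e'.1.snd := by
            have := hB e'.1.snd
            rwa [finB_of_avoid hav hs] at this
          have hoff : ∀ j ∉ S, lineApp Φ ε e'.1 Z j = Z j := fun j hj =>
            lineApp_of_ne (fun h => hj (Or.inl h)) (fun h => hj (Or.inr h)) Z
          have hoffB : ∀ j ∉ S, birthApp Φ ε e'.1 β Z j = β j := fun j hj =>
            birthApp_of_ne (fun h => hj (Or.inl h)) (fun h => hj (Or.inr h)) β Z
          have hr : r ≤ e'.2 := h1.1
          have h0' : RunT Φ ε T e'.2 (e :: Q₀) (birthApp Φ ε e'.1 β Z) (lineApp Φ ε e'.1 Z) := by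
            have h2 : RunT Φ ε T e'.2 (e :: Q₀) β Z := ⟨hlt.le, h0.2⟩
            exact h2.congr hav hoffB hoff
          have hat : AtS Φ ε T e'.1 β Z e'.2 := h1.2.2.1.congr z1 z2 b1 b2
          have hZ' : ∀ j, finZ Φ ε (e :: Q₀) (lineApp Φ ε e'.1 Z) j = lineApp Φ ε e'.1 Z' j := by
            intro j
            by_cases hj : j ∈ S
            · rw [finZ_of_avoid hav hj]
              refine lineApp_congr z1 z2 ?_
              rw [← hZ j, finZ_of_avoid hav hj]
            · rw [finZ_congr hav hoff hj, hZ j]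
              exact (lineApp_of_ne (fun h => hj (Or.inl h)) (fun h => hj (Or.inr h)) Z').symm
          have hB' : ∀ j, finB Φ ε (e :: Q₀) (birthApp Φ ε e'.1 β Z) (lineApp Φ ε e'.1 Z) j ≤
              birthApp Φ ε e'.1 β' Z' j := by
            intro j
            by_cases hj : j ∈ S
            · rw [finB_of_avoid hav hj]
              refine birthAppS_le z1 z2 ?_
              have := hB j
              rwa [finB_of_avoid hav hj] at this
            · rw [finB_congr hav hoffB hoff hj,
                birthApp_of_ne (fun h => hj (Or.inl h)) (fun h => hj (Or.inr h))]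
              exact hB j
          obtain ⟨M, m1, m2, m3, m4, m5, m6⟩ := ih (e :: Q₀) Q₁ (by
              simp only [List.length_cons] at hn ⊢; omega) h0' h1.2.2.2 hZ' hB'
            (fun a ha b hb => hS a ha b (List.mem_cons_of_mem _ hb))
            (fun a ha i k hik b hb => hG a ha i k hik b (List.mem_cons_of_mem _ hb)) hW0 hW1.2
          refine ⟨e' :: M, ?_, ⟨hr, h1.2.1, hat, m2⟩, ⟨?_, m3⟩, m4, m5, ?_⟩
          · exact (m1.cons e').trans List.perm_middle.symm
          · intro i k hik a ha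
            rcases List.mem_append.1 (m1.subset ha) with h2 | h2
            · have h3 := hav a h2
              have h4 : i ∈ S := by
                left
                rw [hik]; rfl
              exact ⟨fun h => h3.1 (h ▸ h4), fun h => h3.2 (h ▸ h4)⟩
            · exact hW1.1 i k hik a h2
          · intro j hj
            refine m6 j ?_
            rcases hj with hj | ⟨a, ha, i, k, h2, h3⟩
            · left
              by_cases hjS : j ∈ S
              · rw [finB_of_avoid hav hjS]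
                refine birthApp_congr z1 z2 ?_
                rwa [finB_of_avoid hav hjS] at hj
              · rw [finB_congr hav hoffB hoff hjS,
                  birthApp_of_ne (fun h => hjS (Or.inl h)) (fun h => hjS (Or.inr h))]
                exact hj
            · rcases List.mem_cons.1 ha with rfl | ha
              · left
                have hjS : j ∈ S := by
                  rcases h3 with h3 | h3
                  · left; rw [h2]; exact h3
                  · right; rw [h2]; exact h3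
                rw [finB_of_avoid hav hjS]
                rw [h2] at z1 z2 ⊢
                exact birthApp_sc h3 z1 z2
              · exact Or.inr ⟨a, ha, i, k, h2, h3⟩

end Vale.Agent.P119.IND
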