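import Vale.Agent.P119.IND.Extract3
import Vale.Agent.P119.IND.Merge

/-!
# P119, block IND: timed programs (`helper350`)

* `Fam.exists_timed`: the program of a family with its times: every event is a collision of two
  histories of the family at its time `sig`, or a ghost of the family at its time;
* `RunT.left`, `RunT.right`, `RunT.append`, `RunT.exists_split`: splitting at a time;
* `RunT.insert_ghost`: a contact of the final lines of two labels which are not used after the time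
  `s` can be inserted as an event;
* `wf_insert`: the program with the inserted ghost is well formed.
-/

open MeasureTheory Filter Topology Set
open scoped ENNReal NNReal

set_option linter.unusedSectionVars false

noncomputable section

namespace Vale.Agent.P119.IND

open KU M M.CTree TL

/-! ### Splitting timed runs -/

section Split

variable {ι : Type} [DecidableEq ι] {Φ : E3 → ℝ} {ε T : ℝ}

theorem RunT.left {P Q : List (Ev ι × ℝ)} {r : ℝ} {β : ι → ℝ} {Z : ι → Ph}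
    (h : RunT Φ ε T r (P ++ Q) β Z) : RunT Φ ε T r P β Z := by
  induction P generalizing r β Z with
  | nil => trivial
  | cons e P ih => exact ⟨h.1, h.2.1, h.2.2.1, ih h.2.2.2⟩

/-- The second part of a run starts at any time `r'` before its events. -/
theorem RunT.right {P Q : List (Ev ι × ℝ)} {r r' : ℝ} {β : ι → ℝ} {Z : ι → Ph}
    (h : RunT Φ ε T r (P ++ Q) β Z) (hr : ∀ e ∈ Q, r' ≤ e.2) :
    RunT Φ ε T r' Q (finB Φ ε P β Z) (finZ Φ ε P Z) := by
  induction P generalizing r β Z with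
  | nil =>
    cases Q with
    | nil => trivial
    | cons e Q => exact ⟨hr e List.mem_cons_self, h.2⟩
  | cons e P ih => exact ih h.2.2.2

theorem RunT.append {P Q : List (Ev ι × ℝ)} {r r' : ℝ} {β : ι → ℝ} {Z : ι → Ph}
    (h : RunT Φ ε T r P β Z) (hr : r ≤ r') (hP : ∀ e ∈ P, e.2 ≤ r')
    (h' : RunT Φ ε T r' Q (finB Φ ε P β Z) (finZ Φ ε P Z)) : RunT Φ ε T r (P ++ Q) β Z := by
  induction P generalizing r β Z with
  | nil => exact h'.mono hr
  | cons e P ih =>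
    exact ⟨h.1, h.2.1, h.2.2.1, ih h.2.2.2 (hP e List.mem_cons_self)
      (fun e' he' => hP e' (List.mem_cons_of_mem _ he')) h'⟩

/-- **Splitting at the time `s`.** -/
theorem RunT.exists_split {Q : List (Ev ι × ℝ)} {r : ℝ} {β : ι → ℝ} {Z : ι → Ph}
    (h : RunT Φ ε T r Q β Z) (s : ℝ) : ∃ Q₁ Q₂, Q = Q₁ ++ Q₂ ∧ (∀ e ∈ Q₁, e.2 ≤ s) ∧
      ∀ e ∈ Q₂, s < e.2 := by
  induction Q generalizing r β Z with
  | nil => exact ⟨[], [], rfl, fun e he => absurd he List.not_mem_nil,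
      fun e he => absurd he List.not_mem_nil⟩
  | cons e Q ih =>
    rcases le_or_gt e.2 s with hs | hs
    · obtain ⟨Q₁, Q₂, h1, h2, h3⟩ := ih h.2.2.2
      refine ⟨e :: Q₁, Q₂, by rw [h1]; rfl, fun e' he' => ?_, h3⟩
      rcases List.mem_cons.1 he' with rfl | he'
      · exact hs
      · exact h2 e' he'
    · refine ⟨[], e :: Q, rfl, fun e he => absurd he List.not_mem_nil, fun e' he' => ?_⟩
      rcases List.mem_cons.1 he' with rfl | he'
      · exact hs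
      · exact hs.trans_le (h.2.2.2.times e' he')

theorem finZ_ghost (a b : ι) (s : ℝ) (Q₁ Q₂ : List (Ev ι × ℝ)) (Z : ι → Ph) :
    finZ Φ ε (Q₁ ++ (Ev.gh a b, s) :: Q₂) Z = finZ Φ ε (Q₁ ++ Q₂) Z := by
  rw [finZ_append, finZ_append]
  rfl

theorem finB_ghost (a b : ι) (s : ℝ) (Q₁ Q₂ : List (Ev ι × ℝ)) (β : ι → ℝ) (Z : ι → Ph) :
    finB Φ ε (Q₁ ++ (Ev.gh a b, s) :: Q₂) β Z = finB Φ ε (Q₁ ++ Q₂) β Z := by
  rw [finB_append, finB_append]
  rfl

/-- The labels which are not used after the splitting have their final lines. -/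
theorem finZ_left {Q₁ Q₂ : List (Ev ι × ℝ)} {Z : ι → Ph} {j : ι}
    (h : ∀ e ∈ Q₂, e.1.fst ≠ j ∧ e.1.snd ≠ j) : finZ Φ ε (Q₁ ++ Q₂) Z j = finZ Φ ε Q₁ Z j := by
  rw [finZ_append]
  exact finZ_of_avoid (S := {j}) (fun e he => h e he) rfl

theorem finB_left {Q₁ Q₂ : List (Ev ι × ℝ)} {β : ι → ℝ} {Z : ι → Ph} {j : ι}
    (h : ∀ e ∈ Q₂, e.1.fst ≠ j ∧ e.1.snd ≠ j) :
    finB Φ ε (Q₁ ++ Q₂) β Z j = finB Φ ε Q₁ β Z j := by
  rw [finB_append]
  exact finB_of_avoid (S := {j}) (fun e he => h e he) rfl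

/-- **Insertion of a contact** of the final lines of two labels at the time `s`; the two labels are not
used after `s`. -/
theorem RunT.insert_ghost {Q : List (Ev ι × ℝ)} {r : ℝ} {β : ι → ℝ} {Z : ι → Ph}
    (h : RunT Φ ε T r Q β Z) {a b : ι} {s : ℝ} (hrs : r ≤ s) (hsT : s ≤ T) (hab : a ≠ b)
    (ha : ∀ e ∈ Q, e.1.fst = a ∨ e.1.snd = a → e.2 ≤ s)
    (hb : ∀ e ∈ Q, e.1.fst = b ∨ e.1.snd = b → e.2 ≤ s)
    (hBa : finB Φ ε Q β Z a ≤ s) (hBb : finB Φ ε Q β Z b ≤ s)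
    (hc : Ctc ε (KU.free s (finZ Φ ε Q Z a)) (KU.free s (finZ Φ ε Q Z b))) :
    ∃ Q₁ Q₂, Q = Q₁ ++ Q₂ ∧ (∀ e ∈ Q₁, e.2 ≤ s) ∧ (∀ e ∈ Q₂, s < e.2) ∧
      RunT Φ ε T r (Q₁ ++ (Ev.gh a b, s) :: Q₂) β Z := by
  obtain ⟨Q₁, Q₂, h1, h2, h3⟩ := h.exists_split s
  subst h1
  have hna : ∀ e ∈ Q₂, e.1.fst ≠ a ∧ e.1.snd ≠ a := by
    intro e he
    have h4 := h3 e he
    exact ⟨fun h5 => absurd (ha e (List.mem_append_right _ he) (Or.inl h5)) (not_le.2 h4),
      fun h5 => absurd (ha e (List.mem_append_right _ he) (Or.inr h5)) (not_le.2 h4)⟩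
  have hnb : ∀ e ∈ Q₂, e.1.fst ≠ b ∧ e.1.snd ≠ b := by
    intro e he
    have h4 := h3 e he
    exact ⟨fun h5 => absurd (hb e (List.mem_append_right _ he) (Or.inl h5)) (not_le.2 h4),
      fun h5 => absurd (hb e (List.mem_append_right _ he) (Or.inr h5)) (not_le.2 h4)⟩
  rw [finB_left hna] at hBa
  rw [finB_left hnb] at hBb
  rw [finZ_left hna, finZ_left hnb] at hc
  refine ⟨Q₁, Q₂, rfl, h2, h3, h.left.append hrs h2 ⟨le_rfl, hsT, ?_, ?_⟩⟩
  · refine ⟨s - finB Φ ε Q₁ β Z a, ?_⟩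
    simp only [At]
    refine ⟨hab, hBa, hBb, hc, ?_⟩
    have h4 := le_max_left (finB Φ ε Q₁ β Z a) (finB Φ ε Q₁ β Z b)
    linarith
  · exact h.right fun e he => (h3 e he).le

/-- The program with the inserted contact is well formed. -/
theorem wf_insert {Q₁ Q₂ : List (Ev ι × ℝ)} {a b : ι} {s : ℝ} (h : Wf (Q₁ ++ Q₂))
    (hd : ∀ e ∈ Q₁, ∀ i k, e.1 = Ev.gh i k → i ≠ a ∧ i ≠ b)
    (ha : ∀ e ∈ Q₂, e.1.fst ≠ a ∧ e.1.snd ≠ a) : Wf (Q₁ ++ (Ev.gh a b, s) :: Q₂) := by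
  induction Q₁ with
  | nil =>
    refine ⟨fun i k hik e' he' => ?_, h⟩
    have h1 : a = i := by
      have h2 : Ev.gh a b = Ev.gh i k := hik
      injection h2
    rw [← h1]
    exact ha e' he'
  | cons e Q₁ ih =>
    refine ⟨fun i k hik e' he' => ?_, ih h.2 fun e' he' => hd e' (List.mem_cons_of_mem _ he')⟩
    have h3 := hd e List.mem_cons_self i k hik
    rcases List.mem_append.1 he' with he' | he'
    · exact h.1 i k hik e' (List.mem_append_left _ he')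
    · rcases List.mem_cons.1 he' with rfl | he'
      · exact ⟨fun h => h3.1 h.symm, fun h => h3.2 h.symm⟩
      · exact h.1 i k hik e' (List.mem_append_right _ he')

end Split

/-! ### The timed program of a family -/

variable {Φ : E3 → ℝ} {ε T : ℝ}

/-- The event with its time. -/
def Cev.tev (Φ : E3 → ℝ) (ε : ℝ) (e : Cev) : Ev Src × ℝ := (e.ev, e.time Φ ε)

theorem map_tev_fst (Q : List Cev) : (Q.map (Cev.tev Φ ε)).map Prod.fst = Q.map Cev.ev := by
  rw [List.map_map]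
  rfl

section

variable [DecidableEq Src]

/-- **The events of a valid list form a timed run.** -/
theorem Val.runT (hΦ : IsPotential Φ) (hε : 0 < ε) : ∀ (Q : List Cev) (c : Src → CTree) (s : ℝ),
    Val Φ ε T c s Q → RunT Φ ε T s (Q.map (Cev.tev Φ ε)) (cB Φ ε c) (cZ Φ ε c)
  | [], _, _, _ => trivial
  | .nd a b :: Q, c, s, h => by
    obtain ⟨h1, ⟨h2, h3, h4, h5⟩, h6⟩ := h
    have hab : a.root ≠ b.root := by
      intro hr
      exact Set.disjoint_left.1 h2.2.2.1 a.root_mem_leaves (hr ▸ b.root_mem_leaves)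
    have e1 : cZ Φ ε c a.root = ln Φ ε a := by unfold cZ; rw [h4]
    have e2 : cZ Φ ε c b.root = ln Φ ε b := by unfold cZ; rw [h5]
    have hlt := sig_lt_ext hΦ hε h2
    have ih := Val.runT hΦ hε Q _ _ h6
    refine ⟨h1, hlt.le.trans h3, ⟨sig Φ ε (node a b) - cB Φ ε c a.root, ?_⟩, ?_⟩
    · simp only [Cev.tev, Cev.ev, Cev.time, At]
      rw [e1, e2]
      refine ⟨hab, h2.2.2.2.1, h2.2.2.2.2.1, rfl, ?_, ?_, h3, ?_⟩
      · unfold cB
        rw [h4]
        exact h2.2.2.2.2.2.1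
      · unfold cB
        rw [h5]
        exact h2.2.2.2.2.2.2
      · have h8 := le_max_left (cB Φ ε c a.root) (cB Φ ε c b.root)
        linarith
    · simp only [Cev.tev, Cev.ev]
      rw [lineApp_nd hΦ c hab h4 h5, birthApp_nd hΦ c hab h4 h5]
      exact ih
  | .gh A B r :: Q, c, s, h => by
    obtain ⟨h1, ⟨h2, h3, h4, h5, h6, h7, h8⟩, h9⟩ := h
    refine ⟨h1, h7, ⟨r - cB Φ ε c A.root, ?_⟩, Val.runT hΦ hε Q _ _ h9⟩
    simp only [Cev.tev, Cev.ev, Cev.time, At]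
    refine ⟨h4, ?_, ?_, ?_, ?_⟩
    · unfold cB; rw [h2]; exact h5
    · unfold cB; rw [h3]; exact h6
    · unfold cZ; rw [h2, h3]; exact h8
    · have h11 := le_max_left (cB Φ ε c A.root) (cB Φ ε c B.root)
      linarith

/-- The timed program of a family. -/
structure IsTimed (Φ : E3 → ℝ) (ε T : ℝ) (F : Finset CTree) (G : List Gh)
    (Q : List (Ev Src × ℝ)) : Prop where
  runT : RunT Φ ε T 0 Q (fun x => x.1) (fun x => x.2.1)
  wf : Wf Q
  prog : IsProg Φ ε T F G (Q.map Prod.fst)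
  fin : FinSt Φ ε T F (Q.map Prod.fst)
  mem : ∀ e ∈ Q, (∃ a b, CTree.node a b ∈ F ∧ e = (Ev.sc a.root b.root, sig Φ ε (node a b))) ∨
    ∃ g ∈ G, e = (Ev.gh g.1.root g.2.1.root, g.2.2)

/-- **The timed program of a family.** -/
theorem Fam.exists_timed (hΦ : IsPotential Φ) (hε : 0 < ε) {F : Finset CTree} {G : List Gh}
    (h : Fam Φ ε T F G) : ∃ Q, IsTimed Φ ε T F G Q := by
  obtain ⟨Q, hQ⟩ := h.exists_val hΦ hε (s := 0)
    (fun P hP => sig_nonneg hΦ hε (h.ok P (mem_nl.1 hP).1))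
    (fun g hg => (ext_nonneg hΦ hε (h.ok _ (h.gh g hg).1)).trans (h.gh g hg).2.2.2.1)
  have hlab : ∀ e ∈ Q, e.fst ∈ rts F ∧ e.snd ∈ rts F := by
    intro e he
    rcases hQ.mem e he with ⟨a, b, rfl, hab⟩ | ⟨g, hg, rfl⟩
    · have h1 := h.sub a b hab
      exact ⟨root_mem_rts h1.1, root_mem_rts h1.2.1⟩
    · have h1 := h.gh g hg
      exact ⟨root_mem_rts h1.1, root_mem_rts h1.2.1⟩
  have hwf : Wf (pl T (Q.map Cev.ev)) := wf_of_pairwise Q hQ.wf
  have hlen : 2 * (Q.map Cev.ev).length = (nl F).card + 2 * G.length := by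
    rw [List.length_map]; exact hQ.len
  have hprog : IsProg Φ ε T F G (Q.map Cev.ev) := by
    refine ⟨?_, hwf, hlen, ?_, ?_, ?_⟩
    · have h1 := Val.run hΦ hε (rts F : Set Src) Q leaf 0 (fun e he => hlab e he)
        (fun x hx => by
          obtain ⟨P, hP, rfl⟩ := mem_rts.1 hx
          exact h.ok _ (h.spine_mem (Spine.leaf P) hP)) hQ.val
      rw [cB_leaf, cZ_leaf] at h1
      exact h1
    · intro a b hab
      rcases hQ.node a b hab with h1 | h1
      · exact Or.inl (List.mem_map.2 ⟨_, h1, rfl⟩)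
      · exact Or.inr (List.mem_map.2 ⟨_, h1, rfl⟩)
    · intro g hg
      exact List.mem_map.2 ⟨_, hQ.ghost g hg, rfl⟩
    · intro e he
      obtain ⟨e', he', rfl⟩ := List.mem_map.1 he
      rw [Cev.ev_fst, Cev.ev_snd]
      exact hlab e' he'
  refine ⟨Q.map (Cev.tev Φ ε), ?_, ?_, ?_, ?_, ?_⟩
  · have h1 := Val.runT hΦ hε Q leaf 0 hQ.val
    rw [cB_leaf, cZ_leaf] at h1
    exact h1
  · refine wf_fst ?_ hwf
    rw [map_tev_fst]
    unfold pl
    rw [List.map_map]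
    exact List.map_id' _
  · rw [map_tev_fst]
    exact hprog
  · rw [map_tev_fst]
    intro S hS
    have h1 := Val.fin hΦ Q leaf 0 hQ.val
    rw [cB_leaf, cZ_leaf] at h1
    obtain ⟨h2, h3⟩ := hQ.cur S hS.mem
    have h4 : IND.fin leaf Q S.root = S := Spine.antisymm (hS.last _ h3 (by rw [← h2.root_eq])) h2
    rw [h1.1, h1.2]
    unfold cZ cB
    rw [h4]
    exact ⟨rfl, rfl⟩
  · intro e he
    obtain ⟨e', he', rfl⟩ := List.mem_map.1 he
    rcases hQ.mem e' he' with ⟨a, b, rfl, hab⟩ | ⟨g, hg, rfl⟩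
    · exact Or.inl ⟨a, b, hab, rfl⟩
    · exact Or.inr ⟨g, hg, rfl⟩

/-- Relabelling of timed runs. -/
theorem runT_map {ι κ : Type} [DecidableEq ι] [DecidableEq κ] {f : ι → κ}
    (hf : Function.Injective f) : ∀ (Q : List (Ev ι × ℝ)) (r : ℝ) (β : κ → ℝ) (Z : κ → Ph),
    RunT Φ ε T r (mapP f Q) β Z ↔ RunT Φ ε T r Q (β ∘ f) (Z ∘ f)
  | [], _, _, _ => Iff.rfl
  | e :: Q, r, β, Z => by
    change (r ≤ e.2 ∧ e.2 ≤ T ∧ (∃ d, At Φ ε T (e.1.map f) d β Z e.2) ∧
      RunT Φ ε T e.2 (mapP f Q) (birthApp Φ ε (e.1.map f) β Z) (lineApp Φ ε (e.1.map f) Z)) ↔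
      (r ≤ e.2 ∧ e.2 ≤ T ∧ (∃ d, At Φ ε T e.1 d (β ∘ f) (Z ∘ f) e.2) ∧
      RunT Φ ε T e.2 Q (birthApp Φ ε e.1 (β ∘ f) (Z ∘ f)) (lineApp Φ ε e.1 (Z ∘ f)))
    refine and_congr_right fun _ => and_congr_right fun _ => and_congr
      (exists_congr fun d => at_map hf e.1 d β Z e.2) ?_
    rw [runT_map hf Q, birthApp_map hf, lineApp_map hf]

theorem mapP_fst {ι κ : Type} (f : ι → κ) (Q : List (Ev ι × ℝ)) :
    (mapP f Q).map Prod.fst = (Q.map Prod.fst).map (Ev.map f) := by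
  unfold mapP
  rw [List.map_map, List.map_map]
  rfl

/-- A timed list whose labels are in the range of `f`. -/
theorem exists_mapP {ι κ : Type} [DecidableEq ι] [DecidableEq κ] {f : ι → κ} : ∀ Q : List (Ev κ × ℝ),
    (∀ e ∈ Q, e.1.fst ∈ range f ∧ e.1.snd ∈ range f) → ∃ Q' : List (Ev ι × ℝ), mapP f Q' = Q
  | [], _ => ⟨[], rfl⟩
  | e :: Q, h => by
    obtain ⟨Q', hQ'⟩ := exists_mapP Q fun e' he' => h e' (List.mem_cons_of_mem _ he')
    obtain ⟨e', he'⟩ := Ev.exists_map (h e List.mem_cons_self).1 (h e List.mem_cons_self).2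
    refine ⟨(e', e.2) :: Q', ?_⟩
    change (e'.map f, e.2) :: mapP f Q' = e :: Q
    rw [hQ', he']

/-- **Relabelling of the timed program of a family.** -/
theorem IsTimed.relabel {F : Finset CTree} {G : List Gh} {Q : List (Ev Src × ℝ)}
    (h : IsTimed Φ ε T F G Q) {ι : Type} [DecidableEq ι] {z : ι → Src}
    (hz : Function.Injective z) (hr : (rts F : Set Src) ⊆ range z) :
    ∃ Q' : List (Ev ι × ℝ), mapP z Q' = Q ∧ Q'.length = Q.length ∧
      RunT Φ ε T 0 Q' (fun i => (z i).1) (fun i => (z i).2.1) ∧ Wf Q' ∧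
      (∀ i k, Jn Q' i k ↔ Jn Q (z i) (z k)) ∧ (Closed Q' ↔ Closed Q) := by
  obtain ⟨Q', hQ'⟩ := exists_mapP (f := z) Q fun e he => by
    have h1 := h.prog.lab e.1 (List.mem_map.2 ⟨e, he, rfl⟩)
    exact ⟨hr h1.1, hr h1.2⟩
  refine ⟨Q', hQ', ?_, ?_, ?_, fun i k => ?_, ?_⟩
  · rw [← hQ']; unfold mapP; rw [List.length_map]
  · have h1 := h.runT
    rw [← hQ', runT_map hz] at h1
    exact h1
  · have h1 := h.wf
    rw [← hQ', wf_map hz] at h1
    exact h1
  · rw [← hQ', jn_map hz]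
  · rw [← hQ', closed_map hz]

end

end Vale.Agent.P119.IND
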