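import Vale.Agent.P119.IND.Merge2
import Vale.Agent.P119.IND.Timed
import Vale.Agent.P119.IND.FJ

/-!
# P119, block IND: grafting a family of histories on a base program (`helper810`)

* `BaseP Φ ε T z x D Q`: a base program on the labels `κ`: the sources `z`, the timed events `Q`, the
  dropped labels `D`; the other labels end as the sources `x i`;
* `BaseP.graft_fam`: a family of histories on the sources `x i` and on fresh particles is grafted on
  the base program: `Grf`.
-/

open Set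
open scoped ENNReal

set_option linter.unusedSectionVars false

noncomputable section

namespace Vale.Agent.P119.IND

open KU M M.CTree TL

variable {Φ : E3 → ℝ} {ε T : ℝ} {κ : Type} [DecidableEq κ]

/-- A base program on the labels `κ`. -/
structure BaseP (Φ : E3 → ℝ) (ε T : ℝ) (z x : κ → Src) (D : Set κ) (Q : List (Ev κ × ℝ)) :
    Prop where
  /-- the births -/
  nonneg : ∀ i, 0 ≤ (z i).1
  /-- the particles are different -/
  inj : Function.Injective z
  /-- the events -/
  run : RunT Φ ε T 0 Q (fun i => (z i).1) (fun i => (z i).2.1)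
  /-- the dropped labels are not used -/
  wf : Wf Q
  /-- the ghosts -/
  ghost : ∀ e ∈ Q, ∀ i k, e.1 = Ev.gh i k → i ∈ D ∧ (k ∉ D → e.2 ≤ (x k).1)
  /-- the final lines -/
  lin : ∀ i ∉ D, finZ Φ ε Q (fun i => (z i).2.1) i = (x i).2.1
  /-- the final births -/
  bir : ∀ i ∉ D, finB Φ ε Q (fun i => (z i).1) (fun i => (z i).2.1) i ≤ (x i).1
  /-- the final sources are different -/
  xinj : InjOn x Dᶜ

/-! ### The labels of the grafted program -/

/-- The fresh labels. -/
abbrev Frl (F : Finset CTree) (V : Set Src) : Type := {σ : Src // σ ∈ lab F ∧ σ ∈ V}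

instance finite_frl (F : Finset CTree) (V : Set Src) : Finite (Frl F V) :=
  ((lab F).finite_toSet.subset fun _ h => h.1 : {σ : Src | σ ∈ lab F ∧ σ ∈ V}.Finite).to_subtype

/-- The sources of the labels. -/
def zAll (z : κ → Src) (F : Finset CTree) (V : Set Src) : κ ⊕ Frl F V → Src :=
  Sum.elim z Subtype.val

/-- The closed families. -/
inductive FCl (F : Finset CTree) (G : List Gh) : Prop
  | card (hne : F.Nonempty) (h : 2 * (lab F).card ≤ (nl F).card + 2 * G.length)
  | ghost (G₁ : List Gh) (g : Gh) (G₂ : List Gh) (hG : G = G₁ ++ g :: G₂)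
      (h : FJ F (G₁ ++ G₂) g.1.root g.2.1.root)

/-- The grafted program `M` and the trail program `Q₁`. -/
structure Grf (Φ : E3 → ℝ) (ε T : ℝ) (z x : κ → Src) (D : Set κ) (Q : List (Ev κ × ℝ))
    (F : Finset CTree) (G : List Gh) (V : Set Src) [DecidableEq (κ ⊕ Frl F V)]
    (M Q₁ : List (Ev (κ ⊕ Frl F V) × ℝ)) : Prop where
  perm : M.Perm (mapP Sum.inl Q ++ Q₁)
  len : 2 * Q₁.length = (nl F).card + 2 * G.length
  run : RunT Φ ε T 0 M (fun i => (zAll z F V i).1) (fun i => (zAll z F V i).2.1)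
  wf : Wf M
  nd : ∀ e ∈ Q₁, e.1.fst ∉ Sum.inl '' D ∧ e.1.snd ∉ Sum.inl '' D
  mem : ∀ e ∈ Q₁, (∃ a b, node a b ∈ F ∧ zAll x F V e.1.fst = a.root ∧
      zAll x F V e.1.snd = b.root ∧ e.2 = sig Φ ε (node a b) ∧ e.1 = Ev.sc e.1.fst e.1.snd) ∨
    ∃ g ∈ G, zAll x F V e.1.fst = g.1.root ∧ zAll x F V e.1.snd = g.2.1.root ∧ e.2 = g.2.2 ∧
      e.1 = Ev.gh e.1.fst e.1.snd
  jn : ∀ i k, i ∉ Sum.inl '' D → k ∉ Sum.inl '' D →
    FJ F G (zAll x F V i) (zAll x F V k) → Jn Q₁ i k
  cl : FCl F G → Closed Q₁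
  linS : ∀ S, IsLast F S → ∀ i, i ∉ Sum.inl '' D → zAll x F V i = S.root →
    finZ Φ ε M (fun i => (zAll z F V i).2.1) i = ln Φ ε S
  birS : ∀ S, IsLast F S → ∀ i, i ∉ Sum.inl '' D → zAll x F V i = S.root →
    finB Φ ε M (fun i => (zAll z F V i).1) (fun i => (zAll z F V i).2.1) i ≤ ext Φ ε S
  birE : ∀ S, IsLast F S → ∀ i, i ∉ Sum.inl '' D → zAll x F V i = S.root →
    (S ≠ leaf S.root ∨
      ∀ k, i = Sum.inl k → finB Φ ε Q (fun i => (z i).1) (fun i => (z i).2.1) k = (x k).1) →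
    finB Φ ε M (fun i => (zAll z F V i).1) (fun i => (zAll z F V i).2.1) i = ext Φ ε S
  /-- the dropped labels -/
  finD : ∀ a ∈ D, finZ Φ ε M (fun i => (zAll z F V i).2.1) (Sum.inl a) =
      finZ Φ ε Q (fun i => (z i).2.1) a ∧
    finB Φ ε M (fun i => (zAll z F V i).1) (fun i => (zAll z F V i).2.1) (Sum.inl a) =
      finB Φ ε Q (fun i => (z i).1) (fun i => (z i).2.1) a
  /-- the labels without collision in the family -/
  birL : ∀ k ∉ D, (∀ P ∈ F, P.root = x k → P = leaf (x k)) →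
    finB Φ ε M (fun i => (zAll z F V i).1) (fun i => (zAll z F V i).2.1) (Sum.inl k) =
      finB Φ ε Q (fun i => (z i).1) (fun i => (z i).2.1) k
  linL : ∀ k ∉ D, (∀ P ∈ F, P.root = x k → P = leaf (x k)) →
    finZ Φ ε M (fun i => (zAll z F V i).2.1) (Sum.inl k) = (x k).2.1

/-- The final line of a label without collision. -/
theorem finZ_of_not_scUse {ι : Type} [DecidableEq ι] {Q : List (Ev ι × ℝ)} {Z : ι → Ph} {j : ι}
    (h : ¬ScUse Q j) : finZ Φ ε Q Z j = Z j := by
  induction Q generalizing Z with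
  | nil => rfl
  | cons e Q ih =>
    have h1 : ¬ScUse Q j := fun ⟨e', he', h'⟩ => h ⟨e', List.mem_cons_of_mem _ he', h'⟩
    refine (ih h1).trans ?_
    rcases hev : e.1 with ⟨i, k⟩ | ⟨i, k⟩
    · have hi : j ≠ i := fun h' => h ⟨e, List.mem_cons_self, i, k, hev, Or.inl h'⟩
      have hk : j ≠ k := fun h' => h ⟨e, List.mem_cons_self, i, k, hev, Or.inr h'⟩
      simp only [lineApp]
      rw [Function.update_of_ne hk, Function.update_of_ne hi]
    · rfl

theorem zAll_inj {z : κ → Src} (hz : Function.Injective z) {F : Finset CTree} {V : Set Src}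
    (hV : ∀ i, z i ∉ V) : Function.Injective (zAll z F V) := by
  rintro (i | ⟨σ, h1, h2⟩) (k | ⟨τ, h3, h4⟩) h
  · exact congrArg Sum.inl (hz h)
  · exact absurd (show z i ∈ V from (show z i = τ from h) ▸ h4) (hV i)
  · exact absurd (show z k ∈ V from (show σ = z k from h) ▸ h2) (hV k)
  · have h5 : σ = τ := h
    subst h5
    rfl

/-- The sources of the labels which are not dropped are different. -/
theorem zAll_injOn {x : κ → Src} {D : Set κ} (hx : InjOn x Dᶜ) {F : Finset CTree} {V : Set Src}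
    (hV : ∀ i ∉ D, x i ∉ V) {i k : κ ⊕ Frl F V} (hi : i ∉ Sum.inl '' D) (hk : k ∉ Sum.inl '' D)
    (h : zAll x F V i = zAll x F V k) : i = k := by
  rcases i with i | ⟨σ, h1, h2⟩ <;> rcases k with k | ⟨τ, h3, h4⟩
  · have h5 : i ∉ D := fun h6 => hi ⟨i, h6, rfl⟩
    have h6 : k ∉ D := fun h6 => hk ⟨k, h6, rfl⟩
    exact congrArg Sum.inl (hx h5 h6 h)
  · have h5 : i ∉ D := fun h6 => hi ⟨i, h6, rfl⟩
    exact absurd (show x i ∈ V from (show x i = τ from h) ▸ h4) (hV i h5)
  · have h6 : k ∉ D := fun h6 => hk ⟨k, h6, rfl⟩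
    exact absurd (show x k ∈ V from (show σ = x k from h) ▸ h2) (hV k h6)
  · have h5 : σ = τ := h
    subst h5
    rfl

theorem inl_notMem {ι : Type} {D : Set κ} {k : κ} (h : k ∉ D) :
    (Sum.inl k : κ ⊕ ι) ∉ Sum.inl '' D := by
  rintro ⟨c, hc, hc'⟩
  exact h (Sum.inl_injective hc' ▸ hc)

theorem inr_notMem {ι : Type} {D : Set κ} {k : ι} : (Sum.inr k : κ ⊕ ι) ∉ Sum.inl '' D := by
  rintro ⟨c, -, hc'⟩
  cases hc'

/-- A program with a closing ghost is closed. -/
theorem IsProg.closed_of_ghost [DecidableEq Src] {F : Finset CTree} {G G₁ G₂ : List Gh} {g : Gh}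
    {P : List (Ev Src)} (hF : Fam Φ ε T F G) (h : IsProg Φ ε T F G P)
    (hG : G = G₁ ++ g :: G₂) (hJ : FJ F (G₁ ++ G₂) g.1.root g.2.1.root) :
    Closed (pl T P) := by
  have hg : g ∈ G := by rw [hG]; simp
  obtain ⟨A, B, hAB⟩ := List.append_of_mem (h.ghost g hg)
  have hmem : ∀ e : Ev Src, e ∈ P → e ≠ Ev.gh g.1.root g.2.1.root → (e, T) ∈ pl T A ++ pl T B := by
    intro e he hne
    rw [hAB] at he
    rcases List.mem_append.1 he with h1 | h1
    · exact List.mem_append_left _ (List.mem_map.2 ⟨e, h1, rfl⟩)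
    · rcases List.mem_cons.1 h1 with h2 | h2
      · exact absurd h2 hne
      · exact List.mem_append_right _ (List.mem_map.2 ⟨e, h2, rfl⟩)
  have hsrt := hF.srt
  rw [hG, List.pairwise_append] at hsrt
  obtain ⟨s1, s2, s3⟩ := hsrt
  rw [List.pairwise_cons] at s2
  have hJ' : Jn (pl T A ++ pl T B) g.1.root g.2.1.root := by
    refine hJ.rec_le ⟨Jn.refl _, Jn.symm, Jn.trans⟩ (fun a b hab => ?_) (fun g' hg' => ?_)
    · rcases h.node a b hab with h1 | h1
      · exact jn_of_mem (hmem _ h1 (by simp))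
      · exact (jn_of_mem (hmem _ h1 (by simp))).symm
    · have h1 : g'.1.root ≠ g.1.root := by
        rcases List.mem_append.1 hg' with h2 | h2
        · exact (s3 g' h2 g List.mem_cons_self).2.1
        · exact (s2.1 g' h2).2.1.symm
      have h2 : g' ∈ G := by
        rw [hG]
        rcases List.mem_append.1 hg' with h2 | h2
        · exact List.mem_append_left _ h2
        · exact List.mem_append_right _ (List.mem_cons_of_mem _ h2)
      refine jn_of_mem (hmem _ (h.ghost g' h2) fun h3 => ?_)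
      injection h3 with h4 h5
      exact h1 h4
  have e1 : pl T P = pl T A ++ (Ev.gh g.1.root g.2.1.root, T) :: pl T B := by
    rw [hAB]
    unfold pl
    rw [List.map_append, List.map_cons]
  rw [e1]
  exact closed_of_middle hJ'

/-- **Grafting a family of histories on a base program.** -/
theorem BaseP.graft_fam (hΦ : IsPotential Φ) (hε : 0 < ε) {z x : κ → Src} {D : Set κ}
    {Q : List (Ev κ × ℝ)} (hB : BaseP Φ ε T z x D Q) {F : Finset CTree} {G : List Gh}
    (hF : Fam Φ ε T F G) {V : Set Src} (hV : ∀ σ ∈ lab F, σ ∈ V ∨ ∃ i ∉ D, x i = σ)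
    (hVx : ∀ i ∉ D, x i ∉ V) [DecidableEq (κ ⊕ Frl F V)] :
    ∃ M Q₁ : List (Ev (κ ⊕ Frl F V) × ℝ), Grf Φ ε T z x D Q F G V M Q₁ := by
  classical
  -- the trail program on the labels which are not dropped
  let ι : Type := κ ⊕ Frl F V
  let D' : Set ι := Sum.inl '' D
  let x' : ι → Src := zAll x F V
  let z' : ι → Src := zAll z F V
  let ι' : Type := {i : ι // i ∉ D'}
  have hxinj : Function.Injective (fun i : ι' => x' i.1) := fun i k h =>
    Subtype.ext (zAll_injOn hB.xinj hVx i.2 k.2 h)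
  have hrange : (rts F : Set Src) ⊆ range (fun i : ι' => x' i.1) := by
    intro σ hσ
    rw [Finset.mem_coe, rts_eq_lab] at hσ
    by_cases hσV : σ ∈ V
    · exact ⟨⟨Sum.inr ⟨σ, hσ, hσV⟩, inr_notMem⟩, rfl⟩
    · rcases hV σ hσ with h | ⟨i, hi, rfl⟩
      · exact absurd h hσV
      · exact ⟨⟨Sum.inl i, inl_notMem hi⟩, rfl⟩
  obtain ⟨P, hP⟩ := hF.exists_timed hΦ hε
  obtain ⟨Q', hQ', hlen, hrun, hwf, hjn, hcl⟩ := hP.relabel hxinj hrange
  have hval : Function.Injective (Subtype.val : ι' → ι) := Subtype.val_injective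
  let Q₁ : List (Ev ι × ℝ) := mapP Subtype.val Q'
  -- the states of the labels
  let Q₀ : List (Ev ι × ℝ) := mapP Sum.inl Q
  have hinl : Function.Injective (Sum.inl : κ → ι) := Sum.inl_injective
  let β : ι → ℝ := fun i => (z' i).1
  let Z : ι → Ph := fun i => (z' i).2.1
  let β' : ι → ℝ := fun i => if i ∈ D' then finB Φ ε Q₀ β Z i else (x' i).1
  let Z' : ι → Ph := fun i => if i ∈ D' then finZ Φ ε Q₀ Z i else (x' i).2.1
  have hr0 : RunT Φ ε T 0 Q₀ β Z := (runT_map hinl Q 0 β Z).2 hB.run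
  have eZ0 : ∀ k, finZ Φ ε Q₀ Z (Sum.inl k) = finZ Φ ε Q (fun i => (z i).2.1) k := fun k =>
    congrFun (finZ_map hinl Q Z) k
  have eB0 : ∀ k, finB Φ ε Q₀ β Z (Sum.inl k) =
      finB Φ ε Q (fun i => (z i).1) (fun i => (z i).2.1) k := fun k =>
    congrFun (finB_map hinl Q β Z) k
  have havoid : Avoid Q₀ (range (Sum.inr : Frl F V → ι)) := by
    intro e he
    obtain ⟨e', he', rfl⟩ := List.mem_map.1 he
    simp only [Ev.map_fst, Ev.map_snd]
    exact ⟨fun ⟨a, ha⟩ => (by cases ha), fun ⟨a, ha⟩ => (by cases ha)⟩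
  have hZ : ∀ j, finZ Φ ε Q₀ Z j = Z' j := by
    intro j
    by_cases hj : j ∈ D'
    · exact (if_pos hj).symm
    · have e1 : Z' j = (x' j).2.1 := if_neg hj
      rw [e1]
      rcases j with k | σ
      · rw [eZ0]
        exact hB.lin k fun h => hj ⟨k, h, rfl⟩
      · exact finZ_of_avoid havoid ⟨σ, rfl⟩
  have hBi : ∀ j, finB Φ ε Q₀ β Z j ≤ β' j := by
    intro j
    by_cases hj : j ∈ D'
    · exact (if_pos hj).symm.le
    · have e1 : β' j = (x' j).1 := if_neg hj
      rw [e1]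
      rcases j with k | σ
      · rw [eB0]
        exact hB.bir k fun h => hj ⟨k, h, rfl⟩
      · exact (finB_of_avoid havoid ⟨σ, rfl⟩).le
  have hBe : ∀ j, j ∉ D' → (∀ k, j = Sum.inl k →
      finB Φ ε Q (fun i => (z i).1) (fun i => (z i).2.1) k = (x k).1) →
      finB Φ ε Q₀ β Z j = β' j := by
    intro j hj hk
    have e1 : β' j = (x' j).1 := if_neg hj
    rw [e1]
    rcases j with k | σ
    · rw [eB0]
      exact hk k rfl
    · exact finB_of_avoid havoid ⟨σ, rfl⟩
  have e1 : β' ∘ Subtype.val = fun i : ι' => (x' i.1).1 := funext fun i => if_neg i.2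
  have e2 : Z' ∘ Subtype.val = fun i : ι' => (x' i.1).2.1 := funext fun i => if_neg i.2
  have hr1 : RunT Φ ε T 0 Q₁ β' Z' := by
    refine (runT_map hval Q' 0 β' Z').2 ?_
    rw [e1, e2]
    exact hrun
  have hmem1 : ∀ e ∈ Q₁, e.1.fst ∉ D' ∧ e.1.snd ∉ D' := by
    intro e he
    obtain ⟨e', -, h2⟩ := List.mem_map.1 he
    rw [← h2, Ev.map_fst, Ev.map_snd]
    exact ⟨e'.1.fst.2, e'.1.snd.2⟩
  have hW0 : Wf Q₀ := (wf_map hinl Q).2 hB.wf
  have hW1 : Wf Q₁ := (wf_map hval Q').2 hwf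
  obtain ⟨M, m1, m2, m3, m4, m5, m6, m7⟩ := graft' hΦ hε (Q₀ := Q₀) (Q₁ := Q₁) (r := 0) hr0 hr1
    hZ hBi (by
      intro e he i k hik e' he'
      obtain ⟨e₀, he₀, rfl⟩ := List.mem_map.1 he
      obtain ⟨g1, g2⟩ := hmem1 e' he'
      rcases hev : e₀.1 with ⟨a, b⟩ | ⟨a, b⟩
      · rw [hev] at hik
        exact absurd hik (by simp [Ev.map])
      · rw [hev] at hik
        simp only [Ev.map, Ev.gh.injEq] at hik
        obtain ⟨rfl, rfl⟩ := hik
        obtain ⟨h1, h2⟩ := hB.ghost e₀ he₀ a b hev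
        have h3 : (Sum.inl a : ι) ∈ D' := ⟨a, h1, rfl⟩
        refine ⟨⟨fun h => g1 (h ▸ h3), fun h => g2 (h ▸ h3)⟩, fun h => ?_⟩
        obtain ⟨b1, b2⟩ := hr1.birth_le hΦ hε e' he'
        have hb : b ∉ D := by
          intro hb
          have h4 : (Sum.inl b : ι) ∈ D' := ⟨b, hb, rfl⟩
          rcases h with h | h
          · exact g1 (h ▸ h4)
          · exact g2 (h ▸ h4)
        have h5 := h2 hb
        have hb' : (Sum.inl b : ι) ∉ D' := inl_notMem hb
        have h6 : β' (Sum.inl b) = (x b).1 := if_neg hb'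
        rcases h with h | h
        · rw [h, h6] at b1
          exact h5.trans b1
        · rw [h, h6] at b2
          exact h5.trans b2) hW0 hW1
  -- the final states of the trail program
  have hstate : ∀ S, IsLast F S → ∀ i, i ∉ D' → x' i = S.root →
      finZ Φ ε Q₁ Z' i = ln Φ ε S ∧ finB Φ ε Q₁ β' Z' i = ext Φ ε S := by
    intro S hS i hi hx
    have hPf : (Q'.map Prod.fst).map (Ev.map fun i : ι' => x' i.1) = P.map Prod.fst := by
      rw [← hQ', mapP_fst]
    have h1 := hP.fin.map hxinj hPf hS (i := ⟨i, hi⟩) hx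
    rw [finZ_plM, finB_plM] at h1
    have h2 := congrFun (finZ_map (Φ := Φ) (ε := ε) hval Q' Z') ⟨i, hi⟩
    have h3 := congrFun (finB_map (Φ := Φ) (ε := ε) hval Q' β' Z') ⟨i, hi⟩
    simp only [Function.comp_apply] at h2 h3
    rw [h2, h3, e1, e2]
    exact h1
  have hsu : ∀ k : κ, (∀ P ∈ F, P.root = x k → P = leaf (x k)) →
      ¬ScUse Q₁ (Sum.inl k : ι) := by
    intro k hP'
    rintro ⟨e, he, i, j, hij, hj⟩
    obtain ⟨e', he', rfl⟩ := List.mem_map.1 he
    have h1 : (e'.1.map (fun i : ι' => x' i.1), e'.2) ∈ P := by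
      rw [← hQ']
      exact List.mem_map.2 ⟨e', he', rfl⟩
    obtain ⟨ev, s⟩ := e'
    cases ev with
    | gh a b => exact absurd hij (by simp [Ev.map])
    | sc a b =>
      simp only [Ev.map, Ev.sc.injEq] at hij
      obtain ⟨rfl, rfl⟩ := hij
      rcases hP.mem _ h1 with ⟨c, d, hcd, h2⟩ | ⟨g, hg, h2⟩
      · rw [Prod.mk.injEq] at h2
        have h3 := h2.1
        simp only [Ev.map, Ev.sc.injEq] at h3
        rcases hj with hj | hj
        · have h4 : (node c d).root = x k := by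
            change c.root = x k
            rw [← h3.1, ← hj]
            rfl
          exact absurd (hP' _ hcd h4) (by simp)
        · have h4 : (node d c).root = x k := by
            change d.root = x k
            rw [← h3.2, ← hj]
            rfl
          exact absurd (hP' _ (hF.sub c d hcd).2.2 h4) (by simp)
      · rw [Prod.mk.injEq] at h2
        exact absurd h2.1 (by simp [Ev.map])
  refine ⟨M, Q₁, m1, ?_, m2, m3, hmem1, ?_, ?_, ?_, ?_, ?_, ?_, ?_, ?_, ?_⟩
  · have h1 : Q₁.length = P.length := by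
      change (mapP Subtype.val Q').length = _
      unfold mapP
      rw [List.length_map, hlen]
    have h2 := hP.prog.len
    rw [List.length_map] at h2
    omega
  · intro e he
    obtain ⟨e', he', rfl⟩ := List.mem_map.1 he
    have h1 : (e'.1.map (fun i : ι' => x' i.1), e'.2) ∈ P := by
      rw [← hQ']
      exact List.mem_map.2 ⟨e', he', rfl⟩
    obtain ⟨ev, s⟩ := e'
    rcases hP.mem _ h1 with ⟨a, b, hab, h2⟩ | ⟨g, hg, h2⟩
    · left
      rw [Prod.mk.injEq] at h2
      obtain ⟨h3, h4⟩ := h2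
      cases ev with
      | gh i k => exact absurd h3 (by simp [Ev.map])
      | sc i k =>
        simp only [Ev.map, Ev.sc.injEq] at h3
        exact ⟨a, b, hab, h3.1, h3.2, h4, rfl⟩
    · right
      rw [Prod.mk.injEq] at h2
      obtain ⟨h3, h4⟩ := h2
      cases ev with
      | sc i k => exact absurd h3 (by simp [Ev.map])
      | gh i k =>
        simp only [Ev.map, Ev.gh.injEq] at h3
        exact ⟨g, hg, h3.1, h3.2, h4, rfl⟩
  · intro i k hi hk hJ
    have h1 := (hjn ⟨i, hi⟩ ⟨k, hk⟩).2 ((jn_pl T P).1 (hJ.jn hP.prog))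
    exact h1.map Subtype.val
  · intro hc
    refine (closed_map hval).2 (hcl.2 ?_)
    rw [← closed_pl T]
    cases hc with
    | card hne h => exact hP.prog.closed hne (by rw [rts_eq_lab]; exact h)
    | ghost G₁ g G₂ hG h => exact hP.prog.closed_of_ghost hF hG h
  · intro S hS i hi hx
    rw [m4 i]
    exact (hstate S hS i hi hx).1
  · intro S hS i hi hx
    refine (m5 i).trans ?_
    rw [(hstate S hS i hi hx).2]
  · intro S hS i hi hx hk
    rw [m6 i ?_]
    · exact (hstate S hS i hi hx).2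
    rcases hk with hk | hk
    · right
      cases S with
      | leaf σ => exact absurd rfl hk
      | node a b =>
        have hsc : ∀ i₁ i₂ : Src, Ev.sc i₁ i₂ ∈ P.map Prod.fst → x' i = i₁ ∨ x' i = i₂ →
            ScUse Q₁ i := by
          intro i₁ i₂ h1 h2
          obtain ⟨⟨ev, s⟩, h3, h4⟩ := List.mem_map.1 h1
          rw [← hQ'] at h3
          obtain ⟨⟨ev', s'⟩, h5, h6⟩ := List.mem_map.1 h3
          rw [Prod.mk.injEq] at h6
          obtain ⟨h6, -⟩ := h6
          have h7 : ev'.map (fun i : ι' => x' i.1) = Ev.sc i₁ i₂ := h6.trans h4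
          cases ev' with
          | gh a' b' => exact absurd h7 (by simp [Ev.map])
          | sc a' b' =>
            simp only [Ev.map, Ev.sc.injEq] at h7
            refine ⟨(Ev.sc a'.1 b'.1, s'), List.mem_map.2 ⟨(Ev.sc a' b', s'), h5, rfl⟩, a'.1, b'.1,
              rfl, ?_⟩
            rcases h2 with h2 | h2
            · exact Or.inl (zAll_injOn hB.xinj hVx hi a'.2 (h2.trans h7.1.symm))
            · exact Or.inr (zAll_injOn hB.xinj hVx hi b'.2 (h2.trans h7.2.symm))
        rcases hP.prog.node a b hS.mem with h1 | h1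
        · exact hsc _ _ h1 (Or.inl hx)
        · exact hsc _ _ h1 (Or.inr hx)
    · exact Or.inl (hBe i hi hk)
  · intro a ha
    have ha' : (Sum.inl a : ι) ∈ D' := ⟨a, ha, rfl⟩
    have hns : ¬ScUse Q₁ (Sum.inl a) := by
      rintro ⟨e, he, i, k, hik, hj⟩
      obtain ⟨g1, g2⟩ := hmem1 e he
      rw [hik] at g1 g2
      rcases hj with hj | hj
      · exact g1 (by rw [show (Ev.sc i k).fst = i from rfl, ← hj]; exact ha')
      · exact g2 (by rw [show (Ev.sc i k).snd = k from rfl, ← hj]; exact ha')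
    refine ⟨?_, ?_⟩
    · have e3 : Z' (Sum.inl a) = finZ Φ ε Q₀ Z (Sum.inl a) := if_pos ha'
      rw [m4, finZ_of_avoid (S := D') hmem1 ha', e3]
      exact eZ0 a
    · rw [m7 _ hns]
      exact eB0 a
  · intro k hk hP'
    rw [m7 _ (hsu k hP')]
    exact eB0 k
  · intro k hk hP'
    rw [m4, finZ_of_not_scUse (hsu k hP')]
    exact if_neg fun ⟨c, hc, hc'⟩ => hk (Sum.inl_injective hc' ▸ hc)

end Vale.Agent.P119.IND
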