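import Vale.Agent.P119.M.Loc
import Vale.Agent.P119.TL.Main

/-!
# P119, block IND: histories in a common world are comparable (`helper498`)

* `parts R`: the participants of `R`, i.e. its subtrees and the exhausts `node b a`;
* `FB V P ρ`: no hit of `P` by a `V`-alive tree before `ρ`, up to the beginning of the last collision of
  `P` (heredity: `FB.of_parts`, `FB.spine`);
* `Up V R r`: `R` is live in `V` at `r` and began before `r`;
* `comparable`: participants of two trees with the same root are earlier histories of each other;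
* `spine_of_free`, `not_longer`: the root of a tree which is altered is not used after its last time;
* `le_sig_of_leg`: a leg which is hit at `r` has no collision before `r`.
-/

open MeasureTheory Filter Topology Set
open scoped ENNReal NNReal

noncomputable section

namespace Vale.Agent.P119.IND

open KU M M.CTree TL

variable {Φ : E3 → ℝ} {ε : ℝ} {L : ℕ} {V V' : Set Src}

/-! ### Participants -/

/-- The participants of `R`. -/
def parts (R : CTree) : Set CTree := {P | Sub P R ∨ P ∈ exs R}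

theorem self_mem_parts (R : CTree) : R ∈ parts R := Or.inl (Sub.refl R)

theorem sub_of_spine {P R : CTree} (h : Spine P R) : Sub P R := by
  induction h with
  | refl => exact Sub.refl _
  | left b _ ih => exact Sub.left b ih

theorem parts_leaves {P R : CTree} (h : P ∈ parts R) : P.leaves ⊆ R.leaves := by
  rcases h with h | h
  · exact h.leaves_subset
  · exact exs_leaves h

theorem parts_ok (hΦ : IsPotential Φ) {P R : CTree} (h : P ∈ parts R) (hR : ok Φ ε R) :
    ok Φ ε P := by
  rcases h with h | h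
  · exact h.ok hR
  · exact outs_ok hΦ hR (Or.inr h)

theorem parts_depth {P R : CTree} (h : P ∈ parts R) : P.depth ≤ R.depth := by
  rcases h with h | h
  · exact h.depth_le
  · exact outs_depth (Or.inr h)

/-- The participants are closed under subtrees. -/
theorem parts_of_sub {P Q R : CTree} (h : P ∈ parts R) (hQ : Sub Q P) (hne : Q ≠ P) :
    Sub Q R := by
  rcases h with h | h
  · exact hQ.trans h
  · obtain ⟨a, b, h1, rfl⟩ := exs_iff.1 h
    cases hQ with
    | refl => exact absurd rfl hne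
    | left _ h2 => exact (Sub.right a h2).trans h1
    | right _ h2 => exact (Sub.left b h2).trans h1

theorem mem_parts_of_sub {P Q R : CTree} (h : P ∈ parts R) (hQ : Sub Q P) : Q ∈ parts R := by
  by_cases hne : Q = P
  · rw [hne]; exact h
  · exact Or.inl (parts_of_sub h hQ hne)

/-- The participants are closed under the exchange of the two partners. -/
theorem swap_mem_parts {a b R : CTree} (h : node a b ∈ parts R) : node b a ∈ parts R := by
  rcases h with h | h
  · exact Or.inr (exs_iff.2 ⟨a, b, h, rfl⟩)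
  · obtain ⟨c, d, h1, h2⟩ := exs_iff.1 h
    cases h2
    exact Or.inl h1

theorem parts_finite (R : CTree) : (parts R).Finite := by
  have h1 : {P | Sub P R}.Finite := by
    induction R with
    | leaf σ =>
      refine (finite_singleton (leaf σ)).subset ?_
      rintro P h
      cases h
      exact rfl
    | node a b iha ihb =>
      refine ((iha.union ihb).union (finite_singleton (node a b))).subset ?_
      rintro P h
      cases h with
      | refl => exact Or.inr rfl
      | left _ h => exact Or.inl (Or.inl h)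
      | right _ h => exact Or.inl (Or.inr h)
  exact h1.union (exs_finite R)

theorem sig_le_of_sub (hΦ : IsPotential Φ) (hε : 0 < ε) {P R : CTree} (h : Sub P R)
    (hR : ok Φ ε R) : sig Φ ε P ≤ sig Φ ε R := by
  cases h with
  | refl => exact le_rfl
  | left b h =>
    exact (sig_le_ext hΦ hε (h.ok hR.1)).trans (Sub.ext_lt_sig hΦ hε (Or.inl h) hR).le
  | right a h =>
    exact (sig_le_ext hΦ hε (h.ok hR.2.1)).trans (Sub.ext_lt_sig hΦ hε (Or.inr h) hR).le

theorem parts_sig_le (hΦ : IsPotential Φ) (hε : 0 < ε) {P R : CTree} (h : P ∈ parts R)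
    (hR : ok Φ ε R) : sig Φ ε P ≤ sig Φ ε R := by
  rcases h with h | h
  · exact sig_le_of_sub hΦ hε h hR
  · obtain ⟨a, b, h1, rfl⟩ := exs_iff.1 h
    rw [sig_swap a b]
    exact sig_le_of_sub hΦ hε h1 hR

/-- A proper earlier history has a next collision. -/
theorem exists_next {R P : CTree} (h : Spine R P) (hne : R ≠ P) : ∃ y, Spine (node R y) P := by
  induction h with
  | refl => exact absurd rfl hne
  | @left a b h ih =>
    by_cases hRa : R = a
    · subst hRa
      exact ⟨b, Spine.refl _⟩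
    · obtain ⟨y, hy⟩ := ih hRa
      exact ⟨y, Spine.left b hy⟩

/-! ### Freedom from hits -/

/-- `R` has no hit by a `V`-alive tree before `ρ`. -/
structure Free (Φ : E3 → ℝ) (ε : ℝ) (L : ℕ) (V : Set Src) (R : CTree) (ρ : ℝ) : Prop where
  sub : R.leaves ⊆ V
  ok : R.ok Φ ε
  depth : R.depth ≤ L
  nohit : ∀ T' s, s < ρ → hit Φ ε R T' s → ¬alive Φ ε L V T' s

/-- `P` has no hit by a `V`-alive tree before `ρ`, up to the beginning of its last collision. -/
structure FB (Φ : E3 → ℝ) (ε : ℝ) (L : ℕ) (V : Set Src) (P : CTree) (ρ : ℝ) : Prop where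
  sub : P.leaves ⊆ V
  ok : P.ok Φ ε
  depth : P.depth ≤ L
  nohit : ∀ T' s, s < ρ → s ≤ P.sig Φ ε → hit Φ ε P T' s → ¬alive Φ ε L V T' s

theorem Free.of_live {R : CTree} {r : ℝ} (h : live Φ ε L V R r) : Free Φ ε L V R r :=
  ⟨h.sub, h.ok, h.depth, h.nohit⟩

theorem Free.mono {R : CTree} {ρ ρ' : ℝ} (h : Free Φ ε L V R ρ) (hρ : ρ' ≤ ρ) :
    Free Φ ε L V R ρ' := ⟨h.sub, h.ok, h.depth, fun T' s hs => h.nohit T' s (hs.trans_le hρ)⟩

theorem Free.lives {R : CTree} {ρ u : ℝ} (h : Free Φ ε L V R ρ) (hu : u < ρ)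
    (hs : sig Φ ε R ≤ u) : lives Φ ε L V R u :=
  ⟨h.sub, h.ok, h.depth, hs, fun T' s hs' => h.nohit T' s (hs'.trans_lt hu)⟩

theorem Free.live {R : CTree} {ρ : ℝ} (h : Free Φ ε L V R ρ) (hs : sig Φ ε R ≤ ρ) :
    live Φ ε L V R ρ := ⟨h.sub, h.ok, h.depth, hs, h.nohit⟩

/-- The participants of a free tree are free. -/
theorem FB.of_parts (hΦ : IsPotential Φ) (hε : 0 < ε) {R P : CTree} {ρ : ℝ}
    (h : Free Φ ε L V R ρ) (hP : P ∈ parts R) : FB Φ ε L V P ρ := by
  refine ⟨(parts_leaves hP).trans h.sub, parts_ok hΦ hP h.ok, (parts_depth hP).trans h.depth,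
    fun T' s hs hs' hh => ?_⟩
  have hle := sig_le_ext hΦ hε (parts_ok hΦ hP h.ok)
  rcases hP with hP | hP
  · exact h.nohit T' s hs (hit_of_sub hΦ hε hP h.ok (hs'.trans hle) hh)
  · obtain ⟨a, b, h1, rfl⟩ := exs_iff.1 hP
    have h2 := sig_lt_ext hΦ hε (h1.ok h.ok)
    rw [sig_swap a b] at hs'
    refine h.nohit T' s hs (hit_of_sub hΦ hε h1 h.ok (hs'.trans h2.le) ?_)
    refine hit_swap hΦ ?_ hh
    rw [ext_swap hΦ a b]
    exact hs'.trans_lt h2

theorem FB.lives {P : CTree} {ρ : ℝ} (h : FB Φ ε L V P ρ) (hs : sig Φ ε P < ρ) :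
    lives Φ ε L V P (sig Φ ε P) :=
  ⟨h.sub, h.ok, h.depth, le_rfl, fun T' s hs' => h.nohit T' s (hs'.trans_lt hs) hs'⟩

/-- Earlier histories. -/
theorem FB.spine (hΦ : IsPotential Φ) (hε : 0 < ε) {P Q : CTree} {ρ : ℝ}
    (h : FB Φ ε L V P ρ) (hQ : Spine Q P) : FB Φ ε L V Q ρ := by
  have h1 := sub_of_spine hQ
  have h2 := h1.ok h.ok
  have h3 := sig_le_ext hΦ hε h2
  refine ⟨h1.leaves_subset.trans h.sub, h2, h1.depth_le.trans h.depth, fun T' s hs hs' hh => ?_⟩
  exact h.nohit T' s hs (hs'.trans (sig_le_of_sub hΦ hε h1 h.ok))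
    (hit_of_sub hΦ hε h1 h.ok (hs'.trans h3) hh)

/-- The earlier history is free up to the next collision. -/
theorem FB.nohit_of_next {R y : CTree} {ρ : ℝ} (h : FB Φ ε L V (node R y) ρ) (T' : CTree) (s : ℝ)
    (hs : s < ρ) (hs' : s < sig Φ ε (node R y)) (hh : hit Φ ε R T' s) : ¬alive Φ ε L V T' s :=
  h.nohit T' s hs hs'.le (hit_left_of_lt hs' hh)

/-- The history at a time `u < ρ` before the last collision of `P`. -/
theorem FB.lives_cur (hΦ : IsPotential Φ) (hε : 0 < ε) {P : CTree} {ρ u : ℝ}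
    (h : FB Φ ε L V P ρ) (hu : u < ρ) (hu' : u ≤ sig Φ ε P) (hb : P.root.1 ≤ u) :
    M.lives Φ ε L V (cur Φ ε P u) u := by
  induction P with
  | leaf σ => exact ⟨h.sub, h.ok, h.depth, hb, fun T' s hs => h.nohit T' s (hs.trans_lt hu)
      (hs.trans hu')⟩
  | node a b iha _ =>
    rcases hu'.eq_or_lt with h1 | h1
    · subst h1
      rw [cur_of_sig_le le_rfl]
      exact h.lives hu
    · rw [cur_of_lt_sig h1]
      have hok := h.ok
      have hN := h.nohit_of_next
      have ha : sig Φ ε a < sig Φ ε (node a b) :=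
        (sig_le_ext hΦ hε hok.1).trans_lt hok.2.2.2.2.2.1
      rcases le_or_gt (sig Φ ε a) u with h2 | h2
      · rw [cur_of_sig_le h2]
        exact ⟨fun _ hx => h.sub (Or.inl hx), hok.1,
          (le_max_left a.depth b.depth).trans (Nat.le_of_succ_le h.depth), h2,
          fun T' s hs => hN T' s (hs.trans_lt hu) (hs.trans_lt h1)⟩
      · refine iha ⟨fun _ hx => h.sub (Or.inl hx), hok.1,
          (le_max_left a.depth b.depth).trans (Nat.le_of_succ_le h.depth),
          fun T' s hs hs' => hN T' s hs (hs'.trans_lt ha)⟩ h2.le hb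

/-- `R` is live in `V` at time `r` and it began before. -/
structure Up (Φ : E3 → ℝ) (ε : ℝ) (L : ℕ) (V : Set Src) (R : CTree) (r : ℝ) : Prop where
  live : M.live Φ ε L V R r
  lt : R.sig Φ ε < r ∨ R = leaf R.root

theorem Up.of_alive (hΦ : IsPotential Φ) (hε : 0 < ε) (hV : V.Finite) {R : CTree} {r : ℝ}
    (h : alive Φ ε L V R r) : Up Φ ε L V R r := by
  have h1 := (alive_iff_live hΦ hε hV).1 h
  refine ⟨h1.1, ?_⟩
  cases R with
  | leaf σ => exact Or.inr rfl
  | node a b => exact Or.inl ((sig_lt_ext hΦ hε h1.1.ok).trans_le h1.2)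

theorem Up.free {R : CTree} {r : ℝ} (h : Up Φ ε L V R r) : Free Φ ε L V R r :=
  Free.of_live h.live

/-- The participants of a tree which is up: they are leaves or began before. -/
theorem Up.sig_lt (hΦ : IsPotential Φ) (hε : 0 < ε) {R P : CTree} {r : ℝ}
    (h : Up Φ ε L V R r) (hP : P ∈ parts R) : sig Φ ε P < r ∨ P = leaf P.root := by
  rcases h.lt with h1 | h1
  · exact Or.inl ((parts_sig_le hΦ hε hP h.live.ok).trans_lt h1)
  · right
    rw [h1] at hP
    rcases hP with hP | hP
    · cases hP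
      rfl
    · exact absurd hP (notMem_empty _)

/-! ### Comparability -/

/-- **Comparability in one world.** -/
theorem comparable_of_lives (hΦ : IsPotential Φ) (hε : 0 < ε) (hV : V.Finite) {P Q : CTree} {ρ : ℝ}
    (hP : FB Φ ε L V P ρ) (hQ : lives Φ ε L V Q (sig Φ ε Q)) (hρ : sig Φ ε Q < ρ)
    (hr : P.root = Q.root) : Spine P Q ∨ Spine Q P := by
  rcases lt_or_ge (sig Φ ε P) ρ with h1 | h1
  · exact lives_comparable hΦ hε hV (hP.lives h1) hQ hr
  · have hb : P.root.1 ≤ sig Φ ε Q := by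
      rw [hr]; exact root_birth_le_sig hΦ hε hQ.ok
    have h2 := hP.lives_cur hΦ hε hρ (hρ.le.trans h1) hb
    have h3 := lives_unique hΦ hε hV h2 hQ ((cur_root P _).trans hr)
    right
    rw [← h3]
    exact cur_spine P _

/-- **Comparability of the participants of two trees**: `R` is free in `V` before `ρ` and `R'` is up in
`V` at a time `r' ≤ ρ`. -/
theorem comparable (hΦ : IsPotential Φ) (hε : 0 < ε) (hV : V.Finite) {R R' P Q : CTree} {ρ r' : ℝ}
    (hR : Free Φ ε L V R ρ) (hR' : Up Φ ε L V R' r') (hρ : r' ≤ ρ) (hP : P ∈ parts R)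
    (hQ : Q ∈ parts R') (hr : P.root = Q.root) : Spine P Q ∨ Spine Q P := by
  rcases hR'.sig_lt hΦ hε hQ with h1 | h1
  · exact comparable_of_lives hΦ hε hV (FB.of_parts hΦ hε hR hP)
      ((FB.of_parts hΦ hε hR'.free hQ).lives h1) (h1.trans_le hρ) hr
  · right
    rw [h1, ← hr]
    exact Spine.leaf P

/-- A tree which is formed before `ρ` is an earlier history of a tree which is free before `ρ`. -/
theorem spine_of_free (hΦ : IsPotential Φ) (hε : 0 < ε) (hV : V.Finite) {R P : CTree} {ρ : ℝ}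
    (hR : Free Φ ε L V R ρ) (hP : lives Φ ε L V P (sig Φ ε P)) (hρ : sig Φ ε P < ρ)
    (hr : P.root = R.root) : Spine P R := by
  rcases le_or_gt (sig Φ ε R) (sig Φ ε P) with h1 | h1
  · have h2 := hR.lives hρ h1
    rw [lives_unique hΦ hε hV hP h2 hr]
    exact Spine.refl R
  · have hb : R.root.1 ≤ sig Φ ε P := by
      rw [← hr]; exact root_birth_le_sig hΦ hε hP.ok
    have h2 : lives Φ ε L V (cur Φ ε R (sig Φ ε P)) (sig Φ ε P) :=
      (FB.of_parts hΦ hε hR (self_mem_parts R)).lives_cur hΦ hε hρ h1.le hb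
    have h3 := lives_unique hΦ hε hV h2 hP ((cur_root (Φ := Φ) (ε := ε) R (sig Φ ε P)).trans hr.symm)
    rw [← h3]
    exact cur_spine R _

/-- **The root of an altered tree is not used after its last time**, version for two worlds: `R` is
alive in `V` at `r` but not in `V'`; `P` is free in both worlds before `ρ`. -/
theorem eq_of_spine (hΦ : IsPotential Φ) (hε : 0 < ε) (hV : V.Finite) (hV' : V'.Finite)
    {R P : CTree} {r ρ : ℝ} (hR : alive Φ ε L V R r) (hR' : ¬alive Φ ε L V' R r)
    (hP : FB Φ ε L V P ρ) (hP' : FB Φ ε L V' P ρ) (hρ : r ≤ ρ ∨ sig Φ ε P < ρ)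
    (h : Spine R P) : R = P := by
  by_contra hne
  obtain ⟨y, hy⟩ := exists_next h hne
  have hN := hP.spine hΦ hε hy
  have hN' := hP'.spine hΦ hε hy
  have hle := sig_le_of_sub hΦ hε (sub_of_spine hy) hP.ok
  have hRe := (alive_pre hR).ext_le
  rcases lt_or_ge (sig Φ ε (node R y)) ρ with h1 | h1
  · rcases lt_or_ge (sig Φ ε (node R y)) r with h2 | h2
    · exact no_hit hΦ hε hV hR h2 (hit_sig hΦ hε hN.ok) (live_right hΦ hε hV (hN.lives h1).live)
    · exact hR' (alive_anti (live_left hΦ hε hV' (hN'.lives h1).live) h2 hRe)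
  · have h2 : r ≤ ρ := by
      rcases hρ with h2 | h2
      · exact h2
      · exact absurd h2 (not_lt.2 (h1.trans hle))
    refine hR' ((alive_iff_live hΦ hε hV').2 ⟨⟨?_, (alive_pre hR).ok, (alive_pre hR).depth,
      (sig_le_ext hΦ hε (alive_pre hR).ok).trans hRe, fun T' s hs hh => ?_⟩, hRe⟩)
    · exact fun _ hx => hN'.sub (Or.inl hx)
    · exact hN'.nohit_of_next T' s (hs.trans_le h2) (hs.trans_le (h2.trans h1)) hh

/-- **A leg which is hit at `r` has no collision before `r`.** -/
theorem le_sig_of_leg (hΦ : IsPotential Φ) (hε : 0 < ε) (hV : V.Finite) {Y y : CTree} {r ρ : ℝ}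
    (hY : ∀ T' s, s < r → hit Φ ε Y T' s → ¬alive Φ ε L V T' s)
    (hN : FB Φ ε L V (node Y y) ρ) (hρ : sig Φ ε (node Y y) < ρ ∨ r ≤ ρ) :
    r ≤ sig Φ ε (node Y y) := by
  by_contra hcon
  rw [not_le] at hcon
  have h1 : sig Φ ε (node Y y) < ρ := by
    rcases hρ with h1 | h1
    · exact h1
    · exact hcon.trans_le h1
  exact hY y _ hcon (hit_sig hΦ hε hN.ok) (live_right hΦ hε hV (hN.lives h1).live)

/-- The leg of `R` which is hit at time `r`: its hits before `r` are hits of `R`. -/
theorem nohit_of_at (hΦ : IsPotential Φ) {R Y y : CTree} {r : ℝ}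
    (hR : ∀ T' s, s < r → hit Φ ε R T' s → ¬alive Φ ε L V T' s) (h : At Φ ε y r Y R) :
    ∀ T' s, s < r → hit Φ ε Y T' s → ¬alive Φ ε L V T' s :=
  fun T' s hs hh => hR T' s hs (hit_of_at hΦ h hs hh)

end Vale.Agent.P119.IND
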