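import Vale.Agent.P119.IND.Timed
import Vale.Agent.P119.IND.FJ
import Vale.Agent.P119.IND.OneWorld
import Vale.Agent.P119.IND.GraftFam

/-!
# P119, block IND: base families (`helper350`)

* `parts_cmp`, `Fam.of_tree`: the participants of one tree are a family; its last histories are the
  elements of `outs T` (`isLast_of_outs`), its labels are the leaves (`lab_partsF`);
* `Fam.union`, `Fam.add_ghost`;
* `BaseP.of_fam`: a connected family gives a base program.
-/

open MeasureTheory Filter Topology Set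
open scoped ENNReal NNReal

set_option linter.unusedSectionVars false

noncomputable section

namespace Vale.Agent.P119.IND

open KU M M.CTree TL

variable {Φ : E3 → ℝ} {ε T : ℝ}

/-! ### The participants of one tree -/

theorem mem_parts_node {a b P : CTree} :
    P ∈ parts (node a b) ↔ P = node a b ∨ P = node b a ∨ P ∈ parts a ∨ P ∈ parts b := by
  unfold parts
  simp only [mem_ofPred_eq]
  rw [mem_exs_node]
  constructor
  · rintro (h | h | h | h)
    · cases h with
      | refl => exact Or.inl rfl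
      | left _ h => exact Or.inr (Or.inr (Or.inl (Or.inl h)))
      | right _ h => exact Or.inr (Or.inr (Or.inr (Or.inl h)))
    · exact Or.inr (Or.inr (Or.inl (Or.inr h)))
    · exact Or.inr (Or.inr (Or.inr (Or.inr h)))
    · exact Or.inr (Or.inl h)
  · rintro (h | h | (h | h) | (h | h))
    · exact Or.inl (h ▸ Sub.refl _)
    · exact Or.inr (Or.inr (Or.inr h))
    · exact Or.inl (Sub.left b h)
    · exact Or.inr (Or.inl h)
    · exact Or.inl (Sub.right a h)
    · exact Or.inr (Or.inr (Or.inl h))

theorem mem_parts_leaf {σ : Src} {P : CTree} (h : P ∈ parts (leaf σ)) : P = leaf σ := by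
  rcases h with h | h
  · cases h; rfl
  · exact absurd h (notMem_empty _)

theorem parts_root_mem {P R : CTree} (h : P ∈ parts R) : P.root ∈ R.leaves :=
  parts_leaves h P.root_mem_leaves

/-- A participant with the root of the tree is an earlier history of the tree. -/
theorem spine_of_parts_root {R P : CTree} (hR : ok Φ ε R) (hP : P ∈ parts R)
    (hr : P.root = R.root) : Spine P R := by
  induction R with
  | leaf σ => rw [mem_parts_leaf hP]; exact Spine.refl _
  | node a b iha _ =>
    have hd := hR.2.2.1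
    rcases mem_parts_node.1 hP with h | h | h | h
    · rw [h]; exact Spine.refl _
    · rw [h] at hr
      exact absurd (show b.root = a.root from hr) fun h' =>
        Set.disjoint_left.1 hd a.root_mem_leaves (h' ▸ b.root_mem_leaves)
    · exact Spine.left b (iha hR.1 h hr)
    · have h1 := parts_root_mem h
      rw [hr] at h1
      exact absurd h1 (Set.disjoint_left.1 hd a.root_mem_leaves)

/-- **The participants of one tree are comparable.** -/
theorem parts_cmp {R P Q : CTree} (hR : ok Φ ε R) (hP : P ∈ parts R) (hQ : Q ∈ parts R)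
    (hr : P.root = Q.root) : Spine P Q ∨ Spine Q P := by
  induction R with
  | leaf σ =>
    rw [mem_parts_leaf hP, mem_parts_leaf hQ]
    exact Or.inl (Spine.refl _)
  | node a b iha ihb =>
    have hd := hR.2.2.1
    have hne : a.root ≠ b.root := fun h' =>
      Set.disjoint_left.1 hd a.root_mem_leaves (h' ▸ b.root_mem_leaves)
    -- the comparison with the two last histories
    have key : ∀ X Y : CTree, Y ∈ parts (node a b) → X.root = Y.root →
        (X = node a b ∨ X = node b a) → Spine Y X := by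
      intro X Y hY hXY hX
      rcases hX with hX | hX
      · have h1 : Y.root = a.root := by rw [← hXY, hX]; rfl
        rw [hX]
        exact spine_of_parts_root hR hY h1
      · have h1 : Y.root = b.root := by rw [← hXY, hX]; rfl
        rw [hX]
        rcases mem_parts_node.1 hY with h | h | h | h
        · rw [h] at h1
          exact absurd (show a.root = b.root from h1) hne
        · rw [h]; exact Spine.refl _
        · have h2 := parts_root_mem h
          rw [h1] at h2
          exact absurd b.root_mem_leaves (Set.disjoint_left.1 hd h2)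
        · exact Spine.left a (spine_of_parts_root hR.2.1 h h1)
    rcases mem_parts_node.1 hP with h | h | h | h
    · exact Or.inr (key P Q hQ hr (Or.inl h))
    · exact Or.inr (key P Q hQ hr (Or.inr h))
    · rcases mem_parts_node.1 hQ with h' | h' | h' | h'
      · exact Or.inl (key Q P hP hr.symm (Or.inl h'))
      · exact Or.inl (key Q P hP hr.symm (Or.inr h'))
      · exact iha hR.1 h h'
      · have h1 := parts_root_mem h
        rw [hr] at h1
        exact absurd (parts_root_mem h') (Set.disjoint_left.1 hd h1)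
    · rcases mem_parts_node.1 hQ with h' | h' | h' | h'
      · exact Or.inl (key Q P hP hr.symm (Or.inl h'))
      · exact Or.inl (key Q P hP hr.symm (Or.inr h'))
      · have h1 := parts_root_mem h'
        rw [← hr] at h1
        exact absurd (parts_root_mem h) (Set.disjoint_left.1 hd h1)
      · exact ihb hR.2.1 h h'

/-- The finset of the participants. -/
def partsF (R : CTree) : Finset CTree := (parts_finite R).toFinset

theorem mem_partsF {R P : CTree} : P ∈ partsF R ↔ P ∈ parts R := by
  unfold partsF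
  exact Finite.mem_toFinset _

/-- **The family of one tree.** -/
theorem Fam.of_tree (hΦ : IsPotential Φ) (hε : 0 < ε) {R : CTree} (hR : CTree.ok Φ ε R)
    (hT : ext Φ ε R ≤ T) : Fam Φ ε T (partsF R) [] where
  ok P hP := parts_ok hΦ (mem_partsF.1 hP) hR
  ext_le P hP := by
    have h1 : ext Φ ε P ≤ ext Φ ε R := by
      rcases mem_partsF.1 hP with h | h
      · exact h.ext_le hΦ hε hR
      · obtain ⟨a, b, h1, rfl⟩ := exs_iff.1 h
        rw [ext_swap hΦ a b]
        exact h1.ext_le hΦ hε hR
    exact h1.trans hT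
  sub a b hab := by
    have h1 := mem_partsF.1 hab
    exact ⟨mem_partsF.2 (mem_parts_of_sub h1 (Sub.left b (Sub.refl a))),
      mem_partsF.2 (mem_parts_of_sub h1 (Sub.right a (Sub.refl b))),
      mem_partsF.2 (swap_mem_parts h1)⟩
  cmp P hP Q hQ hr := parts_cmp hR (mem_partsF.1 hP) (mem_partsF.1 hQ) hr
  gh g hg := absurd hg List.not_mem_nil
  last g hg := absurd hg List.not_mem_nil
  cur g hg := absurd hg List.not_mem_nil
  srt := List.Pairwise.nil

/-- The last histories of the family of one tree. -/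
theorem isLast_of_outs {R x : CTree} (hR : ok Φ ε R) (hx : x ∈ outs R) :
    IsLast (partsF R) x := by
  have hxp : x ∈ parts R := by
    rcases hx with h | h
    · rw [h]; exact self_mem_parts R
    · exact Or.inr h
  refine ⟨mem_partsF.2 hxp, fun P hP hr => ?_⟩
  have hP' := mem_partsF.1 hP
  rcases hx with h | h
  · rw [h] at hr ⊢
    exact spine_of_parts_root hR hP' hr
  · clear hxp hP
    induction R with
    | leaf σ => exact absurd h (notMem_empty _)
    | node a b iha ihb =>
      have hd := hR.2.2.1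
      rcases mem_parts_node.1 hP' with h1 | h1 | h1 | h1
      · have h2 : x.root ≠ (node a b).root := exs_root_ne hR h
        exact absurd (by rw [← hr, h1]) h2
      · rw [h1]
        rcases mem_exs_node.1 h with h2 | h2 | h2
        · have h3 := exs_leaves h2 x.root_mem_leaves
          rw [← hr, h1] at h3
          exact absurd b.root_mem_leaves (Set.disjoint_left.1 hd h3)
        · refine absurd ?_ (exs_root_ne hR.2.1 h2)
          rw [← hr, h1]
          rfl
        · rw [h2]; exact Spine.refl _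
      · rcases mem_exs_node.1 h with h2 | h2 | h2
        · exact iha hR.1 h1 h2
        · have h3 := parts_root_mem h1
          rw [hr] at h3
          exact absurd (exs_leaves h2 x.root_mem_leaves) (Set.disjoint_left.1 hd h3)
        · have h3 := parts_root_mem h1
          rw [hr, h2] at h3
          exact absurd b.root_mem_leaves (Set.disjoint_left.1 hd h3)
      · rcases mem_exs_node.1 h with h2 | h2 | h2
        · have h3 := parts_root_mem h1
          rw [hr] at h3
          exact absurd h3 (Set.disjoint_left.1 hd (exs_leaves h2 x.root_mem_leaves))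
        · exact ihb hR.2.1 h1 h2
        · rw [h2]
          refine Spine.left a (spine_of_parts_root hR.2.1 h1 ?_)
          rw [hr, h2]
          rfl

/-- The labels of the family of one tree. -/
theorem lab_partsF (R : CTree) : (lab (partsF R) : Set Src) = R.leaves := by
  ext σ
  rw [Finset.mem_coe, mem_lab]
  constructor
  · rintro ⟨P, hP, rfl⟩
    exact parts_root_mem (mem_partsF.1 hP)
  · intro h
    obtain ⟨x, hx, rfl⟩ := exists_out h
    refine ⟨x, mem_partsF.2 ?_, rfl⟩
    rcases hx with h | h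
    · rw [h]; exact self_mem_parts R
    · exact Or.inr h

/-- All the sources of a tree are joined. -/
theorem fj_partsF (hΦ : IsPotential Φ) (hε : 0 < ε) {R : CTree} (hR : ok Φ ε R) {x y : Src}
    (hx : x ∈ R.leaves) (hy : y ∈ R.leaves) : FJ (partsF R) [] x y :=
  FJ.leaves (Fam.of_tree hΦ hε hR le_rfl) (mem_partsF.2 (self_mem_parts R)) hx hy

/-! ### Union and ghosts -/

theorem mem_lab_union [DecidableEq CTree] {F₁ F₂ : Finset CTree} {σ : Src} :
    σ ∈ lab (F₁ ∪ F₂) ↔ σ ∈ lab F₁ ∨ σ ∈ lab F₂ := by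
  rw [mem_lab, mem_lab, mem_lab]
  constructor
  · rintro ⟨P, hP, hr⟩
    rcases Finset.mem_union.1 hP with h | h
    · exact Or.inl ⟨P, h, hr⟩
    · exact Or.inr ⟨P, h, hr⟩
  · rintro (⟨P, hP, hr⟩ | ⟨P, hP, hr⟩)
    · exact ⟨P, Finset.mem_union_left _ hP, hr⟩
    · exact ⟨P, Finset.mem_union_right _ hP, hr⟩

/-- **The union of two families without common labels.** -/
theorem Fam.union [DecidableEq CTree] {F₁ F₂ : Finset CTree} {G : List Gh}
    (h₁ : Fam Φ ε T F₁ G) (h₂ : Fam Φ ε T F₂ []) (hd : ∀ σ ∈ lab F₁, σ ∉ lab F₂) :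
    Fam Φ ε T (F₁ ∪ F₂) G := by
  have hu : ∀ P, P ∈ F₁ ∪ F₂ ↔ P ∈ F₁ ∨ P ∈ F₂ := fun P => Finset.mem_union
  refine ⟨fun P hP => ?_, fun P hP => ?_, fun a b hab => ?_, fun P hP Q hQ hr => ?_,
    fun g hg => ?_, fun g hg P hP hr => ?_, fun g hg y hy => ?_, h₁.srt⟩
  · rcases (hu P).1 hP with h | h
    · exact h₁.ok P h
    · exact h₂.ok P h
  · rcases (hu P).1 hP with h | h
    · exact h₁.ext_le P h
    · exact h₂.ext_le P h
  · rcases (hu _).1 hab with h | h
    · have h1 := h₁.sub a b h
      exact ⟨(hu _).2 (Or.inl h1.1), (hu _).2 (Or.inl h1.2.1), (hu _).2 (Or.inl h1.2.2)⟩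
    · have h1 := h₂.sub a b h
      exact ⟨(hu _).2 (Or.inr h1.1), (hu _).2 (Or.inr h1.2.1), (hu _).2 (Or.inr h1.2.2)⟩
  · rcases (hu P).1 hP with h | h <;> rcases (hu Q).1 hQ with h' | h'
    · exact h₁.cmp P h Q h' hr
    · exact absurd (root_mem_lab h') (hr ▸ hd _ (root_mem_lab h))
    · exact absurd (root_mem_lab h) (hr ▸ hd _ (root_mem_lab h'))
    · exact h₂.cmp P h Q h' hr
  · have h1 := h₁.gh g hg
    exact ⟨(hu _).2 (Or.inl h1.1), (hu _).2 (Or.inl h1.2.1), h1.2.2⟩
  · rcases (hu P).1 hP with h | h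
    · exact h₁.last g hg P h hr
    · exact absurd (root_mem_lab h) (hr ▸ hd _ (root_mem_lab (h₁.gh g hg).1))
  · rcases (hu _).1 hy with h | h
    · exact h₁.cur g hg y h
    · have h2 : (CTree.node g.2.1 y).root ∈ lab F₂ := root_mem_lab h
      have h3 : (CTree.node g.2.1 y).root ∈ lab F₁ := root_mem_lab (P := g.2.1) (h₁.gh g hg).2.1
      exact absurd h2 (hd _ h3)

/-- **A family with one ghost.** -/
theorem Fam.add_ghost {F : Finset CTree} (h : Fam Φ ε T F []) {A B : CTree} {r : ℝ} (hA : A ∈ F)
    (hB : B ∈ F) (hne : A.root ≠ B.root) (h1 : ext Φ ε A ≤ r) (h2 : ext Φ ε B ≤ r) (h3 : r ≤ T)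
    (hc : Ctc ε (KU.free r (ln Φ ε A)) (KU.free r (ln Φ ε B))) (hl : IsLast F A)
    (hcur : ∀ y, CTree.node B y ∈ F → r ≤ sig Φ ε (node B y)) :
    Fam Φ ε T F [(A, B, r)] := by
  refine ⟨h.ok, h.ext_le, h.sub, h.cmp, fun g hg => ?_, fun g hg P hP hr => ?_,
    fun g hg y hy => ?_, List.pairwise_singleton _ _⟩
  · rw [List.mem_singleton] at hg
    subst hg
    exact ⟨hA, hB, hne, h1, h2, h3, hc⟩
  · rw [List.mem_singleton] at hg
    subst hg
    exact hl.last P hP hr
  · rw [List.mem_singleton] at hg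
    subst hg
    exact hcur y hy

/-- Last histories of a union. -/
theorem IsLast.union_left [DecidableEq CTree] {F₁ F₂ : Finset CTree} {S : CTree}
    (h : IsLast F₁ S) (hd : ∀ σ ∈ lab F₁, σ ∉ lab F₂) : IsLast (F₁ ∪ F₂) S := by
  refine ⟨Finset.mem_union_left _ h.mem, fun P hP hr => ?_⟩
  rcases Finset.mem_union.1 hP with h' | h'
  · exact h.last P h' hr
  · exact absurd (root_mem_lab h') (hr ▸ hd _ (root_mem_lab h.mem))

theorem IsLast.union_right [DecidableEq CTree] {F₁ F₂ : Finset CTree} {S : CTree}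
    (h : IsLast F₂ S) (hd : ∀ σ ∈ lab F₁, σ ∉ lab F₂) : IsLast (F₁ ∪ F₂) S := by
  refine ⟨Finset.mem_union_right _ h.mem, fun P hP hr => ?_⟩
  rcases Finset.mem_union.1 hP with h' | h'
  · have h1 := hd _ (root_mem_lab h')
    rw [hr] at h1
    exact absurd (root_mem_lab h.mem) h1
  · exact h.last P h' hr

/-! ### Base programs -/

/-- **The base program of a family.** The labels are `κ`, with the sources `z`; the labels
of `D` are dropped (they contain the first labels of the ghosts), the other labels end as `x k`. -/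
theorem BaseP.of_fam (hΦ : IsPotential Φ) (hε : 0 < ε) {F : Finset CTree} {G : List Gh}
    (h : Fam Φ ε T F G) {κ : Type} [DecidableEq κ] {z x : κ → Src} {D : Set κ}
    (hz : Function.Injective z) (hzr : range z = (lab F : Set Src)) (hz0 : ∀ k, 0 ≤ (z k).1)
    (hD : ∀ g ∈ G, ∀ i, z i = g.1.root → i ∈ D)
    (hG : ∀ g ∈ G, ∀ k ∉ D, z k = g.2.1.root → g.2.2 ≤ (x k).1)
    (hx : ∀ k ∉ D, ∃ S, IsLast F S ∧ S.root = z k ∧ (x k).2.1 = ln Φ ε S ∧ ext Φ ε S ≤ (x k).1)
    (hxi : InjOn x Dᶜ) :
    ∃ Q : List (Ev κ × ℝ), BaseP Φ ε T z x D Q ∧ 2 * Q.length = (nl F).card + 2 * G.length ∧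
      (∀ i k, FJ F G (z i) (z k) → Jn Q i k) ∧
      (∀ k S, IsLast F S → S.root = z k →
        finB Φ ε Q (fun i => (z i).1) (fun i => (z i).2.1) k = ext Φ ε S) := by
  classical
  obtain ⟨Q, hQ⟩ := h.exists_timed hΦ hε
  obtain ⟨Q', h1, h2, h3, h4, h5, h6⟩ := hQ.relabel hz (by rw [rts_eq_lab, hzr])
  have hfin : ∀ k, ∀ S, IsLast F S → S.root = z k →
      finZ Φ ε Q' (fun i => (z i).2.1) k = ln Φ ε S ∧
      finB Φ ε Q' (fun i => (z i).1) (fun i => (z i).2.1) k = ext Φ ε S := by
    intro k S hS hr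
    have h7 := hQ.fin.map hz (P' := Q'.map Prod.fst) (by rw [← IND.mapP_fst, h1]) hS (i := k)
      hr.symm
    have e : (pl T (Q'.map Prod.fst)).map Prod.fst = Q'.map Prod.fst := pl_fst T Q'
    rw [finZ_fst e, finB_fst e] at h7
    exact h7
  refine ⟨Q', ⟨hz0, hz, h3, h4, ?_, ?_, ?_, hxi⟩, ?_, ?_, fun k S hS hr => (hfin k S hS hr).2⟩
  · intro e he i k hik
    have h7 : (e.1.map z, e.2) ∈ Q := by
      rw [← h1]
      exact List.mem_map.2 ⟨e, he, rfl⟩
    rcases hQ.mem _ h7 with ⟨a, b, -, h8⟩ | ⟨g, hg, h8⟩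
    · rw [hik] at h8
      simp only [Ev.map, Prod.mk.injEq] at h8
      exact absurd h8.1 (by simp)
    · rw [hik] at h8
      simp only [Ev.map, Prod.mk.injEq, Ev.gh.injEq] at h8
      refine ⟨hD g hg i h8.1.1, fun hk => ?_⟩
      rw [h8.2]
      exact hG g hg k hk h8.1.2
  · intro k hk
    obtain ⟨S, hS, hr, e1, -⟩ := hx k hk
    rw [(hfin k S hS hr).1, e1]
  · intro k hk
    obtain ⟨S, hS, hr, -, e2⟩ := hx k hk
    rw [(hfin k S hS hr).2]
    exact e2
  · have h7 := hQ.prog.len
    rw [List.length_map] at h7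
    rw [h2]
    exact h7
  · intro i k hJ
    have h7 := hJ.jn hQ.prog
    have h8 : Jn Q (z i) (z k) := (jn_fst (pl_fst T Q)).1 h7
    exact (h5 i k).2 h8

/-- **The base program of one tree**: the labels are the leaves, the label `k` ends as the source
`x k` with the line of its last history. -/
theorem BaseP.of_tree (hΦ : IsPotential Φ) (hε : 0 < ε) {R : CTree} (hR : CTree.ok Φ ε R)
    (hT : ext Φ ε R ≤ T) {κ : Type} [DecidableEq κ] {z x : κ → Src} (hz : Function.Injective z)
    (hzr : range z = R.leaves)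
    (hx : ∀ k, ∃ S ∈ outs R, S.root = z k ∧ (x k).2.1 = ln Φ ε S ∧ ext Φ ε S ≤ (x k).1)
    (hxi : Function.Injective x) :
    ∃ Q : List (Ev κ × ℝ), BaseP Φ ε T z x ∅ Q ∧ 2 * Q.length = (nl (partsF R)).card ∧
      (∀ i k, Jn Q i k) ∧
      (∀ k, ∀ S ∈ outs R, S.root = z k →
        finB Φ ε Q (fun i => (z i).1) (fun i => (z i).2.1) k = ext Φ ε S) := by
  have hF := Fam.of_tree hΦ hε hR hT
  have hmem : ∀ k, z k ∈ R.leaves := fun k => by rw [← hzr]; exact ⟨k, rfl⟩
  have hb : ∀ k, 0 ≤ (z k).1 := by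
    intro k
    have h1 : z k ∈ lab (partsF R) := by
      rw [← Finset.mem_coe, lab_partsF]
      exact hmem k
    obtain ⟨P, hP, hr⟩ := mem_lab.1 h1
    have h2 := hF.ok _ (hF.spine_mem (Spine.leaf P) hP)
    rw [hr] at h2
    exact h2
  have hx' : ∀ k ∉ (∅ : Set κ), ∃ S, IsLast (partsF R) S ∧ S.root = z k ∧
      (x k).2.1 = ln Φ ε S ∧ ext Φ ε S ≤ (x k).1 := by
    intro k _
    obtain ⟨S, hS, h1, h2, h3⟩ := hx k
    exact ⟨S, isLast_of_outs hR hS, h1, h2, h3⟩
  obtain ⟨Q, h1, h2, h3, h4⟩ := BaseP.of_fam hΦ hε hF hz (by rw [hzr, lab_partsF]) hb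
    (fun g hg => absurd hg List.not_mem_nil) (fun g hg => absurd hg List.not_mem_nil) hx'
    (hxi.injOn)
  exact ⟨Q, h1, by simpa using h2, fun i k => h3 i k (fj_partsF hΦ hε hR (hmem i) (hmem k)),
    fun k S hS hr => h4 k S (isLast_of_outs hR hS) hr⟩

end Vale.Agent.P119.IND
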