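import Vale.Agent.P119.IND.Trec

/-!
# P119, block IND: connectedness of the families of explorations (`helper498`)

* `parts_card_le`, `famT_card_le`: bounds for the number of histories;
* `lab_famT`, `famT_live`: labels and collisions of the family of a list of records;
* `FX F G es`: joined by the edges of the family and the additional edges `es`;
* `RT.conn`: the labels of a regular exploration are joined;
* `exists_split`: removal of one ghost.
-/

open MeasureTheory Filter Topology Set
open scoped ENNReal NNReal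

noncomputable section

namespace Vale.Agent.P119.IND

open KU M M.CTree TL

variable {Φ : E3 → ℝ} {ε : ℝ} {L : ℕ} {κ : Type*} {𝒲 : κ → Set Src}

/-! ### Cardinalities -/

open Classical in
/-- The participants as a finite set. -/
def pf : CTree → Finset CTree
  | leaf σ => {leaf σ}
  | node a b => insert (node a b) (insert (node b a) (pf a ∪ pf b))

theorem parts_subset_pf (R : CTree) : parts R ⊆ (pf R : Set CTree) := by
  classical
  induction R with
  | leaf σ =>
    rintro P (h | h)
    · cases h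
      simp [pf]
    · exact absurd h (notMem_empty _)
  | node a b iha ihb =>
    intro P h
    simp only [pf, Finset.coe_insert, Finset.coe_union, Set.mem_insert_iff, Set.mem_union,
      Finset.mem_coe]
    rcases h with h | h
    · cases h with
      | refl => exact Or.inl rfl
      | left _ h => exact Or.inr (Or.inr (Or.inl (Finset.mem_coe.1 (iha (Or.inl h)))))
      | right _ h => exact Or.inr (Or.inr (Or.inr (Finset.mem_coe.1 (ihb (Or.inl h)))))
    · rcases mem_exs_node.1 h with h | h | h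
      · exact Or.inr (Or.inr (Or.inl (Finset.mem_coe.1 (iha (Or.inr h)))))
      · exact Or.inr (Or.inr (Or.inr (Finset.mem_coe.1 (ihb (Or.inr h)))))
      · exact Or.inr (Or.inl h)

theorem pf_card_le (R : CTree) : (pf R).card + 2 ≤ 2 ^ (R.depth + 2) := by
  classical
  induction R with
  | leaf σ =>
    have h1 : (pf (leaf σ)).card = 1 := Finset.card_singleton _
    have h2 : 2 ^ 2 ≤ 2 ^ ((leaf σ).depth + 2) := Nat.pow_le_pow_right (by norm_num) (by omega)
    omega
  | node a b iha ihb =>
    have h1 : (pf (node a b)).card ≤ (pf a).card + (pf b).card + 2 := by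
      have h0 : pf (node a b) = insert (node a b) (insert (node b a) (pf a ∪ pf b)) := rfl
      rw [h0]
      refine (Finset.card_insert_le _ _).trans ?_
      have h2 := Finset.card_insert_le (node b a) (pf a ∪ pf b)
      have h3 := Finset.card_union_le (pf a) (pf b)
      omega
    have h2 : (node a b).depth = max a.depth b.depth + 1 := rfl
    have h3 : 2 ^ (a.depth + 2) ≤ 2 ^ (max a.depth b.depth + 2) :=
      Nat.pow_le_pow_right (by norm_num) (by omega)
    have h4 : 2 ^ (b.depth + 2) ≤ 2 ^ (max a.depth b.depth + 2) :=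
      Nat.pow_le_pow_right (by norm_num) (by omega)
    have h5 : 2 ^ ((node a b).depth + 2) = 2 ^ (max a.depth b.depth + 2) * 2 := by
      rw [h2, show max a.depth b.depth + 1 + 2 = (max a.depth b.depth + 2) + 1 by omega, pow_succ]
    omega

/-- The number of histories of a family of records. -/
theorem famT_card_le {T : ℝ} {𝓜 : List (Rc κ)} (hd : ∀ m ∈ 𝓜, m.R.depth ≤ L) {n : ℕ}
    (hn : 𝓜.length ≤ n) : (famT Φ ε T 𝓜).card ≤ n * 2 ^ (L + 2) := by
  classical
  have h1 : famT Φ ε T 𝓜 ⊆ 𝓜.toFinset.biUnion fun m => pf m.R := by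
    intro P hP
    obtain ⟨⟨m, hm, h⟩, -⟩ := mem_famT.1 hP
    exact Finset.mem_biUnion.2 ⟨m, List.mem_toFinset.2 hm, Finset.mem_coe.1 (parts_subset_pf _ h)⟩
  refine (Finset.card_le_card h1).trans (Finset.card_biUnion_le.trans ?_)
  refine (Finset.sum_le_card_nsmul _ _ (2 ^ (L + 2)) fun m hm => ?_).trans ?_
  · have h2 := pf_card_le m.R
    have h3 : 2 ^ (m.R.depth + 2) ≤ 2 ^ (L + 2) :=
      Nat.pow_le_pow_right (by norm_num) (by have := hd m (List.mem_toFinset.1 hm); omega)
    omega
  · rw [smul_eq_mul]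
    exact Nat.mul_le_mul_right _ ((List.toFinset_card_le _).trans hn)

/-! ### Labels and collisions -/

theorem leaf_mem_parts {R : CTree} {a : Src} (h : a ∈ R.leaves) : leaf a ∈ parts R := by
  left
  induction R with
  | leaf σ => rw [mem_singleton_iff.1 h]; exact Sub.refl _
  | node x y ihx ihy =>
    rcases h with h | h
    · exact Sub.left _ (ihx h)
    · exact Sub.right _ (ihy h)

theorem lab_famT {T : ℝ} {𝓜 : List (Rc κ)} {a : Src} (h : a ∈ lab (famT Φ ε T 𝓜)) :
    ∃ m ∈ 𝓜, a ∈ m.R.leaves := by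
  obtain ⟨P, hP, rfl⟩ := mem_lab.1 h
  obtain ⟨⟨m, hm, h1⟩, -⟩ := mem_famT.1 hP
  exact ⟨m, hm, parts_leaves h1 P.root_mem_leaves⟩

/-- The collisions of the family take place in the worlds. -/
theorem famT_live (hΦ : IsPotential Φ) (hε : 0 < ε) {T : ℝ} {𝓜 : List (Rc κ)}
    (hok : ∀ m ∈ 𝓜, m.Ok Φ ε L 𝒲) {a b : CTree} (h : node a b ∈ famT Φ ε T 𝓜) :
    ∃ m ∈ 𝓜, sig Φ ε (node a b) < m.r ∧ ∃ v ∈ m.S,
      lives Φ ε L (𝒲 v) (node a b) (sig Φ ε (node a b)) := by
  obtain ⟨⟨m, hm, h1⟩, -⟩ := mem_famT.1 h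
  obtain ⟨v, hv⟩ := (hok m hm).ne
  have h2 := (hok m hm).sig_lt hΦ hε h1
  exact ⟨m, hm, h2, v, hv, (FB.of_parts hΦ hε ((hok m hm).up v hv).free h1).lives h2⟩

theorem mem_famT_self {T : ℝ} {𝓜 : List (Rc κ)} {m : Rc κ} (hm : m ∈ 𝓜) (he : ext Φ ε m.R ≤ T) :
    m.R ∈ famT Φ ε T 𝓜 := mem_famT.2 ⟨⟨m, hm, self_mem_parts _⟩, he⟩

/-! ### Joined labels -/

theorem Fam.sublist {T : ℝ} {F : Finset CTree} {G G' : List Gh} (h : Fam Φ ε T F G)
    (hG : G'.Sublist G) : Fam Φ ε T F G' :=
  ⟨h.ok, h.ext_le, h.sub, h.cmp, fun g hg => h.gh g (hG.subset hg),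
    fun g hg => h.last g (hG.subset hg), fun g hg => h.cur g (hG.subset hg), h.srt.sublist hG⟩

theorem Fam.mono_T {T T' : ℝ} {F : Finset CTree} {G : List Gh} (h : Fam Φ ε T F G)
    (hT : T ≤ T') : Fam Φ ε T' F G :=
  ⟨h.ok, fun P hP => (h.ext_le P hP).trans hT, h.sub, h.cmp, fun g hg => by
    obtain ⟨h1, h2, h3, h4, h5, h6, h7⟩ := h.gh g hg
    exact ⟨h1, h2, h3, h4, h5, h6.trans hT, h7⟩, h.last, h.cur, h.srt⟩

/-- Joined by the family and by additional edges. -/
def FX (F : Finset CTree) (G : List Gh) (es : List (Src × Src)) : Src → Src → Prop :=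
  Relation.EqvGen fun x y => FE F G x y ∨ (x, y) ∈ es

namespace FX

variable {F : Finset CTree} {G : List Gh} {es : List (Src × Src)} {x y z : Src}

theorem refl (F : Finset CTree) (G : List Gh) (es : List (Src × Src)) (x : Src) :
    FX F G es x x := Relation.EqvGen.refl x

theorem symm (h : FX F G es x y) : FX F G es y x := Relation.EqvGen.symm _ _ h

theorem trans (h : FX F G es x y) (h' : FX F G es y z) : FX F G es x z :=
  Relation.EqvGen.trans _ _ _ h h'

theorem edge (h : (x, y) ∈ es) : FX F G es x y := Relation.EqvGen.rel _ _ (Or.inr h)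

theorem of_FJ (h : FJ F G x y) : FX F G es x y := by
  induction h with
  | rel x y h => exact Relation.EqvGen.rel _ _ (Or.inl h)
  | refl x => exact refl _ _ _ _
  | symm _ _ _ ih => exact ih.symm
  | trans _ _ _ _ _ ih1 ih2 => exact ih1.trans ih2

theorem root (hF : ∀ a b, node a b ∈ F → a ∈ F ∧ b ∈ F) {S : CTree} (hS : S ∈ F) :
    ∀ x ∈ S.leaves, FX F G es x S.root := by
  induction S with
  | leaf σ =>
    intro x hx
    rw [mem_singleton_iff.1 hx]
    exact refl _ _ _ _
  | node a b iha ihb =>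
    have h1 := hF a b hS
    rintro x (hx | hx)
    · exact iha h1.1 x hx
    · exact (ihb h1.2 x hx).trans (of_FJ (FJ.node hS)).symm

end FX

/-- The last tree of an exploration. -/
def lastT : CTree → List (CTree × ℝ × CTree) → CTree
  | T, [] => T
  | _, (R, _, _) :: l => lastT R l

theorem lastT_mem : ∀ (T : CTree) (l : List (CTree × ℝ × CTree)),
    lastT T l ∈ T :: l.map Prod.fst
  | _, [] => List.mem_cons_self
  | _, (R, _, _) :: l => List.mem_cons_of_mem _ (lastT_mem R l)

variable {ι : Type*} {W : Finset ι → Set Src} {K : Finset ι}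

theorem lgs_cons {i : ι} {b : Bool} {R Y : CTree} {r : ℝ} {l : List (CTree × ℝ × CTree)} :
    lgs (lks K i b ((R, r, Y) :: l)) = (R, Y, r) :: lgs (lks K i (!b) l) := rfl

/-- **The labels of an exploration are joined to any source of the last tree.** -/
theorem RT.conn {w : Bool → Set Src} {T₀ : ℝ} {F : Finset CTree} {G : List Gh}
    (hF : Fam Φ ε T₀ F G) {i : ι} {b : Bool} {T : CTree} {s : ℝ} {l : List (CTree × ℝ × CTree)}
    (h : RT Φ ε L w b T s l) (hmem : ∀ t ∈ T :: l.map Prod.fst, t ∈ F)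
    (hG : ∀ g ∈ lgs (lks K i b l), g ∈ G) {σ : Src} (hσ : σ ∈ (lastT T l).leaves) :
    ∀ t ∈ T :: l.map Prod.fst, ∀ a ∈ t.leaves, FJ F G a σ := by
  induction h with
  | @stop b T s hl hσ' =>
    intro t ht a ha
    rw [List.map_nil, List.mem_singleton] at ht
    subst ht
    exact FJ.leaves hF (hmem _ List.mem_cons_self) ha hσ
  | @step b T R Y s r l hl hsub hr hno ha hna hk hc ht ih =>
    have ih' := ih (fun t h => hmem t (List.mem_cons_of_mem _ h))
      (fun g hg => hG g (by rw [lgs_cons]; exact List.mem_cons_of_mem _ hg)) hσ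
    intro t ht' a ha'
    rcases List.mem_cons.1 ht' with rfl | ht'
    · have h1 : FJ F G R.root σ := ih' R List.mem_cons_self R.root R.root_mem_leaves
      have h2 : FJ F G R.root Y.root :=
        FJ.ghost (g := (R, Y, r)) (hG _ (by rw [lgs_cons]; exact List.mem_cons_self))
      exact (FJ.leaves hF (hmem _ List.mem_cons_self) ha'
        (hk.at_.sub.leaves_subset Y.root_mem_leaves)).trans (h2.symm.trans h1)
    · exact ih' t ht' a ha'

/-- Removal of one ghost. -/
theorem exists_split {G G' : List Gh} {g : Gh} (h : G.Perm (g :: G')) :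
    ∃ G₁ G₂, G = G₁ ++ g :: G₂ ∧ (G₁ ++ G₂).Perm G' := by
  obtain ⟨G₁, G₂, rfl⟩ := List.append_of_mem (h.mem_iff.2 List.mem_cons_self)
  refine ⟨G₁, G₂, rfl, ?_⟩
  exact (List.perm_middle.symm.trans h).cons_inv

/-- The list without the ghost. -/
theorem sublist_split {G₁ G₂ : List Gh} {g : Gh} : (G₁ ++ G₂).Sublist (G₁ ++ g :: G₂) :=
  (List.Sublist.refl G₁).append (List.sublist_cons_self g G₂)

/-- A source which was inserted. -/
theorem exists_source (hC : CubeW W K) {i : ι} (hi : i ∈ K) {b : Bool} {T : CTree} {s : ℝ}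
    (h : live Φ ε L (wb W i b) T s) (hσ : ¬T.leaves ⊆ wb W i !b) :
    ∃ σ ∈ T.leaves, σ ∈ W {i} ∧ σ ∉ W ∅ := by
  cases b
  · exact absurd (h.sub.trans (CubeW.empty_sub hC (Finset.singleton_subset_iff.2 hi))) hσ
  · obtain ⟨σ, h1, h2⟩ := not_subset.1 hσ
    exact ⟨σ, h1, h.sub h1, h2⟩

end Vale.Agent.P119.IND
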