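import Vale.Agent.P119.IND.ExcProg
import Vale.Agent.P119.IND.Base
import Vale.Agent.P119.IND.Conn

/-!
# P119, block IND: adding a tree to an open program (`helper388`)

* `interleave`: two timed programs without common labels run together;
* `jn_sum`: the classes of the two programs on the sum of the types of labels;
* `exists_tree_prog`: the program of one tree;
* **`PrgO.add_tree`**: one more tree `R`: one more class;
* `PrgO.of_tree`: the program of one tree as an open program.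
-/

open MeasureTheory Filter Topology Set
open scoped ENNReal NNReal

noncomputable section

namespace Vale.Agent.P119.IND

open KU M M.CTree TL AU

variable {Φ : E3 → ℝ} {ε t : ℝ}

/-! ### Two programs without common labels -/

section Int

variable {ι : Type} [DecidableEq ι]

omit [DecidableEq ι] in
theorem Shr.symm {e e' : Ev ι} (h : Shr e e') : Shr e' e := by
  rcases h with h | h | h | h
  · exact Or.inl h.symm
  · exact Or.inr (Or.inr (Or.inl h.symm))
  · exact Or.inr (Or.inl h.symm)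
  · exact Or.inr (Or.inr (Or.inr h.symm))

/-- One step of the interleaving. -/
theorem runT_after {e : Ev ι × ℝ} {Q : List (Ev ι × ℝ)} {r : ℝ} {β : ι → ℝ} {Z : ι → Ph}
    (hQ : RunT Φ ε t r Q β Z) (he : ∀ e' ∈ Q, ¬Shr e.1 e'.1) (ht : ∀ e' ∈ Q, e.2 ≤ e'.2) :
    RunT Φ ε t e.2 Q (birthApp Φ ε e.1 β Z) (lineApp Φ ε e.1 Z) := by
  have hav : Avoid Q {j | j = e.1.fst ∨ j = e.1.snd} := by
    intro e' he'
    have h1 := he e' he'
    constructor
    · rintro (h2 | h2)
      · exact h1 (Or.inl h2.symm)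
      · exact h1 (Or.inr (Or.inr (Or.inl h2.symm)))
    · rintro (h2 | h2)
      · exact h1 (Or.inr (Or.inl h2.symm))
      · exact h1 (Or.inr (Or.inr (Or.inr h2.symm)))
  have h2 : RunT Φ ε t e.2 Q β Z := by
    cases Q with
    | nil => trivial
    | cons e' Q => exact ⟨ht e' List.mem_cons_self, hQ.2⟩
  exact h2.congr hav (fun j hj => birthApp_of_ne (fun h => hj (Or.inl h)) (fun h => hj (Or.inr h)) β Z)
    (fun j hj => lineApp_of_ne (fun h => hj (Or.inl h)) (fun h => hj (Or.inr h)) Z)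

/-- **Two timed programs without common labels.** -/
theorem interleave (n : ℕ) : ∀ (Q₀ Q₁ : List (Ev ι × ℝ)), Q₀.length + Q₁.length = n →
    ∀ {r : ℝ} {β : ι → ℝ} {Z : ι → Ph}, RunT Φ ε t r Q₀ β Z → RunT Φ ε t r Q₁ β Z →
    (∀ e ∈ Q₀, ∀ e' ∈ Q₁, ¬Shr e.1 e'.1) →
    ∃ M : List (Ev ι × ℝ), M.Perm (Q₀ ++ Q₁) ∧ RunT Φ ε t r M β Z := by
  induction n with
  | zero =>
    intro Q₀ Q₁ hn r β Z h0 h1 _
    have e0 : Q₀ = [] := List.length_eq_zero_iff.1 (by omega)
    have e1 : Q₁ = [] := List.length_eq_zero_iff.1 (by omega)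
    subst e0 e1
    exact ⟨[], List.Perm.refl _, trivial⟩
  | succ n ih =>
    intro Q₀ Q₁ hn r β Z h0 h1 hS
    cases Q₀ with
    | nil => exact ⟨Q₁, List.Perm.refl _, h1⟩
    | cons e Q₀ =>
      cases Q₁ with
      | nil => exact ⟨e :: Q₀, by simp, h0⟩
      | cons e' Q₁ =>
        rcases le_total e.2 e'.2 with hle | hle
        · have h2 : RunT Φ ε t e.2 (e' :: Q₁) (birthApp Φ ε e.1 β Z) (lineApp Φ ε e.1 Z) := by
            refine runT_after h1 (fun a ha => hS e List.mem_cons_self a ha) fun a ha => ?_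
            rcases List.mem_cons.1 ha with rfl | ha
            · exact hle
            · exact hle.trans (h1.2.2.2.times a ha)
          obtain ⟨M, m1, m2⟩ := ih Q₀ (e' :: Q₁) (by
              simp only [List.length_cons] at hn ⊢; omega) h0.2.2.2 h2
            (fun a ha b hb => hS a (List.mem_cons_of_mem _ ha) b hb)
          exact ⟨e :: M, m1.cons e, h0.1, h0.2.1, h0.2.2.1, m2⟩
        · have h2 : RunT Φ ε t e'.2 (e :: Q₀) (birthApp Φ ε e'.1 β Z) (lineApp Φ ε e'.1 Z) := by
            refine runT_after h0 (fun a ha h => hS a ha e' List.mem_cons_self h.symm)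
              fun a ha => ?_
            rcases List.mem_cons.1 ha with rfl | ha
            · exact hle
            · exact hle.trans (h0.2.2.2.times a ha)
          obtain ⟨M, m1, m2⟩ := ih (e :: Q₀) Q₁ (by
              simp only [List.length_cons] at hn ⊢; omega) h2 h1.2.2.2
            (fun a ha b hb => hS a ha b (List.mem_cons_of_mem _ hb))
          exact ⟨e' :: M, (m1.cons e').trans List.perm_middle.symm, h1.1, h1.2.1, h1.2.2.1, m2⟩

end Int

/-! ### The classes on the sum of the types of labels -/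

section Sum

variable {ι κ : Type} [DecidableEq ι] [DecidableEq κ]

theorem jn_sum {A : List (Ev ι × ℝ)} {B : List (Ev κ × ℝ)} {a b : ι ⊕ κ}
    (h : Jn (mapP Sum.inl A ++ mapP Sum.inr B) a b) : Sum.LiftRel (Jn A) (Jn B) a b := by
  induction h with
  | rel a b hr =>
    obtain ⟨e, he, rfl, rfl⟩ := hr
    rcases List.mem_append.1 he with h1 | h1
    · obtain ⟨e', he', rfl⟩ := List.mem_map.1 h1
      simp only [Ev.map_fst, Ev.map_snd]
      exact Sum.LiftRel.inl (jn_of_mem he')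
    · obtain ⟨e', he', rfl⟩ := List.mem_map.1 h1
      simp only [Ev.map_fst, Ev.map_snd]
      exact Sum.LiftRel.inr (jn_of_mem he')
  | refl a =>
    cases a with
    | inl i => exact Sum.LiftRel.inl (Jn.refl _ i)
    | inr k => exact Sum.LiftRel.inr (Jn.refl _ k)
  | symm a b _ ih =>
    cases ih with
    | inl h => exact Sum.LiftRel.inl h.symm
    | inr h => exact Sum.LiftRel.inr h.symm
  | trans a b c _ _ ih1 ih2 =>
    cases ih1 with
    | inl h =>
      cases ih2 with
      | inl h' => exact Sum.LiftRel.inl (h.trans h')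
    | inr h =>
      cases ih2 with
      | inr h' => exact Sum.LiftRel.inr (h.trans h')

theorem not_shr_sum {A : List (Ev ι × ℝ)} {B : List (Ev κ × ℝ)} :
    ∀ e ∈ mapP (Sum.inl : ι → ι ⊕ κ) A, ∀ e' ∈ mapP (Sum.inr : κ → ι ⊕ κ) B,
      ¬Shr e.1 e'.1 := by
  intro e he e' he'
  obtain ⟨a, -, rfl⟩ := List.mem_map.1 he
  obtain ⟨b, -, rfl⟩ := List.mem_map.1 he'
  unfold Shr
  simp only [Ev.map_fst, Ev.map_snd]
  rintro (h | h | h | h) <;> cases h

end Sum

/-! ### The program of one tree -/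

/-- The labels of a tree. -/
abbrev Lbl (R : CTree) : Type := {σ : Src // σ ∈ lab (partsF R)}

theorem range_lbl (R : CTree) : range (Subtype.val : Lbl R → Src) = R.leaves := by
  rw [Subtype.range_val, ← lab_partsF]

theorem card_partsF_le {R : CTree} {L : ℕ} (hd : R.depth ≤ L) :
    (partsF R).card ≤ 2 ^ (L + 2) := by
  have h1 : partsF R ⊆ pf R := fun P hP =>
    Finset.mem_coe.1 (parts_subset_pf R (mem_partsF.1 hP))
  have h2 := Finset.card_le_card h1
  have h3 := pf_card_le R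
  have h4 : 2 ^ (R.depth + 2) ≤ 2 ^ (L + 2) := Nat.pow_le_pow_right (by norm_num) (by omega)
  omega

theorem card_lbl_le {R : CTree} {L : ℕ} (hd : R.depth ≤ L) :
    Fintype.card (Lbl R) ≤ 2 ^ (L + 2) := by
  rw [Fintype.card_coe]
  exact Finset.card_image_le.trans (card_partsF_le hd)

theorem card_nl_partsF_le {R : CTree} {L : ℕ} (hd : R.depth ≤ L) :
    (nl (partsF R)).card ≤ 2 ^ (L + 2) := by
  classical
  exact (Finset.card_filter_le _ _).trans (card_partsF_le hd)

theorem lbl_mem {R : CTree} (k : Lbl R) : k.1 ∈ R.leaves := by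
  rw [← range_lbl R]
  exact ⟨k, rfl⟩

/-- **The program of one tree.** -/
theorem exists_tree_prog (hΦ : IsPotential Φ) (hε : 0 < ε) {R : CTree} (hR : CTree.ok Φ ε R)
    (he : ext Φ ε R ≤ t) {L : ℕ} (hd : R.depth ≤ L) [DecidableEq (Lbl R)] :
    ∃ Q : List (Ev (Lbl R) × ℝ), Q.length ≤ 2 ^ (L + 2) ∧ Wf Q ∧ (∀ i k, Jn Q i k) ∧
      RunT Φ ε t 0 Q (fun k => k.1.1) (fun k => k.1.2.1) := by
  have h1 : ∀ k : Lbl R, ∃ S ∈ outs R, S.root = k.1 := fun k => TL.exists_out (lbl_mem k)
  choose S hS hr using h1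
  obtain ⟨Q, h2, h3, h4, -⟩ := BaseP.of_tree hΦ hε hR he (κ := Lbl R) (z := Subtype.val)
    (x := fun k => (ext Φ ε (S k), ln Φ ε (S k), (Fintype.equivFin (Lbl R) k : ℕ)))
    Subtype.val_injective (range_lbl R)
    (fun k => ⟨S k, hS k, hr k, rfl, le_rfl⟩)
    (fun i k hik => by
      have h5 : ((Fintype.equivFin (Lbl R) i : Fin _) : ℕ) = (Fintype.equivFin (Lbl R) k : Fin _) :=
        congrArg (fun x : Src => x.2.2) hik
      exact (Fintype.equivFin (Lbl R)).injective (Fin.ext h5))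
  refine ⟨Q, ?_, h2.wf, h4, h2.run⟩
  have h5 := card_nl_partsF_le (R := R) hd
  omega

/-! ### Adding a tree -/

theorem birth_leaf {R : CTree} (hR : CTree.ok Φ ε R) : ∀ σ ∈ R.leaves, 0 ≤ σ.1 := by
  induction R with
  | leaf σ =>
    intro τ hτ
    rw [mem_singleton_iff.1 hτ]
    exact hR
  | node a b iha ihb =>
    rintro τ (h | h)
    · exact iha hR.1 τ h
    · exact ihb hR.2.1 τ h

/-- The labellings after adding a tree. -/
theorem LabT.add_tree {m q : ℕ} {T : Fin m → CTree} {R : CTree} {l : Fin q → Src} {w : Finset Ph}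
    (hbase : Base Φ ε (Fin.snoc T R : Fin (m + 1) → CTree) l) {ι : Type} {z : ι → Src}
    (hz : LabT T l w z) (hw : ∀ i, z i ∈ wS w → z i ∉ R.leaves) :
    LabT (Fin.snoc T R : Fin (m + 1) → CTree) l w (Sum.elim z (Subtype.val : Lbl R → Src)) := by
  have hTR : ∀ j, Disjoint (T j).leaves R.leaves := by
    intro j
    have h1 := hbase.disj j.castSucc (Fin.last m) (Fin.castSucc_lt_last j).ne
    rwa [Fin.snoc_castSucc, Fin.snoc_last] at h1
  have hlR : ∀ j, l j ∉ R.leaves := by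
    intro j
    have h1 := hbase.notMem (Fin.last m) j
    rwa [Fin.snoc_last] at h1
  have hnR : ∀ i, z i ∉ R.leaves := by
    intro i
    rcases hz.mem i with ⟨j, hj⟩ | ⟨j, hj⟩ | h
    · exact Set.disjoint_left.1 (hTR j) hj
    · rw [← hj]; exact hlR j
    · exact hw i h
  refine ⟨?_, ?_, ?_, ?_⟩
  · rintro (i | i) (k | k) hik
    · exact congrArg Sum.inl (hz.inj hik)
    · exact absurd (show z i ∈ R.leaves from (show z i = k.1 from hik) ▸ lbl_mem k) (hnR i)
    · exact absurd (show z k ∈ R.leaves from (show i.1 = z k from hik) ▸ lbl_mem i) (hnR k)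
    · exact congrArg Sum.inr (Subtype.ext hik)
  · rintro (i | i)
    · rcases hz.mem i with ⟨j, hj⟩ | h | h
      · left
        exact ⟨j.castSucc, by rw [Fin.snoc_castSucc]; exact hj⟩
      · exact Or.inr (Or.inl h)
      · exact Or.inr (Or.inr h)
    · left
      exact ⟨Fin.last m, by rw [Fin.snoc_last]; exact lbl_mem i⟩
  · intro j
    refine Fin.lastCases ?_ (fun j => ?_) j
    · rw [Fin.snoc_last]
      intro σ hσ
      rw [← range_lbl R] at hσ
      obtain ⟨k, rfl⟩ := hσ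
      exact ⟨Sum.inr k, rfl⟩
    · rw [Fin.snoc_castSucc]
      intro σ hσ
      obtain ⟨i, rfl⟩ := hz.trees j hσ
      exact ⟨Sum.inl i, rfl⟩
  · intro j
    obtain ⟨i, hi⟩ := hz.lines j
    exact ⟨Sum.inl i, hi⟩

/-- **One more tree, one more class.** -/
theorem PrgO.add_tree' (hΦ : IsPotential Φ) (hε : 0 < ε) {m q : ℕ} {T : Fin m → CTree}
    {R : CTree} {l : Fin q → Src} {w : Finset Ph}
    (hbase : Base Φ ε (Fin.snoc T R : Fin (m + 1) → CTree) l) (hl : ∀ j, 0 ≤ (l j).1)
    (hw : ∀ σ ∈ wS w, σ ∉ R.leaves) {c₀ N L : ℕ}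
    (h : PrgO Φ ε t c₀ N T l w) (he : ext Φ ε R ≤ t) (hd : R.depth ≤ L) :
    PrgO Φ ε t (c₀ + 1) (N + 2 ^ (L + 2)) (Fin.snoc T R : Fin (m + 1) → CTree) l w := by
  classical
  have hR : CTree.ok Φ ε R := by
    have h1 := hbase.ok (Fin.last m)
    rwa [Fin.snoc_last] at h1
  have hT : ∀ j, CTree.ok Φ ε (T j) := fun j => by
    have h1 := hbase.ok j.castSucc
    rwa [Fin.snoc_castSucc] at h1
  obtain ⟨n, hn, z, P, Rs, h1, h2, h3, h4, h5, h6⟩ := h
  obtain ⟨Q₁, g1, -, g3, g4⟩ := exists_tree_prog (t := t) hΦ hε hR he hd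
  obtain ⟨Q₀, e0, r0⟩ := Run.exists_timed h6
  have e0' : Q₀.map Prod.fst = P := by
    rw [e0]
    unfold pl
    rw [List.map_map]
    exact List.map_id P
  set z' : Fin n ⊕ Lbl R → Src := Sum.elim z (Subtype.val : Lbl R → Src) with hz'
  have hL := h2.add_tree hbase fun i hi => hw _ hi
  have hb : ∀ i, 0 ≤ (z' i).1 := by
    rintro (i | i)
    · exact h2.birth (fun j => birth_leaf (hT j)) hl i
    · exact birth_leaf hR _ (lbl_mem i)
  have hr0 : RunT Φ ε t 0 (mapP (Sum.inl : Fin n → Fin n ⊕ Lbl R) Q₀) (fun i => (z' i).1)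
      fun i => (z' i).2.1 := (runT_map Sum.inl_injective Q₀ 0 _ _).2 r0
  have hr1 : RunT Φ ε t 0 (mapP (Sum.inr : Lbl R → Fin n ⊕ Lbl R) Q₁) (fun i => (z' i).1)
      fun i => (z' i).2.1 := (runT_map Sum.inr_injective Q₁ 0 _ _).2 g4
  obtain ⟨M, m1, m2⟩ := interleave _ _ _ rfl hr0 hr1 not_shr_sum
  obtain ⟨σ₀, hσ₀⟩ := R.leaves_nonempty
  have hσ₁ : σ₀ ∈ lab (partsF R) := by
    rw [← Finset.mem_coe, lab_partsF]
    exact hσ₀
  have hlen : (M.map Prod.fst).length ≤ N + 2 ^ (L + 2) := by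
    have h7 := m1.length_eq
    rw [List.length_append] at h7
    unfold mapP at h7
    rw [List.length_map, List.length_map] at h7
    have h8 : Q₀.length = P.length := by rw [← e0', List.length_map]
    rw [List.length_map]
    omega
  have hJ : ∀ a b, Jn (pl t (M.map Prod.fst)) a b ↔ Jn (mapP Sum.inl Q₀ ++ mapP Sum.inr Q₁) a b :=
    fun a b => (jn_pl t M).trans (jn_perm m1)
  have hJ0 : ∀ i k, Jn Q₀ i k ↔ Jn (pl t P) i k := fun i k => jn_fst e0
  have hcard : Fintype.card (Fin n ⊕ Lbl R) ≤ N + 2 ^ (L + 2) := by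
    rw [Fintype.card_sum, Fintype.card_fin]
    exact add_le_add hn (card_lbl_le hd)
  refine PrgO.of_fintype (z := z') (P := M.map Prod.fst)
    (Rs := insert (Sum.inr ⟨σ₀, hσ₁⟩) (Rs.map ⟨Sum.inl, Sum.inl_injective⟩)) hcard hlen hL
    ⟨?_, ?_⟩ ?_ ?_ (m2.run hΦ hε hb)
  · rintro (i | i)
    · obtain ⟨r, hr, hJr⟩ := h3.cov i
      refine ⟨Sum.inl r, Finset.mem_insert_of_mem (Finset.mem_map.2 ⟨r, hr, rfl⟩), ?_⟩
      rw [hJ]
      exact (((hJ0 i r).2 hJr).map Sum.inl).mono fun e he => List.mem_append_left _ he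
    · refine ⟨_, Finset.mem_insert_self _ _, ?_⟩
      rw [hJ]
      exact ((g3 i ⟨σ₀, hσ₁⟩).map Sum.inr).mono fun e he => List.mem_append_right _ he
  · intro r hr r' hr' hrr
    rw [hJ] at hrr
    have h7 := jn_sum hrr
    rcases Finset.mem_insert.1 hr with rfl | hr
    · rcases Finset.mem_insert.1 hr' with rfl | hr'
      · rfl
      · obtain ⟨s, -, rfl⟩ := Finset.mem_map.1 hr'
        cases h7
    · obtain ⟨s, hs, rfl⟩ := Finset.mem_map.1 hr
      rcases Finset.mem_insert.1 hr' with rfl | hr'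
      · cases h7
      · obtain ⟨s', hs', rfl⟩ := Finset.mem_map.1 hr'
        cases h7 with
        | inl h8 => rw [h3.uni s hs s' hs' ((hJ0 s s').1 h8)]
  · refine (Finset.card_insert_le _ _).trans ?_
    rw [Finset.card_map]
    omega
  · intro i hi
    rcases Finset.mem_insert.1 hi with rfl | hi
    · rintro ⟨j, hj⟩
      have h7 := hbase.notMem (Fin.last m) j
      rw [Fin.snoc_last] at h7
      exact h7 (by rw [hj]; exact hσ₀)
    · obtain ⟨r, hr, rfl⟩ := Finset.mem_map.1 hi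
      exact h5 r hr

theorem notMem_wS_empty (σ : Src) : σ ∉ wS (∅ : Finset Ph) := by
  unfold wS
  rw [Finset.map_empty]
  exact Finset.notMem_empty σ

/-- **One more tree, one more class**, without a world. -/
theorem PrgO.add_tree (hΦ : IsPotential Φ) (hε : 0 < ε) {m q : ℕ} {T : Fin m → CTree}
    {R : CTree} {l : Fin q → Src}
    (hbase : Base Φ ε (Fin.snoc T R : Fin (m + 1) → CTree) l) (hl : ∀ j, 0 ≤ (l j).1)
    {c₀ N L : ℕ} (h : PrgO Φ ε t c₀ N T l ∅) (he : ext Φ ε R ≤ t) (hd : R.depth ≤ L) :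
    PrgO Φ ε t (c₀ + 1) (N + 2 ^ (L + 2)) (Fin.snoc T R : Fin (m + 1) → CTree) l ∅ :=
  h.add_tree' hΦ hε hbase hl (fun σ hσ => absurd hσ (notMem_wS_empty σ)) he hd

/-- The empty program. -/
theorem PrgO.empty {T : Fin 0 → CTree} {l : Fin 0 → Src} {w : Finset Ph} :
    PrgO Φ ε t 0 0 T l w :=
  ⟨0, le_rfl, Fin.elim0, [], ∅, le_rfl,
    ⟨fun i => i.elim0, fun i => i.elim0, fun j => j.elim0, fun j => j.elim0⟩,
    ⟨fun i => i.elim0, fun i => i.elim0⟩, le_rfl, fun i => i.elim0, trivial⟩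

/-- The base structure of one tree. -/
theorem base_tree {R : CTree} (hR : CTree.ok Φ ε R) (l : Fin 0 → Src) :
    Base Φ ε (fun _ : Fin 1 => R) l :=
  ⟨fun _ => hR, fun i j hij => absurd (Subsingleton.elim i j) hij, fun i => i.elim0,
    fun _ j => j.elim0⟩

/-- **The program of one tree.** -/
theorem PrgO.of_tree (hΦ : IsPotential Φ) (hε : 0 < ε) {R : CTree} (hR : CTree.ok Φ ε R)
    (l : Fin 0 → Src) {L : ℕ} (he : ext Φ ε R ≤ t) (hd : R.depth ≤ L) :
    PrgO Φ ε t 1 (2 ^ (L + 2)) (fun _ : Fin 1 => R) l ∅ := by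
  have e : (Fin.snoc (Fin.elim0 : Fin 0 → CTree) R : Fin (0 + 1) → CTree) =
      fun _ : Fin 1 => R := by
    funext i
    have hi : i = Fin.last 0 := Fin.ext (by have := i.2; omega)
    rw [hi, Fin.snoc_last]
  have h := PrgO.add_tree (Φ := Φ) (ε := ε) (t := t) hΦ hε (T := (Fin.elim0 : Fin 0 → CTree))
    (R := R) (l := l) (by rw [e]; exact base_tree hR l) (fun i => i.elim0) PrgO.empty he hd
  rw [e] at h
  simpa using h

/-- The program of several trees. -/
theorem PrgO.of_trees (hΦ : IsPotential Φ) (hε : 0 < ε) {l : Fin 0 → Src} {L : ℕ} :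
    ∀ {m : ℕ} {T : Fin m → CTree}, Base Φ ε T l → (∀ j, ext Φ ε (T j) ≤ t) →
      (∀ j, (T j).depth ≤ L) → PrgO Φ ε t m (m * 2 ^ (L + 2)) T l ∅ := by
  intro m
  induction m with
  | zero =>
    intro T _ _ _
    rw [Nat.zero_mul]
    exact PrgO.empty
  | succ m ih =>
    intro T hB he hd
    have e : (Fin.snoc (fun j : Fin m => T j.castSucc) (T (Fin.last m)) : Fin (m + 1) → CTree) =
        T := by
      funext j
      refine Fin.lastCases ?_ (fun j => ?_) j
      · rw [Fin.snoc_last]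
      · rw [Fin.snoc_castSucc]
    have h1 : Base Φ ε (fun j : Fin m => T j.castSucc) l :=
      ⟨fun j => hB.ok _, fun i j hij => hB.disj _ _ fun h => hij (Fin.castSucc_injective m h),
        hB.inj, fun i j => hB.notMem _ j⟩
    have h := PrgO.add_tree (Φ := Φ) (ε := ε) (t := t) hΦ hε (T := fun j : Fin m => T j.castSucc)
      (R := T (Fin.last m)) (l := l) (by rw [e]; exact hB) (fun i => i.elim0)
      (ih h1 (fun j => he _) fun j => hd _) (he _) (hd _)
    rw [e] at h
    rw [Nat.succ_mul]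
    exact h

end Vale.Agent.P119.IND
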