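import Vale.Agent.P119.IND.CleanChain
import Vale.Agent.P119.ML.Cls

/-!
# P119, block IND: classification of the first hits (`helper472`)

`link_cls`: if `R` hits `T` at time `r` and not before, then `R` is in contact with the leg `Y` of
`T` (`TL.At`), and the contact is regular (`RegLink`) or irregular (`LinkIrr`): with a third body, at the
end of a collision or at a birth, or grazing.  `link_cases` is the form of `helper498`.
-/

open MeasureTheory Filter Topology Set
open scoped ENNReal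

noncomputable section

namespace Vale.Agent.P119.IND

open KU M CTree TL

variable {Φ : E3 → ℝ} {ε : ℝ} {L : ℕ}

/-- The parent of the leg which is hit. -/
theorem at_par {y q p b : CTree} {s : ℝ} (h : TL.At Φ ε y s q p) (hp : ok Φ ε p) :
    (Sub (node q b) p → s ≤ sig Φ ε (node q b) ∧ ¬(y = b ∧ s = sig Φ ε (node q b))) ∧
    (Sub (node b q) p → s ≤ sig Φ ε (node b q) ∧ ¬(y = b ∧ s = sig Φ ε (node b q))) := by
  induction h with
  | refl =>
    constructor <;>
    · intro h
      have h1 := h.card_le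
      have h2 := b.card_pos
      simp only [CTree.card] at h1
      omega
  | @left a c h hs hne ih =>
    obtain ⟨i1, i2⟩ := ih hp.1
    have hq : ∀ {P : CTree}, Sub q P → Sub P c → False := fun h1 h2 =>
      disjoint_left.1 hp.2.2.1 (h.sub.leaves_subset q.root_mem_leaves)
        ((h1.trans h2).leaves_subset q.root_mem_leaves)
    constructor
    · intro h1
      cases h1 with
      | refl => exact ⟨hs, hne⟩
      | left _ h1 => exact i1 h1
      | right _ h1 => exact (hq (Sub.left b (Sub.refl q)) h1).elim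
    · intro h1
      cases h1 with
      | refl => exact (hq (Sub.refl q) (Sub.refl _)).elim
      | left _ h1 => exact i2 h1
      | right _ h1 => exact (hq (Sub.right b (Sub.refl q)) h1).elim
  | @right a c h hs hne ih =>
    obtain ⟨i1, i2⟩ := ih hp.2.1
    have hq : ∀ {P : CTree}, Sub q P → Sub P a → False := fun h1 h2 =>
      disjoint_left.1 hp.2.2.1 ((h1.trans h2).leaves_subset q.root_mem_leaves)
        (h.sub.leaves_subset q.root_mem_leaves)
    constructor
    · intro h1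
      cases h1 with
      | refl => exact (hq (Sub.refl q) (Sub.refl _)).elim
      | left _ h1 => exact (hq (Sub.left b (Sub.refl q)) h1).elim
      | right _ h1 => exact i1 h1
    · intro h1
      cases h1 with
      | refl => exact ⟨hs, hne⟩
      | left _ h1 => exact (hq (Sub.right b (Sub.refl q)) h1).elim
      | right _ h1 => exact i2 h1

/-- Irregular first hits of `T` by `R` at time `r`, on the leg `Y`. -/
inductive LinkIrr (Φ : E3 → ℝ) (ε : ℝ) (T R Y : CTree) (r : ℝ) : Prop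
  /-- a third body in contact with a colliding pair; `Y` is the pair, or one of its two members at
  the beginning of the collision (and `R` is not the other one) -/
  | tri {a b : CTree} (hs : Sub (node a b) T) (hY : Y = node a b ∨ (Y = a ∧ R ≠ b) ∨ (Y = b ∧ R ≠ a))
      (h1 : sig Φ ε (node a b) ≤ r) (h2 : r ≤ ext Φ ε (node a b)) (hR : ext Φ ε R ≤ r)
      (hd : Disjoint Y.leaves R.leaves)
      (h3 : Ctc ε (st Φ ε (node a b) r) (KU.free r (ln Φ ε R)) ∨
        Ctc ε (st Φ ε (node b a) r) (KU.free r (ln Φ ε R)))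
  /-- a contact at the beginning of a free line -/
  | born (h1 : ext Φ ε Y ≤ r) (h2 : ext Φ ε R ≤ r) (h : r = ext Φ ε Y ∨ r = ext Φ ε R)
      (hd : Disjoint Y.leaves R.leaves) (h3 : Ctc ε (KU.free r (ln Φ ε Y)) (KU.free r (ln Φ ε R)))
      (hp : ∀ b, Sub (node Y b) T ∨ Sub (node b Y) T → r < sig Φ ε (node Y b))
  /-- a grazing contact -/
  | graze (h1 : ext Φ ε Y < r) (h2 : ext Φ ε R < r) (hd : Disjoint Y.leaves R.leaves)
      (h3 : ‖(KU.free r (ln Φ ε R)).1 - (KU.free r (ln Φ ε Y)).1‖ = ε)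
      (h4 : (inner ℝ ((KU.free r (ln Φ ε R)).1 - (KU.free r (ln Φ ε Y)).1)
        ((KU.free r (ln Φ ε R)).2 - (KU.free r (ln Φ ε Y)).2) : ℝ) = 0)
      (hp : ∀ b, Sub (node Y b) T ∨ Sub (node b Y) T → r < sig Φ ε (node Y b))

/-- **Classification of the first hits.** -/
theorem link_cls (hΦ : IsPotential Φ) (hε : 0 < ε) {T R : CTree} {r : ℝ} (hT : ok Φ ε T)
    (hh : hit Φ ε T R r) (hf : ∀ s, ext Φ ε R ≤ s → s < r → ¬hit Φ ε T R s) :
    ∃ Y, TL.At Φ ε R r Y T ∧ own Φ ε Y R r ∧ (RegLink Φ ε T R Y r ∨ LinkIrr Φ ε T R Y r) := by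
  obtain ⟨Y, hat, hown⟩ := (hit_iff_at hΦ).1 hh
  refine ⟨Y, hat, hown, ?_⟩
  have hYT := hat.sub
  have hYok := hYT.ok hT
  obtain ⟨hsY, heR, hd, hc⟩ := hown
  rcases le_or_gt r (ext Φ ε Y) with h1 | h1
  · -- during the last collision of `Y` or at its birth
    right
    rcases Y with σ | ⟨a, b⟩
    · have h2 : r = ext Φ ε (leaf σ) := le_antisymm h1 hsY
      refine LinkIrr.born h2.ge heR (Or.inl h2) hd ?_ fun b hb => ?_
      · rcases hc with hc | ⟨h3, -⟩
        · exact hc
        · exact absurd h3 (not_lt.2 h2.ge)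
      · rcases hb with hb | hb
        · rw [h2]
          exact (hb.ok hT).2.2.2.2.2.1
        · rw [h2, sig_swap]
          exact (hb.ok hT).2.2.2.2.2.2
    · refine LinkIrr.tri hYT (Or.inl rfl) hsY h1 heR hd ?_
      rcases hc with hc | ⟨h3, c, d, h4, hc⟩
      · exact Or.inl hc
      · cases h4
        exact Or.inr hc
  · have hc' : Ctc ε (KU.free r (ln Φ ε Y)) (KU.free r (ln Φ ε R)) := by
      rcases hc with hc | ⟨h3, -⟩
      · rwa [st_after hΦ hε hYok h1.le] at hc
      · exact absurd h3 (not_lt.2 h1.le)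
    by_cases hpar : ∀ b, Sub (node Y b) T ∨ Sub (node b Y) T → r < sig Φ ε (node Y b)
    swap
    · -- at the beginning of the next collision
      right
      push Not at hpar
      obtain ⟨b, hb, h2⟩ := hpar
      have hp := at_par (b := b) hat hT
      rcases hb with hb | hb
      · obtain ⟨h3, h4⟩ := hp.1 hb
        have h5 : r = sig Φ ε (node Y b) := le_antisymm h3 h2
        have hok := hb.ok hT
        refine LinkIrr.tri hb (Or.inr (Or.inl ⟨rfl, fun h => h4 ⟨h, h5⟩⟩)) h5.ge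
          (h5.le.trans (sig_lt_ext hΦ hε hok).le) heR hd (Or.inl ?_)
        rw [h5, st_sig hΦ hε hok, ← h5, st_after hΦ hε hYok h1.le]
        exact hc'
      · obtain ⟨h3, h4⟩ := hp.2 hb
        rw [sig_swap] at h2
        have h5 : r = sig Φ ε (node b Y) := le_antisymm h3 h2
        have hok := hb.ok hT
        refine LinkIrr.tri hb (Or.inr (Or.inr ⟨rfl, fun h => h4 ⟨h, h5⟩⟩)) h5.ge
          (h5.le.trans (sig_lt_ext hΦ hε hok).le) heR hd (Or.inr ?_)
        have h6 : r = sig Φ ε (node Y b) := by rw [h5, sig_swap]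
        rw [h6, st_sig hΦ hε (ok_swap hΦ hok), ← h6, st_after hΦ hε hYok h1.le]
        exact hc'
    · rcases heR.lt_or_eq with h2 | h2
      swap
      · exact Or.inr (LinkIrr.born h1.le heR (Or.inr h2.symm) hd hc' hpar)
      -- no contact before
      have hno : ∀ s, max (ext Φ ε Y) (ext Φ ε R) ≤ s → s < r →
          ¬Ctc ε (KU.free s (ln Φ ε R)) (KU.free s (ln Φ ε Y)) := by
        intro s hs hsr hcs
        have h3 := (le_max_left _ _).trans hs
        have h4 := (le_max_right _ _).trans hs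
        refine hf s h4 hsr ((hit_iff_at hΦ).2 ⟨Y, hat.of_lt hsr, ?_, h4, hd, Or.inl ?_⟩)
        · exact (sig_le_ext hΦ hε hYok).trans h3
        · rw [st_after hΦ hε hYok h3]
          exact hcs.symm
      have hfr : ∃ᶠ s in 𝓝[<] r, ¬Ctc ε (KU.free s (ln Φ ε R)) (KU.free s (ln Φ ε Y)) := by
        refine Eventually.frequently ?_
        filter_upwards [Ioo_mem_nhdsLT (max_lt h1 h2)] with s hs
        exact hno s hs.1.le hs.2
      obtain ⟨h3, h4⟩ := ML.first_ctc hc'.symm hfr
      rcases h4.lt_or_eq with h4 | h4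
      · obtain ⟨h5, h6⟩ := ML.meets_of_entrance hε h3 h4
        exact Or.inl ⟨hat, hpar, hd, h2, h1, h5, h6⟩
      · exact Or.inr (LinkIrr.graze h1 h2 hd h3 h4 hpar)

/-- A contact of two free lines which begins at `r` and is not an entrance at `hitT`. -/
def Graze (Φ : E3 → ℝ) (ε : ℝ) (R Y : CTree) (r : ℝ) : Prop :=
  max (ext Φ ε R) (ext Φ ε Y) < r ∧ Ctc ε (KU.free r (ln Φ ε R)) (KU.free r (ln Φ ε Y)) ∧
    (∀ u, max (ext Φ ε R) (ext Φ ε Y) ≤ u → u < r →
      ¬Ctc ε (KU.free u (ln Φ ε R)) (KU.free u (ln Φ ε Y))) ∧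
    ¬(Meets ε (ln Φ ε R, ln Φ ε Y) ∧ hitT ε (ln Φ ε R, ln Φ ε Y) = r)

/-- **Classification of the first hits by alive trees.** -/
theorem link_cases (hΦ : IsPotential Φ) (hε : 0 < ε) {V : Set Src} {T R : CTree}
    {r : ℝ} (hT : ok Φ ε T)
    (hfree : ∀ X s, s < r → hit Φ ε T X s → ¬alive Φ ε L V X s) (hR : alive Φ ε L V R r)
    (hh : hit Φ ε T R r) :
    ∃ Y, TL.At Φ ε R r Y T ∧ Disjoint Y.leaves R.leaves ∧ sig Φ ε Y ≤ r ∧
      ((r < ext Φ ε Y ∧ ∃ a b, Y = node a b ∧
        (Ctc ε (st Φ ε (node a b) r) (KU.free r (ln Φ ε R)) ∨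
          Ctc ε (st Φ ε (node b a) r) (KU.free r (ln Φ ε R)))) ∨
      (ext Φ ε Y ≤ r ∧ Ctc ε (KU.free r (ln Φ ε R)) (KU.free r (ln Φ ε Y)) ∧
        (RegLink Φ ε T R Y r ∨
          (∃ b, (Sub (node Y b) T ∨ Sub (node b Y) T) ∧ sig Φ ε (node Y b) = r ∧ R ≠ b) ∨
          r = max (ext Φ ε R) (ext Φ ε Y) ∨ Graze Φ ε R Y r))) := by
  have hf : ∀ s, ext Φ ε R ≤ s → s < r → ¬hit Φ ε T R s := fun s h1 h2 h3 =>
    hfree R s h2 h3 (alive_anti hR h2.le h1)
  obtain ⟨Y, hat, hown⟩ := (hit_iff_at hΦ).1 hh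
  have hYT := hat.sub
  have hYok := hYT.ok hT
  obtain ⟨hsY, heR, hd, hc⟩ := hown
  refine ⟨Y, hat, hd, hsY, ?_⟩
  rcases lt_or_ge r (ext Φ ε Y) with h1 | h1
  · left
    refine ⟨h1, ?_⟩
    rcases Y with σ | ⟨a, b⟩
    · exact absurd h1 (not_lt.2 hsY)
    · refine ⟨a, b, rfl, ?_⟩
      rcases hc with hc | ⟨-, c, d, h4, hc⟩
      · exact Or.inl hc
      · cases h4
        exact Or.inr hc
  · right
    have hc' : Ctc ε (KU.free r (ln Φ ε R)) (KU.free r (ln Φ ε Y)) := by
      rcases hc with hc | ⟨h3, -⟩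
      · rw [st_after hΦ hε hYok h1] at hc
        exact hc.symm
      · exact absurd h3 (not_lt.2 h1)
    refine ⟨h1, hc', ?_⟩
    by_cases hpar : ∀ b, Sub (node Y b) T ∨ Sub (node b Y) T → r < sig Φ ε (node Y b)
    swap
    · right; left
      push Not at hpar
      obtain ⟨b, hb, h2⟩ := hpar
      have hp := at_par (b := b) hat hT
      refine ⟨b, hb, ?_⟩
      rcases hb with hb | hb
      · obtain ⟨h3, h4⟩ := hp.1 hb
        have h5 : r = sig Φ ε (node Y b) := le_antisymm h3 h2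
        exact ⟨h5.symm, fun h => h4 ⟨h, h5⟩⟩
      · obtain ⟨h3, h4⟩ := hp.2 hb
        have h5 : r = sig Φ ε (node Y b) := le_antisymm (by rw [sig_swap]; exact h3) h2
        exact ⟨h5.symm, fun h => h4 ⟨h, by rw [h5, sig_swap]⟩⟩
    · by_cases hmax : r = max (ext Φ ε R) (ext Φ ε Y)
      · exact Or.inr (Or.inr (Or.inl hmax))
      have hlt : max (ext Φ ε R) (ext Φ ε Y) < r := lt_of_le_of_ne (max_le heR h1) (Ne.symm hmax)
      have hno : ∀ s, max (ext Φ ε R) (ext Φ ε Y) ≤ s → s < r →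
          ¬Ctc ε (KU.free s (ln Φ ε R)) (KU.free s (ln Φ ε Y)) := by
        intro s hs hsr hcs
        have h3 := (le_max_right _ _).trans hs
        have h4 := (le_max_left _ _).trans hs
        refine hf s h4 hsr ((hit_iff_at hΦ).2 ⟨Y, hat.of_lt hsr, ?_, h4, hd, Or.inl ?_⟩)
        · exact (sig_le_ext hΦ hε hYok).trans h3
        · rw [st_after hΦ hε hYok h3]
          exact hcs.symm
      by_cases hm : Meets ε (ln Φ ε R, ln Φ ε Y) ∧ hitT ε (ln Φ ε R, ln Φ ε Y) = r
      · exact Or.inl ⟨hat, hpar, hd, (le_max_left _ _).trans_lt hlt,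
          (le_max_right _ _).trans_lt hlt, hm.1, hm.2⟩
      · exact Or.inr (Or.inr (Or.inr ⟨hlt, hc', hno, hm⟩))

/-- A grazing contact is tangential: the distance is `ε` and the relative velocity is orthogonal to the relative position. -/
theorem Graze.tangent (hε : 0 < ε) {R Y : CTree} {r : ℝ} (h : Graze Φ ε R Y r) :
    ‖(KU.free r (ln Φ ε R)).1 - (KU.free r (ln Φ ε Y)).1‖ = ε ∧
      (inner ℝ ((KU.free r (ln Φ ε R)).1 - (KU.free r (ln Φ ε Y)).1)
        ((KU.free r (ln Φ ε R)).2 - (KU.free r (ln Φ ε Y)).2) : ℝ) = 0 := by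
  obtain ⟨h1, h2, h3, h4⟩ := h
  have hfr : ∃ᶠ s in 𝓝[<] r, ¬Ctc ε (KU.free s (ln Φ ε R)) (KU.free s (ln Φ ε Y)) := by
    refine Eventually.frequently ?_
    filter_upwards [Ioo_mem_nhdsLT h1] with s hs
    exact h3 s hs.1.le hs.2
  obtain ⟨h5, h6⟩ := ML.first_ctc h2 hfr
  refine ⟨h5, ?_⟩
  rcases h6.lt_or_eq with h6 | h6
  · exact absurd (ML.meets_of_entrance hε h5 h6) h4
  · exact h6

end Vale.Agent.P119.IND
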