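import Vale.Agent.P119.IND.Out
import Vale.Agent.P119.IND.LinkCases

/-!
# P119, block IND: classification of the final contact `OneOut` (`helper621`)

`OneEnd w s b T`: the final contact of `OneOut`, classified: a closing (`cyc`), a third body at a
colliding pair (`colS`, `colT`, `gtri`), two colliding pairs (`col2`), three flying trees at the entrance
of two of them (`three`), or a contact at a birth or grazing (`born`, `graze`).
-/

open MeasureTheory Filter Topology Set
open scoped ENNReal NNReal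

noncomputable section

namespace Vale.Agent.P119.IND

open KU M M.CTree TL RB

variable {Φ : E3 → ℝ} {ε : ℝ} {L : ℕ} {w : Bool → Set Src} {s : ℝ} {b : Bool} {T S S₂ : CTree}

/-- `S` is live in both worlds. -/
structure Thd (Φ : E3 → ℝ) (ε : ℝ) (L : ℕ) (w : Bool → Set Src) (s : ℝ) (S : CTree) : Prop where
  bg : Bg Φ ε S s
  live : ∀ c, M.live Φ ε L (w c) S s

theorem Thd.swap (hΦ : IsPotential Φ) {x y : CTree} (h : Thd Φ ε L w s (node x y))
    (hs : s ≤ ext Φ ε (node x y)) : Thd Φ ε L w s (node y x) :=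
  ⟨h.bg.swap, fun c => live_swap hΦ (h.live c) hs⟩

/-- The classification of the final contact. -/
inductive OneEnd (Φ : E3 → ℝ) (ε : ℝ) (L : ℕ) (w : Bool → Set Src) (s : ℝ) (b : Bool)
    (T : CTree) : Prop
  /-- two flying trees with a common particle -/
  | cyc (S : CTree) (hS : Thd Φ ε L w s S) (hr : T.root ≠ S.root) (eT : ext Φ ε T ≤ s)
      (eS : ext Φ ε S ≤ s) (hc : Ctc ε (KU.free s (ln Φ ε T)) (KU.free s (ln Φ ε S)))
      (hd : ¬Disjoint T.leaves S.leaves)
  /-- `T` is flying, at a colliding pair -/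
  | colS (x y : CTree) (hS : Thd Φ ε L w s (node x y)) (hsx : s < ext Φ ε (node x y))
      (eT : ext Φ ε T ≤ s) (hrx : T.root ≠ x.root) (hry : T.root ≠ y.root)
      (hc : Ctc ε (st Φ ε (node x y) s) (KU.free s (ln Φ ε T)))
  /-- `T` is colliding, `S` is flying -/
  | colT (x y S : CTree) (hT : T = node x y) (hsx : s < ext Φ ε T) (hS : Thd Φ ε L w s S)
      (eS : ext Φ ε S ≤ s) (hrx : S.root ≠ x.root) (hry : S.root ≠ y.root)
      (hc : Ctc ε (st Φ ε (node x y) s) (KU.free s (ln Φ ε S)))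
  /-- two colliding pairs -/
  | col2 (x y u v : CTree) (hT : T = node x y) (hsx : s < ext Φ ε T)
      (hS : Thd Φ ε L w s (node u v)) (hsu : s < ext Φ ε (node u v))
      (h1 : x.root ≠ u.root) (h2 : x.root ≠ v.root) (h3 : y.root ≠ u.root) (h4 : y.root ≠ v.root)
      (hc : Ctc ε (st Φ ε (node x y) s) (st Φ ε (node u v) s))
  /-- two flying trees, at the end of a collision or at a birth -/
  | born (S : CTree) (hS : Thd Φ ε L w s S) (hr : T.root ≠ S.root) (eT : ext Φ ε T ≤ s)
      (eS : ext Φ ε S ≤ s) (hc : Ctc ε (KU.free s (ln Φ ε T)) (KU.free s (ln Φ ε S)))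
      (hd : Disjoint T.leaves S.leaves) (h : s = max (ext Φ ε T) (ext Φ ε S))
  /-- two flying trees, grazing -/
  | graze (S : CTree) (hS : Thd Φ ε L w s S) (hr : T.root ≠ S.root)
      (hd : Disjoint T.leaves S.leaves) (h : Graze Φ ε T S s)
  /-- three flying trees -/
  | three (S S₂ : CTree) (hS : Thd Φ ε L w s S) (hS₂ : Thd Φ ε L w s S₂) (eT : ext Φ ε T < s)
      (eS : ext Φ ε S < s) (eS₂ : ext Φ ε S₂ ≤ s) (hd : Disjoint T.leaves S.leaves)
      (hr : T.root ≠ S.root) (hr₂ : S₂.root ≠ S.root) (hr' : S₂.root ≠ T.root)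
      (hm : Meets ε (ln Φ ε T, ln Φ ε S)) (hh : hitT ε (ln Φ ε T, ln Φ ε S) = s)
      (hc : Ctc ε (KU.free s (ln Φ ε T)) (KU.free s (ln Φ ε S)))
      (hc₂ : Ctc ε (KU.free s (ln Φ ε S)) (KU.free s (ln Φ ε S₂)))
  /-- `T` and `S` are flying, `S` is at a colliding pair -/
  | gtri (S x y : CTree) (hS : Thd Φ ε L w s S) (hS₂ : Thd Φ ε L w s (node x y))
      (hsx : s < ext Φ ε (node x y)) (eT : ext Φ ε T ≤ s) (eS : ext Φ ε S ≤ s)
      (hd : Disjoint T.leaves S.leaves) (hr : T.root ≠ S.root)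
      (h1 : S.root ≠ x.root) (h2 : S.root ≠ y.root) (h3 : T.root ≠ x.root) (h4 : T.root ≠ y.root)
      (hc : Ctc ε (KU.free s (ln Φ ε T)) (KU.free s (ln Φ ε S)))
      (hc₂ : Ctc ε (st Φ ε (node x y) s) (KU.free s (ln Φ ε S)))

theorem Thd.eq (hΦ : IsPotential Φ) (hε : 0 < ε) (hw : ∀ b, (w b).Finite) {S S' : CTree}
    (h : Thd Φ ε L w s S) (h' : Thd Φ ε L w s S') (hr : S.root = S'.root) : S = S' :=
  Bg.unique hΦ hε (hw true) (h.live true) (h'.live true) h.bg h'.bg hr

theorem exists_node_of_lt_ext {T : CTree} (hb : sig Φ ε T ≤ s) (h : s < ext Φ ε T) :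
    ∃ x y, T = node x y := by
  cases T with
  | leaf σ => exact absurd h (not_lt.2 hb)
  | node x y => exact ⟨x, y, rfl⟩

/-- **Classification of the final contact.** -/
theorem OneOut.oneEnd (hΦ : IsPotential Φ) (hε : 0 < ε) (hw : ∀ b, (w b).Finite)
    (h : OneOut Φ ε L w s b T S) : OneEnd Φ ε L w s b T := by
  have hS : Thd Φ ε L w s S := ⟨h.bgS, h.liveS⟩
  have hTu : ∀ {S' : CTree}, Thd Φ ε L w s S' → T.root ≠ S'.root := by
    intro S' hS' hr
    have h1 := Bg.unique hΦ hε (hw b) h.live (hS'.live b) h.bg hS'.bg hr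
    refine h.not_live ?_
    rw [h1]
    exact hS'.live !b
  rcases lt_or_ge s (ext Φ ε T) with hT | hT
  · -- `T` is colliding
    obtain ⟨x, y, rfl⟩ := exists_node_of_lt_ext h.live.sig_le hT
    have h1 := h.partner_ne hΦ hε hw hT
    rcases lt_or_ge s (ext Φ ε S) with hS' | hS'
    · obtain ⟨u, v, rfl⟩ := exists_node_of_lt_ext (hS.live true).sig_le hS'
      have h2 := h.partner_ne' hΦ hε hw hS'
      refine OneEnd.col2 x y u v rfl hT hS hS' h.root (fun hr => h2 hr.symm) h1 (fun hr => ?_) h.ctc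
      have l1 := live_swap hΦ h.live hT.le
      have h3 := hS.swap hΦ hS'.le
      have h4 := Bg.unique hΦ hε (hw b) l1 (h3.live b) h.bg.swap h3.bg hr
      rw [CTree.node.injEq] at h4
      obtain ⟨rfl, rfl⟩ := h4
      exact h.root rfl
    · refine OneEnd.colT x y S rfl hT hS hS' (fun hr => h.root hr.symm) (fun hr => h1 hr.symm) ?_
      rw [← st_after hΦ hε (hS.live true).ok hS']
      exact h.ctc
  · have hTf : st Φ ε T s = KU.free s (ln Φ ε T) := st_after hΦ hε h.live.ok hT
    rcases lt_or_ge s (ext Φ ε S) with hS' | hS'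
    · obtain ⟨u, v, rfl⟩ := exists_node_of_lt_ext (hS.live true).sig_le hS'
      have h2 := h.partner_ne' hΦ hε hw hS'
      refine OneEnd.colS u v hS hS' hT h.root (fun hr => h2 hr.symm) ?_
      rw [← hTf]
      exact h.ctc.symm
    · have hSf : st Φ ε S s = KU.free s (ln Φ ε S) := st_after hΦ hε (hS.live true).ok hS'
      have hc := h.ctc
      rw [hTf, hSf] at hc
      by_cases hd : Disjoint T.leaves S.leaves
      swap
      · exact OneEnd.cyc S hS h.root hT hS' hc hd
      rcases h.cases with h1 | h1 | h1 | ⟨S₂, h1, h2, h3, h4, h5⟩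
      · exact absurd hd h1
      · exact absurd h1 (not_lt.2 hT)
      · exact absurd h1 (not_lt.2 hS')
      have hS₂ : Thd Φ ε L w s S₂ := ⟨h1, h2⟩
      rw [hSf] at h5
      rcases lt_or_ge s (ext Φ ε S₂) with h6 | h6
      · obtain ⟨u, v, rfl⟩ := exists_node_of_lt_ext (hS₂.live true).sig_le h6
        have h7 := hS₂.swap hΦ h6.le
        refine OneEnd.gtri S u v hS hS₂ h6 hT hS' hd h.root h3.symm (fun hr => ?_) h4.symm
          (fun hr => hTu h7 hr) hc h5.symm
        have h8 := hS.eq hΦ hε hw h7 hr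
        rw [h8, ext_swap hΦ u v] at hS'
        exact absurd h6 (not_lt.2 hS')
      · have h5' := h5
        rw [st_after hΦ hε (hS₂.live true).ok h6] at h5'
        -- no contact before
        by_cases hmax : s = max (ext Φ ε T) (ext Φ ε S)
        · exact OneEnd.born S hS h.root hT hS' hc hd hmax
        have hlt : max (ext Φ ε T) (ext Φ ε S) < s := lt_of_le_of_ne (max_le hT hS') (Ne.symm hmax)
        have hal : alive Φ ε L (w b) T s := (alive_iff_live hΦ hε (hw b)).2 ⟨h.live, hT⟩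
        have hno : ∀ u, max (ext Φ ε T) (ext Φ ε S) ≤ u → u < s →
            ¬Ctc ε (KU.free u (ln Φ ε T)) (KU.free u (ln Φ ε S)) := by
          intro u hu hus hcu
          have h7 := (le_max_left _ _).trans hu
          have h8 := (le_max_right _ _).trans hu
          refine (hS.live b).nohit T u hus ?_ (alive_anti hal hus.le h7)
          exact (hit_after hΦ hε (hS.live b).ok h8).2 ⟨h7, hd.symm, hcu.symm⟩
        by_cases hm : Meets ε (ln Φ ε T, ln Φ ε S) ∧ hitT ε (ln Φ ε T, ln Φ ε S) = s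
        · exact OneEnd.three S S₂ hS hS₂ ((le_max_left _ _).trans_lt hlt)
            ((le_max_right _ _).trans_lt hlt) h6 hd h.root h3 h4 hm.1 hm.2 hc h5'
        · exact OneEnd.graze S hS h.root hd ⟨hlt, hc, hno, hm⟩

end Vale.Agent.P119.IND
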