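import Vale.Agent.P119.IND.Tail
import Vale.Agent.P119.TL.Hit

/-!
# P119, block IND: a clean chain from a long regular exploration (`helper472`)

`RegLink T R Y r`: the tree `R` hits the leg `Y` of `T` at time `r`, regularly.  A sequence of
disjoint trees `R 0, …, R m` with regular links contains a clean chain of `m` trees from any source
of `R 0`: the siblings on the path from the source to the root of `R 0`, then the leg of `R 1` which
is hit by `R 0`, the siblings on the path from this leg to the root of `R 1`, and so on.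

`hasClean_of_links` is the result.
-/

open MeasureTheory Filter Topology Set
open scoped ENNReal

noncomputable section

namespace Vale.Agent.P119.IND

open KU FL M CTree TL

variable {Φ : E3 → ℝ} {ε : ℝ} {L : ℕ}

/-! ### Chains as lists -/

section lists

variable (hΦ : IsPotential Φ) (hε : ε ≠ 0)

/-- The chain along the list of steps. -/
def LCh (t : ℝ) : ℝ → Ph → List (Fin 3 × CTree) → Prop
  | _, _, [] => True
  | s, l, q :: w => Meets ε (l, ln Φ ε q.2) ∧ s < hitT ε (l, ln Φ ε q.2) ∧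
      hitT ε (l, ln Φ ε q.2) < t ∧
      LCh t (hitT ε (l, ln Φ ε q.2)) ((kstep hΦ hε q.1).f (l, ln Φ ε q.2)) w

/-- The time and the line at the end of the list of steps. -/
def lend : ℝ → Ph → List (Fin 3 × CTree) → ℝ × Ph
  | s, l, [] => (s, l)
  | _, l, q :: w => lend (hitT ε (l, ln Φ ε q.2)) ((kstep hΦ hε q.1).f (l, ln Φ ε q.2)) w

theorem lend_append (w w' : List (Fin 3 × CTree)) (s : ℝ) (l : Ph) :
    lend hΦ hε s l (w ++ w') = lend hΦ hε (lend hΦ hε s l w).1 (lend hΦ hε s l w).2 w' := by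
  induction w generalizing s l with
  | nil => rfl
  | cons q w ih => exact ih _ _

theorem LCh_append {t : ℝ} (w w' : List (Fin 3 × CTree)) (s : ℝ) (l : Ph) :
    LCh hΦ hε t s l (w ++ w') ↔ LCh hΦ hε t s l w ∧
      LCh hΦ hε t (lend hΦ hε s l w).1 (lend hΦ hε s l w).2 w' := by
  induction w generalizing s l with
  | nil => exact ⟨fun h => ⟨trivial, h⟩, fun h => h.2⟩
  | cons q w ih =>
    change (_ ∧ _ ∧ _ ∧ LCh hΦ hε t _ _ (w ++ w')) ↔ (_ ∧ _ ∧ _ ∧ LCh hΦ hε t _ _ w) ∧ _
    rw [ih]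
    constructor
    · rintro ⟨h1, h2, h3, h4, h5⟩
      exact ⟨⟨h1, h2, h3, h4⟩, h5⟩
    · rintro ⟨⟨h1, h2, h3, h4⟩, h5⟩
      exact ⟨h1, h2, h3, h4, h5⟩

/-- The chain in the sense of `helper690`. -/
theorem chain_of_lch {t : ℝ} (m : ℕ) : ∀ (w : List (Fin 3 × CTree)) (s : ℝ) (l : Ph)
    (S : ℕ → FL.Step) (hm : m ≤ w.length), LCh hΦ hε t s l w →
    (∀ n (hn : n < m), S n = kstep hΦ hε (w[n]'(hn.trans_le hm)).1) →
    Chain ε t S m s l fun k => ln Φ ε (w[(k : ℕ)]'(k.2.trans_le hm)).2 := by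
  induction m with
  | zero => intro w s l S hm h hS; exact trivial
  | succ m ih =>
    intro w s l S hm h hS
    cases w with
    | nil => simp at hm
    | cons q w =>
      obtain ⟨h1, h2, h3, h4⟩ := h
      have hm' : m ≤ w.length := by simpa using hm
      have e0 : S 0 = kstep hΦ hε q.1 := hS 0 (Nat.succ_pos m)
      refine ⟨h1, h2, h3, ?_⟩
      have h5 := ih w (hitT ε (l, ln Φ ε q.2)) ((kstep hΦ hε q.1).f (l, ln Φ ε q.2))
        (fun n => S (n + 1)) hm' h4 fun n hn => hS (n + 1) (Nat.succ_lt_succ hn)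
      change Chain ε t (fun n => S (n + 1)) m (hitT ε (l, ln Φ ε q.2))
        ((S 0).f (l, ln Φ ε q.2)) _
      rw [e0]
      exact h5

/-- A list of fresh trees. -/
structure LFresh (Φ : E3 → ℝ) (ε : ℝ) (L : ℕ) (T₀ : ℝ) (W : Set Src)
    (w : List (Fin 3 × CTree)) : Prop where
  ok : ∀ q ∈ w, CTree.ok Φ ε q.2
  depth : ∀ q ∈ w, q.2.depth ≤ L
  ext_le : ∀ q ∈ w, CTree.ext Φ ε q.2 ≤ T₀
  sub : ∀ q ∈ w, q.2.leaves ⊆ W
  disj : w.Pairwise fun q q' => Disjoint q.2.leaves q'.2.leaves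

theorem LFresh.append {T₀ : ℝ} {W W₁ W₂ : Set Src} {w w' : List (Fin 3 × CTree)}
    (h : LFresh Φ ε L T₀ W₁ w) (h' : LFresh Φ ε L T₀ W₂ w') (h₁ : W₁ ⊆ W) (h₂ : W₂ ⊆ W)
    (hd : Disjoint W₁ W₂) : LFresh Φ ε L T₀ W (w ++ w') := by
  refine ⟨fun q hq => ?_, fun q hq => ?_, fun q hq => ?_, fun q hq => ?_, ?_⟩
  · rcases List.mem_append.1 hq with hq | hq
    · exact h.ok q hq
    · exact h'.ok q hq
  · rcases List.mem_append.1 hq with hq | hq
    · exact h.depth q hq
    · exact h'.depth q hq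
  · rcases List.mem_append.1 hq with hq | hq
    · exact h.ext_le q hq
    · exact h'.ext_le q hq
  · rcases List.mem_append.1 hq with hq | hq
    · exact (h.sub q hq).trans h₁
    · exact (h'.sub q hq).trans h₂
  · refine List.pairwise_append.2 ⟨h.disj, h'.disj, fun q hq q' hq' => ?_⟩
    exact (hd.mono_left (h.sub q hq)).mono_right (h'.sub q' hq')

theorem LFresh.mono {T₀ : ℝ} {W W' : Set Src} {w : List (Fin 3 × CTree)}
    (h : LFresh Φ ε L T₀ W w) (hW : W ⊆ W') : LFresh Φ ε L T₀ W' w :=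
  ⟨h.ok, h.depth, h.ext_le, fun q hq => (h.sub q hq).trans hW, h.disj⟩

theorem hasClean_of_lch {T₀ t s : ℝ} {l : Ph} {W : Set Src} {w : List (Fin 3 × CTree)} {m : ℕ}
    (h : LCh hΦ hε t s l w) (hw : LFresh Φ ε L T₀ W w) (hm : m ≤ w.length) :
    HasClean hΦ hε L T₀ t m W s l := by
  refine ⟨fun k => (w[(k : ℕ)]'(k.2.trans_le hm)).1, fun k => (w[(k : ℕ)]'(k.2.trans_le hm)).2,
    ⟨⟨fun k => hw.ok _ (List.getElem_mem _), fun k => hw.depth _ (List.getElem_mem _),
      fun j k hjk => ?_⟩, fun k => hw.ext_le _ (List.getElem_mem _), ?_⟩,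
    fun k => hw.sub _ (List.getElem_mem _)⟩
  · rcases lt_or_gt_of_ne hjk with h1 | h1
    · exact List.pairwise_iff_getElem.1 hw.disj j k _ _ h1
    · exact (List.pairwise_iff_getElem.1 hw.disj k j _ _ h1).symm
  · refine chain_of_lch hΦ hε m w s l _ hm h fun n hn => ?_
    unfold pat
    rw [dif_pos hn]

end lists

/-! ### The path from a subtree to the root -/

/-- The siblings on the path from the subtree `Y` to the root of `R`. -/
theorem path_of_sub (hΦ : IsPotential Φ) (hε : 0 < ε) {Y R : CTree} (h : Sub Y R)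
    (hR : ok Φ ε R) (hL : R.depth ≤ L) {s t T₀ : ℝ}
    (hs : ∀ b, Sub (node Y b) R ∨ Sub (node b Y) R → s < sig Φ ε (node Y b))
    (ht : ext Φ ε R ≤ T₀) (htt : T₀ < t) :
    ∃ w : List (Fin 3 × CTree), LCh hΦ hε.ne' t s (ln Φ ε Y) w ∧
      LFresh Φ ε L T₀ (R.leaves \ Y.leaves) w ∧ (lend hΦ hε.ne' s (ln Φ ε Y) w).2 = ln Φ ε R ∧
      ((Y = R ∧ (lend hΦ hε.ne' s (ln Φ ε Y) w).1 = s) ∨
        (lend hΦ hε.ne' s (ln Φ ε Y) w).1 = sig Φ ε R) := by
  induction h with
  | refl =>
    refine ⟨[], trivial, ⟨?_, ?_, ?_, ?_, List.Pairwise.nil⟩, rfl, Or.inl ⟨rfl, rfl⟩⟩ <;>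
    · intro q hq
      cases hq
  | @left a b h ih =>
    have hse := sig_lt_ext hΦ hε hR
    have hea : ext Φ ε a < sig Φ ε (node a b) := hR.2.2.2.2.2.1
    have heb : ext Φ ε b < sig Φ ε (node a b) := hR.2.2.2.2.2.2
    have hda : a.depth ≤ L := ((le_max_left _ _).trans (Nat.le_succ _)).trans hL
    have hdb : b.depth ≤ L := ((le_max_right _ _).trans (Nat.le_succ _)).trans hL
    have hT : sig Φ ε (node a b) ≤ T₀ := hse.le.trans ht
    obtain ⟨w, h1, h2, h3, h4⟩ := ih hR.1 hda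
      (fun c hc => hs c (hc.imp (Sub.left b) (Sub.left b))) (hea.le.trans hT)
    have hlt : (lend hΦ hε.ne' s (ln Φ ε Y) w).1 < sig Φ ε (node a b) := by
      rcases h4 with ⟨h4, h5⟩ | h5
      · rw [h5, ← h4]
        refine hs b (Or.inl ?_)
        rw [← h4]
        exact Sub.refl _
      · rw [h5]
        exact (sig_le_ext hΦ hε hR.1).trans_lt hea
    refine ⟨w ++ [(0, b)], (LCh_append hΦ hε.ne' w _ s _).2 ⟨h1, ?_⟩, ?_, ?_, Or.inr ?_⟩
    · refine ⟨?_, ?_, ?_, trivial⟩
      · rw [h3]; exact hR.2.2.2.1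
      · rw [h3]; exact hlt
      · rw [h3]; exact hT.trans_lt htt
    · have h5 : LFresh Φ ε L T₀ b.leaves [((0 : Fin 3), b)] := by
        refine ⟨fun q hq => ?_, fun q hq => ?_, fun q hq => ?_, fun q hq => ?_,
          List.pairwise_singleton _ _⟩ <;>
        rw [List.mem_singleton.1 hq]
        · exact hR.2.1
        · exact hdb
        · exact heb.le.trans hT
      refine h2.append h5 ?_ ?_ ?_
      · exact fun x hx => ⟨Or.inl hx.1, hx.2⟩
      · exact fun x hx => ⟨Or.inr hx, fun hx' =>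
          disjoint_left.1 hR.2.2.1 (h.leaves_subset hx') hx⟩
      · exact (hR.2.2.1).mono_left sdiff_subset
    · rw [lend_append]
      change (Step.out1 hΦ hε.ne').f (_, ln Φ ε b) = _
      rw [h3]
      rfl
    · rw [lend_append]
      change hitT ε (_, ln Φ ε b) = _
      rw [h3]
      rfl
  | @right b a h ih =>
    have hse := sig_lt_ext hΦ hε hR
    have hea : ext Φ ε a < sig Φ ε (node a b) := hR.2.2.2.2.2.1
    have heb : ext Φ ε b < sig Φ ε (node a b) := hR.2.2.2.2.2.2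
    have hda : a.depth ≤ L := ((le_max_left _ _).trans (Nat.le_succ _)).trans hL
    have hdb : b.depth ≤ L := ((le_max_right _ _).trans (Nat.le_succ _)).trans hL
    have hT : sig Φ ε (node a b) ≤ T₀ := hse.le.trans ht
    obtain ⟨w, h1, h2, h3, h4⟩ := ih hR.2.1 hdb
      (fun c hc => hs c (hc.imp (Sub.right a) (Sub.right a))) (heb.le.trans hT)
    have hlt : (lend hΦ hε.ne' s (ln Φ ε Y) w).1 < sig Φ ε (node b a) := by
      rcases h4 with ⟨h4, h5⟩ | h5
      · rw [h5, ← h4]
        refine hs a (Or.inr ?_)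
        rw [← h4]
        exact Sub.refl _
      · rw [h5, sig_swap]
        exact (sig_le_ext hΦ hε hR.2.1).trans_lt heb
    have hR' := ok_swap hΦ hR
    refine ⟨w ++ [(1, a)], (LCh_append hΦ hε.ne' w _ s _).2 ⟨h1, ?_⟩, ?_, ?_, Or.inr ?_⟩
    · refine ⟨?_, ?_, ?_, trivial⟩
      · rw [h3]; exact hR'.2.2.2.1
      · rw [h3]; exact hlt
      · rw [h3]
        refine lt_of_le_of_lt ?_ htt
        refine le_trans (le_of_eq ?_) hT
        exact sig_swap a b
    · have h5 : LFresh Φ ε L T₀ a.leaves [((1 : Fin 3), a)] := by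
        refine ⟨fun q hq => ?_, fun q hq => ?_, fun q hq => ?_, fun q hq => ?_,
          List.pairwise_singleton _ _⟩ <;>
        rw [List.mem_singleton.1 hq]
        · exact hR.1
        · exact hda
        · exact hea.le.trans hT
      refine h2.append h5 ?_ ?_ ?_
      · exact fun x hx => ⟨Or.inr hx.1, hx.2⟩
      · exact fun x hx => ⟨Or.inl hx, fun hx' =>
          disjoint_left.1 hR.2.2.1 hx (h.leaves_subset hx')⟩
      · exact (hR.2.2.1).symm.mono_left sdiff_subset
    · rw [lend_append]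
      change (Step.out2 hΦ hε.ne').f (_, ln Φ ε a) = _
      rw [h3]
      have h6 := ln_swap (ε := ε) hΦ b a
      exact h6.symm
    · rw [lend_append]
      change hitT ε (_, ln Φ ε a) = _
      rw [h3]
      exact sig_swap a b

/-! ### Regular links -/

/-- The tree `R` hits the leg `Y` of `T` at time `r`, regularly. -/
structure RegLink (Φ : E3 → ℝ) (ε : ℝ) (T R Y : CTree) (r : ℝ) : Prop where
  at_ : TL.At Φ ε R r Y T
  par : ∀ b, Sub (node Y b) T ∨ Sub (node b Y) T → r < sig Φ ε (node Y b)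
  disj : Disjoint Y.leaves R.leaves
  extR : ext Φ ε R < r
  extY : ext Φ ε Y < r
  meets : Meets ε (ln Φ ε R, ln Φ ε Y)
  hitT : hitT ε (ln Φ ε R, ln Φ ε Y) = r

/-- **A clean chain from a long regular exploration.** -/
theorem hasClean_of_links (hΦ : IsPotential Φ) (hε : 0 < ε) {V : Set Src} {σ : Src} {t : ℝ} {m : ℕ}
    {R Y : ℕ → CTree} {r : ℕ → ℝ} (hσ : σ ∈ (R 0).leaves) (hok : ∀ k ≤ m, ok Φ ε (R k))
    (hd : ∀ k ≤ m, (R k).depth ≤ L)
    (hl : ∀ k < m, RegLink Φ ε (R (k + 1)) (R k) (Y (k + 1)) (r k))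
    (hr : ∀ k, k + 1 < m → r k < r (k + 1)) (ht : ∀ k < m, r k < t)
    (hdis : ∀ j ≤ m, ∀ k ≤ m, j ≠ k → Disjoint (R j).leaves (R k).leaves)
    (h0 : (R 0).leaves ⊆ insert σ V) (hV : ∀ k ≤ m, 0 < k → (R k).leaves ⊆ V) :
    HasClean hΦ hε.ne' L t (t + 1) m V σ.1 σ.2.1 := by
  -- the entrance into `R k`
  set Y' : ℕ → CTree := fun k => if k = 0 then leaf σ else Y k with hY'
  set τ : ℕ → ℝ := fun k => if k = 0 then σ.1 else r (k - 1) with hτ
  have hY0 : Y' 0 = leaf σ := rfl
  have hYs : ∀ k, Y' (k + 1) = Y (k + 1) := fun k => by rw [hY']; simp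
  have hτs : ∀ k, τ (k + 1) = r k := fun k => by rw [hτ]; simp
  have hsub : ∀ k ≤ m, Sub (Y' k) (R k) := by
    intro k hk
    cases k with
    | zero => exact sub_leaf_of_mem hσ
    | succ k => rw [hYs]; exact (hl k hk).at_.sub
  have hpar : ∀ k ≤ m, ∀ b, Sub (node (Y' k) b) (R k) ∨ Sub (node b (Y' k)) (R k) →
      τ k < sig Φ ε (node (Y' k) b) := by
    intro k hk b hb
    cases k with
    | zero =>
      rcases hb with hb | hb
      · exact (hb.ok (hok 0 hk)).2.2.2.2.2.1
      · rw [sig_swap]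
        exact (hb.ok (hok 0 hk)).2.2.2.2.2.2
    | succ k => rw [hYs] at hb ⊢; rw [hτs]; exact (hl k hk).par b hb
  have hσk : ∀ k ≤ m, 0 < k → σ ∉ (R k).leaves := fun k hk h0 h =>
    disjoint_left.1 (hdis 0 (Nat.zero_le m) k hk h0.ne) hσ h
  set U : ℕ → Set Src := fun k =>
    {x | x ≠ σ ∧ ((∃ j < k, x ∈ (R j).leaves) ∨ x ∈ (Y' k).leaves)} with hU
  have main : ∀ k ≤ m, ∃ w : List (Fin 3 × CTree), LCh hΦ hε.ne' (t + 1) σ.1 σ.2.1 w ∧
      k ≤ w.length ∧ LFresh Φ ε L t (U k) w ∧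
      lend hΦ hε.ne' σ.1 σ.2.1 w = (τ k, ln Φ ε (Y' k)) := by
    intro k
    induction k with
    | zero =>
      intro _
      refine ⟨[], trivial, le_rfl, ⟨?_, ?_, ?_, ?_, List.Pairwise.nil⟩, rfl⟩ <;>
      · intro q hq
        cases hq
    | succ k ih =>
      intro hk
      have hk' : k ≤ m := (Nat.le_succ k).trans hk
      obtain ⟨w, h1, h2, h3, h4⟩ := ih hk'
      have hlk := hl k hk
      have hext : ext Φ ε (R k) ≤ t := (hlk.extR.trans (ht k hk)).le
      obtain ⟨w', g1, g2, g3, g4⟩ := path_of_sub hΦ hε (hsub k hk') (hok k hk') (hd k hk')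
        (hpar k hk') hext (lt_add_one t)
      have hend : (lend hΦ hε.ne' (τ k) (ln Φ ε (Y' k)) w').1 < r k := by
        rcases g4 with ⟨g4, g5⟩ | g5
        · rw [g5]
          cases k with
          | zero =>
            have h5 := hlk.extR
            rw [← g4] at h5
            exact h5
          | succ k => rw [hτs]; exact hr k hk
        · rw [g5]
          exact (sig_le_ext hΦ hε (hok k hk')).trans_lt hlk.extR
      have hYsub : (Y (k + 1)).leaves ⊆ (R (k + 1)).leaves := hlk.at_.sub.leaves_subset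
      have hdR : Disjoint (R k).leaves (R (k + 1)).leaves :=
        hdis k hk' (k + 1) hk (Nat.lt_succ_self k).ne
      have f1 : LFresh Φ ε L t (U k ∪ ((R k).leaves \ (Y' k).leaves)) (w ++ w') := by
        refine h3.append g2 subset_union_left subset_union_right (disjoint_left.2 ?_)
        rintro x ⟨-, ⟨j, hj, hx⟩ | hx⟩ ⟨h5, h6⟩
        · exact disjoint_left.1 (hdis j (hj.le.trans hk') k hk' hj.ne) hx h5
        · exact h6 hx
      have f2 : LFresh Φ ε L t (Y (k + 1)).leaves [((2 : Fin 3), Y (k + 1))] := by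
        have hs := hlk.at_.sub
        refine ⟨fun q hq => ?_, fun q hq => ?_, fun q hq => ?_, fun q hq => ?_,
          List.pairwise_singleton _ _⟩ <;>
        rw [List.mem_singleton.1 hq]
        · exact hs.ok (hok (k + 1) hk)
        · exact hs.depth_le.trans (hd (k + 1) hk)
        · exact (hlk.extY.trans (ht k hk)).le
      have f3 : LFresh Φ ε L t (U (k + 1)) ((w ++ w') ++ [((2 : Fin 3), Y (k + 1))]) := by
        refine f1.append f2 ?_ ?_ (disjoint_left.2 ?_)
        · rintro x (⟨h5, ⟨j, hj, hx⟩ | hx⟩ | ⟨h5, h6⟩)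
          · exact ⟨h5, Or.inl ⟨j, hj.trans (Nat.lt_succ_self k), hx⟩⟩
          · exact ⟨h5, Or.inl ⟨k, Nat.lt_succ_self k, (hsub k hk').leaves_subset hx⟩⟩
          · refine ⟨?_, Or.inl ⟨k, Nat.lt_succ_self k, h5⟩⟩
            rintro rfl
            cases k with
            | zero => exact h6 (mem_singleton _)
            | succ k => exact hσk _ hk' (Nat.succ_pos k) h5
        · intro x hx
          refine ⟨?_, Or.inr (by rw [hYs]; exact hx)⟩
          rintro rfl
          exact hσk _ hk (Nat.succ_pos k) (hYsub hx)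
        · rintro x (⟨-, ⟨j, hj, hx⟩ | hx⟩ | ⟨h5, -⟩) hx'
          · exact disjoint_left.1 (hdis j (hj.le.trans hk') (k + 1) hk
              (hj.trans (Nat.lt_succ_self k)).ne) hx (hYsub hx')
          · exact disjoint_left.1 hdR ((hsub k hk').leaves_subset hx) (hYsub hx')
          · exact disjoint_left.1 hdR h5 (hYsub hx')
      refine ⟨(w ++ w') ++ [((2 : Fin 3), Y (k + 1))], ?_, ?_, f3, ?_⟩
      · rw [LCh_append, LCh_append, lend_append, h4]
        refine ⟨⟨h1, g1⟩, ?_, ?_, ?_, trivial⟩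
        · rw [g3]; exact hlk.meets
        · rw [g3]
          change _ < hitT ε (ln Φ ε (R k), ln Φ ε (Y (k + 1)))
          rw [hlk.hitT]
          exact hend
        · rw [g3]
          change hitT ε (ln Φ ε (R k), ln Φ ε (Y (k + 1))) < _
          rw [hlk.hitT]
          exact (ht k hk).trans (lt_add_one t)
      · simp only [List.length_append, List.length_singleton]
        omega
      · rw [lend_append, lend_append, h4]
        change (hitT ε (_, ln Φ ε (Y (k + 1))), ln Φ ε (Y (k + 1))) = _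
        rw [g3, hlk.hitT, hτs, hYs]
  obtain ⟨w, h1, h2, h3, -⟩ := main m le_rfl
  refine hasClean_of_lch hΦ hε.ne' h1 (h3.mono ?_) h2
  rintro x ⟨h5, ⟨j, hj, hx⟩ | hx⟩
  · cases j with
    | zero => exact (h0 hx).resolve_left h5
    | succ j => exact hV _ hj.le (Nat.succ_pos j) hx
  · cases m with
    | zero => exact absurd hx h5
    | succ m =>
      rw [hYs] at hx
      exact hV _ le_rfl (Nat.succ_pos m) ((hl m (Nat.lt_succ_self m)).at_.sub.leaves_subset hx)

end Vale.Agent.P119.IND
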