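import Vale.Agent.P119.TL.Hit

/-!
# P119, block IND: the exploration backward by first hits (`helper621`)

Two finite worlds `w false`, `w true`.  `T` is live in `w b` at time `s` and not in `w !b`.  Either
`T` has a leaf outside `w !b`, or `T` is hit before `s` by a tree which is alive in `w !b`; let `R`
be such a tree with the FIRST hit, at time `r`.  Then `R` is alive in `w !b` at `r` and not in `w b`;
before `r` the tree `T` is not hit by an alive tree of either world.  `Trail w b T s l` is the list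
`l = [(R₁, r₁), …, (Rₙ, rₙ)]` of these trees; `Rₙ` has a leaf outside the other world.
-/

open MeasureTheory Filter Topology Set
open scoped ENNReal NNReal

noncomputable section

namespace Vale.Agent.P119.IND

open KU M M.CTree TL

variable {Φ : E3 → ℝ} {ε : ℝ} {L : ℕ} {w : Bool → Set Src}

/-- The exploration backward by first hits. -/
inductive Trail (Φ : E3 → ℝ) (ε : ℝ) (L : ℕ) (w : Bool → Set Src) :
    Bool → CTree → ℝ → List (CTree × ℝ) → Prop
  | stop {b : Bool} {T : CTree} {s : ℝ} (h : live Φ ε L (w b) T s) (hσ : ¬T.leaves ⊆ w !b) :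
      Trail Φ ε L w b T s []
  | step {b : Bool} {T R : CTree} {s r : ℝ} {l : List (CTree × ℝ)} (h : live Φ ε L (w b) T s)
      (hsub : T.leaves ⊆ w !b) (hr : r < s) (hh : hit Φ ε T R r)
      (hfirst : ∀ X r', r' < r → hit Φ ε T X r' → ¬alive Φ ε L (w !b) X r')
      (ha : alive Φ ε L (w !b) R r) (ht : Trail Φ ε L w (!b) R r l) :
      Trail Φ ε L w b T s ((R, r) :: l)

theorem Trail.live {b : Bool} {T : CTree} {s : ℝ} {l : List (CTree × ℝ)}
    (h : Trail Φ ε L w b T s l) : live Φ ε L (w b) T s := by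
  cases h with
  | stop h _ => exact h
  | step h _ _ _ _ _ _ => exact h

/-- The tree at the head of the list is not alive in the world of `T`. -/
theorem Trail.not_alive {b : Bool} {T R : CTree} {s r : ℝ} {l : List (CTree × ℝ)}
    (h : Trail Φ ε L w b T s ((R, r) :: l)) : ¬alive Φ ε L (w b) R r := by
  cases h with
  | step h _ hr hh _ _ _ => exact h.nohit R r hr hh

/-- **Before the first hit there is no hit by an alive tree of either world.** -/
theorem Trail.nohit {b : Bool} {T R : CTree} {s r : ℝ} {l : List (CTree × ℝ)}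
    (h : Trail Φ ε L w b T s ((R, r) :: l)) (c : Bool) {X : CTree} {r' : ℝ} (hr' : r' < r)
    (hh : hit Φ ε T X r') : ¬alive Φ ε L (w c) X r' := by
  cases h with
  | step h _ hr _ hf _ _ =>
    by_cases hc : c = b
    · subst hc
      exact h.nohit X r' (hr'.trans hr) hh
    · have : c = !b := by
        cases c <;> cases b <;> simp_all
      subst this
      exact hf X r' hr' hh

theorem Trail.tail {b : Bool} {T R : CTree} {s r : ℝ} {l : List (CTree × ℝ)}
    (h : Trail Φ ε L w b T s ((R, r) :: l)) : Trail Φ ε L w (!b) R r l := by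
  cases h with
  | step _ _ _ _ _ _ ht => exact ht

theorem Trail.lt {b : Bool} {T R : CTree} {s r : ℝ} {l : List (CTree × ℝ)}
    (h : Trail Φ ε L w b T s ((R, r) :: l)) : r < s := by
  cases h with
  | step _ _ hr _ _ _ _ => exact hr

theorem Trail.hit {b : Bool} {T R : CTree} {s r : ℝ} {l : List (CTree × ℝ)}
    (h : Trail Φ ε L w b T s ((R, r) :: l)) : hit Φ ε T R r := by
  cases h with
  | step _ _ _ hh _ _ _ => exact hh

theorem Trail.alive {b : Bool} {T R : CTree} {s r : ℝ} {l : List (CTree × ℝ)}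
    (h : Trail Φ ε L w b T s ((R, r) :: l)) : alive Φ ε L (w !b) R r := by
  cases h with
  | step _ _ _ _ _ ha _ => exact ha

theorem Trail.sub {b : Bool} {T R : CTree} {s r : ℝ} {l : List (CTree × ℝ)}
    (h : Trail Φ ε L w b T s ((R, r) :: l)) : T.leaves ⊆ w !b := by
  cases h with
  | step _ hs _ _ _ _ _ => exact hs

/-- The times decrease. -/
theorem Trail.lt_of_mem {b : Bool} {T : CTree} {s : ℝ} {l : List (CTree × ℝ)}
    (h : Trail Φ ε L w b T s l) : ∀ x ∈ l, x.2 < s := by
  induction h with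
  | stop => intro x hx; cases hx
  | step _ _ hr _ _ _ _ ih =>
    intro x hx
    rcases List.mem_cons.1 hx with rfl | hx
    · exact hr
    · exact (ih x hx).trans hr

/-- **Existence.** -/
theorem exists_trail (hΦ : IsPotential Φ) (hε : 0 < ε) (hw : ∀ b, (w b).Finite) {b : Bool}
    {T : CTree} {s : ℝ} (h : M.live Φ ε L (w b) T s) (h' : ¬M.live Φ ε L (w !b) T s) :
    ∃ l, Trail Φ ε L w b T s l := by
  set 𝒯 := times Φ ε L (w false ∪ w true) with h𝒯
  have hfin : 𝒯.Finite := times_finite ((hw false).union (hw true))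
  have hsub : ∀ c, w c ⊆ w false ∪ w true := by
    intro c
    cases c
    · exact subset_union_left
    · exact subset_union_right
  suffices H : ∀ (n : ℕ) (b : Bool) (T : CTree) (s : ℝ), (𝒯 ∩ Iio s).ncard ≤ n →
      M.live Φ ε L (w b) T s → ¬M.live Φ ε L (w !b) T s → ∃ l, Trail Φ ε L w b T s l from
    H _ b T s le_rfl h h'
  intro n
  induction n with
  | zero =>
    intro b T s hn h h'
    by_cases hσ : T.leaves ⊆ w !b
    swap
    · exact ⟨[], Trail.stop h hσ⟩
    exfalso
    refine h' ⟨hσ, h.ok, h.depth, h.sig_le, fun X r hr hh ha => ?_⟩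
    obtain ⟨R, r', h1, h2, h3, h4, h5⟩ := exists_first_hit hΦ hε (hw !b) h.ok hh ha
    have h6 : r' ∈ 𝒯 ∩ Iio s := by
      refine ⟨⟨(T, R), ⟨⟨h.sub.trans (hsub b), h.depth⟩,
        ⟨(alive_pre h4).sub.trans (hsub _), (alive_pre h4).depth⟩⟩, h2.symm⟩, h1.trans_lt hr⟩
    rw [Nat.le_zero, ncard_eq_zero (hfin.inter_of_left _)] at hn
    rw [hn] at h6
    exact h6
  | succ n ih =>
    intro b T s hn h h'
    by_cases hσ : T.leaves ⊆ w !b
    swap
    · exact ⟨[], Trail.stop h hσ⟩
    have h0 : ∃ X r, r < s ∧ CTree.hit Φ ε T X r ∧ M.alive Φ ε L (w !b) X r := by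
      by_contra hcon
      push Not at hcon
      exact h' ⟨hσ, h.ok, h.depth, h.sig_le, fun X r hr hh ha => hcon X r hr hh ha⟩
    obtain ⟨X, r, hr, hh, ha⟩ := h0
    obtain ⟨R, r', h1, h2, h3, h4, h5⟩ := exists_first_hit hΦ hε (hw !b) h.ok hh ha
    have h6 : r' ∈ 𝒯 ∩ Iio s := by
      refine ⟨⟨(T, R), ⟨⟨h.sub.trans (hsub b), h.depth⟩,
        ⟨(alive_pre h4).sub.trans (hsub _), (alive_pre h4).depth⟩⟩, h2.symm⟩, h1.trans_lt hr⟩
    have h7 : (𝒯 ∩ Iio r').ncard < (𝒯 ∩ Iio s).ncard := by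
      refine ncard_lt_ncard ?_ (hfin.inter_of_left _)
      refine ⟨fun x hx => ⟨hx.1, mem_Iio.2 ((mem_Iio.1 hx.2).trans (mem_Iio.1 h6.2))⟩, fun hcon => ?_⟩
      exact absurd (hcon h6).2 (lt_irrefl r')
    have h8 : ¬M.live Φ ε L (w !!b) R r' := by
      rw [Bool.not_not]
      intro hl
      exact h.nohit R r' h6.2 h3 ((alive_iff_live hΦ hε (hw b)).2 ⟨hl, (alive_pre h4).ext_le⟩)
    obtain ⟨l, hl⟩ := ih (!b) R r' (by omega) ((alive_iff_live hΦ hε (hw !b)).1 h4).1 h8
    exact ⟨(R, r') :: l, Trail.step h hσ h6.2 h3 h5 h4 hl⟩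

end Vale.Agent.P119.IND
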