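import Vale.Agent.P119.M.SupBad
import Vale.Agent.P119.M.Loc
import Vale.Agent.P119.IND.OneWorld

/-!
# P119, block IND: the final contact (`helper621`)

The worlds `W J`, `J ⊆ K`, of a cube.  If one of the conditions of `NI`, `NIB` fails up to time `t`
then there is a time `s ≤ t` such that up to `s` every tree which began before depends on one index
only (`DepTo`), and at time `s` there is (`Out`)

* either a contact of a tree altered by `i` and a tree altered by `j ≠ i`, none of them colliding,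
* or, in two worlds which differ by one `i` only, a contact of a tree `A` which is live in exactly
  one of them and a tree `M` which is live in both, and: `A` and `M` have a common particle, or one
  of them is colliding, or `M` is in contact with a third tree which is live in both.
-/

open MeasureTheory Filter Topology Set
open scoped ENNReal NNReal

noncomputable section

namespace Vale.Agent.P119.IND

open KU M M.CTree TL RB

variable {Φ : E3 → ℝ} {ε : ℝ} {L : ℕ} {ι : Type*} {W : Finset ι → Set Src} {K : Finset ι}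

/-! ### Trees which began before a time -/

/-- `T` is a leaf or it began before `s`. -/
def Bg (Φ : E3 → ℝ) (ε : ℝ) (T : CTree) (s : ℝ) : Prop := sig Φ ε T < s ∨ T = leaf T.root

theorem Bg.of_alive (hΦ : IsPotential Φ) (hε : 0 < ε) {V : Set Src} {T : CTree} {s : ℝ}
    (h : alive Φ ε L V T s) : Bg Φ ε T s := by
  have h1 := alive_pre h
  cases T with
  | leaf σ => exact Or.inr rfl
  | node a b => exact Or.inl ((sig_lt_ext hΦ hε h1.ok).trans_le h1.ext_le)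

theorem Bg.swap {a b : CTree} {s : ℝ} (h : Bg Φ ε (node a b) s) : Bg Φ ε (node b a) s := by
  rcases h with h | h
  · left
    rw [sig_swap a b]
    exact h
  · cases h

theorem Bg.unique (hΦ : IsPotential Φ) (hε : 0 < ε) {V : Set Src} (hV : V.Finite) {A B : CTree}
    {s : ℝ} (hA : live Φ ε L V A s) (hB : live Φ ε L V B s) (bA : Bg Φ ε A s) (bB : Bg Φ ε B s)
    (hr : A.root = B.root) : A = B := by
  have hA1 := root_birth_le_sig hΦ hε hA.ok
  have hB1 := root_birth_le_sig hΦ hε hB.ok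
  have key : ∀ C : CTree, C = leaf C.root → sig Φ ε C = C.root.1 := by
    intro C hC
    cases C with
    | leaf σ => rfl
    | node a b => cases hC
  rcases bA with a1 | a1
  · rcases bB with b1 | b1
    · exact live_unique hΦ hε hV hA hB hr a1 b1
    · rcases hB.sig_le.lt_or_eq with b2 | b2
      · exact live_unique hΦ hε hV hA hB hr a1 b2
      · rw [key B b1] at b2
        rw [hr, b2] at hA1
        exact absurd hA1 (not_le.2 a1)
  · rcases bB with b1 | b1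
    · rcases hA.sig_le.lt_or_eq with a2 | a2
      · exact live_unique hΦ hε hV hA hB hr a2 b1
      · rw [key A a1] at a2
        rw [← hr, a2] at hB1
        exact absurd hB1 (not_le.2 b1)
    · rw [a1, b1, hr]

/-- A live tree of a particle which began before. -/
theorem exists_bg (hΦ : IsPotential Φ) (hε : 0 < ε) {V : Set Src} (hV : V.Finite) {T : CTree}
    {s : ℝ} (h : live Φ ε L V T s) : ∃ T₀ : CTree, T₀.root = T.root ∧ live Φ ε L V T₀ s ∧
      Bg Φ ε T₀ s ∧ st Φ ε T₀ s = st Φ ε T s := by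
  rcases live_sig hΦ hε hV h with h1 | ⟨T₀, h1, h2, h3, h4⟩
  · exact ⟨T, rfl, h, Or.inr h1.1, rfl⟩
  · exact ⟨T₀, h1, h2, Or.inl h3, h4⟩

/-! ### Dependence on one index up to a time -/

/-- Up to time `s` every tree which began before depends on one index only. -/
def DepTo (Φ : E3 → ℝ) (ε : ℝ) (L : ℕ) (W : Finset ι → Set Src) (K : Finset ι) (s : ℝ) : Prop :=
  ∀ s' ≤ s, ∀ T, Bg Φ ε T s' → Dep K fun J => live Φ ε L (W J) T s'

theorem DepTo.mono {s s' : ℝ} (h : DepTo Φ ε L W K s) (hs : s' ≤ s) : DepTo Φ ε L W K s' :=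
  fun r hr => h r (hr.trans hs)

theorem live_leaf_iff {V : Set Src} {σ : Src} {s : ℝ} (hs : s ≤ σ.1) :
    live Φ ε L V (leaf σ) s ↔ σ ∈ V ∧ 0 ≤ σ.1 ∧ σ.2.2 ≤ L ∧ σ.1 ≤ s := by
  constructor
  · intro h
    exact ⟨h.sub (mem_singleton σ), h.ok, h.depth, h.sig_le⟩
  · rintro ⟨h1, h2, h3, h4⟩
    exact ⟨singleton_subset_iff.2 h1, h2, h3, h4, fun T' r hr hh =>
      absurd (hr.trans_le hs) (not_lt.2 hh.1)⟩

section dep

variable [DecidableEq ι]

/-- No interaction up to the times of `allTimes` before `s` is sufficient. -/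
theorem depTo_of_min (hΦ : IsPotential Φ) (hε : 0 < ε) (hC : CubeW W K) {s : ℝ}
    (hmin : ∀ e ∈ allTimes Φ ε L (W K), e < s → NI Φ ε L W K e) : DepTo Φ ε L W K s := by
  intro s' hs' T hT
  have hnone : Dep K fun _ : Finset ι => False := by
    obtain ⟨i, -⟩ := hC.dep T.root
    exact ⟨i, fun _ _ _ _ _ => Iff.rfl⟩
  by_cases hW : T.leaves ⊆ W K ∧ T.depth ≤ L
  swap
  · exact hnone.congr fun J hJ => ⟨fun h => h.elim,
      fun h => hW ⟨h.sub.trans (hC.mono J hJ), h.depth⟩⟩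
  have hfin : (allTimes Φ ε L (W K)).Finite := allTimes_finite (hC.fin K (Finset.Subset.refl K))
  have hmem : sig Φ ε T ∈ allTimes Φ ε L (W K) := Or.inl ⟨T, hW, rfl⟩
  rcases lt_or_ge (sig Φ ε T) s' with h1 | h1
  · obtain ⟨e, he, hmax⟩ := (hfin.inter_of_left (Iio s')).exists_maximalFor id _ ⟨_, hmem, h1⟩
    have h2 : sig Φ ε T ≤ e := by
      rcases le_total (sig Φ ε T) e with h3 | h3
      · exact h3
      · exact hmax ⟨hmem, h1⟩ h3
    have hNI := hmin e he.1 (he.2.trans_le hs')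
    refine (lives_dep hΦ hε hC hNI T le_rfl).congr fun J hJ =>
      (live_iff_lives hΦ hε (hC.mono J hJ) h2 he.2 fun r hr her => ?_).symm
    by_contra hcon
    exact absurd (hmax ⟨Or.inr hr, not_le.1 hcon⟩ her.le) (not_le.2 her)
  · rcases hT with hT | hT
    · exact absurd hT (not_lt.2 h1)
    · rw [hT] at h1 ⊢
      refine (dep_and_const (hC.dep T.root)).congr fun J _ => (live_leaf_iff ?_).symm
      exact h1

end dep

/-! ### The kinds of trees at time `s` -/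

/-- `A` is live in some world of the cube. -/
def Liv (Φ : E3 → ℝ) (ε : ℝ) (L : ℕ) (W : Finset ι → Set Src) (K : Finset ι) (A : CTree) (s : ℝ) :
    Prop := Bg Φ ε A s ∧ ∃ J, J ⊆ K ∧ live Φ ε L (W J) A s

/-- `A` is altered by `i`. -/
def Alt (Φ : E3 → ℝ) (ε : ℝ) (L : ℕ) (W : Finset ι → Set Src) (i : ι) (A : CTree) (s : ℝ) : Prop :=
  Bg Φ ε A s ∧ ¬(live Φ ε L (W ∅) A s ↔ live Φ ε L (W {i}) A s)

/-- `A` is live in two worlds which differ by `i` only. -/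
def Co [DecidableEq ι] (Φ : E3 → ℝ) (ε : ℝ) (L : ℕ) (W : Finset ι → Set Src) (K : Finset ι)
    (i : ι) (A : CTree) (s : ℝ) : Prop :=
  Bg Φ ε A s ∧ ∃ J, J ⊆ K ∧ insert i J ⊆ K ∧ i ∉ J ∧ live Φ ε L (W J) A s ∧
    live Φ ε L (W (insert i J)) A s

theorem Alt.liv {i : ι} {A : CTree} {s : ℝ} (h : Alt Φ ε L W i A s) (hi : i ∈ K) :
    Liv Φ ε L W K A s := by
  refine ⟨h.1, ?_⟩
  by_cases h1 : live Φ ε L (W ∅) A s
  · exact ⟨∅, Finset.empty_subset _, h1⟩
  · refine ⟨{i}, Finset.singleton_subset_iff.2 hi, ?_⟩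
    by_contra h2
    exact h.2 ⟨fun h3 => absurd h3 h1, fun h3 => absurd h3 h2⟩

theorem alt_of_alive (hΦ : IsPotential Φ) (hε : 0 < ε) {i : ι} {A : CTree} {s : ℝ}
    (h0 : (W ∅).Finite) (h1 : (W {i}).Finite)
    (h : ¬(alive Φ ε L (W ∅) A s ↔ alive Φ ε L (W {i}) A s)) : Alt Φ ε L W i A s := by
  refine ⟨?_, fun h2 => h ?_⟩
  · by_cases h2 : alive Φ ε L (W ∅) A s
    · exact Bg.of_alive hΦ hε h2
    · by_cases h3 : alive Φ ε L (W {i}) A s
      · exact Bg.of_alive hΦ hε h3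
      · exact absurd ⟨fun h => absurd h h2, fun h => absurd h h3⟩ h
  · rw [alive_iff_live hΦ hε h0, alive_iff_live hΦ hε h1, h2]

/-- The time `ext` of a tree with different survival. -/
theorem ext_le_of_alive {i : ι} {A : CTree} {s : ℝ}
    (h : ¬(alive Φ ε L (W ∅) A s ↔ alive Φ ε L (W {i}) A s)) : ok Φ ε A ∧ ext Φ ε A ≤ s := by
  by_cases h2 : alive Φ ε L (W ∅) A s
  · exact ⟨(alive_pre h2).ok, (alive_pre h2).ext_le⟩
  · by_cases h3 : alive Φ ε L (W {i}) A s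
    · exact ⟨(alive_pre h3).ok, (alive_pre h3).ext_le⟩
    · exact absurd ⟨fun h => absurd h h2, fun h => absurd h h3⟩ h

theorem live_swap_iff (hΦ : IsPotential Φ) {V : Set Src} {a b : CTree} {s : ℝ}
    (hs : s ≤ ext Φ ε (node a b)) : live Φ ε L V (node a b) s ↔ live Φ ε L V (node b a) s :=
  ⟨fun h => live_swap hΦ h hs, fun h => live_swap hΦ h (by rw [ext_swap hΦ a b]; exact hs)⟩

theorem Alt.swap (hΦ : IsPotential Φ) {i : ι} {a b : CTree} {s : ℝ}
    (h : Alt Φ ε L W i (node a b) s) (hs : s ≤ ext Φ ε (node a b)) :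
    Alt Φ ε L W i (node b a) s := by
  refine ⟨h.1.swap, fun h' => h.2 ?_⟩
  rw [live_swap_iff hΦ hs, live_swap_iff hΦ hs]
  exact h'

theorem Liv.swap (hΦ : IsPotential Φ) {a b : CTree} {s : ℝ}
    (h : Liv Φ ε L W K (node a b) s) (hs : s ≤ ext Φ ε (node a b)) :
    Liv Φ ε L W K (node b a) s := by
  obtain ⟨h1, J, h2, h3⟩ := h
  exact ⟨h1.swap, J, h2, live_swap hΦ h3 hs⟩

section kinds

variable [DecidableEq ι] {i j : ι} {A B M : CTree} {s : ℝ}

theorem Co.liv (h : Co Φ ε L W K i A s) : Liv Φ ε L W K A s := by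
  obtain ⟨h1, J, h2, -, -, h3, -⟩ := h
  exact ⟨h1, J, h2, h3⟩

theorem Alt.unique (hD : DepTo Φ ε L W K s) (hi : i ∈ K) (hj : j ∈ K)
    (h : Alt Φ ε L W i A s) (h' : Alt Φ ε L W j A s) : i = j := by
  obtain ⟨k, hk⟩ := hD s le_rfl A h.1
  rw [hk.eq_of_dif hi h.2, hk.eq_of_dif hj h'.2]

/-- A tree altered by `j` does not depend on `i`. -/
theorem Alt.co (hD : DepTo Φ ε L W K s) (hi : i ∈ K) (hj : j ∈ K) (hij : i ≠ j)
    (h : Alt Φ ε L W j A s) : Co Φ ε L W K i A s :=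
  ⟨h.1, exists_two hj hi hij (hD s le_rfl A h.1) h.2⟩

/-- The trees which are live in some world. -/
theorem Liv.cases (hD : DepTo Φ ε L W K s) (h : Liv Φ ε L W K A s) :
    (∀ J, J ⊆ K → live Φ ε L (W J) A s) ∨ ∃ i ∈ K, Alt Φ ε L W i A s := by
  obtain ⟨h1, J, h2, h3⟩ := h
  obtain ⟨k, hk⟩ := hD s le_rfl A h1
  rcases hk.const_or with h4 | ⟨h4, h5⟩
  · exact Or.inl fun J' hJ' => (h4 J J' h2 hJ').1 h3
  · exact Or.inr ⟨k, h4, h1, h5⟩

/-- A tree which is live in some world and not altered by `i` does not depend on `i`. -/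
theorem Liv.co (hD : DepTo Φ ε L W K s) (hi : i ∈ K) (h : Liv Φ ε L W K A s)
    (h' : ¬Alt Φ ε L W i A s) : Co Φ ε L W K i A s := by
  rcases h.cases hD with h1 | ⟨j, hj, h1⟩
  · have h2 : insert i ∅ ⊆ K := Finset.insert_subset hi (Finset.empty_subset _)
    exact ⟨h.1, ∅, Finset.empty_subset _, h2, Finset.notMem_empty _,
      h1 _ (Finset.empty_subset _), h1 _ h2⟩
  · refine h1.co hD hi hj ?_
    rintro rfl
    exact h' h1

theorem Co.not_alt (hD : DepTo Φ ε L W K s) (hi : i ∈ K) (h : Co Φ ε L W K i A s) :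
    ¬Alt Φ ε L W i A s := by
  intro h'
  obtain ⟨h1, J, h2, h3, h4, h5, h6⟩ := h
  obtain ⟨k, hk⟩ := hD s le_rfl A h1
  obtain rfl := hk.eq_of_dif hi h'.2
  refine h'.2 ?_
  have e1 := hk J ∅ h2 (Finset.empty_subset _) (by simp [h4])
  have e2 := hk (insert i J) {i} h3 (Finset.singleton_subset_iff.2 hi) (by simp)
  exact ⟨fun _ => e2.1 h6, fun _ => e1.1 h5⟩

/-- A common world. -/
theorem exists_common_world (hD : DepTo Φ ε L W K s) (hi : i ∈ K) (hA : Alt Φ ε L W i A s)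
    (hM : Co Φ ε L W K i M s) :
    ∃ J, J ⊆ K ∧ live Φ ε L (W J) A s ∧ live Φ ε L (W J) M s := by
  obtain ⟨h1, J, h2, h3, h4, h5, h6⟩ := hM
  obtain ⟨k, hk⟩ := hD s le_rfl A hA.1
  obtain rfl := hk.eq_of_dif hi hA.2
  by_cases h7 : live Φ ε L (W ∅) A s
  · refine ⟨J, h2, ?_, h5⟩
    exact (hk J ∅ h2 (Finset.empty_subset _) (by simp [h4])).2 h7
  · refine ⟨insert i J, h3, ?_, h6⟩
    refine (hk (insert i J) {i} h3 (Finset.singleton_subset_iff.2 hi) (by simp)).2 ?_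
    by_contra h8
    exact hA.2 ⟨fun h => absurd h h7, fun h => absurd h h8⟩

theorem root_ne_of_co (hΦ : IsPotential Φ) (hε : 0 < ε) (hC : CubeW W K)
    (hD : DepTo Φ ε L W K s) (hi : i ∈ K) (hA : Alt Φ ε L W i A s)
    (hM : Co Φ ε L W K i M s) : A.root ≠ M.root := by
  intro hr
  obtain ⟨J, h1, h2, h3⟩ := exists_common_world hD hi hA hM
  have h4 := Bg.unique hΦ hε (hC.fin J h1) h2 h3 hA.1 hM.1 hr
  subst h4
  exact hM.not_alt hD hi hA

end kinds

/-! ### Neighbours -/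

/-- Contact, or the two trees of a colliding pair. -/
def Nb (Φ : E3 → ℝ) (ε : ℝ) (s : ℝ) (A B : CTree) : Prop :=
  (A.root ≠ B.root ∧ Ctc ε (st Φ ε A s) (st Φ ε B s)) ∨ partner Φ ε A B s

theorem Nb.symm (hΦ : IsPotential Φ) {A B : CTree} {s : ℝ} (h : Nb Φ ε s A B) :
    Nb Φ ε s B A := by
  rcases h with ⟨h1, h2⟩ | h
  · exact Or.inl ⟨h1.symm, h2.symm⟩
  · exact Or.inr (h.symm hΦ)

/-- Neighbours which are live in some world. -/
def RlF (Φ : E3 → ℝ) (ε : ℝ) (L : ℕ) (W : Finset ι → Set Src) (K : Finset ι) (s : ℝ)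
    (A B : CTree) : Prop := Nb Φ ε s A B ∧ Liv Φ ε L W K A s ∧ Liv Φ ε L W K B s

theorem RlF.symm (hΦ : IsPotential Φ) {A B : CTree} {s : ℝ} (h : RlF Φ ε L W K s A B) :
    RlF Φ ε L W K s B A := ⟨h.1.symm hΦ, h.2.2, h.2.1⟩

/-- A path of neighbours. -/
abbrev Pth (Φ : E3 → ℝ) (ε : ℝ) (L : ℕ) (W : Finset ι → Set Src) (K : Finset ι) (s : ℝ) :
    CTree → CTree → Prop := Relation.ReflTransGen (RlF Φ ε L W K s)

theorem Pth.symm (hΦ : IsPotential Φ) {A B : CTree} {s : ℝ} (h : Pth Φ ε L W K s A B) :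
    Pth Φ ε L W K s B A := by
  induction h with
  | refl => exact Relation.ReflTransGen.refl
  | tail _ h ih => exact Relation.ReflTransGen.head (h.symm hΦ) ih

/-- The contact of a hit. -/
theorem nb_of_hit (hΦ : IsPotential Φ) (hε : 0 < ε) {T T' : CTree} {s : ℝ} (hT' : ok Φ ε T')
    (hb : Bg Φ ε T s) (h : hit Φ ε T T' s) :
    (T.root ≠ T'.root ∧ Ctc ε (st Φ ε T s) (st Φ ε T' s)) ∨
      ∃ x y, T = node x y ∧ s < ext Φ ε T ∧ y.root ≠ T'.root ∧
        Ctc ε (st Φ ε (node y x) s) (st Φ ε T' s) := by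
  have h1 : st Φ ε T' s = free s (ln Φ ε T') := st_after hΦ hε hT' (hit_ext_le h)
  rw [h1]
  cases T with
  | leaf σ =>
    left
    refine ⟨fun hr => h.2.2.1 ?_, h.2.2.2⟩
    change σ = T'.root at hr
    rw [hr]
    exact T'.root_mem_leaves
  | node a b =>
    rcases h with ⟨h2, -⟩ | ⟨h2, h3, h4, h5⟩
    · rcases hb with hb | hb
      · exact absurd hb (not_lt.2 h2)
      · cases hb
    · rcases h5 with h5 | h5
      · refine Or.inl ⟨fun hr => ?_, h5⟩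
        refine disjoint_left.1 h4 (node a b).root_mem_leaves ?_
        rw [hr]
        exact T'.root_mem_leaves
      · refine Or.inr ⟨a, b, rfl, h5.1, fun hr => ?_, ?_⟩
        · refine disjoint_left.1 h4 (Or.inr b.root_mem_leaves) ?_
          rw [hr]
          exact T'.root_mem_leaves
        · rw [st_swap hΦ a b]
          exact h5.2

/-- A hit gives a path. -/
theorem pth_of_hit (hΦ : IsPotential Φ) (hε : 0 < ε) {T T' : CTree} {s : ℝ}
    (hT : Liv Φ ε L W K T s) (hT' : Liv Φ ε L W K T' s) (h : hit Φ ε T T' s) :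
    Pth Φ ε L W K s T T' := by
  have hok : ok Φ ε T' := by
    obtain ⟨-, J, -, h1⟩ := hT'
    exact h1.ok
  rcases nb_of_hit hΦ hε hok hT.1 h with h1 | ⟨x, y, rfl, h2, h3, h4⟩
  · exact Relation.ReflTransGen.single ⟨Or.inl h1, hT, hT'⟩
  · have h5 : Liv Φ ε L W K (node y x) s := hT.swap hΦ h2.le
    refine Relation.ReflTransGen.head (b := node y x) ⟨Or.inr ⟨x, y, rfl, rfl, h2⟩, hT, h5⟩ ?_
    exact Relation.ReflTransGen.single ⟨Or.inl ⟨h3, h4⟩, h5, hT'⟩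

/-! ### The final contact -/

section out

variable [DecidableEq ι]

/-- The final contact.  In the case `one` the two worlds `W J`, `W (insert i J)` differ by `i` only;
`A` is live in exactly one of them, `M` (and `M₂`) in both. -/
inductive Out (Φ : E3 → ℝ) (ε : ℝ) (L : ℕ) (W : Finset ι → Set Src) (K : Finset ι) (s : ℝ) : Prop
  | two (i j : ι) (hi : i ∈ K) (hj : j ∈ K) (hij : i ≠ j) (A B : CTree)
      (hA : Alt Φ ε L W i A s) (hB : Alt Φ ε L W j B s) (hr : A.root ≠ B.root)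
      (hc : Ctc ε (st Φ ε A s) (st Φ ε B s)) (eA : ext Φ ε A ≤ s) (eB : ext Φ ε B ≤ s)
  | one (i : ι) (J : Finset ι) (hJ : J ⊆ K) (hJ' : insert i J ⊆ K) (hiJ : i ∉ J) (A M : CTree)
      (bA : Bg Φ ε A s) (hA : ¬(live Φ ε L (W J) A s ↔ live Φ ε L (W (insert i J)) A s))
      (bM : Bg Φ ε M s) (hM : live Φ ε L (W J) M s ∧ live Φ ε L (W (insert i J)) M s)
      (hr : A.root ≠ M.root) (hc : Ctc ε (st Φ ε A s) (st Φ ε M s))
      (h : ¬Disjoint A.leaves M.leaves ∨ s < ext Φ ε A ∨ s < ext Φ ε M ∨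
        ∃ M₂, Bg Φ ε M₂ s ∧ live Φ ε L (W J) M₂ s ∧ live Φ ε L (W (insert i J)) M₂ s ∧
          M₂.root ≠ M.root ∧ M₂.root ≠ A.root ∧ Ctc ε (st Φ ε M s) (st Φ ε M₂ s))

variable {i j : ι} {s : ℝ}

/-- The difference made by `i` in any two worlds. -/
theorem Alt.dif (hD : DepTo Φ ε L W K s) (hi : i ∈ K) {A : CTree} (h : Alt Φ ε L W i A s)
    {J : Finset ι} (hJ : J ⊆ K) (hJ' : insert i J ⊆ K) (hiJ : i ∉ J) :
    ¬(live Φ ε L (W J) A s ↔ live Φ ε L (W (insert i J)) A s) := by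
  obtain ⟨k, hk⟩ := hD s le_rfl A h.1
  obtain rfl := hk.eq_of_dif hi h.2
  have e1 := hk J ∅ hJ (Finset.empty_subset _) (by simp [hiJ])
  have e2 := hk (insert i J) {i} hJ' (Finset.singleton_subset_iff.2 hi) (by simp)
  intro h'
  exact h.2 (e1.symm.trans (h'.trans e2))

/-- The case `one`. -/
theorem out_one (hD : DepTo Φ ε L W K s) (hi : i ∈ K) {A M : CTree}
    (hA : Alt Φ ε L W i A s) (hM : Co Φ ε L W K i M s)
    (hr : A.root ≠ M.root) (hc : Ctc ε (st Φ ε A s) (st Φ ε M s))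
    (h : ¬Disjoint A.leaves M.leaves ∨ s < ext Φ ε A ∨ s < ext Φ ε M ∨
      ∃ M₂, Co Φ ε L W K i M₂ s ∧ M₂.root ≠ M.root ∧ M₂.root ≠ A.root ∧
        Ctc ε (st Φ ε M s) (st Φ ε M₂ s)) : Out Φ ε L W K s := by
  have key : (¬Disjoint A.leaves M.leaves ∨ s < ext Φ ε A ∨ s < ext Φ ε M) →
      Out Φ ε L W K s := by
    intro h
    obtain ⟨h1, J, h2, h3, h4, h5, h6⟩ := hM
    exact Out.one i J h2 h3 h4 A M hA.1 (hA.dif hD hi h2 h3 h4) h1 ⟨h5, h6⟩ hr hc
      (by rcases h with h | h | h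
          · exact Or.inl h
          · exact Or.inr (Or.inl h)
          · exact Or.inr (Or.inr (Or.inl h)))
  rcases h with h | h | h | ⟨M₂, k1, k2, k3, k4⟩
  · exact key (Or.inl h)
  · exact key (Or.inr (Or.inl h))
  · exact key (Or.inr (Or.inr h))
  · rcases hM.liv.cases hD with h1 | ⟨j, hj, h1⟩
    · obtain ⟨g1, J, g2, g3, g4, g5, g6⟩ := k1
      exact Out.one i J g2 g3 g4 A M hA.1 (hA.dif hD hi g2 g3 g4) hM.1 ⟨h1 J g2, h1 _ g3⟩ hr hc
        (Or.inr (Or.inr (Or.inr ⟨M₂, g1, g5, g6, k2, k3, k4⟩)))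
    · have hij : i ≠ j := by
        rintro rfl
        exact hM.not_alt hD hi h1
      rcases lt_or_ge s (ext Φ ε A) with h6 | h6
      · exact key (Or.inr (Or.inl h6))
      rcases lt_or_ge s (ext Φ ε M) with h7 | h7
      · exact key (Or.inr (Or.inr h7))
      exact Out.two i j hi hj hij A M hA h1 hr hc h6 h7

/-- A neighbour which does not depend on `i` is in contact. -/
theorem ctc_of_nb (hΦ : IsPotential Φ) (hD : DepTo Φ ε L W K s) (hi : i ∈ K) {A M : CTree}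
    (hA : Alt Φ ε L W i A s) (hM : Co Φ ε L W K i M s) (h : Nb Φ ε s A M) :
    A.root ≠ M.root ∧ Ctc ε (st Φ ε A s) (st Φ ε M s) := by
  rcases h with h | ⟨x, y, rfl, rfl, h3⟩
  · exact h
  · exact absurd (hA.swap hΦ h3.le) (hM.not_alt hD hi)

/-- Three trees. -/
theorem out_of_nb2 (hΦ : IsPotential Φ) (hε : 0 < ε) (hC : CubeW W K) (hD : DepTo Φ ε L W K s)
    (hi : i ∈ K) {A M M₂ : CTree} (hA : Alt Φ ε L W i A s) (hM : Co Φ ε L W K i M s)
    (hM₂ : Co Φ ε L W K i M₂ s) (h : Nb Φ ε s A M) (h₂ : Nb Φ ε s M M₂) :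
    Out Φ ε L W K s := by
  have h1 := ctc_of_nb hΦ hD hi hA hM h
  refine out_one hD hi hA hM h1.1 h1.2 ?_
  rcases h₂ with h2 | ⟨x, y, rfl, rfl, h3⟩
  · exact Or.inr (Or.inr (Or.inr ⟨M₂, hM₂, h2.1.symm,
      (root_ne_of_co hΦ hε hC hD hi hA hM₂).symm, h2.2⟩))
  · exact Or.inr (Or.inr (Or.inl h3))

/-- **A path between trees altered by two indices.** -/
theorem out_of_path (hΦ : IsPotential Φ) (hε : 0 < ε) (hC : CubeW W K) (hD : DepTo Φ ε L W K s)
    (hi : i ∈ K) (hj : j ∈ K) (hij : i ≠ j) {X Y : CTree} (hX : Alt Φ ε L W i X s)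
    (hY : Alt Φ ε L W j Y s) (h : Pth Φ ε L W K s X Y) : Out Φ ε L W K s := by
  have hY' : ¬Alt Φ ε L W i Y s := fun h' => hij (h'.unique hD hi hj hY)
  have key : Out Φ ε L W K s ∨ (¬Alt Φ ε L W i X s ∧
      (X = Y ∨ ∃ c, RlF Φ ε L W K s X c ∧ ¬Alt Φ ε L W i c s)) := by
    refine Relation.ReflTransGen.head_induction_on (motive := fun a _ => Out Φ ε L W K s ∨
      (¬Alt Φ ε L W i a s ∧ (a = Y ∨ ∃ c, RlF Φ ε L W K s a c ∧ ¬Alt Φ ε L W i c s))) h
      (Or.inr ⟨hY', Or.inl rfl⟩) ?_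
    intro a c hac _ ih
    rcases ih with ih | ⟨h1, h2⟩
    · exact Or.inl ih
    by_cases ha : Alt Φ ε L W i a s
    swap
    · exact Or.inr ⟨ha, Or.inr ⟨c, hac, h1⟩⟩
    left
    have hc : Co Φ ε L W K i c s := hac.2.2.co hD hi h1
    have h3 := ctc_of_nb hΦ hD hi ha hc hac.1
    rcases h2 with rfl | ⟨d, h4, h5⟩
    · rcases lt_or_ge s (ext Φ ε a) with h6 | h6
      · exact out_one hD hi ha hc h3.1 h3.2 (Or.inr (Or.inl h6))
      rcases lt_or_ge s (ext Φ ε c) with h7 | h7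
      · exact out_one hD hi ha hc h3.1 h3.2 (Or.inr (Or.inr (Or.inl h7)))
      exact Out.two i j hi hj hij a c ha hY h3.1 h3.2 h6 h7
    · exact out_of_nb2 hΦ hε hC hD hi ha hc (h4.2.2.co hD hi h5) hac.1 h4.1
  rcases key with h1 | ⟨h1, -⟩
  · exact h1
  · exact absurd hX h1

/-! ### The failure of `NI` -/

omit [DecidableEq ι] in
/-- A live tree and its neighbours: a tree `T₀` which began before, to which everything is
connected. -/
theorem exists_hub (hΦ : IsPotential Φ) (hε : 0 < ε) (hC : CubeW W K) {T : CTree}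
    (hT : ∃ J, J ⊆ K ∧ live Φ ε L (W J) T s) : ∃ T₀, Liv Φ ε L W K T₀ s ∧
      (∀ T', Liv Φ ε L W K T' s → hit Φ ε T T' s → Pth Φ ε L W K s T₀ T') ∧
      (∀ i ∈ K, ¬(live Φ ε L (W ∅) T s ↔ live Φ ε L (W {i}) T s) →
        ∃ X, Alt Φ ε L W i X s ∧ Pth Φ ε L W K s X T₀) := by
  obtain ⟨J, hJ, hl⟩ := hT
  by_cases hb : Bg Φ ε T s
  · exact ⟨T, ⟨hb, J, hJ, hl⟩, fun T' hT' hh => pth_of_hit hΦ hε ⟨hb, J, hJ, hl⟩ hT' hh,
      fun i _ hi => ⟨T, ⟨hb, hi⟩, Relation.ReflTransGen.refl⟩⟩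
  cases T with
  | leaf σ => exact absurd (Or.inr rfl) hb
  | node a b =>
    have hs : sig Φ ε (node a b) = s := by
      refine le_antisymm hl.sig_le ?_
      by_contra hcon
      exact hb (Or.inl (not_le.1 hcon))
    have ha := live_left hΦ hε (hC.fin J hJ) hl
    have hb' := live_right hΦ hε (hC.fin J hJ) hl
    rw [hs] at ha hb'
    have La : Liv Φ ε L W K a s :=
      ⟨Bg.of_alive hΦ hε ha, J, hJ, ((alive_iff_live hΦ hε (hC.fin J hJ)).1 ha).1⟩
    have Lb : Liv Φ ε L W K b s :=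
      ⟨Bg.of_alive hΦ hε hb', J, hJ, ((alive_iff_live hΦ hε (hC.fin J hJ)).1 hb').1⟩
    have hab : Pth Φ ε L W K s a b := by
      refine pth_of_hit hΦ hε La Lb ?_
      rw [← hs]
      exact hit_sig hΦ hε hl.ok
    refine ⟨a, La, fun T' hT' hh => ?_, fun i hi hdif => ?_⟩
    · rcases hit_node_sig hΦ hε hl.ok hs.ge hh with ⟨h1, -⟩ | ⟨h1, -⟩
      · exact pth_of_hit hΦ hε La hT' h1
      · exact hab.trans (pth_of_hit hΦ hε Lb hT' h1)
    · -- one of the two subtrees is altered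
      have hJi : ({i} : Finset ι) ⊆ K := Finset.singleton_subset_iff.2 hi
      have hJ0 : (∅ : Finset ι) ⊆ K := Finset.empty_subset _
      have key : ∀ V : Set Src, V.Finite → (live Φ ε L V (node a b) s ↔
          alive Φ ε L V a s ∧ alive Φ ε L V b s) := by
        intro V hV
        constructor
        · intro h
          have h1 := live_left hΦ hε hV h
          have h2 := live_right hΦ hε hV h
          rw [hs] at h1 h2
          exact ⟨h1, h2⟩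
        · rintro ⟨h1, h2⟩
          rw [live_iff_base hΦ hε hV]
          refine ⟨⟨hl.ok, hl.depth, by rw [hs]; exact h1, by rw [hs]; exact h2⟩, hs.le,
            fun T' r hr hr' => ?_⟩
          rw [hs] at hr
          exact absurd hr' (not_lt.2 hr)
      rw [key _ (hC.fin _ hJ0), key _ (hC.fin _ hJi)] at hdif
      by_cases h1 : alive Φ ε L (W ∅) a s ↔ alive Φ ε L (W {i}) a s
      · by_cases h2 : alive Φ ε L (W ∅) b s ↔ alive Φ ε L (W {i}) b s
        · exact absurd (and_congr h1 h2) hdif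
        · exact ⟨b, alt_of_alive hΦ hε (hC.fin _ hJ0) (hC.fin _ hJi) h2, hab.symm hΦ⟩
      · exact ⟨a, alt_of_alive hΦ hε (hC.fin _ hJ0) (hC.fin _ hJi) h1,
          Relation.ReflTransGen.refl⟩

omit [DecidableEq ι] in
theorem exists_live_of_dif (hi : i ∈ K) {T : CTree}
    (h : ¬(live Φ ε L (W ∅) T s ↔ live Φ ε L (W {i}) T s)) :
    ∃ J, J ⊆ K ∧ live Φ ε L (W J) T s := by
  by_cases h1 : live Φ ε L (W ∅) T s
  · exact ⟨∅, Finset.empty_subset _, h1⟩
  · refine ⟨{i}, Finset.singleton_subset_iff.2 hi, ?_⟩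
    by_contra h2
    exact h ⟨fun h3 => absurd h3 h1, fun h3 => absurd h3 h2⟩

/-- The failure of `NI.nohit`. -/
theorem out_of_nohit (hΦ : IsPotential Φ) (hε : 0 < ε) (hC : CubeW W K) (hD : DepTo Φ ε L W K s)
    (hi : i ∈ K) (hj : j ∈ K) (hij : i ≠ j) {T T' : CTree}
    (h1 : ¬(live Φ ε L (W ∅) T s ↔ live Φ ε L (W {i}) T s))
    (h2 : ¬(alive Φ ε L (W ∅) T' s ↔ alive Φ ε L (W {j}) T' s)) (h3 : hit Φ ε T T' s) :
    Out Φ ε L W K s := by
  have hJ0 : (∅ : Finset ι) ⊆ K := Finset.empty_subset _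
  obtain ⟨T₀, -, h5, h6⟩ := exists_hub hΦ hε hC (exists_live_of_dif hi h1)
  obtain ⟨X, h7, h8⟩ := h6 i hi h1
  have h9 : Alt Φ ε L W j T' s :=
    alt_of_alive hΦ hε (hC.fin _ hJ0) (hC.fin _ (Finset.singleton_subset_iff.2 hj)) h2
  exact out_of_path hΦ hε hC hD hi hj hij h7 h9 (h8.trans (h5 T' (h9.liv hj) h3))

/-- The failure of `NI.notie`. -/
theorem out_of_notie (hΦ : IsPotential Φ) (hε : 0 < ε) (hC : CubeW W K) (hD : DepTo Φ ε L W K s)
    (hi : i ∈ K) (hj : j ∈ K) (hij : i ≠ j) {T T₁ T₂ : CTree}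
    (h0 : live Φ ε L (W ∅) T s)
    (h1 : ¬(alive Φ ε L (W ∅) T₁ s ↔ alive Φ ε L (W {i}) T₁ s))
    (h2 : ¬(alive Φ ε L (W ∅) T₂ s ↔ alive Φ ε L (W {j}) T₂ s)) (h3 : hit Φ ε T T₁ s)
    (h4 : hit Φ ε T T₂ s) : Out Φ ε L W K s := by
  have hJ0 : (∅ : Finset ι) ⊆ K := Finset.empty_subset _
  obtain ⟨T₀, -, h5, -⟩ := exists_hub hΦ hε hC ⟨∅, hJ0, h0⟩
  have h7 : Alt Φ ε L W i T₁ s :=
    alt_of_alive hΦ hε (hC.fin _ hJ0) (hC.fin _ (Finset.singleton_subset_iff.2 hi)) h1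
  have h9 : Alt Φ ε L W j T₂ s :=
    alt_of_alive hΦ hε (hC.fin _ hJ0) (hC.fin _ (Finset.singleton_subset_iff.2 hj)) h2
  exact out_of_path hΦ hε hC hD hi hj hij h7 h9
    (((h5 T₁ (h7.liv hi) h3).symm hΦ).trans (h5 T₂ (h9.liv hj) h4))

/-! ### The failure of `NIB` -/

omit [DecidableEq ι] in
/-- The tree of an altered particle is altered, or it is altered at this time only. -/
theorem altd_cases (hΦ : IsPotential Φ) (hε : 0 < ε) (hC : CubeW W K) (hi : i ∈ K) {T : CTree}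
    (hb : Bg Φ ε T s) {I : Finset ι} (hI : I ⊆ {i}) (hl : live Φ ε L (W I) T s)
    (ha : altd Φ ε L W i T.root s) : Alt Φ ε L W i T s ∨
      (live Φ ε L (W ∅) T s ∧ live Φ ε L (W {i}) T s ∧ ∃ X, Alt Φ ε L W i X s ∧
        (Nb Φ ε s X T ∨ ∃ S, Bg Φ ε S s ∧ live Φ ε L (W ∅) S s ∧ live Φ ε L (W {i}) S s ∧
          Nb Φ ε s X S ∧ Nb Φ ε s S T)) := by
  have hJi : ({i} : Finset ι) ⊆ K := Finset.singleton_subset_iff.2 hi
  have hJ0 : (∅ : Finset ι) ⊆ K := Finset.empty_subset _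
  have f0 := hC.fin _ hJ0
  have fi := hC.fin _ hJi
  by_cases hdif : live Φ ε L (W ∅) T s ↔ live Φ ε L (W {i}) T s
  swap
  · exact Or.inl ⟨hb, hdif⟩
  right
  have hboth : live Φ ε L (W ∅) T s ∧ live Φ ε L (W {i}) T s := by
    rcases Finset.subset_singleton_iff.1 hI with rfl | rfl
    · exact ⟨hl, hdif.1 hl⟩
    · exact ⟨hdif.2 hl, hl⟩
  obtain ⟨l0, li⟩ := hboth
  refine ⟨l0, li, ?_⟩
  have m0 : T.root ∈ W ∅ := l0.sub T.root_mem_leaves
  have mi : T.root ∈ W {i} := li.sub T.root_mem_leaves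
  -- the first difference is at time `s`
  have h1 : ∃ r ≤ s, stat Φ ε L (W ∅) T.root r ≠ stat Φ ε L (W {i}) T.root r := by
    by_contra hcon
    push Not at hcon
    exact ha ⟨⟨fun _ => mi, fun _ => m0⟩, hcon⟩
  obtain ⟨r, hr, h1⟩ := h1
  obtain ⟨s₀, h2, h3⟩ := first_diff hΦ hε f0 fi h1
  have h4 : s₀ = s := by
    refine le_antisymm (h2.trans hr) (not_lt.1 fun hlt => h3.ne ?_)
    have h5 := h3.birth_le hΦ hε
    have e0 := live_cur hΦ hε f0 l0 hlt h5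
    have ei := live_cur hΦ hε fi li hlt h5
    rw [(stat_eq_some_iff hΦ hε f0).2 ⟨cur_root T s₀, e0⟩,
      (stat_eq_some_iff hΦ hε fi).2 ⟨cur_root T s₀, ei⟩]
  subst h4
  obtain ⟨T', S, X, h5, h6⟩ := loc_step hΦ hε f0 fi h3 m0 mi
  have h7 : T' = T := by
    refine Bg.unique hΦ hε f0 h6.live₁ l0 ?_ hb h5
    rcases h6.sig with h7 | h7
    · exact Or.inl h7
    · exact Or.inr h7.1
  subst h7
  have hX : ¬(alive Φ ε L (W ∅) X s₀ ↔ alive Φ ε L (W {i}) X s₀) := by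
    intro h
    rcases h6.xalive with h8 | h8
    · exact h8.2 (h.1 h8.1)
    · exact h8.2 (h.2 h8.1)
  have hXa := alt_of_alive hΦ hε f0 fi hX
  obtain ⟨okX, exX⟩ := ext_le_of_alive hX
  refine ⟨X, hXa, ?_⟩
  rcases h6.cases with h8 | ⟨h8, h9, h10, h11, h12⟩
  · have h9 := h6.hit
    rw [h8] at h9
    rcases nb_of_hit hΦ hε okX hb h9 with h10 | ⟨x, y, rfl, h11, h12, h13⟩
    · exact Or.inl (Or.inl ⟨h10.1.symm, h10.2.symm⟩)
    · right
      refine ⟨node y x, hb.swap, live_swap hΦ l0 h11.le, live_swap hΦ li h11.le,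
        Or.inl ⟨fun h => h12 h.symm, h13.symm⟩, Or.inr ?_⟩
      exact ⟨y, x, rfl, rfl, by rw [ext_swap hΦ x y]; exact h11⟩
  · right
    have hTe : ext Φ ε T' ≤ s₀ := by rw [← h9]; exact h8.2.2.2.2.2.1.le
    have okS := (alive_pre h11).ok
    have eS := (alive_pre h11).ext_le
    refine ⟨S, Bg.of_alive hΦ hε h11, ((alive_iff_live hΦ hε f0).1 h11).1,
      ((alive_iff_live hΦ hε fi).1 h12).1, ?_, ?_⟩
    · rcases nb_of_hit hΦ hε okX (Bg.of_alive hΦ hε h11) h6.hit with h13 | ⟨x, y, rfl, h13, -⟩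
      · exact Or.inl ⟨h13.1.symm, h13.2.symm⟩
      · exact absurd h13 (not_lt.2 eS)
    · rcases nb_of_hit hΦ hε okS hb h10 with h13 | ⟨x, y, rfl, h13, -⟩
      · exact Or.inl ⟨h13.1.symm, h13.2.symm⟩
      · exact absurd h13 (not_lt.2 hTe)

omit [DecidableEq ι] in
theorem liv_of_sub_singleton (hi : i ∈ K) {I : Finset ι} (hI : I ⊆ {i}) {T : CTree}
    (hb : Bg Φ ε T s) (hl : live Φ ε L (W I) T s) : Liv Φ ε L W K T s :=
  ⟨hb, I, hI.trans (Finset.singleton_subset_iff.2 hi), hl⟩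

omit [DecidableEq ι] in
/-- The altered tree of an altered particle. -/
theorem exists_alt (hΦ : IsPotential Φ) (hε : 0 < ε) (hC : CubeW W K) (hi : i ∈ K) {T : CTree}
    (hb : Bg Φ ε T s) {I : Finset ι} (hI : I ⊆ {i}) (hl : live Φ ε L (W I) T s)
    (ha : altd Φ ε L W i T.root s) : ∃ X, Alt Φ ε L W i X s ∧ Pth Φ ε L W K s X T := by
  have hT := liv_of_sub_singleton hi hI hb hl
  rcases altd_cases hΦ hε hC hi hb hI hl ha with h1 | ⟨-, -, X, h1, h2 | ⟨S, h3, h4, -, h5, h6⟩⟩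
  · exact ⟨T, h1, Relation.ReflTransGen.refl⟩
  · exact ⟨X, h1, Relation.ReflTransGen.single ⟨h2, h1.liv hi, hT⟩⟩
  · have hS : Liv Φ ε L W K S s := ⟨h3, ∅, Finset.empty_subset _, h4⟩
    exact ⟨X, h1, Relation.ReflTransGen.head (b := S) ⟨h5, h1.liv hi, hS⟩
      (Relation.ReflTransGen.single ⟨h6, hS, hT⟩)⟩

/-- The failure of `NIB.nocon`. -/
theorem out_of_nocon (hΦ : IsPotential Φ) (hε : 0 < ε) (hC : CubeW W K) (hD : DepTo Φ ε L W K s)
    (hi : i ∈ K) (hj : j ∈ K) (hij : i ≠ j) {a b : Src} (hab : a ≠ b)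
    (ha : altd Φ ε L W i a s) (hb : altd Φ ε L W j b s) {I J : Finset ι} (hI : I ⊆ {i})
    (hJ : J ⊆ {j}) {T T' : CTree} (hTa : T.root = a) (hTb : T'.root = b)
    (hl : live Φ ε L (W I) T s) (hl' : live Φ ε L (W J) T' s)
    (hc : Ctc ε (st Φ ε T s) (st Φ ε T' s)) : Out Φ ε L W K s := by
  obtain ⟨T₀, h1, h2, h3, h4⟩ := exists_bg hΦ hε
    (hC.fin _ (hI.trans (Finset.singleton_subset_iff.2 hi))) hl
  obtain ⟨T₀', k1, k2, k3, k4⟩ := exists_bg hΦ hε
    (hC.fin _ (hJ.trans (Finset.singleton_subset_iff.2 hj))) hl'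
  obtain ⟨X, h5, h6⟩ := exists_alt hΦ hε hC hi h3 hI h2 (by rw [h1, hTa]; exact ha)
  obtain ⟨Y, k5, k6⟩ := exists_alt hΦ hε hC hj k3 hJ k2 (by rw [k1, hTb]; exact hb)
  refine out_of_path hΦ hε hC hD hi hj hij h5 k5 (h6.trans ?_)
  refine Relation.ReflTransGen.head (b := T₀') ⟨Or.inl ⟨?_, ?_⟩,
    liv_of_sub_singleton hi hI h3 h2, liv_of_sub_singleton hj hJ k3 k2⟩ (k6.symm hΦ)
  · rw [h1, k1, hTa, hTb]; exact hab
  · rw [h4, k4]; exact hc

/-- The failure of `NIB.nobad`, for a particle `a` which is not dead. -/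
theorem out_of_nobad (hΦ : IsPotential Φ) (hε : 0 < ε) (hC : CubeW W K) (hD : DepTo Φ ε L W K s)
    (hi : i ∈ K) {a b : Src} (ha : ¬altd Φ ε L W i a s) (hb : altd Φ ε L W i b s)
    {I : Finset ι} (hI : I ⊆ {i}) (hm : mcon Φ ε L (W I) s a b)
    (hst : stat Φ ε L (W I) a s ≠ none) : Out Φ ε L W K s := by
  have hIK : I ⊆ K := hI.trans (Finset.singleton_subset_iff.2 hi)
  have hJi : ({i} : Finset ι) ⊆ K := Finset.singleton_subset_iff.2 hi
  have hJ0 : (∅ : Finset ι) ⊆ K := Finset.empty_subset _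
  have fI := hC.fin _ hIK
  have f0 := hC.fin _ hJ0
  have fi := hC.fin _ hJi
  obtain ⟨hab, T, T', hTa, hTb, hl, hl', hc⟩ := hm
  obtain ⟨T₀, h1, h2, h3, h4⟩ := exists_bg hΦ hε fI hl
  obtain ⟨T₁, k1, k2, k3, k4⟩ := exists_bg hΦ hε fI hl'
  rw [hTa] at h1
  rw [hTb] at k1
  -- `a` is the same in the two worlds
  unfold altd at ha
  rw [not_not] at ha
  obtain ⟨ha1, ha2⟩ := ha
  have hall : ∀ V₁ V₂ : Set Src, V₁.Finite → V₂.Finite → (a ∈ V₁ → a ∈ V₂) →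
      (∀ r ≤ s, stat Φ ε L V₁ a r = stat Φ ε L V₂ a r) → live Φ ε L V₁ T₀ s →
      live Φ ε L V₂ T₀ s := by
    intro V₁ V₂ hV₁ hV₂ hm hs hl
    refine live_congr hΦ hε hV₁ hV₂ ?_ ?_ hl h3
    · rw [h1]; exact hm
    · rw [h1]; exact fun r hr => hs r hr.le
  have hboth : live Φ ε L (W ∅) T₀ s ∧ live Φ ε L (W {i}) T₀ s := by
    rcases Finset.subset_singleton_iff.1 hI with rfl | rfl
    · exact ⟨h2, hall _ _ f0 fi ha1.1 ha2 h2⟩
    · exact ⟨hall _ _ fi f0 ha1.2 (fun r hr => (ha2 r hr).symm) h2, h2⟩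
  have hT₀ : Liv Φ ε L W K T₀ s := ⟨h3, ∅, hJ0, hboth.1⟩
  have hT₀n : ¬Alt Φ ε L W i T₀ s := fun h => h.2 ⟨fun _ => hboth.2, fun _ => hboth.1⟩
  have hT₀c := hT₀.co hD hi hT₀n
  have hr : T₁.root ≠ T₀.root := by rw [h1, k1]; exact hab.symm
  have hc' : Ctc ε (st Φ ε T₁ s) (st Φ ε T₀ s) := by rw [h4, k4]; exact hc.symm
  rcases altd_cases hΦ hε hC hi k3 hI k2 (by rw [k1]; exact hb) with
    g1 | ⟨g1, g2, X, g3, g4⟩
  · -- `T₁` is altered
    refine out_one hD hi g1 hT₀c hr hc' ?_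
    by_contra hcon
    rw [not_or, not_or, not_or, not_not, not_lt, not_lt] at hcon
    obtain ⟨c1, c2, c3, -⟩ := hcon
    have hhit : hit Φ ε T₀ T₁ s := by
      refine (hit_after hΦ hε h2.ok c3).2 ⟨c2, c1.symm, ?_⟩
      rw [← st_after hΦ hε h2.ok c3, ← st_after hΦ hε k2.ok c2]
      exact hc'.symm
    have hal : alive Φ ε L (W I) T₁ s := (alive_iff_live hΦ hε fI).2 ⟨k2, c2⟩
    have h3' : sig Φ ε T₀ < s ∨ ∃ σ, T₀ = leaf σ := h3.imp_right fun h => ⟨_, h⟩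
    rcases stat_cases hΦ hε fI h2 h3' with ⟨-, e2⟩ | ⟨y, e1, e2, e3, e4, e5⟩ | ⟨e1, -⟩
    · exact e2 T₁ hhit hal
    · by_cases hy : T₁ = y
      · subst hy
        -- then `T₁` is alive in both worlds
        rw [h1] at e1
        have e6 : stat Φ ε L (W ∅) a s = some (node T₀ T₁) ∧
            stat Φ ε L (W {i}) a s = some (node T₀ T₁) := by
          rcases Finset.subset_singleton_iff.1 hI with rfl | rfl
          · exact ⟨e1, (ha2 s le_rfl) ▸ e1⟩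
          · exact ⟨(ha2 s le_rfl).trans e1, e1⟩
        have e7 := live_right hΦ hε f0 ((stat_eq_some_iff hΦ hε f0).1 e6.1).2.live
        have e8 := live_right hΦ hε fi ((stat_eq_some_iff hΦ hε fi).1 e6.2).2.live
        rw [e2] at e7 e8
        exact g1.2 ⟨fun _ => ((alive_iff_live hΦ hε fi).1 e8).1,
          fun _ => ((alive_iff_live hΦ hε f0).1 e7).1⟩
      · refine e5.nohit T₁ s le_rfl ?_ hal
        exact Or.inl ⟨e2.ge, Or.inl ⟨hhit, fun h => hy h.1⟩⟩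
    · rw [h1] at e1
      exact hst e1
  · -- `T₁` is altered at this time only
    have hT₁c : Co Φ ε L W K i T₁ s := Liv.co hD hi ⟨k3, ∅, hJ0, g1⟩
      fun h => h.2 ⟨fun _ => g2, fun _ => g1⟩
    rcases g4 with g4 | ⟨S, g5, g6, g7, g8, g9⟩
    · exact out_of_nb2 hΦ hε hC hD hi g3 hT₁c hT₀c g4 (Or.inl ⟨hr, hc'⟩)
    · have hSc : Co Φ ε L W K i S s := Liv.co hD hi ⟨g5, ∅, hJ0, g6⟩
        fun h => h.2 ⟨fun _ => g7, fun _ => g6⟩
      exact out_of_nb2 hΦ hε hC hD hi g3 hSc hT₁c g8 g9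

/-! ### The first failing time -/

/-- A first time of failure, in the sense of `allTimes`. -/
theorem exists_first_fail {V : Set Src} (hV : V.Finite) {Fail : ℝ → Prop} {t : ℝ}
    (h : ∃ s ≤ t, Fail s) :
    ∃ s ≤ t, Fail s ∧ ∀ e ∈ allTimes Φ ε L V, e < s → ∀ s' ≤ e, ¬Fail s' := by
  have hfin : (allTimes Φ ε L V).Finite := allTimes_finite hV
  obtain ⟨s₁, hs₁, hF₁⟩ := h
  obtain ⟨s, ⟨hs, hF⟩, hmin⟩ := WellFounded.has_min
    (measure fun s => (allTimes Φ ε L V ∩ Iio s).ncard).wf {s | s ≤ t ∧ Fail s} ⟨s₁, hs₁, hF₁⟩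
  refine ⟨s, hs, hF, fun e he hes s' hs' hF' => ?_⟩
  refine hmin s' ⟨(hs'.trans hes.le).trans hs, hF'⟩ ?_
  change (allTimes Φ ε L V ∩ Iio s').ncard < (allTimes Φ ε L V ∩ Iio s).ncard
  refine ncard_lt_ncard ⟨fun x hx => ⟨hx.1, lt_of_lt_of_le hx.2 (hs'.trans hes.le)⟩, fun hcon => ?_⟩
    (hfin.inter_of_left _)
  exact absurd (hcon ⟨he, hes⟩).2 (not_lt.2 hs')

/-- A failure of one of the conditions of `NI` and `NIB` at time `s`. -/
inductive Fail (Φ : E3 → ℝ) (ε : ℝ) (L : ℕ) (W : Finset ι → Set Src) (K : Finset ι) (s : ℝ) : Prop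
  | nohit (i j : ι) (hi : i ∈ K) (hj : j ∈ K) (hij : i ≠ j) (T T' : CTree)
      (h1 : ¬(live Φ ε L (W ∅) T s ↔ live Φ ε L (W {i}) T s))
      (h2 : ¬(alive Φ ε L (W ∅) T' s ↔ alive Φ ε L (W {j}) T' s)) (h3 : hit Φ ε T T' s)
  | notie (i j : ι) (hi : i ∈ K) (hj : j ∈ K) (hij : i ≠ j) (T T₁ T₂ : CTree)
      (h0 : live Φ ε L (W ∅) T s)
      (h1 : ¬(alive Φ ε L (W ∅) T₁ s ↔ alive Φ ε L (W {i}) T₁ s))
      (h2 : ¬(alive Φ ε L (W ∅) T₂ s ↔ alive Φ ε L (W {j}) T₂ s)) (h3 : hit Φ ε T T₁ s)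
      (h4 : hit Φ ε T T₂ s)
  | nocon (i j : ι) (hi : i ∈ K) (hj : j ∈ K) (hij : i ≠ j) (a b : Src) (hab : a ≠ b)
      (ha : altd Φ ε L W i a s) (hb : altd Φ ε L W j b s) (I J : Finset ι) (hI : I ⊆ {i})
      (hJ : J ⊆ {j}) (T T' : CTree) (hTa : T.root = a) (hTb : T'.root = b)
      (hl : live Φ ε L (W I) T s) (hl' : live Φ ε L (W J) T' s)
      (hc : Ctc ε (st Φ ε T s) (st Φ ε T' s))
  | nobad (i : ι) (hi : i ∈ K) (a b : Src) (ha : ¬altd Φ ε L W i a s) (hb : altd Φ ε L W i b s)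
      (I : Finset ι) (hI : I ⊆ {i}) (hm : mcon Φ ε L (W I) s a b)
      (hst : stat Φ ε L (W I) a s ≠ none)

theorem Fail.out (hΦ : IsPotential Φ) (hε : 0 < ε) (hC : CubeW W K) (hD : DepTo Φ ε L W K s)
    (h : Fail Φ ε L W K s) : Out Φ ε L W K s := by
  cases h with
  | nohit i j hi hj hij T T' h1 h2 h3 => exact out_of_nohit hΦ hε hC hD hi hj hij h1 h2 h3
  | notie i j hi hj hij T T₁ T₂ h0 h1 h2 h3 h4 =>
    exact out_of_notie hΦ hε hC hD hi hj hij h0 h1 h2 h3 h4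
  | nocon i j hi hj hij a b hab ha hb I J hI hJ T T' hTa hTb hl hl' hc =>
    exact out_of_nocon hΦ hε hC hD hi hj hij hab ha hb hI hJ hTa hTb hl hl' hc
  | nobad i hi a b ha hb I hI hm hst => exact out_of_nobad hΦ hε hC hD hi ha hb hI hm hst

omit [DecidableEq ι] in
theorem ni_of_not_fail {t : ℝ} (h : ∀ s ≤ t, ¬Fail Φ ε L W K s) : NI Φ ε L W K t :=
  ⟨fun i hi j hj hij s hs T T' h1 h2 h3 => h s hs (Fail.nohit i j hi hj hij T T' h1 h2 h3),
    fun i hi j hj hij s hs T T₁ T₂ h0 h1 h2 h3 h4 =>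
      h s hs (Fail.notie i j hi hj hij T T₁ T₂ h0 h1 h2 h3 h4)⟩

/-- **The final contact.** -/
theorem exists_out (hΦ : IsPotential Φ) (hε : 0 < ε) (hC : CubeW W K) {t : ℝ}
    (h : ∃ s ≤ t, Fail Φ ε L W K s) :
    ∃ s ≤ t, DepTo Φ ε L W K s ∧ Out Φ ε L W K s := by
  obtain ⟨s, h1, h2, h3⟩ := exists_first_fail (Φ := Φ) (ε := ε) (L := L)
    (hC.fin K (Finset.Subset.refl K)) h
  have hD : DepTo Φ ε L W K s := depTo_of_min hΦ hε hC fun e he hes => ni_of_not_fail (h3 e he hes)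
  exact ⟨s, h1, hD, h2.out hΦ hε hC hD⟩

end out

end Vale.Agent.P119.IND
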