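import Vale.Agent.P119.IND.Rec
import Vale.Agent.P119.IND.Final
import Vale.Agent.P119.IND.Explore
import Vale.Agent.P119.IND.CleanChain
import Vale.Agent.P119.IND.FJ

/-!
# P119, block IND: the records of a regular exploration (`helper498`)

`RT w b T s l`: an exploration backward (`Trail`) with regular links; `l = [(R₁, r₁, Y₁), …]` where
`Y_k` is the leg of `R_{k-1}` which is hit by `R_k`.

* `dep_status`: the status of a tree which is altered by `i`;
* `allFree_of`: before the first hit there is no hit in any world of the cube;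
* `RT.facts`: the records are `Ok` and pairwise `GP`; `RT.lk`: the links are `Lk`.
-/

open MeasureTheory Filter Topology Set
open scoped ENNReal NNReal

noncomputable section

namespace Vale.Agent.P119.IND

open KU M M.CTree TL

variable {Φ : E3 → ℝ} {ε : ℝ} {L : ℕ} {ι : Type*} {W : Finset ι → Set Src} {K : Finset ι}

/-! ### The worlds -/

/-- The worlds of the cube. -/
abbrev Kw (K : Finset ι) : Type _ := {J : Finset ι // J ⊆ K}

/-- The worlds of the cube. -/
def wd (W : Finset ι → Set Src) (K : Finset ι) (v : Kw K) : Set Src := W v.1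

/-- The two worlds of the index `i`. -/
def wb (W : Finset ι → Set Src) (i : ι) : Bool → Set Src
  | false => W ∅
  | true => W {i}

/-- The worlds in which the index `i` has the status `c`. -/
def Sb (K : Finset ι) (i : ι) (c : Bool) : Set (Kw K) := {v | i ∈ v.1 ↔ c = true}

/-- The world `∅` or `{i}`. -/
def vb (K : Finset ι) {i : ι} (hi : i ∈ K) : Bool → Kw K
  | false => ⟨∅, Finset.empty_subset _⟩
  | true => ⟨{i}, Finset.singleton_subset_iff.2 hi⟩

theorem vb_mem {i : ι} (hi : i ∈ K) (c : Bool) : vb K hi c ∈ Sb K i c := by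
  cases c
  · simp [vb, Sb]
  · simp [vb, Sb]

theorem wd_vb {i : ι} (hi : i ∈ K) (c : Bool) : wd W K (vb K hi c) = wb W i c := by
  cases c <;> rfl

theorem Sb_compl {i : ι} {c : Bool} {v : Kw K} : v ∈ Sb K i (!c) ↔ v ∉ Sb K i c := by
  unfold Sb
  rw [mem_ofPred_eq, mem_ofPred_eq]
  cases c <;> simp

theorem Sb_ne_univ {i : ι} (hi : i ∈ K) (c : Bool) : Sb K i c ≠ univ := by
  intro h
  have h1 := vb_mem hi (!c)
  rw [Sb_compl, h] at h1
  exact h1 (mem_univ _)

theorem Sb_nonempty {i : ι} (hi : i ∈ K) (c : Bool) : (Sb K i c).Nonempty := ⟨_, vb_mem hi c⟩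

theorem wd_finite (hC : CubeW W K) (v : Kw K) : (wd W K v).Finite := hC.fin v.1 v.2

theorem wb_finite (hC : CubeW W K) {i : ι} (hi : i ∈ K) (c : Bool) : (wb W i c).Finite := by
  rw [← wd_vb hi c]
  exact wd_finite hC _

/-- The world `∅` is contained in all the worlds. -/
theorem CubeW.empty_sub (hC : CubeW W K) {J : Finset ι} (hJ : J ⊆ K) : W ∅ ⊆ W J := by
  intro σ hσ
  obtain ⟨k, hk⟩ := hC.dep σ
  have h1 : σ ∈ W K := hC.mono ∅ (Finset.empty_subset _) hσ
  by_cases h2 : k ∈ J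
  · exact (hk J K hJ (Finset.Subset.refl K) ⟨fun h => hJ h, fun _ => h2⟩).2 h1
  · exact (hk J ∅ hJ (Finset.empty_subset _) ⟨fun h => absurd h h2,
      fun h => absurd h (Finset.notMem_empty _)⟩).2 hσ

/-- The status of a tree altered by `i`. -/
theorem dep_status {s₀ : ℝ} (hD : DepTo Φ ε L W K s₀) {i : ι} (hi : i ∈ K) {T : CTree} {r : ℝ}
    (hr : r ≤ s₀) (hb : Bg Φ ε T r) {c : Bool} (h : live Φ ε L (wb W i c) T r)
    (h' : ¬live Φ ε L (wb W i !c) T r) (v : Kw K) :
    live Φ ε L (wd W K v) T r ↔ v ∈ Sb K i c := by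
  classical
  obtain ⟨k, hk⟩ := hD r hr T hb
  have hd : ¬(live Φ ε L (W ∅) T r ↔ live Φ ε L (W {i}) T r) := by
    cases c
    · exact fun hcon => h' (hcon.1 h)
    · exact fun hcon => h' (hcon.2 h)
  obtain rfl := hk.eq_of_dif hi hd
  constructor
  · intro hv
    by_contra hcon
    rw [← Sb_compl] at hcon
    refine h' ?_
    rw [← wd_vb hi (!c)]
    refine (hk _ _ (vb K hi (!c)).2 v.2 ?_).2 hv
    exact (vb_mem hi (!c)).trans hcon.symm
  · intro hv
    rw [← wd_vb hi c] at h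
    exact (hk _ _ v.2 (vb K hi c).2 (hv.trans (vb_mem hi c).symm)).2 h

/-- **Before the first hit there is no hit in any world.** -/
theorem allFree_of [DecidableEq ι] (hΦ : IsPotential Φ) (hε : 0 < ε) (hC : CubeW W K) {s₀ : ℝ}
    (hD : DepTo Φ ε L W K s₀) {i : ι} (hi : i ∈ K) {T : CTree} {s r : ℝ}
    (hs : s ≤ s₀) (hb : Bg Φ ε T s) {c : Bool} (h : live Φ ε L (wb W i c) T s)
    (h' : ¬live Φ ε L (wb W i !c) T s) (hsub : T.leaves ⊆ wb W i !c) (hr : r < s)
    (hno : ∀ d X x, x < r → hit Φ ε T X x → ¬alive Φ ε L (wb W i d) X x) :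
    AllFree Φ ε L (wd W K) T r := by
  intro v
  have h0 : T.leaves ⊆ W ∅ := by
    cases c
    · exact h.sub
    · exact hsub
  refine ⟨h0.trans (CubeW.empty_sub hC v.2), h.ok, h.depth, fun X x hx hh ha => ?_⟩
  have hx0 : x ≤ s₀ := (hx.trans hr).le.trans hs
  have hX := (alive_iff_live hΦ hε (wd_finite hC v)).1 ha
  obtain ⟨k, hk⟩ := hD x hx0 X (Bg.of_alive hΦ hε ha)
  have hext : ext Φ ε X ≤ x := hX.2
  by_cases hki : k = i
  · -- `X` depends on `i`
    subst hki
    have h1 : ∃ d, v ∈ Sb K k d := by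
      by_cases h2 : k ∈ v.1
      · exact ⟨true, by simp [Sb, h2]⟩
      · exact ⟨false, by simp [Sb, h2]⟩
    obtain ⟨d, hd⟩ := h1
    refine hno d X x hx hh ((alive_iff_live hΦ hε (wb_finite hC hi d)).2 ⟨?_, hext⟩)
    rw [← wd_vb hi d]
    exact (hk _ _ (vb K hi d).2 v.2 ((vb_mem hi d).trans hd.symm)).2 hX.1
  · -- `X` does not depend on `i`: change the status of `i`
    obtain ⟨u, hu1, hu2⟩ : ∃ u : Kw K, u ∈ Sb K i c ∧ (k ∈ u.1 ↔ k ∈ v.1) := by
      cases c
      · refine ⟨⟨v.1.erase i, (Finset.erase_subset _ _).trans v.2⟩, ?_, ?_⟩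
        · simp [Sb]
        · simp [hki]
      · refine ⟨⟨insert i v.1, Finset.insert_subset hi v.2⟩, ?_, ?_⟩
        · simp [Sb]
        · simp [hki]
    have h1 : live Φ ε L (wd W K u) T s := (dep_status hD hi hs hb h h' u).2 hu1
    have h2 : live Φ ε L (wd W K u) X x := (hk _ _ u.2 v.2 hu2).2 hX.1
    exact h1.nohit X x (hx.trans hr) hh ((alive_iff_live hΦ hε (wd_finite hC u)).2 ⟨h2, hext⟩)

/-! ### Regular explorations -/

/-- The exploration backward with regular links. -/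
inductive RT (Φ : E3 → ℝ) (ε : ℝ) (L : ℕ) (w : Bool → Set Src) :
    Bool → CTree → ℝ → List (CTree × ℝ × CTree) → Prop
  | stop {b : Bool} {T : CTree} {s : ℝ} (h : live Φ ε L (w b) T s) (hσ : ¬T.leaves ⊆ w !b) :
      RT Φ ε L w b T s []
  | step {b : Bool} {T R Y : CTree} {s r : ℝ} {l : List (CTree × ℝ × CTree)}
      (h : live Φ ε L (w b) T s) (hsub : T.leaves ⊆ w !b) (hr : r < s)
      (hno : ∀ d X x, x < r → hit Φ ε T X x → ¬alive Φ ε L (w d) X x)
      (ha : alive Φ ε L (w !b) R r) (hna : ¬alive Φ ε L (w b) R r) (hk : RegLink Φ ε T R Y r)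
      (hc : Ctc ε (KU.free r (ln Φ ε R)) (KU.free r (ln Φ ε Y))) (ht : RT Φ ε L w (!b) R r l) :
      RT Φ ε L w b T s ((R, r, Y) :: l)

theorem RT.live {w : Bool → Set Src} {b : Bool} {T : CTree} {s : ℝ}
    {l : List (CTree × ℝ × CTree)} (h : RT Φ ε L w b T s l) : live Φ ε L (w b) T s := by
  cases h with
  | stop h _ => exact h
  | step h _ _ _ _ _ _ _ _ => exact h

/-- The record at the head. -/
def rc1 (K : Finset ι) (i : ι) (b : Bool) (T : CTree) (s : ℝ) : Rc (Kw K) := ⟨T, s, Sb K i b⟩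

/-- The links of an exploration: the records which hit, with the legs which are hit. -/
def lks (K : Finset ι) (i : ι) : Bool → List (CTree × ℝ × CTree) → List (Rc (Kw K) × CTree)
  | _, [] => []
  | b, (R, r, Y) :: l => (rc1 K i (!b) R r, Y) :: lks K i (!b) l

/-- The records of an exploration. -/
def rcs (K : Finset ι) (i : ι) (b : Bool) (l : List (CTree × ℝ × CTree)) : List (Rc (Kw K)) :=
  (lks K i b l).map Prod.fst

theorem rcs_cons {i : ι} {b : Bool} {R Y : CTree} {r : ℝ} {l : List (CTree × ℝ × CTree)} :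
    rcs K i b ((R, r, Y) :: l) = rc1 K i (!b) R r :: rcs K i (!b) l := rfl

theorem length_lks {i : ι} : ∀ {l : List (CTree × ℝ × CTree)} {b : Bool},
    (lks K i b l).length = l.length
  | [], _ => rfl
  | (_, _, _) :: l, b => by
    change (lks K i (!b) l).length + 1 = l.length + 1
    rw [length_lks]

section facts

variable [DecidableEq ι] {i : ι} {s₀ : ℝ}

omit [DecidableEq ι] in
theorem rc1_ok (hD : DepTo Φ ε L W K s₀) (hi : i ∈ K) {b : Bool} {T : CTree} {s : ℝ}
    (hs : s ≤ s₀) (hb : Bg Φ ε T s) (h : live Φ ε L (wb W i b) T s)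
    (h' : ¬live Φ ε L (wb W i !b) T s) : (rc1 K i b T s).Ok Φ ε L (wd W K) :=
  ⟨fun v hv => ⟨(dep_status hD hi hs hb h h' v).2 hv, hb⟩,
    fun v hv hl => hv ((dep_status hD hi hs hb h h' v).1 hl), Sb_nonempty hi b⟩

omit [DecidableEq ι] in
theorem not_live_of_not_alive (hΦ : IsPotential Φ) (hε : 0 < ε) (hC : CubeW W K) (hi : i ∈ K)
    {d : Bool} {R : CTree} {r : ℝ} (he : ext Φ ε R ≤ r) (h : ¬alive Φ ε L (wb W i d) R r) :
    ¬live Φ ε L (wb W i d) R r := fun hl =>
  h ((alive_iff_live hΦ hε (wb_finite hC hi d)).2 ⟨hl, he⟩)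

/-- **The records of a regular exploration.** -/
theorem RT.facts (hΦ : IsPotential Φ) (hε : 0 < ε) (hC : CubeW W K) (hD : DepTo Φ ε L W K s₀)
    (hi : i ∈ K) {b : Bool} {T : CTree} {s : ℝ} {l : List (CTree × ℝ × CTree)}
    (h : RT Φ ε L (wb W i) b T s l) (hs : s ≤ s₀) (hb : Bg Φ ε T s)
    (h' : ¬M.live Φ ε L (wb W i !b) T s) :
    (∀ m ∈ rc1 K i b T s :: rcs K i b l, m.Ok Φ ε L (wd W K)) ∧
      (∀ m ∈ rcs K i b l, m.r < s ∧ ext Φ ε m.R ≤ m.r ∧ ∃ d, m.S = Sb K i d) ∧
      (rc1 K i b T s :: rcs K i b l).Pairwise (GP Φ ε L (wd W K)) ∧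
      ∀ x ∈ lks K i b l, AllFree Φ ε L (wd W K) x.2 x.1.r ∧
        (∃ m' ∈ rc1 K i b T s :: rcs K i b l, x.2 ∈ parts m'.R) ∧ ext Φ ε x.2 ≤ x.1.r ∧
        Ctc ε (KU.free x.1.r (ln Φ ε x.1.R)) (KU.free x.1.r (ln Φ ε x.2)) ∧
        x.1.R.root ≠ x.2.root := by
  induction h with
  | @stop b T s hl hσ =>
    refine ⟨fun m hm => ?_, fun m hm => absurd hm List.not_mem_nil,
      List.pairwise_singleton _ _, fun x hx => absurd hx List.not_mem_nil⟩
    rw [show rcs K i b [] = [] from rfl, List.mem_singleton] at hm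
    subst hm
    exact rc1_ok hD hi hs hb hl h'
  | @step b T R Y s r l hl hsub hr hno ha hna hk hc ht ih =>
    have haL := (alive_iff_live hΦ hε (wb_finite hC hi (!b))).1 ha
    obtain ⟨i1, i2, i3, i4⟩ := ih (hr.le.trans hs) (Bg.of_alive hΦ hε ha)
      (by rw [Bool.not_not]; exact not_live_of_not_alive hΦ hε hC hi haL.2 hna)
    have hAF : AllFree Φ ε L (wd W K) T r := allFree_of hΦ hε hC hD hi hs hb hl h' hsub hr hno
    have hYT := hk.at_.sub
    refine ⟨?_, ?_, ?_, ?_⟩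
    · intro m hm
      rcases List.mem_cons.1 hm with rfl | hm
      · exact rc1_ok hD hi hs hb hl h'
      · exact i1 m hm
    · intro m hm
      rcases List.mem_cons.1 hm with rfl | hm
      · exact ⟨hr, haL.2, _, rfl⟩
      · obtain ⟨h1, h2, h3⟩ := i2 m hm
        exact ⟨h1.trans hr, h2, h3⟩
    · refine List.pairwise_cons.2 ⟨fun m hm => Or.inl ⟨hAF.mono ?_, ?_⟩, i3⟩
      · rcases List.mem_cons.1 hm with rfl | hm
        · exact le_rfl
        · exact (i2 m hm).1.le
      · rcases List.mem_cons.1 hm with rfl | hm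
        · exact Sb_ne_univ hi _
        · obtain ⟨-, -, d, hd⟩ := i2 m hm
          rw [hd]
          exact Sb_ne_univ hi d
    · intro x hx
      rcases List.mem_cons.1 hx with rfl | hx
      · refine ⟨fun v => ⟨hYT.leaves_subset.trans (hAF v).sub, hYT.ok (hAF v).ok,
          hYT.depth_le.trans (hAF v).depth, nohit_of_at hΦ (hAF v).nohit hk.at_⟩,
          ⟨_, List.mem_cons_self, Or.inl hYT⟩, hk.extY.le, hc, fun hcon => ?_⟩
        exact disjoint_left.1 hk.disj Y.root_mem_leaves (hcon ▸ R.root_mem_leaves)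
      · obtain ⟨h1, ⟨m', hm', h2⟩, h3⟩ := i4 x hx
        exact ⟨h1, ⟨m', List.mem_cons_of_mem _ hm', h2⟩, h3⟩

end facts

end Vale.Agent.P119.IND
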