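import Vale.Agent.P119.IND.Out
import Vale.Agent.P119.IND.OutTri
import Vale.Agent.P119.IND.Trec

/-!
# P119, block IND: the cubes for one and for two inserted sets (`helper621`)

* `WU w`: the cube of one index with the worlds `w false`, `w true`;
* `WB V A B`: the cube of two indices with the worlds `W₂ V A B c c'`.
-/

open MeasureTheory Filter Topology Set
open scoped ENNReal NNReal

noncomputable section

namespace Vale.Agent.P119.IND

open KU M M.CTree TL RB

variable {Φ : E3 → ℝ} {ε : ℝ} {L : ℕ}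

/-! ### One index -/

/-- The cube of one index. -/
def WU (w : Bool → Set Src) (J : Finset Unit) : Set Src := w (decide (() ∈ J))

theorem WU_congr {w : Bool → Set Src} {J J' : Finset Unit} (h : () ∈ J ↔ () ∈ J') :
    WU w J = WU w J' := by
  unfold WU
  rw [decide_eq_decide.2 h]

theorem WU_cubeW {w : Bool → Set Src} (hw : ∀ c, (w c).Finite) (hs : w false ⊆ w true) :
    CubeW (WU w) {()} := by
  refine ⟨fun J _ => hw _, fun J _ => ?_, fun σ => ⟨(), fun J J' _ _ h => ?_⟩⟩
  · have e : WU w {()} = w true := by simp [WU]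
    rw [e]
    unfold WU
    cases decide (() ∈ J)
    · exact hs
    · exact subset_rfl
  · change σ ∈ WU w J ↔ σ ∈ WU w J'
    rw [WU_congr h]

theorem wb_WU (w : Bool → Set Src) : wb (WU w) () = w := by
  funext c
  cases c <;> simp [wb, WU]

theorem depTo_WU (w : Bool → Set Src) (s : ℝ) : DepTo Φ ε L (WU w) {()} s := by
  intro s' _ T _
  refine ⟨(), fun J J' _ _ h => ?_⟩
  change live Φ ε L (WU w J) T s' ↔ live Φ ε L (WU w J') T s'
  rw [WU_congr h]

theorem exists_wd_WU (w : Bool → Set Src) (v : Kw ({()} : Finset Unit)) :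
    ∃ c, wd (WU w) {()} v = w c := ⟨_, rfl⟩

/-! ### Two indices -/

/-- The cube of two indices. -/
def WB (V A B : Set Src) (J : Finset Bool) : Set Src :=
  W₂ V A B (decide (false ∈ J)) (decide (true ∈ J))

theorem mem_WB {V A B : Set Src} {J : Finset Bool} {σ : Src} :
    σ ∈ WB V A B J ↔ σ ∈ V ∨ (false ∈ J ∧ σ ∈ A) ∨ (true ∈ J ∧ σ ∈ B) := by
  unfold WB
  rw [mem_W₂]
  simp only [decide_eq_true_eq]

theorem WB_cubeW {V A B : Set Src} (hV : V.Finite) (hA : A.Finite) (hB : B.Finite)
    (hd : Disjoint A B) : CubeW (WB V A B) Finset.univ := by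
  refine ⟨fun J _ => W₂_finite hV hA hB _ _, fun J hJ σ => ?_, fun σ => ?_⟩
  · rw [mem_WB, mem_WB]
    exact Or.imp_right (Or.imp (And.imp_left fun h => hJ h) (And.imp_left fun h => hJ h))
  · by_cases hσ : σ ∈ A
    · have hσ' : σ ∉ B := disjoint_left.1 hd hσ
      refine ⟨false, fun J J' _ _ h => ?_⟩
      change σ ∈ WB V A B J ↔ σ ∈ WB V A B J'
      rw [mem_WB, mem_WB]
      simp only [hσ, hσ', and_true, and_false, or_false]
      exact or_congr_right h
    · refine ⟨true, fun J J' _ _ h => ?_⟩
      change σ ∈ WB V A B J ↔ σ ∈ WB V A B J'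
      rw [mem_WB, mem_WB]
      simp only [hσ, and_false, false_or]
      exact or_congr_right (and_congr_left fun _ => h)

theorem wb_WB_false (V A B : Set Src) : wb (WB V A B) false = fun c => W₂ V A B c false := by
  funext c
  cases c <;> simp [wb, WB]

theorem wb_WB_true (V A B : Set Src) : wb (WB V A B) true = fun c => W₂ V A B false c := by
  funext c
  cases c <;> simp [wb, WB]

theorem exists_wd_WB (V A B : Set Src) (v : Kw (Finset.univ : Finset Bool)) :
    ∃ c c', wd (WB V A B) Finset.univ v = W₂ V A B c c' := ⟨_, _, rfl⟩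

/-- The dependence on one of the two sets. -/
theorem TwoOut.depTo {V A B : Set Src} {s : ℝ} {b b' : Bool} {T T' : CTree}
    (h : TwoOut Φ ε L V A B s b b' T T') : DepTo Φ ε L (WB V A B) Finset.univ s := by
  intro s' hs' X hX
  rcases h.dep s' hs' X hX with h1 | h1
  · refine ⟨false, fun J J' _ _ hJ => ?_⟩
    change M.live Φ ε L (WB V A B J) X s' ↔ M.live Φ ε L (WB V A B J') X s'
    unfold WB
    rw [decide_eq_decide.2 hJ]
    exact h1 _ _ _
  · refine ⟨true, fun J J' _ _ hJ => ?_⟩
    change M.live Φ ε L (WB V A B J) X s' ↔ M.live Φ ε L (WB V A B J') X s'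
    unfold WB
    rw [decide_eq_decide.2 hJ]
    exact h1 _ _ _

end Vale.Agent.P119.IND
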