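import Vale.Agent.P119.IND.DetRec
import Vale.Agent.P119.IND.Cubes

/-!
# P119, block IND: the deterministic analysis of the failures of `NI1` and `NI2` (`helper498`)

* `OneOut.detOut`, `TwoOut.outp`: the final contacts of `helper621` give an output `DetOut`;
* `exists_detOut_one`, `exists_detOut_two`: **if `NI1 V A t` (`NI2 V A B t`) fails, then there is an
  output at a time `s ≤ t`**.
-/

open MeasureTheory Filter Topology Set
open scoped ENNReal NNReal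

noncomputable section

namespace Vale.Agent.P119.IND

open KU M M.CTree TL

variable {Φ : E3 → ℝ} {ε : ℝ} {L : ℕ} {V₀ ins all : Set Src} {Lv : CTree → Prop}
  {Lg : Bool → Gh → Prop} {s t : ℝ}

/-! ### One index -/

theorem Thd.fu {w : Bool → Set Src} {S : CTree} (h : Thd Φ ε L w s S) :
    Fu Φ ε L (WU w) {()} S s :=
  ⟨h.bg, fun v => by
    obtain ⟨c, hc⟩ := exists_wd_WU w v
    rw [hc]
    exact h.live c⟩

/-- The outputs of the classified final contacts. -/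
theorem OneEnd.outp {w : Bool → Set Src}
    (hE : Env Φ ε L (WU w) {()} V₀ ins all Lv Lg s t) (hw : ∀ c, (w c).Finite) (m : ℕ) {b : Bool}
    {T : CTree} (hb : Bg Φ ε T s) (hl : live Φ ε L (w b) T s) (hn : ¬live Φ ε L (w !b) T s)
    (h : OneEnd Φ ε L w s b T) : Outp hE m := by
  obtain ⟨l', hl'⟩ := exists_trail hE.pot hE.pos hw hl hn
  have e := wb_WU w
  rw [← e] at hl' hl hn
  rcases exists_pc hE m (Finset.mem_singleton_self ()) hl' le_rfl hb hn with ⟨l, σ, hpc⟩ | h0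
  swap
  · exact h0
  have hd : Hd Φ ε L (WU w) {()} V₀ s () m b T s l σ :=
    ⟨hpc, Finset.mem_singleton_self _, le_rfl, hb, hn⟩
  cases h with
  | cyc S hS hr eT eS hc hdj => exact hd.cyc hE hS.fu eT eS hc hdj
  | colS x y hS hsx eT hrx hry hc => exact hd.colS hE hS.fu hsx eT hrx hry (Or.inl hc)
  | colT x y S hT hsx hS eS hrx hry hc => exact hd.colT hE hT hsx hS.fu eS hrx hry hc
  | col2 x y u v hT hsx hS hsu h1 h2 h3 h4 hc =>
    exact hd.col2 hE hT hsx hS.fu hsu h1 h2 h3 h4 hc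
  | born S hS hr eT eS hc hdj hmax =>
    exact hd.two_fly hE hS.fu eT eS fun F G h1 h2 h3 => Irr.born T S h1 h2 hr hmax hc h3
  | graze S hS hr hdj hg =>
    exact hd.two_fly hE hS.fu ((le_max_left _ _).trans hg.1.le) ((le_max_right _ _).trans hg.1.le)
      fun F G h1 h2 h3 => Irr.graze T S h1 h2 hr hg h3
  | three S S₂ hS hS₂ eT eS eS₂ hdj hr hr₂ hr' hm hh hc hc₂ =>
    exact hd.three hE hS.fu hS₂.fu eT eS eS₂ hr hr₂ hr' hm hh hc₂
  | gtri S x y hS hS₂ hsx eT eS hdj hr h1 h2 h3 h4 hc hc₂ =>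
    exact hd.gtri hE hS.fu hS₂.fu hsx eT eS hr h1 h2 h3 h4 hc hc₂

theorem WU_empty (w : Bool → Set Src) : WU w ∅ = w false := by simp [WU]

theorem WU_unit (w : Bool → Set Src) : WU w {()} = w true := by simp [WU]

/-- The setting for two worlds. -/
theorem env_WU (hΦ : IsPotential Φ) (hε : 0 < ε) {w : Bool → Set Src} (hw : ∀ c, (w c).Finite)
    (hs : w false ⊆ w true) (h₀ : V₀ ⊆ w false) (hins : ∀ σ ∈ w true, σ ∉ w false → σ ∈ ins)
    (hall : w true ⊆ all) (hLv : ∀ c P, lives Φ ε L (w c) P (sig Φ ε P) → Lv P)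
    (hLg : ∀ c A B r, r ≤ s → alive Φ ε L (w c) A r → live Φ ε L (w c) B r →
      Lg false (A, B, r))
    (hLd : ∀ c A B r, r ≤ s → ¬(live Φ ε L (w c) A r ↔ live Φ ε L (w c) B r) →
      Lg true (A, B, r))
    (hst : s ≤ t) : Env Φ ε L (WU w) {()} V₀ ins all Lv Lg s t := by
  refine ⟨hΦ, hε, WU_cubeW hw hs, depTo_WU w s, hst, by rw [WU_empty]; exact h₀, ?_, ?_, ?_, ?_,
    ?_⟩
  · rintro ⟨⟩ - σ h1 h2
    rw [WU_unit] at h1
    rw [WU_empty] at h2
    exact hins σ h1 h2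
  · intro v
    obtain ⟨c, hc⟩ := exists_wd_WU w v
    rw [hc]
    cases c
    · exact hs.trans hall
    · exact hall
  · intro P v hP
    obtain ⟨c, hc⟩ := exists_wd_WU w v
    rw [hc] at hP
    exact hLv c P hP
  · intro v A B r hr hA hB
    obtain ⟨c, hc⟩ := exists_wd_WU w v
    rw [hc] at hA hB
    exact hLg c A B r hr hA hB
  · intro v A B r hr hAB
    obtain ⟨c, hc⟩ := exists_wd_WU w v
    rw [hc] at hAB
    exact hLd c A B r hr hAB

/-- **The output of a final contact for two worlds.** -/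
theorem OneOut.detOut (hΦ : IsPotential Φ) (hε : 0 < ε) {w : Bool → Set Src}
    (hw : ∀ c, (w c).Finite) (hs : w false ⊆ w true) (h₀ : V₀ ⊆ w false)
    (hins : ∀ σ ∈ w true, σ ∉ w false → σ ∈ ins) (hall : w true ⊆ all)
    (hLv : ∀ c P, lives Φ ε L (w c) P (sig Φ ε P) → Lv P)
    (hLg : ∀ c A B r, r ≤ s → alive Φ ε L (w c) A r → M.live Φ ε L (w c) B r →
      Lg false (A, B, r))
    (hLd : ∀ c A B r, r ≤ s → ¬(M.live Φ ε L (w c) A r ↔ M.live Φ ε L (w c) B r) →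
      Lg true (A, B, r))
    (hst : s ≤ t) (m : ℕ) {b : Bool} {T S : CTree} (h : OneOut Φ ε L w s b T S) :
    ∃ s' ≤ s, DetOut hΦ hε L V₀ ins all Lv Lg t m (Nb0 L m) s' :=
  (h.oneEnd hΦ hε hw).outp (env_WU hΦ hε hw hs h₀ hins hall hLv hLg hLd hst) hw m h.bg h.live
    h.not_live

/-! ### Two indices -/

theorem Sb_cross {ι : Type*} [DecidableEq ι] {K : Finset ι} {i j : ι} (hi : i ∈ K) (hj : j ∈ K)
    (hij : i ≠ j) (c d : Bool) : Sb K i c ≠ Sb K j d := by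
  intro hcon
  have key : ∀ c d : Bool, ∃ v, v ∈ Sb K i c ∧ v ∈ Sb K j d := by
    intro c d
    cases c <;> cases d
    · exact ⟨⟨∅, Finset.empty_subset _⟩, by simp [Sb], by simp [Sb]⟩
    · exact ⟨⟨{j}, Finset.singleton_subset_iff.2 hj⟩, by simp [Sb, hij], by simp [Sb]⟩
    · exact ⟨⟨{i}, Finset.singleton_subset_iff.2 hi⟩, by simp [Sb], by simp [Sb, hij.symm]⟩
    · exact ⟨⟨{i, j}, Finset.insert_subset hi (Finset.singleton_subset_iff.2 hj)⟩, by simp [Sb],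
        by simp [Sb]⟩
  obtain ⟨v, h1, h2⟩ := key (!c) d
  rw [← hcon] at h2
  exact Sb_compl.1 h1 h2

/-- Records of two indices. -/
theorem gp_cross {ι : Type*} [DecidableEq ι] {W : Finset ι → Set Src} {K : Finset ι} {i j : ι}
    (hi : i ∈ K) (hj : j ∈ K) (hij : i ≠ j) {m₁ m₂ : Rc (Kw K)} {c d : Bool}
    (h₁ : m₁.S = Sb K i c) (h₂ : m₂.S = Sb K j d) : GP Φ ε L (wd W K) m₁ m₂ := by
  have key : ∀ c d : Bool, ∃ v, v ∈ Sb K i c ∧ v ∈ Sb K j d := by
    intro c d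
    cases c <;> cases d
    · exact ⟨⟨∅, Finset.empty_subset _⟩, by simp [Sb], by simp [Sb]⟩
    · exact ⟨⟨{j}, Finset.singleton_subset_iff.2 hj⟩, by simp [Sb, hij], by simp [Sb]⟩
    · exact ⟨⟨{i}, Finset.singleton_subset_iff.2 hi⟩, by simp [Sb], by simp [Sb, hij.symm]⟩
    · exact ⟨⟨{i, j}, Finset.insert_subset hi (Finset.singleton_subset_iff.2 hj)⟩, by simp [Sb],
        by simp [Sb]⟩
  have k1 : ∃ v, v ∈ m₂.S ∧ v ∉ m₁.S := by
    obtain ⟨v, h3, h4⟩ := key (!c) d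
    exact ⟨v, by rw [h₂]; exact h4, by rw [h₁]; exact Sb_compl.1 h3⟩
  have k2 : ∃ v, v ∈ m₁.S ∧ v ∉ m₂.S := by
    obtain ⟨v, h3, h4⟩ := key c (!d)
    exact ⟨v, by rw [h₁]; exact h3, by rw [h₂]; exact Sb_compl.1 h4⟩
  refine Or.inr (Or.inr ⟨?_, fun _ => k1, fun _ => k2, fun _ => Or.inl fun hcon => ?_⟩)
  · obtain ⟨v, h3, h4⟩ := key c d
    exact ⟨v, by rw [h₁]; exact h3, by rw [h₂]; exact h4⟩
  · obtain ⟨v, h3, h4⟩ := k1
    exact h4 (hcon ▸ h3)

/-- The special labels of two indices are different. -/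
theorem CubeW.src_ne {ι : Type*} {W : Finset ι → Set Src} {K : Finset ι} (hC : CubeW W K)
    {i j : ι} (hi : i ∈ K) (hj : j ∈ K) (hij : i ≠ j) {σ τ : Src} (h1 : σ ∈ W {i})
    (h2 : σ ∉ W ∅) (h3 : τ ∈ W {j}) : τ ≠ σ := by
  rintro rfl
  obtain ⟨k, hk⟩ := hC.dep τ
  have hi' : ({i} : Finset ι) ⊆ K := Finset.singleton_subset_iff.2 hi
  have hj' : ({j} : Finset ι) ⊆ K := Finset.singleton_subset_iff.2 hj
  have e1 : k = i := by
    by_contra hne
    exact h2 ((hk {i} ∅ hi' (Finset.empty_subset _) (by simp [hne])).1 h1)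
  have e2 : k = j := by
    by_contra hne
    exact h2 ((hk {j} ∅ hj' (Finset.empty_subset _) (by simp [hne])).1 h3)
  exact hij (e1.symm.trans e2)

/-- The contact of two flying heads of different indices. -/
theorem Hd.two {ι : Type*} [DecidableEq ι] {W : Finset ι → Set Src} {K : Finset ι} {s₀ : ℝ}
    {m : ℕ} (hE : Env Φ ε L W K V₀ ins all Lv Lg s₀ t) {i j : ι} {b b' : Bool} {T T' : CTree}
    {l l' : List (CTree × ℝ × CTree)} {σ τ : Src} (h : Hd Φ ε L W K V₀ s₀ i m b T s l σ)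
    (h' : Hd Φ ε L W K V₀ s₀ j m b' T' s l' τ) (hij : i ≠ j) (eT : ext Φ ε T ≤ s)
    (eT' : ext Φ ε T' ≤ s) (hc : Ctc ε (KU.free s (ln Φ ε T)) (KU.free s (ln Φ ε T'))) :
    Outp hE m := by
  obtain ⟨f1, f2, f3, f4⟩ := h.pc.rt.facts hE.pot hE.pos hE.cube hE.dep h.hi h.hs h.bg h.nl
  obtain ⟨g1, g2, g3, g4⟩ := h'.pc.rt.facts hE.pot hE.pos hE.cube hE.dep h'.hi h'.hs h'.bg h'.nl
  set 𝓜₁ := rc1 K i b T s :: rcs K i b l with h𝓜₁
  set 𝓜₂ := rc1 K j b' T' s :: rcs K j b' l' with h𝓜₂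
  have hS : ∀ x ∈ 𝓜₁, x.r ≤ s ∧ ∃ d, x.S = Sb K i d := by
    intro x hx
    rcases List.mem_cons.1 hx with rfl | hx
    · exact ⟨le_rfl, b, rfl⟩
    · exact ⟨(f2 x hx).1.le, (f2 x hx).2.2⟩
  have hS' : ∀ x ∈ 𝓜₂, x.r ≤ s ∧ ∃ d, x.S = Sb K j d := by
    intro x hx
    rcases List.mem_cons.1 hx with rfl | hx
    · exact ⟨le_rfl, b', rfl⟩
    · exact ⟨(g2 x hx).1.le, (g2 x hx).2.2⟩
  have cross : ∀ x ∈ 𝓜₁, ∀ y ∈ 𝓜₂, GP Φ ε L (wd W K) x y := by
    intro x hx y hy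
    obtain ⟨-, d, hd⟩ := hS x hx
    obtain ⟨-, d', hd'⟩ := hS' y hy
    exact gp_cross h.hi h'.hi hij hd hd'
  set 𝓜 := 𝓜₁ ++ 𝓜₂ with h𝓜
  set 𝓛 := lks K i b l ++ lks K j b' l' with h𝓛
  have hok : ∀ x ∈ 𝓜, x.Ok Φ ε L (wd W K) := by
    intro x hx
    rcases List.mem_append.1 hx with hx | hx
    · exact f1 x hx
    · exact g1 x hx
  have hle : ∀ x ∈ 𝓜, x.r ≤ s := by
    intro x hx
    rcases List.mem_append.1 hx with hx | hx
    · exact (hS x hx).1
    · exact (hS' x hx).1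
  have hgp : 𝓜.Pairwise (GP Φ ε L (wd W K)) := List.pairwise_append.2 ⟨f3, g3, cross⟩
  have hL1 : ∀ x ∈ lks K i b l, x.1 ∈ rcs K i b l := fun x hx => List.mem_map.2 ⟨x, hx, rfl⟩
  have hL2 : ∀ x ∈ lks K j b' l', x.1 ∈ rcs K j b' l' := fun x hx => List.mem_map.2 ⟨x, hx, rfl⟩
  have hLk : ∀ x ∈ 𝓛, Lk Φ ε L (wd W K) 𝓜 x.1 x.2 ∧ x.1.r < s := by
    intro x hx
    rcases List.mem_append.1 hx with hx | hx
    · obtain ⟨k1, ⟨m', k2, k3⟩, k4, k5, k6⟩ := f4 x hx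
      obtain ⟨n1, n2, d, n3⟩ := f2 _ (hL1 x hx)
      refine ⟨⟨List.mem_append_left _ (List.mem_cons_of_mem _ (hL1 x hx)), n2, ?_, k1,
        ⟨m', List.mem_append_left _ k2, k3⟩, k4, k5, k6⟩, n1⟩
      rw [n3]
      exact Sb_ne_univ h.hi d
    · obtain ⟨k1, ⟨m', k2, k3⟩, k4, k5, k6⟩ := g4 x hx
      obtain ⟨n1, n2, d, n3⟩ := g2 _ (hL2 x hx)
      refine ⟨⟨List.mem_append_right _ (List.mem_cons_of_mem _ (hL2 x hx)), n2, ?_, k1,
        ⟨m', List.mem_append_right _ k2, k3⟩, k4, k5, k6⟩, n1⟩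
      rw [n3]
      exact Sb_ne_univ h'.hi d
  have hLp : 𝓛.Pairwise fun x y => GP Φ ε L (wd W K) x.1 y.1 := by
    have p1 := (List.pairwise_cons.1 f3).2
    have p2 := (List.pairwise_cons.1 g3).2
    unfold rcs at p1 p2
    rw [List.pairwise_map] at p1 p2
    exact List.pairwise_append.2 ⟨p1, p2, fun x hx y hy =>
      cross _ (List.mem_cons_of_mem _ (hL1 x hx)) _ (List.mem_cons_of_mem _ (hL2 y hy))⟩
  have mT : rc1 K i b T s ∈ 𝓜 := List.mem_append_left _ List.mem_cons_self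
  have mT' : rc1 K j b' T' s ∈ 𝓜 := List.mem_append_right _ List.mem_cons_self
  have hlen := h.pc.len
  have hlen' := h'.pc.len
  obtain ⟨G, hG, hB⟩ := exists_bfam hE.pot hE.pos (wd_finite hE.cube) hE.hall hE.hLv
    (Lg := Lg) (fun v A B r hr hA hB => hE.hLg v A B r (hr.trans h.hs) hA
      ((alive_iff_live hE.pot hE.pos (wd_finite hE.cube v)).1 hB).1)
    (fun v A B r hr => hE.hLd v A B r (hr.trans h.hs))
    𝓜 hok hle hgp 𝓛 (fun x hx => (hLk x hx).1) hLp (fun x hx => (hLk x hx).2) [rc1 K i b T s, rc1 K j b' T' s] (fun x hx => by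
      rcases List.mem_cons.1 hx with rfl | hx
      · exact ⟨mT, rfl, eT⟩
      · rw [List.mem_singleton] at hx
        subst hx
        exact ⟨mT', rfl, eT'⟩)
    (List.pairwise_pair.2 (gp_cross h.hi h'.hi hij rfl rfl))
    (by
      rw [List.isChain_cons_cons]
      exact ⟨hc, List.IsChain.singleton _⟩)
    (by
      rw [List.isChain_cons_cons]
      exact ⟨Sb_cross h.hi h'.hi hij b b', List.IsChain.singleton _⟩) (n := 2 * m + 6) (by
        rw [h𝓜, h𝓜₁, h𝓜₂]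
        unfold rcs
        simp only [List.length_append, List.length_cons, List.length_map, length_lks]
        omega) (by
        rw [h𝓛]
        simp only [List.length_append, length_lks, pg, List.length_cons, List.length_nil]
        omega)
  have hmem : ∀ u ∈ T :: l.map Prod.fst, u ∈ famT Φ ε s 𝓜 := by
    intro u hu
    rcases List.mem_cons.1 hu with rfl | hu
    · exact mem_famT_self mT eT
    · rw [← map_rcs (K := K) (i := i) (b := b)] at hu
      obtain ⟨x, hx, rfl⟩ := List.mem_map.1 hu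
      exact mem_famT_self (List.mem_append_left _ (List.mem_cons_of_mem _ hx))
        ((f2 x hx).2.1.trans (f2 x hx).1.le)
  have hmem' : ∀ u ∈ T' :: l'.map Prod.fst, u ∈ famT Φ ε s 𝓜 := by
    intro u hu
    rcases List.mem_cons.1 hu with rfl | hu
    · exact mem_famT_self mT' eT'
    · rw [← map_rcs (K := K) (i := j) (b := b')] at hu
      obtain ⟨x, hx, rfl⟩ := List.mem_map.1 hu
      exact mem_famT_self (List.mem_append_right _ (List.mem_cons_of_mem _ hx))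
        ((g2 x hx).2.1.trans (g2 x hx).1.le)
  have hlgs : lgs 𝓛 = lgs (lks K i b l) ++ lgs (lks K j b' l') := List.map_append ..
  have c1 := h.pc.rt.conn (i := i) (K := K) hB.fam hmem (fun g hg => hG.mem_iff.2
    (List.mem_append_left _ (by rw [hlgs]; exact List.mem_append_left _ hg))) h.pc.src
  have c2 := h'.pc.rt.conn (i := j) (K := K) hB.fam hmem' (fun g hg => hG.mem_iff.2
    (List.mem_append_left _ (by rw [hlgs]; exact List.mem_append_right _ hg))) h'.pc.src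
  have c3 : FJ (famT Φ ε s 𝓜) G T.root T'.root := FJ.ghost (g := (T, T', s))
    (hG.mem_iff.2 (List.mem_append_right _ List.mem_cons_self))
  have c4 := c1 T List.mem_cons_self T.root T.root_mem_leaves
  have c5 := c2 T' List.mem_cons_self T'.root T'.root_mem_leaves
  have hσF : σ ∈ lab (famT Φ ε s 𝓜) := Fam.leaves_lab hB.fam (hmem _ (lastT_mem T l)) h.pc.src
  have hτF : τ ∈ lab (famT Φ ε s 𝓜) :=
    Fam.leaves_lab hB.fam (hmem' _ (lastT_mem T' l')) h'.pc.src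
  refine ⟨s, h.hs, DetOut.closed _ G hB σ (h.hins hE) hσF (fun a ha => ?_)
    (Or.inl ⟨τ, hτF, fun hcon => h'.pc.src₀ (hE.sub₀ hcon),
      CubeW.src_ne hE.cube h.hi h'.hi hij h.pc.src₁ h.pc.src₀ h'.pc.src₁⟩)⟩
  obtain ⟨x, hx, ha'⟩ := lab_famT ha
  rcases List.mem_append.1 hx with hx | hx
  · exact c1 x.R (exists_rc.2 ⟨x, hx, rfl⟩) a ha'
  · exact (c2 x.R (exists_rc.2 ⟨x, hx, rfl⟩) a ha').trans (c5.symm.trans (c3.symm.trans c4))

/-- **The output of the contact of a tree altered by `A` and a tree altered by `B`.** -/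
theorem TwoOut.outp {V A B : Set Src} (hE : Env Φ ε L (WB V A B) Finset.univ V₀ ins all Lv Lg s t)
    (m : ℕ) {b b' : Bool} {T T' : CTree} (h : TwoOut Φ ε L V A B s b b' T T') :
    Outp hE m := by
  have mf : false ∈ (Finset.univ : Finset Bool) := Finset.mem_univ _
  have mt : true ∈ (Finset.univ : Finset Bool) := Finset.mem_univ _
  have ef : ∀ c, wb (WB V A B) false c = W₂ V A B c false := fun c => by rw [wb_WB_false]
  have et : ∀ c, wb (WB V A B) true c = W₂ V A B false c := fun c => by rw [wb_WB_true]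
  have l1 : M.live Φ ε L (wb (WB V A B) false b) T s := by rw [ef]; exact h.live _
  have n1 : ¬M.live Φ ε L (wb (WB V A B) false !b) T s := by rw [ef]; exact h.not_live _
  have l2 : M.live Φ ε L (wb (WB V A B) true b') T' s := by rw [et]; exact h.live' _
  have n2 : ¬M.live Φ ε L (wb (WB V A B) true !b') T' s := by rw [et]; exact h.not_live' _
  obtain ⟨q, hq⟩ := exists_trail hE.pot hE.pos (wb_finite hE.cube mf) l1 n1
  obtain ⟨q', hq'⟩ := exists_trail hE.pot hE.pos (wb_finite hE.cube mt) l2 n2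
  rcases exists_pc hE m mf hq le_rfl h.bg n1 with ⟨l, σ, hpc⟩ | h0
  swap
  · exact h0
  rcases exists_pc hE m mt hq' le_rfl h.bg' n2 with ⟨l', τ, hpc'⟩ | h0
  swap
  · exact h0
  have hd : Hd Φ ε L (WB V A B) Finset.univ V₀ s false m b T s l σ :=
    ⟨hpc, mf, le_rfl, h.bg, n1⟩
  have hd' : Hd Φ ε L (WB V A B) Finset.univ V₀ s true m b' T' s l' τ :=
    ⟨hpc', mt, le_rfl, h.bg', n2⟩
  refine hd.two hE hd' (by decide) h.ext h.ext' ?_
  rw [← st_after hE.pot hE.pos (h.live false).ok h.ext,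
    ← st_after hE.pot hE.pos (h.live' false).ok h.ext']
  exact h.ctc

theorem WB_empty (V A B : Set Src) : WB V A B ∅ = V := by
  ext σ
  rw [mem_WB]
  simp

/-- The setting for two inserted sets. -/
theorem env_WB (hΦ : IsPotential Φ) (hε : 0 < ε) {V A B : Set Src} (hV : V.Finite)
    (hA : A.Finite) (hB : B.Finite) (hd : Disjoint A B) (h₀ : V₀ ⊆ V)
    (hins : A ∪ B ⊆ ins) (hall : V ∪ A ∪ B ⊆ all)
    (hLv : ∀ c c' P, lives Φ ε L (W₂ V A B c c') P (sig Φ ε P) → Lv P)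
    (hLg : ∀ c c' P Q r, r ≤ s → alive Φ ε L (W₂ V A B c c') P r →
      live Φ ε L (W₂ V A B c c') Q r → Lg false (P, Q, r))
    (hLd : ∀ c c' P Q r, r ≤ s →
      ¬(live Φ ε L (W₂ V A B c c') P r ↔ live Φ ε L (W₂ V A B c c') Q r) → Lg true (P, Q, r))
    (hD : DepTo Φ ε L (WB V A B) Finset.univ s) (hst : s ≤ t) :
    Env Φ ε L (WB V A B) Finset.univ V₀ ins all Lv Lg s t := by
  refine ⟨hΦ, hε, WB_cubeW hV hA hB hd, hD, hst, by rw [WB_empty]; exact h₀, ?_, ?_, ?_, ?_, ?_⟩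
  · intro i _ σ h1 h2
    rw [mem_WB] at h1
    rw [WB_empty] at h2
    rcases h1 with h1 | ⟨-, h1⟩ | ⟨-, h1⟩
    · exact absurd h1 h2
    · exact hins (Or.inl h1)
    · exact hins (Or.inr h1)
  · intro v σ hσ
    have h1 : σ ∈ WB V A B v.1 := hσ
    rw [mem_WB] at h1
    rcases h1 with h1 | ⟨-, h1⟩ | ⟨-, h1⟩
    · exact hall (Or.inl (Or.inl h1))
    · exact hall (Or.inl (Or.inr h1))
    · exact hall (Or.inr h1)
  · intro P v hP
    obtain ⟨c, c', hc⟩ := exists_wd_WB V A B v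
    rw [hc] at hP
    exact hLv c c' P hP
  · intro v P Q r hr hP hQ
    obtain ⟨c, c', hc⟩ := exists_wd_WB V A B v
    rw [hc] at hP hQ
    exact hLg c c' P Q r hr hP hQ
  · intro v P Q r hr hPQ
    obtain ⟨c, c', hc⟩ := exists_wd_WB V A B v
    rw [hc] at hPQ
    exact hLd c c' P Q r hr hPQ

/-! ### The final theorems -/

/-- The collision takes place in one of the two worlds. -/
def Lv₁ (Φ : E3 → ℝ) (ε : ℝ) (L : ℕ) (V A : Set Src) (P : CTree) : Prop :=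
  ∃ c, lives Φ ε L (W₁ V A c) P (sig Φ ε P)

/-- `false`: in one of the two worlds the first history of the ghost is alive, and the second one is
live; `true`: in one of the two worlds exactly one of them is live. -/
def Lg₁ (Φ : E3 → ℝ) (ε : ℝ) (L : ℕ) (V A : Set Src) : Bool → Gh → Prop
  | false, g => ∃ c, alive Φ ε L (W₁ V A c) g.1 g.2.2 ∧ live Φ ε L (W₁ V A c) g.2.1 g.2.2
  | true, g => ∃ c, ¬(live Φ ε L (W₁ V A c) g.1 g.2.2 ↔ live Φ ε L (W₁ V A c) g.2.1 g.2.2)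

/-- The collision takes place in one of the four worlds. -/
def Lv₂ (Φ : E3 → ℝ) (ε : ℝ) (L : ℕ) (V A B : Set Src) (P : CTree) : Prop :=
  ∃ c c', lives Φ ε L (W₂ V A B c c') P (sig Φ ε P)

/-- `false`: in one of the four worlds the first history of the ghost is alive, and the second one is
live; `true`: in one of the four worlds exactly one of them is live. -/
def Lg₂ (Φ : E3 → ℝ) (ε : ℝ) (L : ℕ) (V A B : Set Src) : Bool → Gh → Prop
  | false, g => ∃ c c', alive Φ ε L (W₂ V A B c c') g.1 g.2.2 ∧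
      live Φ ε L (W₂ V A B c c') g.2.1 g.2.2
  | true, g => ∃ c c', ¬(live Φ ε L (W₂ V A B c c') g.1 g.2.2 ↔
      live Φ ε L (W₂ V A B c c') g.2.1 g.2.2)

/-- **The outputs for one inserted set.** -/
theorem exists_detOut_one (hΦ : IsPotential Φ) (hε : 0 < ε) {V A : Set Src} (hV : V.Finite)
    (hA : A.Finite) (hd : Disjoint V A) (h₀ : V₀ ⊆ V) (h : ¬NI1 Φ ε L V A t) (m : ℕ) :
    ∃ s ≤ t, DetOut hΦ hε L V₀ A (V ∪ A) (Lv₁ Φ ε L V A) (Lg₁ Φ ε L V A) t m (Nb0 L m) s := by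
  obtain ⟨s, hs, b, T, M, h1⟩ := exists_of_not_NI1 hΦ hε hV hA hd h
  obtain ⟨s', hs', h2⟩ := h1.detOut (V₀ := V₀) (ins := A) (all := V ∪ A) (Lv := Lv₁ Φ ε L V A)
    (Lg := Lg₁ Φ ε L V A) (t := t) hΦ hε (W₁_finite hV hA)
    (by rw [W₁_false, W₁_true]; exact subset_union_left) (by rw [W₁_false]; exact h₀)
    (fun σ h1 h2 => by
      rw [W₁_true] at h1
      rw [W₁_false] at h2
      exact h1.resolve_left h2)
    (by rw [W₁_true]) (fun c P hP => ⟨c, hP⟩) (fun c P Q r _ hP hQ => ⟨c, hP, hQ⟩)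
    (fun c P Q r _ h => ⟨c, h⟩) hs m
  exact ⟨s', hs'.trans hs, h2⟩

/-- **The outputs for two inserted sets.** -/
theorem exists_detOut_two (hΦ : IsPotential Φ) (hε : 0 < ε) {V A B : Set Src} (hV : V.Finite)
    (hA : A.Finite) (hB : B.Finite) (hd : Disjoint A B) (h₀ : V₀ ⊆ V)
    (h : ¬NI2 Φ ε L V A B t) (m : ℕ) :
    ∃ s ≤ t, DetOut hΦ hε L V₀ (A ∪ B) (V ∪ A ∪ B) (Lv₂ Φ ε L V A B) (Lg₂ Φ ε L V A B) t m
      (Nb0 L m) s := by
  obtain ⟨s, hs, ⟨b, b', T, T', h1⟩ | ⟨c', b, T, M, h1⟩ | ⟨c, b, T, M, h1⟩⟩ :=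
    exists_of_not_NI2 hΦ hε hV hA hB hd h
  · obtain ⟨s', hs', h2⟩ := h1.outp (env_WB (V₀ := V₀) (ins := A ∪ B) (all := V ∪ A ∪ B)
      (Lv := Lv₂ Φ ε L V A B) (Lg := Lg₂ Φ ε L V A B) (t := t) hΦ hε hV hA hB hd h₀
      subset_rfl subset_rfl (fun c c' P hP => ⟨c, c', hP⟩)
      (fun c c' P Q r _ hP hQ => ⟨c, c', hP, hQ⟩) (fun c c' P Q r _ h => ⟨c, c', h⟩) h1.depTo
      hs) m
    exact ⟨s', hs'.trans hs, h2⟩
  · obtain ⟨s', hs', h2⟩ := h1.detOut (V₀ := V₀) (ins := A ∪ B) (all := V ∪ A ∪ B)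
      (Lv := Lv₂ Φ ε L V A B) (Lg := Lg₂ Φ ε L V A B) (t := t) hΦ hε
      (fun c => W₂_finite hV hA hB _ _)
      (fun σ hσ => by
        rw [mem_W₂] at hσ ⊢
        tauto)
      (fun σ hσ => mem_W₂.2 (Or.inl (h₀ hσ)))
      (fun σ h1 h2 => by
        rw [mem_W₂] at h1 h2
        push Not at h2
        rcases h1 with h1 | ⟨-, h1⟩ | ⟨h3, h1⟩
        · exact absurd h1 h2.1
        · exact Or.inl h1
        · exact absurd h1 (h2.2.2 h3))
      (fun σ hσ => by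
        rw [mem_W₂] at hσ
        rcases hσ with h1 | ⟨-, h1⟩ | ⟨-, h1⟩
        · exact Or.inl (Or.inl h1)
        · exact Or.inl (Or.inr h1)
        · exact Or.inr h1)
      (fun c P hP => ⟨c, c', hP⟩) (fun c P Q r _ hP hQ => ⟨c, c', hP, hQ⟩)
      (fun c P Q r _ h => ⟨c, c', h⟩) hs m
    exact ⟨s', hs'.trans hs, h2⟩
  · obtain ⟨s', hs', h2⟩ := h1.detOut (V₀ := V₀) (ins := A ∪ B) (all := V ∪ A ∪ B)
      (Lv := Lv₂ Φ ε L V A B) (Lg := Lg₂ Φ ε L V A B) (t := t) hΦ hε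
      (fun c' => W₂_finite hV hA hB _ _)
      (fun σ hσ => by
        rw [mem_W₂] at hσ ⊢
        tauto)
      (fun σ hσ => mem_W₂.2 (Or.inl (h₀ hσ)))
      (fun σ h1 h2 => by
        rw [mem_W₂] at h1 h2
        push Not at h2
        rcases h1 with h1 | ⟨h3, h1⟩ | ⟨-, h1⟩
        · exact absurd h1 h2.1
        · exact absurd h1 (h2.2.1 h3)
        · exact Or.inr h1)
      (fun σ hσ => by
        rw [mem_W₂] at hσ
        rcases hσ with h1 | ⟨-, h1⟩ | ⟨-, h1⟩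
        · exact Or.inl (Or.inl h1)
        · exact Or.inl (Or.inr h1)
        · exact Or.inr h1)
      (fun c' P hP => ⟨c, c', hP⟩) (fun c' P Q r _ hP hQ => ⟨c, c', hP, hQ⟩)
      (fun c' P Q r _ h => ⟨c, c', h⟩) hs m
    exact ⟨s', hs'.trans hs, h2⟩

end Vale.Agent.P119.IND
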