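import Vale.Agent.P119.IND.GraftC
import Vale.Agent.P119.IND.Base
import Vale.Agent.P119.IND.Det
import Vale.Agent.P119.IND.Good
import Vale.Agent.P119.PB.Felt
import Vale.Agent.P119.FL.LawC

/-!
# P119, block IND: the failures of the good event over a base structure (`helper810`)

* `SBase Φ ε T F₀ G₀ D₀ X`: a base structure, as a family of histories `F₀` with ghosts `G₀`; the labels
  are the sources of `lab F₀`, those of `D₀` are dropped, the other labels `σ` are seen by the gas as the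
  line `X σ` (the line of the last history, with a birth which is not smaller than its end);
* `SLab T₀ l F₀ G₀ c₀ R₀`: the labels are the particles of the trees `T₀` and the lines `l`; `R₀` is a
  covering set for the joined labels;
* `SBase.detOut`: the outputs of the deterministic analysis (`DetOut`);
* **`SBase.not_good`**: a failure of `M.Good` for the packets `{X σ}` over the world `w` gives the
  alternatives `LawC` of the laws.
-/

open Set
open scoped ENNReal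

set_option linter.unusedSectionVars false

noncomputable section

namespace Vale.Agent.P119.IND

open KU M M.CTree TL GC AU

variable {Φ : E3 → ℝ} {ε T t : ℝ} {L : ℕ}

theorem HasClean.mono' {hΦ : IsPotential Φ} {hε : ε ≠ 0} {T₀ T₁ t t' : ℝ} {k : ℕ}
    {W : Set Src} {s : ℝ} {l : Ph} (hT : T₀ ≤ T₁) (ht : t ≤ t')
    (h : HasClean hΦ hε L T₀ t k W s l) : HasClean hΦ hε L T₁ t' k W s l := by
  obtain ⟨P, S, h1, h2⟩ := h
  exact ⟨P, S, ⟨h1.fresh, fun k => (h1.ext_le k).trans hT,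
    FL.chain_le_time ht _ _ _ _ _ h1.chain⟩, h2⟩

/-- **The base structures.** -/
structure SBase (Φ : E3 → ℝ) (ε T : ℝ) (F₀ : Finset CTree) (G₀ : List Gh) (D₀ : Set Src)
    (X : Src → Src) : Prop where
  fam : Fam Φ ε T F₀ G₀
  /-- the first labels of the ghosts are dropped -/
  drop : ∀ g ∈ G₀, g.1.root ∈ D₀
  /-- the ghosts take place before the birth of the line of the second label -/
  tgt : ∀ g ∈ G₀, g.2.1.root ∉ D₀ → g.2.2 ≤ (X g.2.1.root).1
  /-- the line of a label is the line of its last history -/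
  lst : ∀ σ ∈ lab F₀, σ ∉ D₀ → ∃ S, IsLast F₀ S ∧ S.root = σ ∧ (X σ).2.1 = ln Φ ε S ∧
    ext Φ ε S ≤ (X σ).1
  inj : InjOn X ((lab F₀ : Set Src) \ D₀)

/-- The labels of a base structure. -/
structure SLab {m q : ℕ} (T₀ : Fin m → CTree) (l : Fin q → Src) (F₀ : Finset CTree)
    (G₀ : List Gh) (c₀ : ℕ) (R₀ : Finset Src) : Prop where
  mem : ∀ σ ∈ lab F₀, (∃ j, σ ∈ (T₀ j).leaves) ∨ σ ∈ range l
  trees : ∀ j, (T₀ j).leaves ⊆ (lab F₀ : Set Src)
  lines : ∀ j, l j ∈ lab F₀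
  sub : ∀ r ∈ R₀, r ∈ lab F₀
  cov : ∀ σ ∈ lab F₀, ∃ r ∈ R₀, FJ F₀ G₀ σ r
  card : R₀.card ≤ c₀
  ord : ∀ r ∈ R₀, r ∉ range l

/-- The number of labels and events of a base structure. -/
def szB (F₀ : Finset CTree) (G₀ : List Gh) : ℕ := (lab F₀).card + (nl F₀).card + G₀.length

namespace SBase

variable {F₀ : Finset CTree} {G₀ : List Gh} {D₀ : Set Src} {X : Src → Src} {m q c₀ : ℕ}
  {T₀ : Fin m → CTree} {l : Fin q → Src} {R₀ : Finset Src}

theorem nonneg (h : SBase Φ ε T F₀ G₀ D₀ X) : ∀ σ ∈ lab F₀, 0 ≤ σ.1 := by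
  intro σ hσ
  obtain ⟨P, hP, rfl⟩ := mem_lab.1 hσ
  exact h.fam.ok _ (h.fam.spine_mem (Spine.leaf P) hP)

/-- The base program. -/
theorem exists_base (hΦ : IsPotential Φ) (hε : 0 < ε) (h : SBase Φ ε T F₀ G₀ D₀ X)
    (hl : SLab T₀ l F₀ G₀ c₀ R₀) :
    ∃ (κ : Type) (_ : Fintype κ) (_ : DecidableEq κ) (z x : κ → Src) (D : Set κ)
      (Q : List (Ev κ × ℝ)) (R : Finset κ), BaseP Φ ε T z x D Q ∧ CovB z Q l c₀ R ∧
      BLab T₀ l z ∧ Fintype.card κ + Q.length ≤ szB F₀ G₀ ∧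
      (∀ k, z k ∈ lab F₀) ∧ (∀ k, k ∈ D ↔ z k ∈ D₀) ∧ (∀ k, x k = X (z k)) ∧
      (∀ σ ∈ lab F₀, ∃ k, z k = σ) ∧
      ∀ k S, IsLast F₀ S → S.root = z k →
        finB Φ ε Q (fun i => (z i).1) (fun i => (z i).2.1) k = ext Φ ε S := by
  classical
  set κ := {σ : Src // σ ∈ lab F₀} with hκ
  set z : κ → Src := fun k => k.1 with hz
  set x : κ → Src := fun k => X k.1 with hx
  set D : Set κ := {k | k.1 ∈ D₀} with hD
  have hzr : range z = (lab F₀ : Set Src) := by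
    ext σ
    exact ⟨fun ⟨k, hk⟩ => hk ▸ k.2, fun hσ => ⟨⟨σ, hσ⟩, rfl⟩⟩
  obtain ⟨Q, h1, h2, h3, h4⟩ := BaseP.of_fam hΦ hε h.fam (z := z) (x := x) (D := D)
    Subtype.val_injective hzr (fun k => h.nonneg _ k.2)
    (fun g hg i hi => by
      change i.1 ∈ D₀
      rw [show i.1 = g.1.root from hi]
      exact h.drop g hg)
    (fun g hg k hk hkr => by
      have e : k.1 = g.2.1.root := hkr
      change g.2.2 ≤ (X k.1).1
      rw [e]
      exact h.tgt g hg fun h' => hk (by change k.1 ∈ D₀; rw [e]; exact h'))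
    (fun k hk => h.lst k.1 k.2 hk)
    (fun k hk k' hk' hkk => Subtype.ext (h.inj ⟨k.2, hk⟩ ⟨k'.2, hk'⟩ hkk))
  refine ⟨κ, inferInstance, inferInstance, z, x, D, Q, R₀.subtype (· ∈ lab F₀), h1,
    ⟨fun k => ?_, ?_, fun r hr => ?_⟩, ⟨fun k => hl.mem _ k.2, fun j => ?_, fun j => ?_⟩, ?_,
    fun k => k.2, fun k => Iff.rfl, fun k => rfl, fun σ hσ => ⟨⟨σ, hσ⟩, rfl⟩, h4⟩
  · obtain ⟨r, hr, hJ⟩ := hl.cov k.1 k.2
    exact ⟨⟨r, hl.sub r hr⟩, Finset.mem_subtype.2 hr, h3 _ _ hJ⟩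
  · rw [Finset.card_subtype]
    exact (Finset.card_filter_le _ _).trans hl.card
  · exact hl.ord _ (Finset.mem_subtype.1 hr)
  · rw [hzr]; exact hl.trees j
  · rw [hzr]; exact hl.lines j
  · rw [Fintype.card_coe]
    unfold szB
    omega

/-- **The outputs of the deterministic analysis** over a base structure with `c₀ + 1` components. -/
theorem detOut (hΦ : IsPotential Φ) (hε : 0 < ε) (h : SBase Φ ε T F₀ G₀ D₀ X)
    (hl : SLab T₀ l F₀ G₀ (c₀ + 1) R₀) {w : Finset Ph} (hzw : ∀ σ ∈ lab F₀, σ ∉ wS w)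
    (hxw : ∀ σ ∈ lab F₀, σ ∉ D₀ → X σ ∉ wS w) {J N : ℕ} {ins all : Set Src}
    {Lv : CTree → Prop} {Lg : Bool → Gh → Prop} {s : ℝ} (ht : t ≤ T) (hs : s ≤ t)
    (hall : ∀ σ ∈ all, σ ∈ wS w ∨ ∃ τ ∈ lab F₀, τ ∉ D₀ ∧ X τ = σ)
    (hins : ∀ σ ∈ ins, ∃ τ ∈ lab F₀, τ ∉ D₀ ∧ X τ = σ) (hia : ins ⊆ all)
    (hb : ∀ S, IsLast F₀ S → S.root ∉ D₀ → (X S.root).1 = ext Φ ε S ∨ s ≠ (X S.root).1)
    (hO : DetOut hΦ hε L (wS w : Set Src) ins all Lv Lg t J N s) :
    LawC hΦ hε L T J c₀ (szB F₀ G₀ + 2 * N) T₀ l w ins := by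
  obtain ⟨κ, i1, i2, z, x, D, Q, R, h1, h2, h3, h4, h5, h6, h7, h8, h9⟩ := h.exists_base hΦ hε hl
  have hfind : ∀ τ ∈ lab F₀, τ ∉ D₀ → ∃ k ∉ D, x k = X τ := by
    intro τ hτ hτD
    obtain ⟨k, rfl⟩ := h8 τ hτ
    exact ⟨k, fun h' => hτD ((h6 k).1 h'), h7 k⟩
  have hO' : DetOut hΦ hε L (wS w : Set Src) ins all Lv Lg T J N s := by
    cases hO with
    | clean σ hσ h' => exact .clean σ hσ (h'.mono' ht (by linarith))
    | closed F G hB σ hσ hσF hJ hc => exact .closed F G hB σ hσ hσF hJ hc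
    | irr F G es hB σ hσ hσF hJ hI => exact .irr F G es hB σ hσ hσF hJ hI
  have h10 := h1.of_detOutC hΦ hε h2 h3 (fun k => hzw _ (h5 k))
    (fun k hk => by
      rw [h7 k]
      exact hxw _ (h5 k) fun h' => hk ((h6 k).2 h')) (hs.trans ht)
    (fun σ hσ => by
      rcases hall σ hσ with h' | ⟨τ, hτ, hτD, rfl⟩
      · exact Or.inl h'
      · exact Or.inr (hfind τ hτ hτD))
    (fun σ hσ => by
      refine ⟨hia hσ, ?_⟩
      obtain ⟨τ, hτ, hτD, rfl⟩ := hins σ hσ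
      exact hxw τ hτ hτD)
    (fun k hk => by
      have hk' : z k ∉ D₀ := fun h' => hk ((h6 k).2 h')
      obtain ⟨S, hS, hr, -, -⟩ := h.lst (z k) (h5 k) hk'
      rw [h7 k, h9 k S hS hr]
      rcases hb S hS (by rw [hr]; exact hk') with h' | h'
      · rw [hr] at h'
        exact Or.inl h'.symm
      · rw [hr] at h'
        exact Or.inr h') hO'
  refine h10.imp id (Or.imp (PrgC.mono le_rfl ?_) (Or.imp (PrgO.mono le_rfl ?_)
    (IrrO.mono le_rfl ?_))) <;> omega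

/-- **The failures of the good event** over a base structure with `c₀ + 1` components, all the
births being exact. -/
theorem not_good (hΦ : IsPotential Φ) (hε : 0 < ε) (h : SBase Φ ε T F₀ G₀ D₀ X)
    (hl : SLab T₀ l F₀ G₀ (c₀ + 1) R₀) {w : Finset Ph} (hzw : ∀ σ ∈ lab F₀, σ ∉ wS w)
    (hxw : ∀ σ ∈ lab F₀, σ ∉ D₀ → X σ ∉ wS w)
    (hb : ∀ S, IsLast F₀ S → S.root ∉ D₀ → (X S.root).1 = ext Φ ε S) {K : Finset Src}
    (hK : ∀ σ ∈ K, (0 ≤ σ.1 ∧ σ.2.2 ≤ L) ∧ ∃ τ ∈ lab F₀, τ ∉ D₀ ∧ X τ = σ) (ht : t ≤ T)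
    (hg : ¬M.Good Φ ε L (wS w) PB.sgl K t) (J : ℕ) :
    LawC hΦ hε L T J c₀ (szB F₀ G₀ + 2 * Nb0 L J) T₀ l w K := by
  have hV : ((wS w : Finset Src) : Set Src).Finite := (wS w).finite_toSet
  have hnot : ∀ σ ∈ K, σ ∉ wS w := by
    intro σ hσ
    obtain ⟨-, τ, hτ, hτD, rfl⟩ := hK σ hσ
    exact hxw τ hτ hτD
  have hmono : ∀ {A : Set Src}, A ⊆ K → ∀ {N : ℕ}, LawC hΦ hε L T J c₀ N T₀ l w A →
      LawC hΦ hε L T J c₀ N T₀ l w K := by
    intro A hA N hh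
    exact hh.imp (fun ⟨σ, hσ, h'⟩ => ⟨σ, hA hσ, h'⟩) id
  rcases not_good_cases (fun a ha => by
      obtain ⟨p, -, rfl⟩ := mem_wS.1 ha
      exact ⟨le_rfl, Nat.zero_le _⟩)
    (fun i hi a ha => by
      rw [show a = i from Finset.mem_singleton.1 ha]
      exact (hK i hi).1) hg with ⟨i, hi, h1⟩ | ⟨i, hi, j, hj, hij, h1⟩
  · have hs1 : ((PB.sgl i : Finset Src) : Set Src) = {i} := Finset.coe_singleton i
    rw [hs1] at h1
    obtain ⟨s, hs, h2⟩ := exists_detOut_one hΦ hε hV (finite_singleton i)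
      (Set.disjoint_singleton_right.2 fun h' => hnot i hi h') subset_rfl h1 J
    refine hmono (A := {i}) (by rwa [Set.singleton_subset_iff]) (h.detOut hΦ hε hl hzw hxw ht hs ?_
      ?_ subset_union_right (fun S hS hD => Or.inl (hb S hS hD)) h2)
    · rintro σ (hσ | hσ)
      · exact Or.inl hσ
      · rw [mem_singleton_iff.1 hσ]
        exact Or.inr (hK i hi).2
    · intro σ hσ
      rw [mem_singleton_iff.1 hσ]
      exact (hK i hi).2
  · have hs1 : ((PB.sgl i : Finset Src) : Set Src) = {i} := Finset.coe_singleton i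
    have hs2 : ((PB.sgl j : Finset Src) : Set Src) = {j} := Finset.coe_singleton j
    rw [hs1, hs2] at h1
    obtain ⟨s, hs, h2⟩ := exists_detOut_two hΦ hε hV (finite_singleton i) (finite_singleton j)
      (Set.disjoint_singleton.2 hij) subset_rfl h1 J
    have hsub : ∀ σ ∈ ({i} ∪ {j} : Set Src), σ ∈ K := by
      rintro σ (hσ | hσ)
      · rw [mem_singleton_iff.1 hσ]; exact hi
      · rw [mem_singleton_iff.1 hσ]; exact hj
    refine hmono (A := {i} ∪ {j}) hsub (h.detOut hΦ hε hl hzw hxw ht hs ?_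
      (fun σ hσ => (hK σ (hsub σ hσ)).2) ?_ (fun S hS hD => Or.inl (hb S hS hD)) h2)
    · rintro σ ((hσ | hσ) | hσ)
      · exact Or.inl hσ
      · exact Or.inr (hK σ (hsub σ (Or.inl hσ))).2
      · exact Or.inr (hK σ (hsub σ (Or.inr hσ))).2
    · rintro σ (hσ | hσ)
      · exact Or.inl (Or.inr hσ)
      · exact Or.inr hσ

end SBase

end Vale.Agent.P119.IND
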