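import Vale.Agent.P119.IND.ExcProg
import Vale.Agent.P119.IND.DetLaw
import Vale.Agent.P119.IND.Conn

/-!
# P119, block IND: two particles with the same final line (`helper119`)

If two different particles of a base structure have the same final line then they are in contact
(at distance zero) at the horizon: one more ghost.

* `prg_of_finZ_eq`: program level; joined labels: `PrgC`, otherwise `PrgO` with one class less;
* `PrgBad.of_fam_eq`: connected families;
* `SLab.law_of_eq`, `SLab.law_of_not_inj`: base structures with `c₀ + 1` components;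
* `PrgBad.of_not_inj`: the sources `rsrc x`, `x ∈ outs R`, of one tree are not different;
* `PrgBad.of_not_inj_pair`: the same for `outs x ∪ outs y` of a colliding pair;
* `injOn_outs_node`: the pair `node x y` adds no coincidence.
-/

open MeasureTheory Filter Topology Set
open scoped ENNReal NNReal

set_option linter.unusedSectionVars false

noncomputable section

namespace Vale.Agent.P119.IND

open KU FL M M.CTree GC MM AU PB.CT TL

variable {Φ : E3 → ℝ} {ε t : ℝ} {m q : ℕ}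

theorem ctc_self (hε : 0 < ε) (p : Ph) : Ctc ε p p := by
  refine ⟨by rw [sub_self, norm_zero]; exact hε.le, fun h => ?_⟩
  have h1 := h.1
  rw [sub_self, norm_zero] at h1
  exact hε.ne h1

section prog

variable {ι : Type} [DecidableEq ι] {P Q : List (Ev ι × ℝ)} {R : Finset ι} {e : Ev ι × ℝ}
  {β : ι → ℝ} {Z : ι → Ph} {i k : ι} {r : ℝ}

theorem RunT.le_hor (h : RunT Φ ε t r Q β Z) : ∀ e ∈ Q, e.2 ≤ t := by
  induction Q generalizing r β Z with
  | nil => intro e he; exact absurd he List.not_mem_nil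
  | cons e Q ih =>
    intro e' he'
    rcases List.mem_cons.1 he' with rfl | he'
    · exact h.2.1
    · exact ih h.2.2.2 e' he'

theorem Wf.concat (h : Wf P)
    (he : ∀ e' ∈ P, ∀ a b, e'.1 = Ev.gh a b → e.1.fst ≠ a ∧ e.1.snd ≠ a) : Wf (P ++ [e]) := by
  induction P with
  | nil => exact ⟨fun a b _ e' he' => absurd he' List.not_mem_nil, trivial⟩
  | cons e₀ P ih =>
    refine ⟨fun a b hab e' he' => ?_, ih h.2 fun e' he' => he e' (List.mem_cons_of_mem _ he')⟩
    rcases List.mem_append.1 he' with h1 | h1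
    · exact h.1 a b hab e' h1
    · rw [List.mem_singleton] at h1
      subst h1
      exact he e₀ List.mem_cons_self a b hab

/-- A contact at the horizon of two labels with the same final line. -/
theorem RunT.concat_ghost (hε : 0 < ε) (ht : 0 ≤ t) (h : RunT Φ ε t 0 Q β Z) (hik : i ≠ k)
    (hln : finZ Φ ε Q Z i = finZ Φ ε Q Z k) (hbi : finB Φ ε Q β Z i ≤ t)
    (hbk : finB Φ ε Q β Z k ≤ t) : RunT Φ ε t 0 (Q ++ [(Ev.gh i k, t)]) β Z := by
  refine h.append ht h.le_hor ⟨le_rfl, le_rfl, ⟨t - finB Φ ε Q β Z i, hik, hbi, hbk, ?_, ?_⟩,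
    trivial⟩
  · rw [hln]
    exact ctc_self hε _
  · have := le_max_left (finB Φ ε Q β Z i) (finB Φ ε Q β Z k)
    change t ≤ max (finB Φ ε Q β Z i) (finB Φ ε Q β Z k) + (t - finB Φ ε Q β Z i)
    linarith

theorem Trv.concat_joined (h : Trv P R) (hJ : Jn P e.1.fst e.1.snd) : Trv (P ++ [e]) R :=
  h.congr fun a b => (jn_concat_of_jn hJ a b).symm

/-- An event between two classes: one representative less. -/
theorem Trv.concat_merge (h : Trv P R) (hJ : ¬Jn P e.1.fst e.1.snd) :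
    ∃ R', R' ⊆ R ∧ R'.card + 1 = R.card ∧ Trv (P ++ [e]) R' := by
  obtain ⟨r₁, h1, j1⟩ := h.cov e.1.fst
  obtain ⟨r₂, h2, j2⟩ := h.cov e.1.snd
  have hne : r₁ ≠ r₂ := fun hr => hJ (j1.trans (hr ▸ j2.symm))
  refine ⟨R.erase r₂, Finset.erase_subset _ _, Finset.card_erase_add_one h2, fun a => ?_,
    fun r hr r' hr' hj => ?_⟩
  · obtain ⟨r, hr, jr⟩ := h.cov a
    by_cases hE : r = r₂
    · refine ⟨r₁, Finset.mem_erase.2 ⟨hne, h1⟩, jn_concat.2 (Or.inr (Or.inr ⟨?_, j1⟩))⟩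
      exact jr.trans (hE ▸ j2.symm)
    · exact ⟨r, Finset.mem_erase.2 ⟨hE, hr⟩, jn_concat.2 (Or.inl jr)⟩
  · obtain ⟨hn, hr⟩ := Finset.mem_erase.1 hr
    obtain ⟨hn', hr'⟩ := Finset.mem_erase.1 hr'
    rcases jn_concat.1 hj with h3 | ⟨-, h3⟩ | ⟨h3, -⟩
    · exact h.uni r hr r' hr' h3
    · exact absurd (h.uni r' hr' r₂ h2 (h3.symm.trans j2)) hn'
    · exact absurd (h.uni r hr r₂ h2 (h3.trans j2)) hn

end prog

/-! ### Program level -/

section main

variable {N c₀ : ℕ} {T : Fin m → CTree} {l : Fin q → Src} {w : Finset Ph}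

/-- **Two labels of a program with the same final line.** -/
theorem prg_of_finZ_eq (hΦ : IsPotential Φ) (hε : 0 < ε) (ht : 0 ≤ t) {ι : Type} [Fintype ι]
    [DecidableEq ι] {z : ι → Src} {Q : List (Ev ι × ℝ)} (hz0 : ∀ i, 0 ≤ (z i).1)
    (hQ : RunT Φ ε t 0 Q (fun i => (z i).1) fun i => (z i).2.1) (hw : Wf Q) {i k : ι}
    (hik : i ≠ k) (hg : ∀ e ∈ Q, ∀ a b, e.1 = Ev.gh a b → i ≠ a ∧ k ≠ a)
    (hln : finZ Φ ε Q (fun i => (z i).2.1) i = finZ Φ ε Q (fun i => (z i).2.1) k)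
    (hbi : finB Φ ε Q (fun i => (z i).1) (fun i => (z i).2.1) i ≤ t)
    (hbk : finB Φ ε Q (fun i => (z i).1) (fun i => (z i).2.1) k ≤ t)
    (hι : Fintype.card ι ≤ N) (hlen : Q.length + 1 ≤ N) (hz : LabT T l w z) {Rs : Finset ι}
    (hR : Trv Q Rs) (hRc : Rs.card ≤ c₀) (hRl : ∀ r ∈ Rs, z r ∉ range l) :
    (Jn Q i k ∧ PrgC Φ ε t c₀ N T l w) ∨ (¬Jn Q i k ∧ PrgO Φ ε t (c₀ - 1) N T l w) := by
  have hM : RunT Φ ε t 0 (Q ++ [(Ev.gh i k, t)]) (fun i => (z i).1) fun i => (z i).2.1 :=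
    hQ.concat_ghost hε ht hik hln hbi hbk
  have hMw : Wf (Q ++ [(Ev.gh i k, t)]) := hw.concat fun e' he' a b hab => hg e' he' a b hab
  have e1 := pl_fst t (Q ++ [(Ev.gh i k, t)])
  have hjn : ∀ a b, Jn (Q ++ [(Ev.gh i k, t)]) a b ↔
      Jn (pl t ((Q ++ [(Ev.gh i k, t)]).map Prod.fst)) a b := fun a b => (jn_fst e1).symm
  have hl : ((Q ++ [(Ev.gh i k, t)]).map Prod.fst).length ≤ N := by
    rw [List.length_map, List.length_append]
    exact hlen
  have hrun := hM.run hΦ hε hz0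
  by_cases hJ : Jn Q i k
  · refine Or.inl ⟨hJ, PrgC.of_fintype hι hl hz ((Trv.concat_joined (e := (Ev.gh i k, t)) hR
      hJ).congr hjn) hRc hRl (wf_fst e1.symm hMw) ?_ hrun⟩
    rw [closed_fst e1]
    exact closed_concat.2 (Or.inr hJ)
  · obtain ⟨R', h1, h2, h3⟩ := Trv.concat_merge (e := (Ev.gh i k, t)) hR hJ
    exact Or.inr ⟨hJ, PrgO.of_fintype hι hl hz (h3.congr hjn) (by omega)
      (fun r hr => hRl r (h1 hr)) hrun⟩

/-- The connected case. -/
theorem PrgBad.of_finZ_eq (hΦ : IsPotential Φ) (hε : 0 < ε) (ht : 0 ≤ t) {ι : Type} [Fintype ι]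
    [DecidableEq ι] {z : ι → Src} {Q : List (Ev ι × ℝ)} (hz0 : ∀ i, 0 ≤ (z i).1)
    (hQ : RunT Φ ε t 0 Q (fun i => (z i).1) fun i => (z i).2.1) (hw : Wf Q) {i k : ι}
    (hik : i ≠ k) (hg : ∀ e ∈ Q, ∀ a b, e.1 = Ev.gh a b → i ≠ a ∧ k ≠ a)
    (hln : finZ Φ ε Q (fun i => (z i).2.1) i = finZ Φ ε Q (fun i => (z i).2.1) k)
    (hbi : finB Φ ε Q (fun i => (z i).1) (fun i => (z i).2.1) i ≤ t)
    (hbk : finB Φ ε Q (fun i => (z i).1) (fun i => (z i).2.1) k ≤ t)
    (hι : Fintype.card ι ≤ N) (hlen : Q.length + 1 ≤ N) (hz : LabT T l w z)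
    (hj : ∀ a b, Jn Q a b) : PrgBad Φ ε t N T l w := by
  have hM : RunT Φ ε t 0 (Q ++ [(Ev.gh i k, t)]) (fun i => (z i).1) fun i => (z i).2.1 :=
    hQ.concat_ghost hε ht hik hln hbi hbk
  have hMw : Wf (Q ++ [(Ev.gh i k, t)]) := hw.concat fun e' he' a b hab => hg e' he' a b hab
  have e1 := pl_fst t (Q ++ [(Ev.gh i k, t)])
  refine PrgBad.of_fintype hι (P := (Q ++ [(Ev.gh i k, t)]).map Prod.fst) ?_ hz
    (wf_fst e1.symm hMw) (fun a b => ?_) ?_ (hM.run hΦ hε hz0)
  · rw [List.length_map, List.length_append]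
    exact hlen
  · rw [jn_fst e1]
    exact jn_concat.2 (Or.inl (hj a b))
  · rw [closed_fst e1]
    exact closed_concat.2 (Or.inr (hj i k))

/-- **A connected family with two final histories on the same line.** -/
theorem PrgBad.of_fam_eq (hΦ : IsPotential Φ) (hε : 0 < ε) (ht : 0 ≤ t) {F : Finset CTree}
    {G : List Gh} (h : Fam Φ ε t F G) {A B : CTree} (hA : IsLast F A) (hB : IsLast F B)
    (hAB : A.root ≠ B.root) (hln : ln Φ ε A = ln Φ ε B)
    (hG : ∀ g ∈ G, A.root ≠ g.1.root ∧ B.root ≠ g.1.root) (hF : F.card ≤ N)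
    (hGl : G.length + 1 ≤ N) (hT : ∀ j, (T j).leaves ⊆ (lab F : Set Src)) (hl : ∀ j, l j ∈ lab F)
    (hmem : ∀ x ∈ lab F, (∃ j, x ∈ (T j).leaves) ∨ x ∈ range l ∨ x ∈ wS w)
    (hJ : ∀ x ∈ lab F, ∀ y ∈ lab F, FJ F G x y) : PrgBad Φ ε t (2 * N) T l w := by
  classical
  obtain ⟨Q, hQ⟩ := h.exists_timed hΦ hε
  let z : {σ : Src // σ ∈ lab F} → Src := Subtype.val
  have hz : Function.Injective z := Subtype.val_injective
  have hzr : range z = (lab F : Set Src) := Subtype.range_val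
  obtain ⟨Q', h1, h2, h3, h4, h5, -⟩ := hQ.relabel hz (by rw [rts_eq_lab, hzr])
  have hmA : A.root ∈ lab F := root_mem_lab hA.mem
  have hmB : B.root ∈ lab F := root_mem_lab hB.mem
  have hz0 : ∀ i, 0 ≤ (z i).1 := by
    rintro ⟨σ, hσ⟩
    obtain ⟨P, hP, hr⟩ := mem_lab.1 hσ
    have h6 := h.ok _ (h.spine_mem (Spine.leaf P) hP)
    rw [hr] at h6
    exact h6
  have hfin : ∀ S, IsLast F S → ∀ i, z i = S.root →
      finZ Φ ε Q' (fun i => (z i).2.1) i = ln Φ ε S ∧
      finB Φ ε Q' (fun i => (z i).1) (fun i => (z i).2.1) i = ext Φ ε S := by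
    intro S hS i hi
    have h7 := hQ.fin.map hz (P' := Q'.map Prod.fst) (by rw [← IND.mapP_fst, h1]) hS (i := i) hi
    have e : (pl t (Q'.map Prod.fst)).map Prod.fst = Q'.map Prod.fst := pl_fst t Q'
    rw [finZ_fst e, finB_fst e] at h7
    exact h7
  have fA := hfin A hA ⟨A.root, hmA⟩ rfl
  have fB := hfin B hB ⟨B.root, hmB⟩ rfl
  have hlen : 2 * Q'.length = (nl F).card + 2 * G.length := by
    have h7 := hQ.prog.len
    rw [List.length_map] at h7
    rw [h2]
    exact h7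
  have hc1 := card_nl_le F
  have hc2 := card_lab_le F
  refine PrgBad.of_finZ_eq hΦ hε ht hz0 h3 h4 (i := ⟨A.root, hmA⟩) (k := ⟨B.root, hmB⟩)
    (fun he => hAB (congrArg Subtype.val he)) (fun e he a b hab => ?_) (by rw [fA.1, fB.1, hln])
    (by rw [fA.2]; exact h.ext_le A hA.mem) (by rw [fB.2]; exact h.ext_le B hB.mem) ?_ ?_
    ⟨hz, fun i => hmem _ i.2, fun j => by rw [hzr]; exact hT j, fun j => by
      rw [hzr]; exact hl j⟩ fun a b => ?_
  · have h7 : (e.1.map z, e.2) ∈ Q := by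
      rw [← h1]
      exact List.mem_map.2 ⟨e, he, rfl⟩
    rcases hQ.mem _ h7 with ⟨c, d, -, h8⟩ | ⟨g, hg, h8⟩
    · rw [hab] at h8
      simp only [Ev.map, Prod.mk.injEq] at h8
      exact absurd h8.1 (by simp)
    · rw [hab] at h8
      simp only [Ev.map, Prod.mk.injEq, Ev.gh.injEq] at h8
      have h9 := hG g hg
      rw [← h8.1.1] at h9
      exact ⟨fun he => h9.1 (congrArg Subtype.val he), fun he => h9.2 (congrArg Subtype.val he)⟩
  · rw [Fintype.card_coe]
    omega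
  · omega
  · refine (h5 a b).2 ?_
    exact (jn_fst (pl_fst t Q)).1 ((hJ _ a.2 _ b.2).jn hQ.prog)

/-! ### Base structures -/

/-- **Two labels of a base structure which end on the same line.** -/
theorem SLab.law_of_eq (hΦ : IsPotential Φ) (hε : 0 < ε) (ht : 0 ≤ t) {F : Finset CTree}
    {G : List Gh} (h : Fam Φ ε t F G) {R₀ : Finset Src} (hl : SLab T l F G (c₀ + 1) R₀)
    {A B : CTree} (hA : IsLast F A) (hB : IsLast F B) (hAB : A.root ≠ B.root)
    (hln : ln Φ ε A = ln Φ ε B) (hG : ∀ g ∈ G, A.root ≠ g.1.root ∧ B.root ≠ g.1.root) :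
    PrgC Φ ε t (c₀ + 1) (szB F G + 1) T l w ∨ PrgO Φ ε t c₀ (szB F G + 1) T l w := by
  classical
  obtain ⟨Q, hQ⟩ := h.exists_timed hΦ hε
  let z : {σ : Src // σ ∈ lab F} → Src := Subtype.val
  have hz : Function.Injective z := Subtype.val_injective
  have hzr : range z = (lab F : Set Src) := Subtype.range_val
  obtain ⟨Q', h1, h2, h3, h4, h5, -⟩ := hQ.relabel hz (by rw [rts_eq_lab, hzr])
  have hmA : A.root ∈ lab F := root_mem_lab hA.mem
  have hmB : B.root ∈ lab F := root_mem_lab hB.mem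
  have hz0 : ∀ i, 0 ≤ (z i).1 := by
    rintro ⟨σ, hσ⟩
    obtain ⟨P, hP, hr⟩ := mem_lab.1 hσ
    have h6 := h.ok _ (h.spine_mem (Spine.leaf P) hP)
    rw [hr] at h6
    exact h6
  have hfin : ∀ S, IsLast F S → ∀ i, z i = S.root →
      finZ Φ ε Q' (fun i => (z i).2.1) i = ln Φ ε S ∧
      finB Φ ε Q' (fun i => (z i).1) (fun i => (z i).2.1) i = ext Φ ε S := by
    intro S hS i hi
    have h7 := hQ.fin.map hz (P' := Q'.map Prod.fst) (by rw [← IND.mapP_fst, h1]) hS (i := i) hi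
    have e : (pl t (Q'.map Prod.fst)).map Prod.fst = Q'.map Prod.fst := pl_fst t Q'
    rw [finZ_fst e, finB_fst e] at h7
    exact h7
  have fA := hfin A hA ⟨A.root, hmA⟩ rfl
  have fB := hfin B hB ⟨B.root, hmB⟩ rfl
  have hlen : 2 * Q'.length = (nl F).card + 2 * G.length := by
    have h7 := hQ.prog.len
    rw [List.length_map] at h7
    rw [h2]
    exact h7
  have hcov : ∀ k : {σ : Src // σ ∈ lab F}, ∃ r ∈ R₀.subtype (· ∈ lab F), Jn Q' k r := by
    intro k
    obtain ⟨r, hr, hJ⟩ := hl.cov k.1 k.2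
    refine ⟨⟨r, hl.sub r hr⟩, Finset.mem_subtype.2 hr, (h5 k ⟨r, hl.sub r hr⟩).2 ?_⟩
    exact (jn_fst (pl_fst t Q)).1 (hJ.jn hQ.prog)
  obtain ⟨Rs, h6, h7, h8⟩ := exists_trans (jn_equivalence Q') _ hcov
  have hRc : Rs.card ≤ c₀ + 1 := by
    refine (Finset.card_le_card h6).trans ?_
    rw [Finset.card_subtype]
    exact (Finset.card_filter_le _ _).trans hl.card
  have hout := prg_of_finZ_eq (N := szB F G + 1) (c₀ := c₀ + 1) (T := T) (l := l) (w := w) hΦ hε
    ht hz0 h3 h4 (i := ⟨A.root, hmA⟩) (k := ⟨B.root, hmB⟩)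
    (fun he => hAB (congrArg Subtype.val he)) (fun e he a b hab => ?_) (by rw [fA.1, fB.1, hln])
    (by rw [fA.2]; exact h.ext_le A hA.mem) (by rw [fB.2]; exact h.ext_le B hB.mem) ?_ ?_
    ⟨hz, fun i => (hl.mem _ i.2).imp id Or.inl, fun j => by rw [hzr]; exact hl.trees j,
      fun j => by rw [hzr]; exact hl.lines j⟩ (Rs := Rs) ⟨h7, h8⟩ hRc
    (fun r hr => hl.ord _ (Finset.mem_subtype.1 (h6 hr)))
  · exact hout.imp (fun h => h.2) fun h => h.2
  · have h9 : (e.1.map z, e.2) ∈ Q := by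
      rw [← h1]
      exact List.mem_map.2 ⟨e, he, rfl⟩
    rcases hQ.mem _ h9 with ⟨c, d, -, h10⟩ | ⟨g, hg, h10⟩
    · rw [hab] at h10
      simp only [Ev.map, Prod.mk.injEq] at h10
      exact absurd h10.1 (by simp)
    · rw [hab] at h10
      simp only [Ev.map, Prod.mk.injEq, Ev.gh.injEq] at h10
      have h11 := hG g hg
      rw [← h10.1.1] at h11
      exact ⟨fun he => h11.1 (congrArg Subtype.val he), fun he => h11.2 (congrArg Subtype.val he)⟩
  · rw [Fintype.card_coe]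
    unfold szB
    omega
  · unfold szB
    omega

/-- **The lines of a base structure are not different**: all the hypotheses of `SBase` except
`inj`. -/
theorem SLab.law_of_not_inj (hΦ : IsPotential Φ) (hε : 0 < ε) (ht : 0 ≤ t) {F : Finset CTree}
    {G : List Gh} (h : Fam Φ ε t F G) {R₀ : Finset Src} (hl : SLab T l F G (c₀ + 1) R₀)
    {D₀ : Set Src} {X : Src → Src} (hdrop : ∀ g ∈ G, g.1.root ∈ D₀)
    (hlst : ∀ σ ∈ lab F, σ ∉ D₀ → ∃ S, IsLast F S ∧ S.root = σ ∧ (X σ).2.1 = ln Φ ε S)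
    (hinj : ¬InjOn X ((lab F : Set Src) \ D₀)) :
    PrgC Φ ε t (c₀ + 1) (szB F G + 1) T l w ∨ PrgO Φ ε t c₀ (szB F G + 1) T l w := by
  unfold InjOn at hinj
  push Not at hinj
  obtain ⟨σ, ⟨hσ, hσD⟩, τ, ⟨hτ, hτD⟩, he, hne⟩ := hinj
  obtain ⟨A, hA, hAr, hAl⟩ := hlst σ hσ hσD
  obtain ⟨B, hB, hBr, hBl⟩ := hlst τ hτ hτD
  refine SLab.law_of_eq hΦ hε ht h hl hA hB (by rw [hAr, hBr]; exact hne)
    (by rw [← hAl, ← hBl, he]) fun g hg => ⟨fun h' => hσD ?_, fun h' => hτD ?_⟩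
  · rw [← hAr, h']; exact hdrop g hg
  · rw [← hBr, h']; exact hdrop g hg

/-! ### One tree, one pair -/

theorem card_partsF_le_sub {R : CTree} {L : ℕ} (hd : R.depth ≤ L) :
    (partsF R).card ≤ 2 ^ (L + 2) - 2 := by
  have h1 : partsF R ⊆ pf R := fun P hP =>
    Finset.mem_coe.1 (parts_subset_pf R (mem_partsF.1 hP))
  have h2 := pf_card_le R
  have h3 : 2 ^ (R.depth + 2) ≤ 2 ^ (L + 2) := Nat.pow_le_pow_right (by norm_num) (by omega)
  exact (Finset.card_le_card h1).trans (by omega)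

/-- **The sources of the particles of one tree are not different.** -/
theorem PrgBad.of_not_inj (hΦ : IsPotential Φ) (hε : 0 < ε) {R : CTree} {L : ℕ}
    (hR : CTree.ok Φ ε R) (hd : R.depth ≤ L) (hRt : ext Φ ε R ≤ t)
    (hT : ∀ j, (T j).leaves ⊆ R.leaves) (hl : ∀ j, l j ∈ R.leaves)
    (hmem : ∀ x ∈ R.leaves, (∃ j, x ∈ (T j).leaves) ∨ x ∈ range l)
    (h : ¬InjOn (rsrc Φ ε) (outs R)) : PrgBad Φ ε t (2 * 2 ^ (L + 2)) T l w := by
  unfold InjOn at h
  push Not at h
  obtain ⟨A, hA, B, hB, he, hne⟩ := h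
  have hlab : ∀ x, x ∈ lab (partsF R) ↔ x ∈ R.leaves := fun x => by
    rw [← Finset.mem_coe, lab_partsF]
  have hc := card_partsF_le_sub (L := L) hd
  have h4 : 2 ≤ 2 ^ (L + 2) := by
    have := Nat.pow_le_pow_right (n := 2) (by norm_num) (show 1 ≤ L + 2 by omega)
    simpa using this
  refine PrgBad.of_fam_eq hΦ hε ((ext_nonneg hΦ hε hR).trans hRt)
    (Fam.of_tree hΦ hε hR hRt) (isLast_of_outs hR hA) (isLast_of_outs hR hB)
    (fun hr => hne (outs_root_inj hR hA hB hr)) (congrArg (fun a : Src => a.2.1) he)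
    (fun g hg => absurd hg List.not_mem_nil) (by omega) (by simp; omega)
    (fun j => by rw [lab_partsF]; exact hT j) (fun j => (hlab _).2 (hl j))
    (fun x hx => (hmem x ((hlab x).1 hx)).imp id Or.inl)
    (fun x hx y hy => fj_partsF hΦ hε hR ((hlab x).1 hx) ((hlab y).1 hy))

theorem not_meets_self {p : Ph} : ¬Meets ε (p, p) := fun h => h.1 (sub_self _)

/-- The family of a pair in contact; the label of `x` is dropped. -/
theorem fam_pair (hΦ : IsPotential Φ) (hε : 0 < ε) [DecidableEq CTree] {x y : CTree}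
    (hxy : CTree.ok Φ ε (node x y)) (ht : sig Φ ε (node x y) ≤ t) :
    Fam Φ ε t (partsF x ∪ partsF y) [(x, y, sig Φ ε (node x y))] ∧
      (∀ σ ∈ lab (partsF x ∪ partsF y), ∀ τ ∈ lab (partsF x ∪ partsF y),
        FJ (partsF x ∪ partsF y) [(x, y, sig Φ ε (node x y))] σ τ) ∧
      (∀ z ∈ outs x ∪ outs y, IsLast (partsF x ∪ partsF y) z) := by
  have hx := hxy.1
  have hy := hxy.2.1
  have hdis := hxy.2.2.1
  have hex : ext Φ ε x < sig Φ ε (node x y) := hxy.2.2.2.2.2.1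
  have hey : ext Φ ε y < sig Φ ε (node x y) := hxy.2.2.2.2.2.2
  have hlab : ∀ (R : CTree) (a : Src), a ∈ lab (partsF R) ↔ a ∈ R.leaves := fun R a => by
    rw [← Finset.mem_coe, lab_partsF]
  have hd : ∀ σ ∈ lab (partsF x), σ ∉ lab (partsF y) := fun σ h1 h2 =>
    Set.disjoint_left.1 hdis ((hlab x σ).1 h1) ((hlab y σ).1 h2)
  have hd' : ∀ σ ∈ lab (partsF y), σ ∉ lab (partsF x) := fun σ h1 h2 => hd σ h2 h1
  have hF := (Fam.of_tree hΦ hε hx (hex.le.trans ht)).union
    (Fam.of_tree hΦ hε hy (hey.le.trans ht)) hd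
  have hlast : ∀ z ∈ outs x ∪ outs y, IsLast (partsF x ∪ partsF y) z := by
    rintro z (hz | hz)
    · exact (isLast_of_outs hx hz).union_left hd
    · exact (isLast_of_outs hy hz).union_right hd
  have hlx := hlast x (Or.inl (Or.inl rfl))
  have hly := hlast y (Or.inr (Or.inl rfl))
  have hhit := (hit_after hΦ hε hx hex.le).1 (hit_sig hΦ hε hxy)
  have hne : x.root ≠ y.root := fun h' =>
    Set.disjoint_left.1 hdis x.root_mem_leaves (h' ▸ y.root_mem_leaves)
  have hFG := hF.add_ghost hlx.mem hly.mem hne hex.le hey.le ht hhit.2.2 hlx fun y' hy' => by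
    have h1 := (hly.last _ hy' rfl).card_le
    have h2 := y'.card_pos
    simp only [CTree.card] at h1
    omega
  refine ⟨hFG, ?_, hlast⟩
  have key : ∀ σ ∈ lab (partsF x ∪ partsF y),
      FJ (partsF x ∪ partsF y) [(x, y, sig Φ ε (node x y))] σ y.root := by
    intro σ hσ
    rcases mem_lab_union.1 hσ with h1 | h1
    · have h2 : FJ (partsF x ∪ partsF y) [(x, y, sig Φ ε (node x y))] σ x.root :=
        (fj_partsF hΦ hε hx ((hlab x σ).1 h1) x.root_mem_leaves).mono
          (fun P hP => Finset.mem_union_left _ hP) fun g hg => absurd hg List.not_mem_nil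
      exact h2.trans (FJ.ghost (g := (x, y, sig Φ ε (node x y))) (List.mem_singleton.2 rfl))
    · exact (fj_partsF hΦ hε hy ((hlab y σ).1 h1) y.root_mem_leaves).mono
        (fun P hP => Finset.mem_union_right _ hP) fun g hg => absurd hg List.not_mem_nil
  exact fun σ hσ τ hτ => (key σ hσ).trans (key τ hτ).symm

/-- Two particles of a colliding pair on the same line; `x` is not one of them. -/
theorem PrgBad.of_pair_aux (hΦ : IsPotential Φ) (hε : 0 < ε) {x y : CTree} {L : ℕ}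
    (hxy : CTree.ok Φ ε (node x y)) (hdx : x.depth ≤ L) (hdy : y.depth ≤ L)
    (hsg : sig Φ ε (node x y) ≤ t)
    (hT : ∀ j, (T j).leaves ⊆ (node x y).leaves) (hl : ∀ j, l j ∈ (node x y).leaves)
    (hmem : ∀ a ∈ (node x y).leaves, (∃ j, a ∈ (T j).leaves) ∨ a ∈ range l) {A B : CTree}
    (hA : A ∈ outs x ∪ outs y) (hB : B ∈ outs x ∪ outs y) (hAB : A.root ≠ B.root)
    (hln : ln Φ ε A = ln Φ ε B) (hAx : A.root ≠ x.root) (hBx : B.root ≠ x.root) :
    PrgBad Φ ε t (2 * 2 ^ (L + 3)) T l w := by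
  classical
  obtain ⟨hFG, hJ, hlast⟩ := fam_pair hΦ hε hxy hsg
  have hlab : ∀ a, a ∈ lab (partsF x ∪ partsF y) ↔ a ∈ (node x y).leaves := fun a => by
    rw [mem_lab_union, ← Finset.mem_coe, lab_partsF, ← Finset.mem_coe, lab_partsF]
    rfl
  have h1 := card_partsF_le_sub (L := L) hdx
  have h2 := card_partsF_le_sub (L := L) hdy
  have h3 : (partsF x ∪ partsF y).card ≤ 2 ^ (L + 3) := by
    have h4 := Finset.card_union_le (partsF x) (partsF y)
    rw [show 2 ^ (L + 3) = 2 ^ (L + 2) + 2 ^ (L + 2) by rw [pow_succ, mul_two]]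
    exact h4.trans (add_le_add (h1.trans (Nat.sub_le _ _)) (h2.trans (Nat.sub_le _ _)))
  have h4 : 4 ≤ 2 ^ (L + 3) := by
    have := Nat.pow_le_pow_right (n := 2) (by norm_num) (show 2 ≤ L + 3 by omega)
    simpa using this
  refine PrgBad.of_fam_eq hΦ hε ((sig_nonneg hΦ hε hxy).trans hsg) hFG (hlast A hA)
    (hlast B hB) hAB hln (fun g hg => ?_) h3 ?_
    (fun j σ hσ => (hlab σ).2 (hT j hσ)) (fun j => (hlab _).2 (hl j))
    (fun a ha => (hmem a ((hlab a).1 ha)).imp id Or.inl) hJ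
  · rw [List.mem_singleton.1 hg]
    exact ⟨hAx, hBx⟩
  · simp only [List.length_singleton]
    omega

/-- **The sources of the particles of a colliding pair are not different** (before the
collision). -/
theorem PrgBad.of_not_inj_pair (hΦ : IsPotential Φ) (hε : 0 < ε) {x y : CTree} {L : ℕ}
    (hxy : CTree.ok Φ ε (node x y)) (hdx : x.depth ≤ L) (hdy : y.depth ≤ L)
    (hsg : sig Φ ε (node x y) ≤ t)
    (hT : ∀ j, (T j).leaves ⊆ (node x y).leaves) (hl : ∀ j, l j ∈ (node x y).leaves)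
    (hmem : ∀ a ∈ (node x y).leaves, (∃ j, a ∈ (T j).leaves) ∨ a ∈ range l)
    (h : ¬InjOn (rsrc Φ ε) (outs x ∪ outs y)) : PrgBad Φ ε t (2 * 2 ^ (L + 3)) T l w := by
  unfold InjOn at h
  push Not at h
  obtain ⟨A, hA, B, hB, he, hne⟩ := h
  have hln : ln Φ ε A = ln Φ ε B := congrArg (fun a : Src => a.2.1) he
  have hdis := Set.disjoint_left.1 hxy.2.2.1
  have hroot : ∀ A ∈ outs x ∪ outs y, ∀ B ∈ outs x ∪ outs y, A.root = B.root → A = B := by
    rintro A (hA | hA) B (hB | hB) hr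
    · exact outs_root_inj hxy.1 hA hB hr
    · exact absurd (outs_leaves hB B.root_mem_leaves)
        (hr ▸ hdis (outs_leaves hA A.root_mem_leaves))
    · exact absurd (outs_leaves hA A.root_mem_leaves)
        (hr ▸ hdis (outs_leaves hB B.root_mem_leaves))
    · exact outs_root_inj hxy.2.1 hA hB hr
  have hAB : A.root ≠ B.root := fun hr => hne (hroot A hA B hB hr)
  have hxo : x ∈ outs x ∪ outs y := Or.inl (Or.inl rfl)
  have hyo : y ∈ outs x ∪ outs y := Or.inr (Or.inl rfl)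
  by_cases hx : A.root ≠ x.root ∧ B.root ≠ x.root
  · exact PrgBad.of_pair_aux hΦ hε hxy hdx hdy hsg hT hl hmem hA hB hAB hln hx.1 hx.2
  · -- then `y` is not one of them
    have hy : A.root ≠ y.root ∧ B.root ≠ y.root := by
      have hm : ¬Meets ε (ln Φ ε x, ln Φ ε y) ∨ ln Φ ε x ≠ ln Φ ε y := by
        by_cases hh : ln Φ ε x = ln Φ ε y
        · left
          rw [hh]
          exact not_meets_self
        · exact Or.inr hh
      have hxyl : ln Φ ε x ≠ ln Φ ε y := by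
        rcases hm with hm | hm
        · exact absurd hxy.2.2.2.1 hm
        · exact hm
      by_contra hcon
      rw [not_and_or, not_not, not_not] at hx hcon
      rcases hx with hx | hx <;> rcases hcon with hc | hc
      · have e1 := hroot A hA x hxo hx
        have e2 := hroot A hA y hyo hc
        exact hxyl (by rw [← e1, ← e2])
      · have e1 := hroot A hA x hxo hx
        have e2 := hroot B hB y hyo hc
        exact hxyl (by rw [← e1, ← e2, hln])
      · have e1 := hroot B hB x hxo hx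
        have e2 := hroot A hA y hyo hc
        exact hxyl (by rw [← e1, ← e2, hln])
      · have e1 := hroot B hB x hxo hx
        have e2 := hroot B hB y hyo hc
        exact hxyl (by rw [← e1, ← e2])
    have hsw : (node y x).leaves = (node x y).leaves := union_comm _ _
    have hA' : A ∈ outs y ∪ outs x := by rw [union_comm]; exact hA
    have hB' : B ∈ outs y ∪ outs x := by rw [union_comm]; exact hB
    refine PrgBad.of_pair_aux hΦ hε (ok_swap hΦ hxy) hdy hdx (by rw [sig_swap]; exact hsg)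
      (fun j => by rw [hsw]; exact hT j) (fun j => by rw [hsw]; exact hl j)
      (fun a ha => hmem a (by rw [← hsw]; exact ha)) hA' hB' hAB hln hy.1 hy.2

/-- The two particles of a pair are not on the same line after the collision. -/
theorem ln_node_ne (hΦ : IsPotential Φ) (hε : 0 < ε) {x y : CTree}
    (hxy : CTree.ok Φ ε (node x y)) : ln Φ ε (node x y) ≠ ln Φ ε (node y x) := by
  intro he
  have h1 := (dist_pairLine_lt_iff hΦ hε hxy.2.2.2.2.1 hxy.2.2.2.1.2
    (sepT Φ ε (ln Φ ε x, ln Φ ε y))).not.2 fun h => lt_irrefl _ h.2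
  refine h1 ?_
  have e1 : (pairLine Φ ε (ln Φ ε x, ln Φ ε y) (sepT Φ ε (ln Φ ε x, ln Φ ε y))).1 =
      st Φ ε (node x y) (ext Φ ε (node x y)) := rfl
  have e2 : (pairLine Φ ε (ln Φ ε x, ln Φ ε y) (sepT Φ ε (ln Φ ε x, ln Φ ε y))).2 =
      st Φ ε (node y x) (ext Φ ε (node x y)) := (st_swap hΦ x y _).symm
  rw [e1, e2, st_after hΦ hε hxy le_rfl,
    st_after hΦ hε (ok_swap hΦ hxy) (le_of_eq (ext_swap hΦ x y)), he, sub_self, norm_zero]
  exact hε

/-- **The collision of a pair adds no coincidence.** -/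
theorem injOn_outs_node (hΦ : IsPotential Φ) (hε : 0 < ε) {x y : CTree}
    (hxy : CTree.ok Φ ε (node x y)) (h : InjOn (rsrc Φ ε) (outs x ∪ outs y)) :
    InjOn (rsrc Φ ε) (outs (node x y)) := by
  have hex : ∀ z ∈ exs x ∪ exs y, ext Φ ε z < ext Φ ε (node x y) := by
    have h1 := sig_lt_ext hΦ hε hxy
    rintro z (hz | hz)
    · exact (out_ext_le hΦ hε hxy.1 (Or.inr hz)).trans_lt (hxy.2.2.2.2.2.1.trans h1)
    · exact (out_ext_le hΦ hε hxy.2.1 (Or.inr hz)).trans_lt (hxy.2.2.2.2.2.2.trans h1)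
  have hcase : ∀ z ∈ outs (node x y), z = node x y ∨ z = node y x ∨ z ∈ exs x ∪ exs y := by
    rintro z (hz | hz)
    · exact Or.inl hz
    · rcases mem_exs_node.1 hz with hz | hz | hz
      · exact Or.inr (Or.inr (Or.inl hz))
      · exact Or.inr (Or.inr (Or.inr hz))
      · exact Or.inr (Or.inl hz)
  have hsw : ext Φ ε (node y x) = ext Φ ε (node x y) := ext_swap hΦ x y
  have hne := ln_node_ne hΦ hε hxy
  have hsub : exs x ∪ exs y ⊆ outs x ∪ outs y := union_subset_union (fun z hz => Or.inr hz)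
    fun z hz => Or.inr hz
  intro z hz z' hz' he
  have e1 : ext Φ ε z = ext Φ ε z' := congrArg (fun a : Src => a.1) he
  have e2 : ln Φ ε z = ln Φ ε z' := congrArg (fun a : Src => a.2.1) he
  rcases hcase z hz with h1 | h1 | h1 <;> rcases hcase z' hz' with h2 | h2 | h2
  · rw [h1, h2]
  · rw [h1, h2] at e2; exact absurd e2 hne
  · rw [h1] at e1; exact absurd (hex z' h2) (not_lt.2 e1.le)
  · rw [h1, h2] at e2; exact absurd e2.symm hne
  · rw [h1, h2]
  · rw [h1, hsw] at e1; exact absurd (hex z' h2) (not_lt.2 e1.le)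
  · rw [h2] at e1; exact absurd (hex z h1) (not_lt.2 e1.symm.le)
  · rw [h2, hsw] at e1; exact absurd (hex z h1) (not_lt.2 e1.symm.le)
  · exact h (hsub h1) (hsub h2) he

end main

end Vale.Agent.P119.IND
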