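import Vale.Agent.P119.IND.DetKc
import Vale.Agent.P119.IND.Inj
import Vale.Agent.P119.IND.AddTree
import Vale.Agent.P119.FB.SqLines

/-!
# P119, block IND: base structures with one more tree (`helper185`)

* `PBase Φ ε T F₀ G₀ D₀ X`: a base structure (as `SBase` of `helper810`), without the injectivity of
  the lines, all the births being exact; `KBase`: the births are exact or the times of ghost contacts
  (`SKc` of `helper810`);
* `PBase.add_tree`, `SLab.add_tree`: one more tree `R`, one more class;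
* `PBase.law_not_good`: the failures of `M.Good` for the lines `K` of the base;
* **`PBase.law_not_goodK`**, **`KBase.law_not_goodK`**: the failures of `GoodK V R K`: the alternatives
  of the laws for the structure with the tree `R`.
-/

open Set
open scoped ENNReal

set_option linter.unusedSectionVars false

noncomputable section

namespace Vale.Agent.P119.IND

open KU M M.CTree TL GC AU PB

variable {Φ : E3 → ℝ} {ε T t : ℝ} {L : ℕ}

/-- **The base structures**, the births being exact; the lines may coincide. -/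
structure PBase (Φ : E3 → ℝ) (ε T : ℝ) (F₀ : Finset CTree) (G₀ : List Gh) (D₀ : Set Src)
    (X : Src → Src) : Prop where
  fam : Fam Φ ε T F₀ G₀
  /-- the first labels of the ghosts are dropped -/
  drop : ∀ g ∈ G₀, g.1.root ∈ D₀
  /-- the ghosts take place before the birth of the line of the second label -/
  tgt : ∀ g ∈ G₀, g.2.1.root ∉ D₀ → g.2.2 ≤ (X g.2.1.root).1
  /-- the line of a label is the line of its last history -/
  lst : ∀ σ ∈ lab F₀, σ ∉ D₀ → ∃ S, IsLast F₀ S ∧ S.root = σ ∧ (X σ).2.1 = ln Φ ε S ∧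
    (X σ).1 = ext Φ ε S

/-- **The base structures**, the births being exact or the times of ghost contacts; the lines may
coincide. -/
structure KBase (Φ : E3 → ℝ) (ε T : ℝ) (F₀ : Finset CTree) (G₀ : List Gh) (D₀ : Set Src)
    (X : Src → Src) : Prop where
  fam : Fam Φ ε T F₀ G₀
  /-- the first labels of the ghosts are dropped -/
  drop : ∀ g ∈ G₀, g.1.root ∈ D₀
  /-- the ghosts take place before the birth of the line of the second label -/
  tgt : ∀ g ∈ G₀, g.2.1.root ∉ D₀ → g.2.2 ≤ (X g.2.1.root).1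
  /-- the line of a label is the line of its last history -/
  lst : ∀ σ ∈ lab F₀, σ ∉ D₀ → ∃ S, IsLast F₀ S ∧ S.root = σ ∧ (X σ).2.1 = ln Φ ε S ∧
    ((X σ).1 = ext Φ ε S ∨ SKc Φ ε G₀ (X σ).1 S)

theorem IsLast.unique {F : Finset CTree} {S S' : CTree} (h : IsLast F S) (h' : IsLast F S')
    (hr : S.root = S'.root) : S = S' :=
  Spine.antisymm (h'.last S h.mem hr) (h.last S' h'.mem hr.symm)

/-- The lines seen by the gas, with one more tree. -/
def XR (Φ : E3 → ℝ) (ε : ℝ) (X : Src → Src) (R : CTree) (σ : Src) : Src := by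
  classical
  exact if h : ∃ x ∈ outs R, x.root = σ then rsrc Φ ε h.choose else X σ

theorem XR_out {X : Src → Src} {R x : CTree} (hR : CTree.ok Φ ε R) (hx : x ∈ outs R) :
    XR Φ ε X R x.root = rsrc Φ ε x := by
  have h : ∃ x' ∈ outs R, x'.root = x.root := ⟨x, hx, rfl⟩
  unfold XR
  rw [dif_pos h, outs_root_inj hR h.choose_spec.1 hx h.choose_spec.2]

theorem XR_of_notMem {X : Src → Src} {R : CTree} {σ : Src} (h : σ ∉ R.leaves) :
    XR Φ ε X R σ = X σ := by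
  unfold XR
  rw [dif_neg]
  rintro ⟨x, hx, rfl⟩
  exact h (outs_leaves hx x.root_mem_leaves)

namespace KBase

variable {F₀ : Finset CTree} {G₀ : List Gh} {D₀ : Set Src} {X : Src → Src} {m q c₀ : ℕ}
  {T₀ : Fin m → CTree} {l : Fin q → Src} {R₀ : Finset Src} {R : CTree}

theorem sbase (h : KBase Φ ε T F₀ G₀ D₀ X) (hi : InjOn X ((lab F₀ : Set Src) \ D₀)) :
    SBase Φ ε T F₀ G₀ D₀ X := by
  refine ⟨h.fam, h.drop, h.tgt, fun σ hσ hD => ?_, hi⟩
  obtain ⟨S, h1, h2, h3, h4⟩ := h.lst σ hσ hD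
  refine ⟨S, h1, h2, h3, ?_⟩
  rcases h4 with h4 | ⟨g, -, -, -, -, h5, -⟩
  · exact h4.ge
  · exact h5.le

theorem exact (h : KBase Φ ε T F₀ G₀ D₀ X) (S : CTree) (hS : IsLast F₀ S) (hD : S.root ∉ D₀) :
    (X S.root).1 = ext Φ ε S ∨ SKc Φ ε G₀ (X S.root).1 S := by
  obtain ⟨S', h1, h2, -, h4⟩ := h.lst S.root (root_mem_lab hS.mem) hD
  rw [← h1.unique hS h2]
  rw [h2]
  exact h4

/-- Fewer lines. -/
theorem mono_D (h : KBase Φ ε T F₀ G₀ D₀ X) {D₁ : Set Src} (hD : D₀ ⊆ D₁) :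
    KBase Φ ε T F₀ G₀ D₁ X :=
  ⟨h.fam, fun g hg => hD (h.drop g hg), fun g hg h1 => h.tgt g hg fun h2 => h1 (hD h2),
    fun σ hσ h1 => h.lst σ hσ fun h2 => h1 (hD h2)⟩

/-- **The failures of `M.Good`** for lines of the base. -/
theorem law_not_good (hΦ : IsPotential Φ) (hε : 0 < ε) (hT : 0 ≤ T)
    (h : KBase Φ ε T F₀ G₀ D₀ X) (hl : SLab T₀ l F₀ G₀ (c₀ + 1) R₀) {w : Finset Ph}
    (hzw : ∀ σ ∈ lab F₀, σ ∉ wS w) (hxw : ∀ σ ∈ lab F₀, σ ∉ D₀ → X σ ∉ wS w) {K : Finset Src}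
    (hK : ∀ σ ∈ K, (0 ≤ σ.1 ∧ σ.2.2 ≤ L) ∧ ∃ τ ∈ lab F₀, τ ∉ D₀ ∧ X τ = σ) (ht : t ≤ T)
    (hg : InjOn X ((lab F₀ : Set Src) \ D₀) → ¬M.Good Φ ε L (wS w) PB.sgl K t) (J : ℕ) :
    LawC hΦ hε L T J c₀ (szB F₀ G₀ + 2 * Nb0 L J + 1) T₀ l w K := by
  by_cases hi : InjOn X ((lab F₀ : Set Src) \ D₀)
  · have h1 := (h.sbase hi).not_good_kc hΦ hε hl hzw hxw h.exact hK ht (hg hi) J
    exact h1.imp id (Or.imp (PrgC.mono le_rfl (Nat.le_succ _))
      (Or.imp (PrgO.mono le_rfl (Nat.le_succ _)) (IrrO.mono le_rfl (Nat.le_succ _))))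
  · rcases SLab.law_of_not_inj (w := w) hΦ hε hT h.fam hl h.drop (fun σ hσ hD => by
      obtain ⟨S, h1, h2, h3, -⟩ := h.lst σ hσ hD
      exact ⟨S, h1, h2, h3⟩) hi with h1 | h1
    · exact Or.inr (Or.inl (h1.mono le_rfl (by omega)))
    · exact Or.inr (Or.inr (Or.inl (h1.mono le_rfl (by omega))))

/-- **One more tree.** -/
theorem add_tree [DecidableEq CTree] (hΦ : IsPotential Φ) (hε : 0 < ε)
    (h : KBase Φ ε T F₀ G₀ D₀ X) (hR : CTree.ok Φ ε R) (he : ext Φ ε R ≤ T)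
    (hd : ∀ σ ∈ lab F₀, σ ∉ R.leaves) :
    KBase Φ ε T (F₀ ∪ partsF R) G₀ (D₀ \ R.leaves) (XR Φ ε X R) := by
  have hd' : ∀ σ ∈ lab F₀, σ ∉ lab (partsF R) := by
    intro σ hσ h1
    have h2 : σ ∈ (lab (partsF R) : Set Src) := Finset.mem_coe.2 h1
    rw [lab_partsF] at h2
    exact hd σ hσ h2
  refine ⟨h.fam.union (Fam.of_tree hΦ hε hR he) hd', fun g hg => ?_, fun g hg h1 => ?_,
    fun σ hσ h1 => ?_⟩
  · exact ⟨h.drop g hg, hd _ (root_mem_lab (h.fam.gh g hg).1)⟩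
  · have h2 : g.2.1.root ∉ R.leaves := hd _ (root_mem_lab (h.fam.gh g hg).2.1)
    rw [XR_of_notMem h2]
    exact h.tgt g hg fun h3 => h1 ⟨h3, h2⟩
  · rcases mem_lab_union.1 hσ with h2 | h2
    · have h3 := hd σ h2
      obtain ⟨S, h4, h5, h6, h7⟩ := h.lst σ h2 fun h4 => h1 ⟨h4, h3⟩
      refine ⟨S, h4.union_left hd', h5, ?_, ?_⟩
      · rw [XR_of_notMem h3, h6]
      · rw [XR_of_notMem h3]
        exact h7
    · have h3 : σ ∈ (lab (partsF R) : Set Src) := Finset.mem_coe.2 h2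
      rw [lab_partsF] at h3
      obtain ⟨x, hx, rfl⟩ := TL.exists_out h3
      refine ⟨x, (isLast_of_outs hR hx).union_right hd', rfl, ?_, Or.inl ?_⟩
      · rw [XR_out hR hx]; rfl
      · rw [XR_out hR hx]; rfl

end KBase

/-- **The labels with one more tree.** -/
theorem SLab.add_tree [DecidableEq CTree] [DecidableEq Src] {F₀ : Finset CTree} {G₀ : List Gh}
    {m q c₀ : ℕ} {T₀ : Fin m → CTree} {l : Fin q → Src} {R₀ : Finset Src} {R : CTree}
    (hΦ : IsPotential Φ) (hε : 0 < ε) (hR : CTree.ok Φ ε R)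
    (h : SLab T₀ l F₀ G₀ c₀ R₀) (hd : ∀ j, l j ∉ R.leaves) :
    SLab (Fin.snoc T₀ R : Fin (m + 1) → CTree) l (F₀ ∪ partsF R) G₀ (c₀ + 1)
      (insert R.root R₀) := by
  have hRl : ∀ {σ : Src}, σ ∈ lab (partsF R) ↔ σ ∈ R.leaves := by
    intro σ
    rw [← Finset.mem_coe, lab_partsF]
  refine ⟨fun σ hσ => ?_, fun j => ?_, fun j => mem_lab_union.2 (Or.inl (h.lines j)),
    fun r hr => ?_, fun σ hσ => ?_, (Finset.card_insert_le _ _).trans (by have := h.card; omega),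
    fun r hr => ?_⟩
  · rcases mem_lab_union.1 hσ with h1 | h1
    · rcases h.mem σ h1 with ⟨j, hj⟩ | h2
      · refine Or.inl ⟨j.castSucc, ?_⟩
        rw [Fin.snoc_castSucc]
        exact hj
      · exact Or.inr h2
    · refine Or.inl ⟨Fin.last m, ?_⟩
      rw [Fin.snoc_last]
      exact hRl.1 h1
  · intro σ hσ
    refine Finset.mem_coe.2 (mem_lab_union.2 ?_)
    induction j using Fin.lastCases with
    | last =>
      rw [Fin.snoc_last] at hσ
      exact Or.inr (hRl.2 hσ)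
    | cast j =>
      rw [Fin.snoc_castSucc] at hσ
      exact Or.inl (Finset.mem_coe.1 (h.trees j hσ))
  · rcases Finset.mem_insert.1 hr with rfl | hr
    · exact mem_lab_union.2 (Or.inr (hRl.2 R.root_mem_leaves))
    · exact mem_lab_union.2 (Or.inl (h.sub r hr))
  · rcases mem_lab_union.1 hσ with h1 | h1
    · obtain ⟨r, hr, h2⟩ := h.cov σ h1
      exact ⟨r, Finset.mem_insert_of_mem hr,
        h2.mono (fun P hP => Finset.mem_union_left _ hP) fun g hg => hg⟩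
    · refine ⟨R.root, Finset.mem_insert_self _ _, ?_⟩
      exact (fj_partsF hΦ hε hR (hRl.1 h1) R.root_mem_leaves).mono
        (fun P hP => Finset.mem_union_right _ hP) fun g hg => absurd hg List.not_mem_nil
  · rcases Finset.mem_insert.1 hr with rfl | hr
    · rintro ⟨j, hj⟩
      exact hd j (hj ▸ R.root_mem_leaves)
    · exact h.ord r hr

theorem szB_union_le [DecidableEq CTree] {F₀ : Finset CTree} {G₀ : List Gh} {R : CTree}
    (hd : R.depth ≤ L) : szB (F₀ ∪ partsF R) G₀ ≤ szB F₀ G₀ + 2 ^ (L + 3) := by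
  classical
  have h1 : (lab (F₀ ∪ partsF R)).card ≤ (lab F₀).card + (lab (partsF R)).card := by
    refine le_trans (Finset.card_le_card (t := lab F₀ ∪ lab (partsF R)) fun σ hσ => ?_)
      (Finset.card_union_le _ _)
    rcases mem_lab_union.1 hσ with h | h
    · exact Finset.mem_union_left _ h
    · exact Finset.mem_union_right _ h
  have h2 : (nl (F₀ ∪ partsF R)).card ≤ (nl F₀).card + (nl (partsF R)).card := by
    refine le_trans (Finset.card_le_card (t := nl F₀ ∪ nl (partsF R)) fun P hP => ?_)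
      (Finset.card_union_le _ _)
    obtain ⟨h3, h4⟩ := mem_nl.1 hP
    rcases Finset.mem_union.1 h3 with h | h
    · exact Finset.mem_union_left _ (mem_nl.2 ⟨h, h4⟩)
    · exact Finset.mem_union_right _ (mem_nl.2 ⟨h, h4⟩)
  have h3 : (lab (partsF R)).card ≤ 2 ^ (L + 2) := (card_lab_le _).trans (card_partsF_le hd)
  have h4 := card_nl_partsF_le (R := R) hd
  have h5 : 2 ^ (L + 3) = 2 ^ (L + 2) + 2 ^ (L + 2) := by rw [pow_succ]; ring
  unfold szB
  omega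

namespace KBase

variable {F₀ : Finset CTree} {G₀ : List Gh} {D₀ : Set Src} {X : Src → Src} {m q c₀ : ℕ}
  {T₀ : Fin m → CTree} {l : Fin q → Src} {R₀ : Finset Src} {R : CTree}

open Classical in
/-- **The failures of `GoodK`** over a base structure with `c₀ + 1` classes and one more tree. -/
theorem law_not_goodK (hΦ : IsPotential Φ) (hε : 0 < ε) (hT : 0 ≤ T)
    (h : KBase Φ ε T F₀ G₀ D₀ X) (hl : SLab T₀ l F₀ G₀ c₀ R₀) (hR : CTree.ok Φ ε R)
    (hRd : R.depth ≤ L) (he : ext Φ ε R ≤ T) (hd : ∀ σ ∈ lab F₀, σ ∉ R.leaves)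
    {w : Finset Ph} (hzw : ∀ σ ∈ lab F₀, σ ∉ wS w)
    (hRw : Disjoint R.leaves (wS w : Set Src))
    (hxw : ∀ σ ∈ lab F₀, σ ∉ D₀ → X σ ∉ wS w)
    (hRw' : Disjoint (srcs Φ ε R) (wS w)) {K : Finset Src}
    (hK : ∀ σ ∈ K, (0 ≤ σ.1 ∧ σ.2.2 ≤ L) ∧ ∃ τ ∈ lab F₀, τ ∉ D₀ ∧ X τ = σ) (ht : t ≤ T)
    (hg : ¬GoodK Φ ε L (wS w) R K t) (J : ℕ) :
    LawC hΦ hε L T J c₀ (szB F₀ G₀ + 2 ^ (L + 3) + 2 * Nb0 L J + 1)
      (Fin.snoc T₀ R : Fin (m + 1) → CTree) l w (srcs Φ ε R ∪ K : Finset Src) := by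
  have hB := h.add_tree hΦ hε hR he hd
  have hL : SLab (Fin.snoc T₀ R : Fin (m + 1) → CTree) l (F₀ ∪ partsF R) G₀ (c₀ + 1)
      (insert R.root R₀) := hl.add_tree hΦ hε hR fun j => hd _ (hl.lines j)
  have hRl : ∀ {σ : Src}, σ ∈ lab (partsF R) ↔ σ ∈ R.leaves := by
    intro σ
    rw [← Finset.mem_coe, lab_partsF]
  have hXR : ∀ σ ∈ lab F₀, XR Φ ε X R σ = X σ := fun σ hσ => XR_of_notMem (hd σ hσ)
  have h1 : LawC hΦ hε L T J c₀ (szB (F₀ ∪ partsF R) G₀ + 2 * Nb0 L J + 1)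
      (Fin.snoc T₀ R : Fin (m + 1) → CTree) l w (srcs Φ ε R ∪ K : Finset Src) := by
    refine hB.law_not_good hΦ hε hT hL (K := srcs Φ ε R ∪ K) (fun σ hσ => ?_)
      (fun σ hσ h1 => ?_) (fun σ hσ => ?_) ht (fun hi hgood => ?_) J
    · rcases mem_lab_union.1 hσ with h2 | h2
      · exact hzw σ h2
      · exact fun h3 => Set.disjoint_left.1 hRw (hRl.1 h2) (Finset.mem_coe.2 h3)
    · rcases mem_lab_union.1 hσ with h2 | h2
      · rw [hXR σ h2]
        exact hxw σ h2 fun h3 => h1 ⟨h3, hd σ h2⟩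
      · obtain ⟨x, hx, rfl⟩ := TL.exists_out (hRl.1 h2)
        rw [XR_out hR hx]
        exact Finset.disjoint_left.1 hRw' (mem_srcs.2 ⟨x, hx, rfl⟩)
    · rcases Finset.mem_union.1 hσ with h2 | h2
      · obtain ⟨x, hx, rfl⟩ := mem_srcs.1 h2
        have hxo := outs_ok hΦ hR hx
        refine ⟨⟨?_, ?_⟩, x.root, ?_, ?_, XR_out hR hx⟩
        · exact M.ext_nonneg hΦ hε hxo
        · exact (outs_depth hx).trans hRd
        · exact mem_lab_union.2 (Or.inr (hRl.2 (outs_leaves hx x.root_mem_leaves)))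
        · exact fun h3 => h3.2 (outs_leaves hx x.root_mem_leaves)
      · obtain ⟨h3, τ, h4, h5, h6⟩ := hK σ h2
        refine ⟨h3, τ, mem_lab_union.2 (Or.inl h4), fun h7 => h5 h7.1, ?_⟩
        rw [hXR τ h4, h6]
    · refine hg ⟨fun x hx y hy hxy => ?_, Finset.disjoint_left.2 fun σ hσ hσK => ?_, hgood⟩
      · have h2 := @hi x.root
          ⟨Finset.mem_coe.2 (mem_lab_union.2 (Or.inr (hRl.2 (outs_leaves hx
            x.root_mem_leaves)))), fun h3 => h3.2 (outs_leaves hx x.root_mem_leaves)⟩ y.root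
          ⟨Finset.mem_coe.2 (mem_lab_union.2 (Or.inr (hRl.2 (outs_leaves hy
            y.root_mem_leaves)))), fun h3 => h3.2 (outs_leaves hy y.root_mem_leaves)⟩
          (by rw [XR_out hR hx, XR_out hR hy, hxy])
        exact outs_root_inj hR hx hy h2
      · obtain ⟨x, hx, rfl⟩ := mem_srcs.1 hσ
        obtain ⟨-, τ, h4, h5, h6⟩ := hK _ hσK
        have h2 := @hi x.root
          ⟨Finset.mem_coe.2 (mem_lab_union.2 (Or.inr (hRl.2 (outs_leaves hx
            x.root_mem_leaves)))), fun h3 => h3.2 (outs_leaves hx x.root_mem_leaves)⟩ τ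
          ⟨Finset.mem_coe.2 (mem_lab_union.2 (Or.inl h4)), fun h3 => h5 h3.1⟩
          (by rw [XR_out hR hx, hXR τ h4, h6])
        exact hd τ h4 (h2 ▸ outs_leaves hx x.root_mem_leaves)
  have h2 := szB_union_le (G₀ := G₀) (F₀ := F₀) (R := R) hRd
  exact h1.imp id (Or.imp (PrgC.mono le_rfl (by omega))
      (Or.imp (PrgO.mono le_rfl (by omega)) (IrrO.mono le_rfl (by omega))))

end KBase

/-! ### Exact births -/

namespace PBase

variable {F₀ : Finset CTree} {G₀ : List Gh} {D₀ : Set Src} {X : Src → Src} {m q c₀ : ℕ}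
  {T₀ : Fin m → CTree} {l : Fin q → Src} {R₀ : Finset Src} {R : CTree}

theorem kbase (h : PBase Φ ε T F₀ G₀ D₀ X) : KBase Φ ε T F₀ G₀ D₀ X :=
  ⟨h.fam, h.drop, h.tgt, fun σ hσ hD => by
    obtain ⟨S, h1, h2, h3, h4⟩ := h.lst σ hσ hD
    exact ⟨S, h1, h2, h3, Or.inl h4⟩⟩

theorem sbase (h : PBase Φ ε T F₀ G₀ D₀ X) (hi : InjOn X ((lab F₀ : Set Src) \ D₀)) :
    SBase Φ ε T F₀ G₀ D₀ X := h.kbase.sbase hi

theorem exact (h : PBase Φ ε T F₀ G₀ D₀ X) (S : CTree) (hS : IsLast F₀ S) (hD : S.root ∉ D₀) :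
    (X S.root).1 = ext Φ ε S := by
  obtain ⟨S', h1, h2, -, h4⟩ := h.lst S.root (root_mem_lab hS.mem) hD
  rw [h4, h1.unique hS h2]

/-- Fewer lines. -/
theorem mono_D (h : PBase Φ ε T F₀ G₀ D₀ X) {D₁ : Set Src} (hD : D₀ ⊆ D₁) :
    PBase Φ ε T F₀ G₀ D₁ X :=
  ⟨h.fam, fun g hg => hD (h.drop g hg), fun g hg h1 => h.tgt g hg fun h2 => h1 (hD h2),
    fun σ hσ h1 => h.lst σ hσ fun h2 => h1 (hD h2)⟩

/-- **The failures of `M.Good`** for lines of the base. -/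
theorem law_not_good (hΦ : IsPotential Φ) (hε : 0 < ε) (hT : 0 ≤ T)
    (h : PBase Φ ε T F₀ G₀ D₀ X) (hl : SLab T₀ l F₀ G₀ (c₀ + 1) R₀) {w : Finset Ph}
    (hzw : ∀ σ ∈ lab F₀, σ ∉ wS w) (hxw : ∀ σ ∈ lab F₀, σ ∉ D₀ → X σ ∉ wS w) {K : Finset Src}
    (hK : ∀ σ ∈ K, (0 ≤ σ.1 ∧ σ.2.2 ≤ L) ∧ ∃ τ ∈ lab F₀, τ ∉ D₀ ∧ X τ = σ) (ht : t ≤ T)
    (hg : InjOn X ((lab F₀ : Set Src) \ D₀) → ¬M.Good Φ ε L (wS w) PB.sgl K t) (J : ℕ) :
    LawC hΦ hε L T J c₀ (szB F₀ G₀ + 2 * Nb0 L J + 1) T₀ l w K :=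
  h.kbase.law_not_good hΦ hε hT hl hzw hxw hK ht hg J

open Classical in
/-- **The failures of `GoodK`** over a base structure with `c₀` classes and one more tree. -/
theorem law_not_goodK (hΦ : IsPotential Φ) (hε : 0 < ε) (hT : 0 ≤ T)
    (h : PBase Φ ε T F₀ G₀ D₀ X) (hl : SLab T₀ l F₀ G₀ c₀ R₀) (hR : CTree.ok Φ ε R)
    (hRd : R.depth ≤ L) (he : ext Φ ε R ≤ T) (hd : ∀ σ ∈ lab F₀, σ ∉ R.leaves)
    {w : Finset Ph} (hzw : ∀ σ ∈ lab F₀, σ ∉ wS w)
    (hRw : Disjoint R.leaves (wS w : Set Src))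
    (hxw : ∀ σ ∈ lab F₀, σ ∉ D₀ → X σ ∉ wS w)
    (hRw' : Disjoint (srcs Φ ε R) (wS w)) {K : Finset Src}
    (hK : ∀ σ ∈ K, (0 ≤ σ.1 ∧ σ.2.2 ≤ L) ∧ ∃ τ ∈ lab F₀, τ ∉ D₀ ∧ X τ = σ) (ht : t ≤ T)
    (hg : ¬GoodK Φ ε L (wS w) R K t) (J : ℕ) :
    LawC hΦ hε L T J c₀ (szB F₀ G₀ + 2 ^ (L + 3) + 2 * Nb0 L J + 1)
      (Fin.snoc T₀ R : Fin (m + 1) → CTree) l w (srcs Φ ε R ∪ K : Finset Src) :=
  h.kbase.law_not_goodK hΦ hε hT hl hR hRd he hd hzw hRw hxw hRw' hK ht hg J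

/-- **One more tree.** -/
theorem add_tree [DecidableEq CTree] (hΦ : IsPotential Φ) (hε : 0 < ε)
    (h : PBase Φ ε T F₀ G₀ D₀ X) (hR : CTree.ok Φ ε R) (he : ext Φ ε R ≤ T)
    (hd : ∀ σ ∈ lab F₀, σ ∉ R.leaves) :
    PBase Φ ε T (F₀ ∪ partsF R) G₀ (D₀ \ R.leaves) (XR Φ ε X R) := by
  have hK := h.kbase.add_tree hΦ hε hR he hd
  have hd' : ∀ σ ∈ lab F₀, σ ∉ lab (partsF R) := by
    intro σ hσ h1
    have h2 : σ ∈ (lab (partsF R) : Set Src) := Finset.mem_coe.2 h1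
    rw [lab_partsF] at h2
    exact hd σ hσ h2
  refine ⟨hK.fam, hK.drop, hK.tgt, fun σ hσ h1 => ?_⟩
  rcases mem_lab_union.1 hσ with h2 | h2
  · have h3 := hd σ h2
    obtain ⟨S, h4, h5, h6, h7⟩ := h.lst σ h2 fun h4 => h1 ⟨h4, h3⟩
    refine ⟨S, h4.union_left hd', h5, ?_, ?_⟩
    · rw [XR_of_notMem h3, h6]
    · rw [XR_of_notMem h3, h7]
  · have h3 : σ ∈ (lab (partsF R) : Set Src) := Finset.mem_coe.2 h2
    rw [lab_partsF] at h3
    obtain ⟨x, hx, rfl⟩ := TL.exists_out h3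
    refine ⟨x, (isLast_of_outs hR hx).union_right hd', rfl, ?_, ?_⟩
    · rw [XR_out hR hx]; rfl
    · rw [XR_out hR hx]; rfl

end PBase

end Vale.Agent.P119.IND
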