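import Vale.Agent.P119.IND.NearDet
import Vale.Agent.P119.IND.PairBase
import Vale.Agent.P119.PB.RelCases

/-!
# P119, block IND: case (D) of the related trees over a base structure (`helper498`)

`Drp` (of `helper472`): a tree of the gas, altered by one of the lines of the tree `R`, is in contact
with a particle of `O`.

* `PBase.of_drp`: over a base structure with `c₀ + 1` classes in which `R` and the histories of `O`
  are in different classes: the alternatives `LawC`, or a program with at most `c₀` classes and two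
  near lines (`PrgN`);
* **`PBase.law_drp`**: the same for a base structure with one more tree `R` (the companion of
  `PBase.law_not_goodK` of `helper185`);
* **`Fam.law_drp`**: the same, nothing is asked about the lines of the base.
-/

open MeasureTheory Filter Topology Set
open scoped ENNReal NNReal

set_option linter.unusedSectionVars false

noncomputable section

namespace Vale.Agent.P119.IND

open KU M M.CTree TL GC AU PB

variable {Φ : E3 → ℝ} {ε T t : ℝ} {L : ℕ}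

theorem LawC.mono_ins {hΦ : IsPotential Φ} {hε : 0 < ε} {J c₀ N m q : ℕ} {T₀ : Fin m → CTree}
    {l : Fin q → Src} {w : Finset Ph} {A B : Set Src} (hA : A ⊆ B)
    (h : LawC hΦ hε L T J c₀ N T₀ l w A) : LawC hΦ hε L T J c₀ N T₀ l w B :=
  h.imp (fun ⟨σ, hσ, h'⟩ => ⟨σ, hA hσ, h'⟩) id

theorem LawC.mono_N {hΦ : IsPotential Φ} {hε : 0 < ε} {J c₀ N N' m q : ℕ} {T₀ : Fin m → CTree}
    {l : Fin q → Src} {w : Finset Ph} {A : Set Src} (hN : N ≤ N')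
    (h : LawC hΦ hε L T J c₀ N T₀ l w A) : LawC hΦ hε L T J c₀ N' T₀ l w A :=
  h.imp id (Or.imp (PrgC.mono le_rfl hN) (Or.imp (PrgO.mono le_rfl hN) (IrrO.mono le_rfl hN)))

theorem ok_of_spine {S T : CTree} (h : Spine S T) (hT : CTree.ok Φ ε T) : CTree.ok Φ ε S := by
  induction h with
  | refl => exact hT
  | left b _ ih => exact ih hT.1

namespace PBase

variable {F₀ : Finset CTree} {G₀ : List Gh} {D₀ : Set Src} {X : Src → Src} {m q c₀ : ℕ}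
  {T₀ : Fin m → CTree} {l : Fin q → Src} {R₀ : Finset Src} {R : CTree}

/-- **Case (D) of the related trees**, over a base structure. -/
theorem of_drp (hΦ : IsPotential Φ) (hε : 0 < ε) (h : PBase Φ ε T F₀ G₀ D₀ X)
    (hl : SLab T₀ l F₀ G₀ (c₀ + 1) R₀) {w : Finset Ph} (hzw : ∀ σ ∈ lab F₀, σ ∉ wS w)
    {O : Set CTree} {r₁ : Src} (hr₁ : r₁ ∈ R₀)
    (hR : ∀ z ∈ outs R, IsLast F₀ z ∧ z.root ∉ D₀ ∧ X z.root = rsrc Φ ε z ∧
      rsrc Φ ε z ∉ wS w ∧ FJ F₀ G₀ z.root r₁)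
    (hO : ∀ x ∈ O, CTree.ok Φ ε x ∧ (∀ a ∈ x.leaves, a ∈ lab F₀ ∧ FJ F₀ G₀ a x.root) ∧
      ∃ r₂ ∈ R₀, r₁ ≠ r₂ ∧ FJ F₀ G₀ x.root r₂) (ht : t ≤ T)
    {r : CTree → ℝ} (hD : Drp Φ ε L (wS w) R O r t) (J : ℕ) :
    LawC hΦ hε L T J c₀ (szB F₀ G₀ + 2 * Nb0 L J) T₀ l w (srcs Φ ε R) ∨
      PrgN Φ ε T c₀ (szB F₀ G₀ + 2 * Nb0 L J + 1) T₀ l w := by
  obtain ⟨z, hz, x, hx, y, s, hst, hxs, -, hy, hl1, hl2, hc⟩ := hD
  obtain ⟨h1, h2, h3, h3', h4⟩ := hR z hz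
  obtain ⟨h5, h6, r₂, hr₂, hne, h7⟩ := hO x hx
  have hsp := cur_spine (Φ := Φ) (ε := ε) x s
  have hroot := cur_root (Φ := Φ) (ε := ε) x s
  have hYl : ∀ a ∈ (cur Φ ε x s).leaves, a ∈ lab F₀ ∧ FJ F₀ G₀ a (cur Φ ε x s).root := by
    intro a ha
    rw [hroot]
    exact h6 a (hsp.leaves_subset ha)
  have hB : SBase Φ ε T F₀ G₀ {τ | τ ≠ z.root} X := by
    refine (h.mono_D fun a ha (ha' : a = z.root) => h2 (ha' ▸ ha)).sbase ?_
    rintro a ⟨-, ha⟩ b ⟨-, hb⟩ -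
    exact (not_not.1 fun h' : a ≠ z.root => ha h').trans
      (not_not.1 fun h' : b ≠ z.root => hb h').symm
  have hz' : z.root ∉ {τ | τ ≠ z.root} := fun h' => h' rfl
  refine (hB.of_open hΦ hε hl hzw (root_mem_lab h1.mem) hz' (h3 ▸ h3')
    (fun S hS hr => ?_) (hst.trans ht) hy ?_ (ok_of_spine hsp h5) hYl hr₁ hr₂ hne h4 ?_
    (sig_cur_le hxs) hc.1 J).imp_left fun h' => h'.mono_ins ?_
  · rw [h3, hS.unique h1 hr]
    rfl
  · rw [h3]
    exact fun h' => hl2 (h'.1 hl1)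
  · rw [hroot]
    exact h7
  · rw [h3, singleton_subset_iff, Finset.mem_coe, mem_srcs]
    exact ⟨z, hz, rfl⟩

open Classical in
/-- **Case (D) of the related trees**, over a base structure with one more tree. -/
theorem law_drp (hΦ : IsPotential Φ) (hε : 0 < ε)
    (h : PBase Φ ε T F₀ G₀ D₀ X) (hl : SLab T₀ l F₀ G₀ c₀ R₀) (hR : CTree.ok Φ ε R)
    (hRd : R.depth ≤ L) (he : ext Φ ε R ≤ T) (hd : ∀ σ ∈ lab F₀, σ ∉ R.leaves)
    {w : Finset Ph} (hzw : ∀ σ ∈ lab F₀, σ ∉ wS w)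
    (hRw : Disjoint R.leaves (wS w : Set Src))
    (hRw' : Disjoint (srcs Φ ε R) (wS w)) {O : Set CTree}
    (hO : ∀ x ∈ O, CTree.ok Φ ε x ∧ ∀ a ∈ x.leaves, a ∈ lab F₀ ∧ FJ F₀ G₀ a x.root)
    (ht : t ≤ T) {r : CTree → ℝ} (hD : Drp Φ ε L (wS w) R O r t) (J : ℕ) :
    LawC hΦ hε L T J c₀ (szB F₀ G₀ + 2 ^ (L + 3) + 2 * Nb0 L J + 1)
      (Fin.snoc T₀ R : Fin (m + 1) → CTree) l w (srcs Φ ε R) ∨
    PrgN Φ ε T c₀ (szB F₀ G₀ + 2 ^ (L + 3) + 2 * Nb0 L J + 1)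
      (Fin.snoc T₀ R : Fin (m + 1) → CTree) l w := by
  have hB := h.add_tree hΦ hε hR he hd
  have hL : SLab (Fin.snoc T₀ R : Fin (m + 1) → CTree) l (F₀ ∪ partsF R) G₀ (c₀ + 1)
      (insert R.root R₀) := hl.add_tree hΦ hε hR fun j => hd _ (hl.lines j)
  have hRl : ∀ {σ : Src}, σ ∈ lab (partsF R) ↔ σ ∈ R.leaves := by
    intro σ
    rw [← Finset.mem_coe, lab_partsF]
  have hd' : ∀ σ ∈ lab F₀, σ ∉ lab (partsF R) := fun σ hσ h1 => hd σ hσ (hRl.1 h1)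
  have hFJ : ∀ {a b : Src}, FJ F₀ G₀ a b → FJ (F₀ ∪ partsF R) G₀ a b := fun h =>
    h.mono (fun P hP => Finset.mem_union_left _ hP) fun g hg => hg
  have h2 := szB_union_le (G₀ := G₀) (F₀ := F₀) (R := R) hRd
  refine (hB.of_drp (r₁ := R.root) hΦ hε hL (fun σ hσ => ?_) (Finset.mem_insert_self _ _)
    (fun z hz => ?_) (fun x hx => ?_) ht hD J).imp (fun h' => h'.mono_N (by omega))
    (fun h' => h'.mono le_rfl (by omega))
  · rcases mem_lab_union.1 hσ with h2 | h2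
    · exact hzw σ h2
    · exact fun h3 => Set.disjoint_left.1 hRw (hRl.1 h2) (Finset.mem_coe.2 h3)
  · refine ⟨(isLast_of_outs hR hz).union_right hd', fun h3 => h3.2 (outs_leaves hz
      z.root_mem_leaves), XR_out hR hz, Finset.disjoint_left.1 hRw' (mem_srcs.2 ⟨z, hz, rfl⟩), ?_⟩
    exact (fj_partsF hΦ hε hR (outs_leaves hz z.root_mem_leaves) R.root_mem_leaves).mono
      (fun P hP => Finset.mem_union_right _ hP) fun g hg => absurd hg List.not_mem_nil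
  · obtain ⟨h3, h4⟩ := hO x hx
    obtain ⟨r₂, h5, h6⟩ := hl.cov x.root (h4 _ x.root_mem_leaves).1
    refine ⟨h3, fun a ha => ⟨mem_lab_union.2 (Or.inl (h4 a ha).1), hFJ (h4 a ha).2⟩, r₂,
      Finset.mem_insert_of_mem h5, ?_, hFJ h6⟩
    rintro rfl
    exact hd _ (hl.sub _ h5) R.root_mem_leaves

end PBase

open Classical in
/-- **Case (D) of the related trees**: only the lines of `R` are used. -/
theorem Fam.law_drp {F₀ : Finset CTree} {G₀ : List Gh} {m q c₀ : ℕ} {T₀ : Fin m → CTree}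
    {l : Fin q → Src} {R₀ : Finset Src} {R : CTree} (hΦ : IsPotential Φ) (hε : 0 < ε)
    (h : Fam Φ ε T F₀ G₀) (hl : SLab T₀ l F₀ G₀ c₀ R₀) (hR : CTree.ok Φ ε R)
    (hRd : R.depth ≤ L) (he : ext Φ ε R ≤ T) (hd : ∀ σ ∈ lab F₀, σ ∉ R.leaves)
    {w : Finset Ph} (hzw : ∀ σ ∈ lab F₀, σ ∉ wS w)
    (hRw : Disjoint R.leaves (wS w : Set Src))
    (hRw' : Disjoint (srcs Φ ε R) (wS w)) {O : Set CTree}
    (hO : ∀ x ∈ O, CTree.ok Φ ε x ∧ ∀ a ∈ x.leaves, a ∈ lab F₀ ∧ FJ F₀ G₀ a x.root)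
    (ht : t ≤ T) {r : CTree → ℝ} (hD : Drp Φ ε L (wS w) R O r t) (J : ℕ) :
    LawC hΦ hε L T J c₀ (szB F₀ G₀ + 2 ^ (L + 3) + 2 * Nb0 L J + 1)
      (Fin.snoc T₀ R : Fin (m + 1) → CTree) l w (srcs Φ ε R) ∨
    PrgN Φ ε T c₀ (szB F₀ G₀ + 2 ^ (L + 3) + 2 * Nb0 L J + 1)
      (Fin.snoc T₀ R : Fin (m + 1) → CTree) l w :=
  PBase.law_drp (D₀ := (lab F₀ : Set Src)) (X := id) hΦ hε
    ⟨h, fun g hg => root_mem_lab (h.gh g hg).1,
      fun g hg h' => absurd (root_mem_lab (h.gh g hg).2.1) h', fun σ hσ h' => absurd hσ h'⟩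
    hl hR hRd he hd hzw hRw hRw' hO ht hD J

end Vale.Agent.P119.IND
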