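import Vale.Agent.P119.IND.RunTo

/-!
# P119, block IND: localised Gaussian masses and peeling (`helper76`)

* `massF b R F`: the Gaussian mass of `F`, localised at the labels of `R`;
* `massF_swap`: change of the representative of a class;
* `peel_bound`: peeling a contact between two lines, in a time window.
-/

open MeasureTheory Filter Topology Set
open scoped ENNReal

set_option linter.unusedSectionVars false

noncomputable section

namespace Vale.Agent.P119.IND

open KU MM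

variable {ι : Type} [DecidableEq ι] [Fintype ι] {Φ : E3 → ℝ} {ε T b : ℝ}

/-- Invariance under the translations of the classes of `Q`. -/
def Inv (Q : List (Ev ι × ℝ)) {α : Type*} (F : (ι → Ph) → α) : Prop :=
  ∀ B : Finset ι, Cl B Q → ∀ (x : E3) (Z : ι → Ph), F (mv B (x, 0) Z) = F Z

/-- A line which is attached to the label `i`. -/
def CovL (Q : List (Ev ι × ℝ)) (i : ι) (p : (ι → Ph) → Ph) : Prop :=
  ∀ B : Finset ι, Cl B Q → ∀ (x : E3) (Z : ι → Ph),
    p (mv B (x, 0) Z) = boost (if i ∈ B then (x, 0) else 0) (p Z)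

theorem Inv.mul {Q : List (Ev ι × ℝ)} {F G : (ι → Ph) → ℝ≥0∞} (hF : Inv Q F) (hG : Inv Q G) :
    Inv Q fun Z => F Z * G Z := fun B hB x Z => by
  simp only [hF B hB x Z, hG B hB x Z]

theorem Inv.sub {P Q : List (Ev ι × ℝ)} (h : ∀ e ∈ P, e ∈ Q) {α : Type*} {F : (ι → Ph) → α}
    (hF : Inv P F) : Inv Q F := fun _ hB x Z => hF _ (hB.mono h) x Z

theorem CovL.sub {P Q : List (Ev ι × ℝ)} (h : ∀ e ∈ P, e ∈ Q) {i : ι} {p : (ι → Ph) → Ph}
    (hp : CovL P i p) : CovL Q i p := fun _ hB x Z => hp _ (hB.mono h) x Z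

theorem covL_finZ (P : List (Ev ι × ℝ)) (i : ι) : CovL P i fun Z => finZ Φ ε P Z i := by
  intro B hB x Z
  simp only
  rw [finZ_mv hB]
  by_cases hi : i ∈ B
  · rw [mv_of_mem hi, if_pos hi]
  · rw [mv_of_notMem hi, if_neg hi, boost_zero]

theorem inv_finB (P : List (Ev ι × ℝ)) (β : ι → ℝ) : Inv P fun Z => finB Φ ε P β Z :=
  fun _ hB x Z => finB_mv hB (x, 0) β Z

theorem inv_runI (P : List (Ev ι × ℝ)) : Inv P (runI Φ ε T P) := fun _ hB x Z =>
  runI_mv hB (x, 0) Z

/-- The Gaussian mass of `F`, localised at the labels of `R`. -/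
def massF (b : ℝ) (R : Finset ι) (F : (ι → Ph) → ℝ≥0∞) : ℝ≥0∞ :=
  ∫⁻ Z, spat R Z * (wgt b Z * F Z)

theorem massF_mono {R : Finset ι} {F G : (ι → Ph) → ℝ≥0∞} (h : ∀ Z, F Z ≤ G Z) :
    massF b R F ≤ massF b R G :=
  lintegral_mono fun Z => mul_le_mul' le_rfl (mul_le_mul' le_rfl (h Z))

theorem wgt_le {b b' : ℝ} (h : b' ≤ b) (Z : ι → Ph) : wgt b Z ≤ wgt b' Z := by
  unfold wgt
  refine ENNReal.ofReal_le_ofReal (Real.exp_le_exp.2 ?_)
  have := mul_le_mul_of_nonneg_right h (En_nonneg Z)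
  linarith

theorem massF_anti {b b' : ℝ} (h : b' ≤ b) {R : Finset ι} {F : (ι → Ph) → ℝ≥0∞} :
    massF b R F ≤ massF b' R F :=
  lintegral_mono fun Z => mul_le_mul' le_rfl (mul_le_mul' (wgt_le h Z) le_rfl)

theorem massF_add {R : Finset ι} {F G : (ι → Ph) → ℝ≥0∞} (hF : Measurable F) :
    massF b R (fun Z => F Z + G Z) = massF b R F + massF b R G := by
  have h : Measurable fun Z : ι → Ph => spat R Z * (wgt b Z * F Z) :=
    (measurable_spat R).mul ((measurable_wgt b).mul hF)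
  unfold massF
  rw [← lintegral_add_left h]
  exact lintegral_congr fun Z => by ring

theorem massF_const_mul {R : Finset ι} {F : (ι → Ph) → ℝ≥0∞} (hF : Measurable F) (c : ℝ≥0∞) :
    massF b R (fun Z => c * F Z) = c * massF b R F := by
  have h : Measurable fun Z : ι → Ph => spat R Z * (wgt b Z * F Z) :=
    (measurable_spat R).mul ((measurable_wgt b).mul hF)
  unfold massF
  rw [← lintegral_const_mul _ h]
  exact lintegral_congr fun Z => by ring

theorem mass_eq_massF (R : Finset ι) (P : List (Ev ι × ℝ)) :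
    mass Φ ε T b R P = massF b R (runI Φ ε T P) := rfl

/-- High energies. -/
theorem massF_high (hb : 0 < b) {R : Finset ι} {F : (ι → Ph) → ℝ≥0∞} (hF : Measurable F) (K : ℝ) :
    massF b R (fun Z => F Z * {Z : ι → Ph | K < En Z}.indicator 1 Z) ≤
      ENNReal.ofReal (Real.exp (-(b / 2 * K))) * massF (b / 2) R F := by
  rw [← massF_const_mul hF]
  unfold massF
  refine lintegral_mono fun Z => mul_le_mul' le_rfl ?_
  simp only
  by_cases h : K < En Z
  · rw [indicator_of_mem (show Z ∈ {Z : ι → Ph | K < En Z} from h)]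
    have h1 : wgt b Z ≤ wgt (b / 2) Z * ENNReal.ofReal (Real.exp (-(b / 2 * K))) := by
      unfold wgt
      rw [← ENNReal.ofReal_mul (Real.exp_pos _).le, ← Real.exp_add]
      refine ENNReal.ofReal_le_ofReal (Real.exp_le_exp.2 ?_)
      nlinarith
    calc wgt b Z * (F Z * (1 : (ι → Ph) → ℝ≥0∞) Z) = wgt b Z * F Z := by simp
      _ ≤ (wgt (b / 2) Z * ENNReal.ofReal (Real.exp (-(b / 2 * K)))) * F Z :=
          mul_le_mul' h1 le_rfl
      _ = _ := by ring
  · rw [indicator_of_notMem (show Z ∉ {Z : ι → Ph | K < En Z} from h)]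
    simp

/-- Changing the representative of a class. -/
theorem massF_swap {Q : List (Ev ι × ℝ)} {R : Finset ι} (hR : Trv Q R) {r r' : ι} (hr : r ∈ R)
    (hJ : Jn Q r r') {F : (ι → Ph) → ℝ≥0∞} (hF : Measurable F) (hFi : Inv Q F) :
    massF b R F = massF b (insert r' (R.erase r)) F := by
  rcases eq_or_ne r' r with h0 | h0
  · rw [h0, Finset.insert_erase hr]
  have hr' : r' ∉ R.erase r := fun h => h0 (hR.uni r hr r' (Finset.mem_of_mem_erase h) hJ).symm
  set B : Finset ι := cls Q r with hB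
  have hcl : Cl B Q := cl_cls Q r
  have hrB : r ∈ B := self_mem_cls Q r
  have hr'B : r' ∈ B := mem_cls.2 hJ
  have hRB : ∀ j ∈ R.erase r, j ∉ B := by
    intro j hj hjB
    have := hR.uni r hr j (Finset.mem_of_mem_erase hj) (mem_cls.1 hjB)
    exact (Finset.ne_of_mem_erase hj) this.symm
  set G : (ι → Ph) → ℝ≥0∞ := fun Z => spat (R.erase r) Z * (wgt b Z * F Z) with hG
  have hGm : Measurable G := (measurable_spat _).mul ((measurable_wgt b).mul hF)
  have hGi : ∀ a : E3, ∀ Z, G (mv B (a, 0) Z) = G Z := by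
    intro a Z
    simp only [hG]
    rw [spat_mv hRB, wgt_mv, hFi B hcl]
  have h1 := lintegral_avg B (F := G) (H := fun Z => φ₁ (Z r).1) hGm
    (measurable_φ₁.comp (measurable_pi_apply r).fst) hGi (U := fun Z => (Z r').1)
    (measurable_pi_apply r').fst (fun a Z => by rw [mv_of_mem hr'B]; rfl) measurable_φ₁
  have h2 : ∀ Z : ι → Ph, ∫⁻ a : E3, φ₁ (mv B (a, 0) Z r).1 = ω₃ := by
    intro Z
    rw [← lintegral_φ₁, ← lintegral_add_left_eq_self φ₁ (Z r).1]
    refine lintegral_congr fun a => ?_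
    rw [mv_of_mem hrB]
    rfl
  simp only [h2] at h1
  have hGm' : Measurable fun Z : ι → Ph => G Z * φ₁ (Z r').1 :=
    hGm.mul (measurable_φ₁.comp (measurable_pi_apply r').fst)
  rw [lintegral_φ₁, lintegral_mul_const _ hGm', mul_comm] at h1
  have h3 := (ENNReal.mul_left_inj ω₃_ne_zero ω₃_ne_top).1 h1
  have e1 : massF b R F = ∫⁻ Z, G Z * φ₁ (Z r).1 := by
    unfold massF
    refine lintegral_congr fun Z => ?_
    simp only [hG]
    rw [spat_erase hr]
    ring
  have e2 : massF b (insert r' (R.erase r)) F = ∫⁻ Z, G Z * φ₁ (Z r').1 := by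
    unfold massF
    refine lintegral_congr fun Z => ?_
    simp only [hG]
    rw [spat_insert hr']
    ring
  rw [e1, e2, h3]

/-- The times at which the two lines are within `ρ`, in the window `[m, m + d]`. -/
def nearS (ρ d : ℝ) (p q : (ι → Ph) → Ph) (m : (ι → Ph) → ℝ) : Set (ι → Ph) :=
  {Z | ∃ s, m Z ≤ s ∧ s ≤ m Z + d ∧ ‖(free s (p Z)).1 - (free s (q Z)).1‖ ≤ ρ}

theorem nearS_comm (ρ d : ℝ) (p q : (ι → Ph) → Ph) (m : (ι → Ph) → ℝ) :
    nearS ρ d p q m = nearS ρ d q p m := by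
  ext Z
  unfold nearS
  simp only [mem_ofPred_eq]
  refine exists_congr fun s => ?_
  rw [norm_sub_rev]

theorem measurableSet_nearS {ρ d : ℝ} {p q : (ι → Ph) → Ph} (hp : Measurable p)
    (hq : Measurable q) {m : (ι → Ph) → ℝ} (hm : Measurable m) :
    MeasurableSet (nearS ρ d p q m) := by
  have h1 : SC fun Z : ι → Ph => {s | ‖(free s (p Z)).1 - (free s (q Z)).1‖ - ρ ≤ 0} := by
    refine SC.closed (F := fun (Z : ι → Ph) s => ‖(free s (p Z)).1 - (free s (q Z)).1‖ - ρ)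
      (fun s => ?_) (fun Z => ?_)
    · unfold free
      exact (((hp.fst.add (hp.snd.const_smul s)).sub
        (hq.fst.add (hq.snd.const_smul s))).norm.sub_const ρ)
    · unfold free
      fun_prop
  refine (h1.meet hm (hm.add_const d)).congr ?_
  ext Z
  unfold nearS
  refine exists_congr fun s => and_congr_right fun _ => and_congr_right fun _ => ?_
  change ‖(free s (p Z)).1 - (free s (q Z)).1‖ - ρ ≤ 0 ↔ ‖(free s (p Z)).1 - (free s (q Z)).1‖ ≤ ρ
  exact sub_nonpos

/-- The case of a bridge. -/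
theorem peel_bridge {M d : ℝ} (hε : 0 < ε) (hM : 1 ≤ M) (hb : 0 < b) (hd : 0 ≤ d)
    {Q : List (Ev ι × ℝ)} {R : Finset ι} {i k : ι} (hbr : ¬Jn Q i k) (hR : ∀ r ∈ R, ¬Jn Q k r)
    {F : (ι → Ph) → ℝ≥0∞} (hF : Measurable F) (hFi : Inv Q F) {p q : (ι → Ph) → Ph}
    (hp : Measurable p) (hq : Measurable q) (hpc : CovL Q i p) (hqc : CovL Q k q)
    {m : (ι → Ph) → ℝ} (hm : Measurable m) (hmi : Inv Q m)
    (hs : ∀ Z, F Z ≠ 0 → ‖(p Z).2 - (q Z).2‖ ≤ 1 + En Z) :
    massF b R (fun Z => F Z * (nearS (M * ε) d p q m).indicator 1 Z) ≤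
      ENNReal.ofReal (32 * M ^ 3 * (1 + 2 / b)) * (ENNReal.ofReal (ε ^ 2) *
        ENNReal.ofReal (ε + d)) * massF (b / 2) (insert k R) F := by
  set B : Finset ι := cls Q k with hB
  have hcl : Cl B Q := cl_cls Q k
  have hkB : k ∈ B := self_mem_cls Q k
  have hiB : i ∉ B := fun h => hbr (mem_cls.1 h).symm
  have hRB : ∀ r ∈ R, r ∉ B := fun r hr h => hR r hr (mem_cls.1 h)
  have hM0 : 0 < M := by linarith
  have h1 := peel_tube (ε := M * ε) (by positivity) hkB hRB (F := fun Z => wgt b Z * F Z)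
    ((measurable_wgt b).mul hF) (fun a Z => by rw [wgt_mv, hFi B hcl])
    hp hq (fun a Z => by rw [hpc B hcl, if_neg hiB, boost_zero])
    (fun a Z => by rw [hqc B hcl, if_pos hkB]) hm (fun a Z => hmi B hcl _ _) hd
  have h2 : massF b R (fun Z => F Z * (nearS (M * ε) d p q m).indicator 1 Z) =
      ∫⁻ Z, spat R Z * (wgt b Z * F Z) * {Z : ι → Ph | ∃ s, m Z ≤ s ∧ s ≤ m Z + d ∧
        ‖(free s (p Z)).1 - (free s (q Z)).1‖ ≤ M * ε}.indicator 1 Z := by
    unfold massF nearS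
    exact lintegral_congr fun Z => by ring
  rw [h2]
  refine h1.trans ?_
  have hGm : Measurable fun Z : ι → Ph => spat (insert k R) Z * (wgt (b / 2) Z * F Z) :=
    (measurable_spat _).mul ((measurable_wgt _).mul hF)
  unfold massF
  rw [← lintegral_const_mul _ hGm]
  refine lintegral_mono fun Z => ?_
  by_cases hF0 : F Z = 0
  · rw [hF0, mul_zero, mul_zero, zero_mul]
    exact zero_le
  have hE := En_nonneg Z
  have h3 := hs Z hF0
  have h4 : ENNReal.ofReal (32 * (M * ε) ^ 2 * (M * ε + d * ‖(p Z).2 - (q Z).2‖)) ≤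
      ENNReal.ofReal (32 * M ^ 3) * (ENNReal.ofReal (ε ^ 2) * ENNReal.ofReal (ε + d)) *
        ENNReal.ofReal (1 + En Z) := by
    rw [← ENNReal.ofReal_mul (by positivity), ← ENNReal.ofReal_mul (by positivity),
      ← ENNReal.ofReal_mul (by positivity)]
    refine ENNReal.ofReal_le_ofReal ?_
    have h5 : M * ε + d * ‖(p Z).2 - (q Z).2‖ ≤ M * ((ε + d) * (1 + En Z)) := by
      have a1 := mul_le_mul_of_nonneg_left h3 hd
      have a2 : d * (1 + En Z) ≤ M * (d * (1 + En Z)) := by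
        have : 0 ≤ d * (1 + En Z) := by positivity
        nlinarith
      have a3 : 0 ≤ M * (ε * En Z) := by positivity
      nlinarith
    calc _ ≤ 32 * (M * ε) ^ 2 * (M * ((ε + d) * (1 + En Z))) :=
          mul_le_mul_of_nonneg_left h5 (by positivity)
      _ = _ := by ring
  calc spat (insert k R) Z * (wgt b Z * F Z) *
        ENNReal.ofReal (32 * (M * ε) ^ 2 * (M * ε + d * ‖(p Z).2 - (q Z).2‖))
      ≤ spat (insert k R) Z * (wgt b Z * F Z) * (ENNReal.ofReal (32 * M ^ 3) *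
        (ENNReal.ofReal (ε ^ 2) * ENNReal.ofReal (ε + d)) * ENNReal.ofReal (1 + En Z)) :=
        mul_le_mul' le_rfl h4
    _ = ENNReal.ofReal (32 * M ^ 3) * (ENNReal.ofReal (ε ^ 2) * ENNReal.ofReal (ε + d)) *
        (spat (insert k R) Z * F Z) * (ENNReal.ofReal (1 + En Z) * wgt b Z) := by ring
    _ ≤ ENNReal.ofReal (32 * M ^ 3) * (ENNReal.ofReal (ε ^ 2) * ENNReal.ofReal (ε + d)) *
        (spat (insert k R) Z * F Z) * (ENNReal.ofReal (1 + 2 / b) * wgt (b / 2) Z) :=
        mul_le_mul' le_rfl (wgt_absorb hb Z)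
    _ = _ := by
        rw [ENNReal.ofReal_mul (p := 32 * M ^ 3) (by positivity)]
        ring

open Classical in
/-- **Peeling a contact.** -/
theorem peel_bound {M d : ℝ} (hε : 0 < ε) (hM : 1 ≤ M) (hb : 0 < b) (hd : 0 ≤ d)
    {Q : List (Ev ι × ℝ)} {e : Ev ι × ℝ} {R : Finset ι} (hR : Trv (Q ++ [e]) R)
    {F : (ι → Ph) → ℝ≥0∞} (hF : Measurable F) (hFi : Inv Q F) {p q : (ι → Ph) → Ph}
    (hp : Measurable p) (hq : Measurable q) (hpc : CovL Q e.1.fst p) (hqc : CovL Q e.1.snd q)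
    {m : (ι → Ph) → ℝ} (hm : Measurable m) (hmi : Inv Q m)
    (hs : ∀ Z, F Z ≠ 0 → ‖(p Z).2 - (q Z).2‖ ≤ 1 + En Z) {X : ℝ≥0∞}
    (hX : ∀ R', Trv Q R' → massF (b / 2) R' F ≤
      X * ENNReal.ofReal (ε ^ 2) ^ (Fintype.card ι - R'.card)) :
    massF b R (fun Z => F Z * (nearS (M * ε) d p q m).indicator 1 Z) ≤
      (if Jn Q e.1.fst e.1.snd then 1 else
        ENNReal.ofReal (32 * M ^ 3 * (1 + 2 / b)) * ENNReal.ofReal (ε + d)) * X *
        ENNReal.ofReal (ε ^ 2) ^ (Fintype.card ι - R.card) := by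
  by_cases hJ : Jn Q e.1.fst e.1.snd
  · rw [if_pos hJ, one_mul]
    have hR' : Trv Q R := hR.congr fun i k => jn_concat_of_jn hJ i k
    refine le_trans (massF_mono (G := F) fun Z => ?_) ((massF_anti (by linarith)).trans (hX R hR'))
    by_cases h : Z ∈ nearS (M * ε) d p q m
    · rw [indicator_of_mem h]; simp
    · rw [indicator_of_notMem h]; simp
  · rw [if_neg hJ]
    obtain ⟨r, hr, hJr⟩ := hR.cov e.1.fst
    have main : ∀ i k : ι, ((i = e.1.fst ∧ k = e.1.snd) ∨ (i = e.1.snd ∧ k = e.1.fst)) →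
        Jn Q r i → ¬Jn Q i k → ∀ p q : (ι → Ph) → Ph, Measurable p → Measurable q →
        CovL Q i p → CovL Q k q → (∀ Z, F Z ≠ 0 → ‖(p Z).2 - (q Z).2‖ ≤ 1 + En Z) →
        massF b R (fun Z => F Z * (nearS (M * ε) d p q m).indicator 1 Z) ≤
          (ENNReal.ofReal (32 * M ^ 3 * (1 + 2 / b)) * ENNReal.ofReal (ε + d)) * X *
          ENNReal.ofReal (ε ^ 2) ^ (Fintype.card ι - R.card) := by
      intro i k hik hri hbr p q hp hq hpc hqc hs
      obtain ⟨h3, h4, h5⟩ := hR.split (fun c d => jn_concat) hik hbr hr hri (Jn.refl Q k)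
      have h6 := peel_bridge (b := b) hε hM hb hd hbr h4 hF hFi hp hq hpc hqc hm hmi hs
      refine h6.trans ?_
      have h7 := hX _ h5
      rw [Finset.card_insert_of_notMem h3] at h7
      have hc : R.card + 1 ≤ Fintype.card ι := by
        rw [← Finset.card_insert_of_notMem h3]
        exact Finset.card_le_univ _
      have h8 : ENNReal.ofReal (ε ^ 2) ^ (Fintype.card ι - R.card) =
          ENNReal.ofReal (ε ^ 2) ^ (Fintype.card ι - (R.card + 1)) * ENNReal.ofReal (ε ^ 2) := by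
        rw [← pow_succ]; congr 1; omega
      refine (mul_le_mul' le_rfl h7).trans (le_of_eq ?_)
      rw [h8]; ring
    rcases jn_concat.1 hJr with h3 | ⟨-, h3⟩ | ⟨h3, -⟩
    · exact main _ _ (Or.inl ⟨rfl, rfl⟩) h3.symm hJ p q hp hq hpc hqc hs
    · rw [nearS_comm]
      exact main _ _ (Or.inr ⟨rfl, rfl⟩) h3.symm (fun h => hJ h.symm) q p hq hp hqc hpc
        fun Z hZ => by rw [norm_sub_rev]; exact hs Z hZ
    · exact absurd h3 hJ

end Vale.Agent.P119.IND
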