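import Vale.Agent.P119.IND.IrrMem
import Vale.Agent.P119.IND.Peel

/-!
# P119, block IND: the irregular contacts and the translations of the classes (`helper350`)

* `mem_winR_mv`, `mem_cmR_mv`, `mem_triR_mv`, `mem_quadR_mv`: the relations of `helper76` are invariant
  under the translations of the sets of labels which are closed for the program and the contact.
-/

open MeasureTheory Filter Topology Set
open scoped ENNReal

set_option linter.unusedSectionVars false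

noncomputable section

namespace Vale.Agent.P119.IND

open KU MM

variable {Φ : E3 → ℝ} {ε T : ℝ} {ι : Type} [DecidableEq ι]

theorem meets_iff_rel {q : Ph × Ph} : Meets ε q ↔ (rel ε q).2 ≠ 0 ∧ ‖perp (rel ε q)‖ < 1 :=
  Iff.rfl

theorem hitT_of_rel {q q' : Ph × Ph} (h : rel ε q = rel ε q') : hitT ε q = hitT ε q' := by
  unfold hitT
  rw [h]

theorem dpl_of_rel {q q' : Ph × Ph} (h : rel ε q = rel ε q') : dpl Φ ε q = dpl Φ ε q' := by
  unfold dpl
  rw [h]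

/-- The pair of two lines of a program, after a motion. -/
theorem qq_mv {B : Finset ι} {P : List (Ev ι)} (h : Cl B (pl T P)) {a k : ι}
    (hak : a ∈ B ↔ k ∈ B) (x : E3) (Z : ι → Ph) :
    (a ∈ B ∧ qq Φ ε T P a k (mv B (x, 0) Z) =
      (boost (x, 0) (qq Φ ε T P a k Z).1, boost (x, 0) (qq Φ ε T P a k Z).2)) ∨
    (a ∉ B ∧ qq Φ ε T P a k (mv B (x, 0) Z) = qq Φ ε T P a k Z) := by
  unfold qq
  rw [finZ_mv h]
  by_cases ha : a ∈ B
  · left
    rw [mv_of_mem ha, mv_of_mem (hak.1 ha)]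
    exact ⟨ha, rfl⟩
  · right
    rw [mv_of_notMem ha, mv_of_notMem fun hk => ha (hak.2 hk)]
    exact ⟨ha, rfl⟩

theorem rel_qq_mv {B : Finset ι} {P : List (Ev ι)} (h : Cl B (pl T P)) {a k : ι}
    (hak : a ∈ B ↔ k ∈ B) (x : E3) (Z : ι → Ph) :
    rel ε (qq Φ ε T P a k (mv B (x, 0) Z)) = rel ε (qq Φ ε T P a k Z) := by
  rcases qq_mv (Φ := Φ) (ε := ε) h hak x Z with ⟨-, h1⟩ | ⟨-, h1⟩
  · rw [h1, rel_boost]
  · rw [h1]

theorem mem_winR_mv {B : Finset ι} {P₁ L P₃ : List (Ev ι)} (h1 : Cl B (pl T P₁))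
    (h2 : Cl B (pl T L)) (h3 : Cl B (pl T P₃)) {a k : ι} (hak : a ∈ B ↔ k ∈ B) (x : E3)
    (β : ι → ℝ) (Z : ι → Ph) : mv B (x, 0) Z ∈ winR Φ ε T P₁ L P₃ a k β ↔
      Z ∈ winR Φ ε T P₁ L P₃ a k β := by
  have hr := rel_qq_mv (Φ := Φ) (ε := ε) h1 hak x Z
  have h23 : Cl B (pl T (L ++ P₃)) := by
    intro e he
    unfold pl at he
    rw [List.map_append] at he
    rcases List.mem_append.1 he with he | he
    · exact h2 e he
    · exact h3 e he
  unfold winR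
  simp only [mem_ofPred_eq, meets_iff_rel, hr, hitT_of_rel hr, dpl_of_rel (Φ := Φ) hr, finB_mv h1,
    finZ_mv h1, runTo_mv h1, runTo_mv h2, run_mv h23]

/-- The motions of two lines attached to labels. -/
theorem mem_cmR_mv {p q : (ι → Ph) → Ph} {Z Z' : ι → Ph} {x : E3}
    (h : (p Z' = boost (x, 0) (p Z) ∧ q Z' = boost (x, 0) (q Z)) ∨ (p Z' = p Z ∧ q Z' = q Z)) :
    Z' ∈ cmR ε T p q ↔ Z ∈ cmR ε T p q := by
  unfold cmR
  simp only [mem_ofPred_eq]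
  refine exists_congr fun s => and_congr_right fun _ => and_congr_right fun _ => ?_
  rcases h with ⟨h1, h2⟩ | ⟨h1, h2⟩
  · rw [h1, h2, free_boost, free_boost]
    unfold boost
    simp only [add_sub_add_right_eq_sub]
  · rw [h1, h2]

theorem cl_pl_append {B : Finset ι} {P Q : List (Ev ι)} (h1 : Cl B (pl T P))
    (h2 : Cl B (pl T Q)) : Cl B (pl T (P ++ Q)) := by
  intro e he
  unfold pl at he
  rw [List.map_append] at he
  rcases List.mem_append.1 he with he | he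
  · exact h1 e he
  · exact h2 e he

theorem mem_triR_mv (hΦ : IsPotential Φ) {B : Finset ι} {P₁ P₂ P₃ : List (Ev ι)}
    (h1 : Cl B (pl T P₁)) (h2 : Cl B (pl T P₂)) (h3 : Cl B (pl T P₃)) {a k i : ι}
    (hak : a ∈ B ↔ k ∈ B) (hai : a ∈ B ↔ i ∈ B) (x : E3) (β : ι → ℝ) (Z : ι → Ph) :
    mv B (x, 0) Z ∈ triR hΦ ε T P₁ P₂ P₃ a k i β ↔ Z ∈ triR hΦ ε T P₁ P₂ P₃ a k i β := by
  have h12 := cl_pl_append h1 h2
  have hr := rel_qq_mv (Φ := Φ) (ε := ε) h1 hak x Z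
  unfold triR
  simp only [mem_inter_iff]
  rw [mem_winR_mv h1 h2 h3 hak]
  refine and_congr_right fun _ => ?_
  have hi : (a ∈ B ∧ finZ Φ ε (pl T (P₁ ++ P₂)) (mv B (x, 0) Z) i =
      boost (x, 0) (finZ Φ ε (pl T (P₁ ++ P₂)) Z i)) ∨
      (a ∉ B ∧ finZ Φ ε (pl T (P₁ ++ P₂)) (mv B (x, 0) Z) i =
        finZ Φ ε (pl T (P₁ ++ P₂)) Z i) := by
    rw [finZ_mv h12]
    by_cases ha : a ∈ B
    · exact Or.inl ⟨ha, mv_of_mem (hai.1 ha) _ _⟩
    · exact Or.inr ⟨ha, mv_of_notMem (fun h => ha (hai.2 h)) _ _⟩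
  refine and_congr ?_ ?_
  · refine mem_cmR_mv (x := x) ?_
    rcases qq_mv (Φ := Φ) (ε := ε) h1 hak x Z with ⟨ha, e1⟩ | ⟨ha, e1⟩
    · rcases hi with ⟨-, e2⟩ | ⟨hna, -⟩
      · left
        refine ⟨?_, e2⟩
        rw [e1, com_boost]
      · exact absurd ha hna
    · rcases hi with ⟨ha', -⟩ | ⟨-, e2⟩
      · exact absurd ha' ha
      · right
        exact ⟨by rw [e1], e2⟩
  · simp only [mem_ofPred_eq, hitT_of_rel hr, dpl_of_rel (Φ := Φ) hr, finB_mv h12]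
    refine and_congr_right fun _ => ?_
    rcases qq_mv (Φ := Φ) (ε := ε) h1 hak x Z with ⟨ha, e1⟩ | ⟨ha, e1⟩
    · rcases hi with ⟨-, e2⟩ | ⟨hna, -⟩
      · have e3 : nbp hΦ ε (qq Φ ε T P₁ a k (mv B (x, 0) Z))
            (finZ Φ ε (pl T (P₁ ++ P₂)) (mv B (x, 0) Z) i) =
            nbp hΦ ε (qq Φ ε T P₁ a k Z) (finZ Φ ε (pl T (P₁ ++ P₂)) Z i) := by
          unfold nbp
          rw [dpl_of_rel (Φ := Φ) hr, e1, e2]
          unfold boost
          simp only [add_zero]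
        rw [e3, e1, e2, free_boost, free_boost]
        unfold boost
        simp only [add_sub_add_right_eq_sub]
      · exact absurd ha hna
    · rcases hi with ⟨ha', -⟩ | ⟨-, e2⟩
      · exact absurd ha' ha
      · rw [e1, e2]

theorem mem_quadR_mv {B : Finset ι} {P₁ P₂ P₃ P₄ : List (Ev ι)}
    (h1 : Cl B (pl T P₁)) (h2 : Cl B (pl T P₂)) (h3 : Cl B (pl T P₃)) (h4 : Cl B (pl T P₄))
    {i w a k : ι} (hiw : i ∈ B ↔ w ∈ B) (hak : a ∈ B ↔ k ∈ B) (hai : a ∈ B ↔ i ∈ B) (x : E3)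
    (β : ι → ℝ) (Z : ι → Ph) :
    mv B (x, 0) Z ∈ quadR Φ ε T P₁ P₂ P₃ P₄ i w a k β ↔
      Z ∈ quadR Φ ε T P₁ P₂ P₃ P₄ i w a k β := by
  have h12 := cl_pl_append h1 h2
  have hL : Cl B (pl T (P₂ ++ Ev.gh a k :: P₃)) := by
    refine cl_pl_append h2 ?_
    intro e he
    unfold pl at he
    rw [List.map_cons] at he
    rcases List.mem_cons.1 he with rfl | he
    · exact hak
    · exact h3 e he
  unfold quadR
  simp only [mem_inter_iff]
  rw [mem_winR_mv h1 hL h4 hiw]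
  refine and_congr_right fun _ => mem_cmR_mv (x := x) ?_
  rcases qq_mv (Φ := Φ) (ε := ε) h12 hak x Z with ⟨ha, e1⟩ | ⟨ha, e1⟩
  · rcases qq_mv (Φ := Φ) (ε := ε) h1 hiw x Z with ⟨hi, e2⟩ | ⟨hi, e2⟩
    · left
      constructor
      · rw [e1, com_boost]
      · rw [e2, com_boost]
    · exact absurd (hai.1 ha) hi
  · rcases qq_mv (Φ := Φ) (ε := ε) h1 hiw x Z with ⟨hi, e2⟩ | ⟨hi, e2⟩
    · exact absurd (hai.2 hi) ha
    · right
      constructor
      · rw [e1]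
      · rw [e2]

end Vale.Agent.P119.IND
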