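import Vale.Agent.P119.IND.Prog2

/-!
# P119, block IND: measure theory on `ι → Ph` (`helper295`)

* `mv B c` preserves the volume; `lintegral_avg`: averaging over the translations of `B`;
* `lintegral_two`: equality of integrals over two coordinates;
* `lintegral_lineApp`: change of variables to the lines after a collision;
* `vol_tube_le`, `vol_two_le`: the translations (the motions) which make two lines (two pairs of
  lines) meet.
-/

open MeasureTheory Filter Topology Set
open scoped ENNReal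

set_option linter.unusedSectionVars false

noncomputable section

namespace Vale.Agent.P119.IND

open KU MM

variable {ι : Type} [DecidableEq ι] [Fintype ι] {Φ : E3 → ℝ} {ε T : ℝ}

instance instSigmaPh : SigmaFinite (volume : Measure Ph) :=
  inferInstanceAs (SigmaFinite (volume : Measure (E3 × E3)))

instance instSigmaPi : SigmaFinite (volume : Measure (ι → Ph)) := by
  have h : ∀ _ : ι, SigmaFinite (volume : Measure Ph) := fun _ => inferInstance
  exact @Measure.pi.sigmaFinite ι (fun _ => Ph) _ _ (fun _ => volume) h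

theorem measurePreserving_boost (c : Ph) : MeasurePreserving (boost c) volume volume := by
  have h : boost c = fun p : Ph => p + c := by
    funext p; rfl
  have hi : Measure.IsAddRightInvariant (volume : Measure Ph) := by
    rw [Measure.volume_eq_prod]; infer_instance
  rw [h]
  exact measurePreserving_add_right (volume : Measure Ph) c

theorem measurePreserving_mv (B : Finset ι) (c : Ph) :
    MeasurePreserving (mv B c : (ι → Ph) → ι → Ph) volume volume := by
  have h : (mv B c : (ι → Ph) → ι → Ph) = fun Z i => (if i ∈ B then boost c else id) (Z i) := by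
    funext Z i
    unfold mv
    by_cases hi : i ∈ B <;> simp [hi]
  rw [h]
  refine volume_preserving_pi fun i => ?_
  by_cases hi : i ∈ B
  · simp only [hi, if_true]
    exact measurePreserving_boost c
  · simp only [hi, if_false]
    exact MeasurePreserving.id _

theorem mv_mv (B : Finset ι) (c d : Ph) (Z : ι → Ph) : mv B c (mv B d Z) = mv B (c + d) Z := by
  funext i
  by_cases hi : i ∈ B
  · rw [mv_of_mem hi, mv_of_mem hi, mv_of_mem hi, boost_boost]
  · rw [mv_of_notMem hi, mv_of_notMem hi, mv_of_notMem hi]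

theorem mv_zero (B : Finset ι) (Z : ι → Ph) : mv B 0 Z = Z := by
  funext i
  by_cases hi : i ∈ B
  · rw [mv_of_mem hi, boost_zero]
  · rw [mv_of_notMem hi]

theorem measurable_mv' (B : Finset ι) (c : Ph) : Measurable (mv B c : (ι → Ph) → ι → Ph) :=
  (measurePreserving_mv B c).measurable

theorem lintegral_mv (B : Finset ι) (c : Ph) {G : (ι → Ph) → ℝ≥0∞} (hG : Measurable G) :
    ∫⁻ Z, G (mv B c Z) = ∫⁻ Z, G Z :=
  (measurePreserving_mv B c).lintegral_comp hG

/-- **Averaging over the translations of `B`.** -/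
theorem lintegral_avg (B : Finset ι) {F H : (ι → Ph) → ℝ≥0∞} (hF : Measurable F)
    (hH : Measurable H) (hinv : ∀ a : E3, ∀ Z, F (mv B (a, 0) Z) = F Z)
    {U : (ι → Ph) → E3} (hU : Measurable U) (hUa : ∀ a : E3, ∀ Z, U (mv B (a, 0) Z) = U Z + a)
    {φ : E3 → ℝ≥0∞} (hφ : Measurable φ) :
    (∫⁻ x, φ x) * ∫⁻ Z, F Z * H Z =
      ∫⁻ Z, F Z * φ (U Z) * ∫⁻ a : E3, H (mv B (a, 0) Z) := by
  have hmv : Measurable fun q : (ι → Ph) × E3 => mv B ((q.2, 0) : Ph) q.1 :=
    measurable_mv B (measurable_snd.prodMk measurable_const) measurable_fst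
  have h1 : ∀ Z, F Z * φ (U Z) * ∫⁻ a : E3, H (mv B (a, 0) Z) =
      ∫⁻ a : E3, F Z * φ (U Z) * H (mv B (a, 0) Z) := fun Z =>
    (lintegral_const_mul _ (hH.comp (hmv.comp measurable_prodMk_left))).symm
  simp only [h1]
  rw [lintegral_lintegral_swap]
  swap
  · exact (((hF.mul (hφ.comp hU)).comp measurable_fst).mul (hH.comp hmv)).aemeasurable
  have h2 : ∀ a : E3, ∫⁻ Z, F Z * φ (U Z) * H (mv B (a, 0) Z) =
      ∫⁻ Z, F Z * φ (U Z - a) * H Z := by
    intro a
    rw [← lintegral_mv B (a, 0) (G := fun Z => F Z * φ (U Z - a) * H Z)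
      ((hF.mul (hφ.comp (hU.sub_const a))).mul hH)]
    refine lintegral_congr fun Z => ?_
    rw [hinv, hUa, add_sub_cancel_right]
  simp only [h2]
  rw [lintegral_lintegral_swap]
  swap
  · have h3 : Measurable fun q : E3 × (ι → Ph) => φ (U q.2 - q.1) :=
      hφ.comp ((hU.comp measurable_snd).sub measurable_fst)
    exact (((hF.comp measurable_snd).mul h3).mul (hH.comp measurable_snd)).aemeasurable
  have h5 : (∫⁻ x, φ x) * ∫⁻ Z, F Z * H Z = ∫⁻ Z, (∫⁻ x, φ x) * (F Z * H Z) :=
    (lintegral_const_mul _ (hF.mul hH)).symm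
  rw [h5]
  refine lintegral_congr fun Z => ?_
  have h4 : ∀ a : E3, F Z * φ (U Z - a) * H Z = φ (U Z - a) * (F Z * H Z) := fun a => by ring
  simp only [h4]
  have h6 : ∫⁻ a : E3, φ (U Z - a) * (F Z * H Z) = (∫⁻ a : E3, φ (U Z - a)) * (F Z * H Z) :=
    lintegral_mul_const _ (hφ.comp (measurable_const.sub measurable_id))
  rw [h6, lintegral_sub_left_eq_self φ (U Z)]

/-- Averaging over the motions of `B` of size at most one. -/
theorem lintegral_boost_avg (B : Finset ι) {F F' H : (ι → Ph) → ℝ≥0∞}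
    (hF' : Measurable F') (hF : Measurable F) (hH : Measurable H) {K : Set Ph}
    (hK : MeasurableSet K)
    (hle : ∀ c ∈ K, ∀ Z, F (mv B c Z) ≤ F' Z) :
    volume K * ∫⁻ Z, F Z * H Z ≤ ∫⁻ Z, F' Z * ∫⁻ c in K, H (mv B c Z) := by
  have hmv : Measurable fun q : (ι → Ph) × Ph => mv B q.2 q.1 :=
    measurable_mv B measurable_snd measurable_fst
  have h1 : ∀ Z, F' Z * ∫⁻ c in K, H (mv B c Z) = ∫⁻ c in K, F' Z * H (mv B c Z) := fun Z =>
    (lintegral_const_mul _ (hH.comp (hmv.comp measurable_prodMk_left))).symm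
  simp only [h1]
  rw [lintegral_lintegral_swap]
  swap
  · exact ((hF'.comp measurable_fst).mul (hH.comp hmv)).aemeasurable
  have h2 : volume K * ∫⁻ Z, F Z * H Z = ∫⁻ _c in K, ∫⁻ Z, F Z * H Z := by
    rw [setLIntegral_const, mul_comm]
  rw [h2]
  refine setLIntegral_mono' hK fun c hc => ?_
  have h3 : ∫⁻ Z, F (mv B c Z) * H (mv B c Z) = ∫⁻ Z, F Z * H Z :=
    lintegral_mv B c (G := fun Z => F Z * H Z) (hF.mul hH)
  rw [← h3]
  exact lintegral_mono fun Z => mul_le_mul' (hle c hc Z) le_rfl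

theorem lintegral_Ph2 {f : Ph × Ph → ℝ≥0∞} (hf : Measurable f) :
    ∫⁻ q, f q = ∫⁻ p : Ph, ∫⁻ q : Ph, f (p, q) := by
  have h : (volume : Measure (Ph × Ph)) = (volume : Measure Ph).prod volume :=
    Measure.volume_eq_prod _ _
  rw [h, lintegral_prod _ hf.aemeasurable]

/-! ### Two coordinates -/

theorem lintegral_two {i k : ι} (hik : i ≠ k) {G G' : (ι → Ph) → ℝ≥0∞} (hG : Measurable G)
    (hG' : Measurable G')
    (h : ∀ Z, ∫⁻ p : Ph, ∫⁻ q : Ph, G (Function.update (Function.update Z i p) k q) =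
      ∫⁻ p : Ph, ∫⁻ q : Ph, G' (Function.update (Function.update Z i p) k q)) :
    ∫⁻ Z, G Z = ∫⁻ Z, G' Z := by
  have key : ∀ {F : (ι → Ph) → ℝ≥0∞}, Measurable F → ∀ Z : ι → Ph,
      (∫⋯∫⁻_{i, k}, F ∂fun _ => volume) Z =
        ∫⁻ p : Ph, ∫⁻ q : Ph, F (Function.update (Function.update Z i p) k q) := by
    intro F hF Z
    rw [lmarginal_insert F hF (by simpa using hik)]
    refine lintegral_congr fun p => ?_
    rw [lmarginal_singleton]
  refine lintegral_eq_of_lmarginal_eq (μ := fun _ : ι => (volume : Measure Ph)) {i, k} hG hG' ?_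
  funext Z
  rw [key hG, key hG']
  exact h Z

/-- **Change of variables** to the lines after a collision. -/
theorem lintegral_lineApp (hΦ : IsPotential Φ) (hε : ε ≠ 0) {i k : ι} (hik : i ≠ k)
    {G : (ι → Ph) → (ι → Ph) → ℝ≥0∞} (hG : Measurable fun q : (ι → Ph) × (ι → Ph) => G q.1 q.2)
    (h0 : ∀ Z Z', ¬Meets ε (Z i, Z k) → G Z Z' = 0) :
    ∫⁻ Z, G Z (lineApp Φ ε (Ev.sc i k) Z) =
      ∫⁻ Z, ({Z : ι → Ph | Meets ε (Z i, Z k)}.indicator (fun Z => G (Function.update
        (Function.update Z i (sc2inv Φ ε (Z i, Z k)).1) k (sc2inv Φ ε (Z i, Z k)).2) Z)) Z := by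
  have hik' : Measurable fun Z : ι → Ph => (Z i, Z k) :=
    (measurable_pi_apply i).prodMk (measurable_pi_apply k)
  have hm : MeasurableSet {Z : ι → Ph | Meets ε (Z i, Z k)} := hik' measurableSet_meets
  have hinv : Measurable fun Z : ι → Ph => Function.update
      (Function.update Z i (sc2inv Φ ε (Z i, Z k)).1) k (sc2inv Φ ε (Z i, Z k)).2 := by
    have h1 : Measurable fun Z : ι → Ph => sc2inv Φ ε (Z i, Z k) :=
      (measurable_sc2inv hΦ hε).comp ((measurable_pi_apply i).prodMk (measurable_pi_apply k))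
    refine measurable_pi_iff.2 fun j => ?_
    by_cases hk : j = k
    · subst hk
      simp only [Function.update_self]
      exact h1.snd
    · simp only [Function.update_of_ne hk]
      by_cases hi : j = i
      · subst hi
        simp only [Function.update_self]
        exact h1.fst
      · simp only [Function.update_of_ne hi]
        exact measurable_pi_apply j
  refine lintegral_two hik ?_ ?_ ?_
  · exact hG.comp (measurable_id.prodMk (measurable_lineApp hΦ hε (Ev.sc i k) measurable_id))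
  · exact (hG.comp (hinv.prodMk measurable_id)).indicator hm
  intro Z
  have e1 : ∀ p q : Ph, (Function.update (Function.update Z i p) k q) i = p := fun p q => by
    rw [Function.update_of_ne hik, Function.update_self]
  have e2 : ∀ p q : Ph, (Function.update (Function.update Z i p) k q) k = q := fun p q => by
    rw [Function.update_self]
  have e3 : ∀ p q p' q' : Ph, Function.update (Function.update
      (Function.update (Function.update Z i p) k q) i p') k q' =
      Function.update (Function.update Z i p') k q' := by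
    intro p q p' q'
    funext j
    by_cases hk : j = k
    · subst hk; simp
    · by_cases hi : j = i
      · subst hi; simp [hk]
      · simp [hk, hi]
  set u : Ph × Ph → ι → Ph := fun q => Function.update (Function.update Z i q.1) k q.2 with hu
  have hum : Measurable u := by
    refine measurable_pi_iff.2 fun j => ?_
    by_cases hk : j = k
    · subst hk
      simp only [hu, Function.update_self]
      exact measurable_snd
    · simp only [hu, Function.update_of_ne hk]
      by_cases hi : j = i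
      · subst hi
        simp only [Function.update_self]
        exact measurable_fst
      · simp only [Function.update_of_ne hi]
        exact measurable_const
  have hL : ∫⁻ p : Ph, ∫⁻ q : Ph, G (Function.update (Function.update Z i p) k q)
      (lineApp Φ ε (Ev.sc i k) (Function.update (Function.update Z i p) k q)) =
      ∫⁻ q in {q : Ph × Ph | Meets ε q}, G (u q) (u (sc2 Φ ε q)) := by
    have hI : Measurable ({q : Ph × Ph | Meets ε q}.indicator
        fun q => G (u q) (u (sc2 Φ ε q))) :=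
      (hG.comp (hum.prodMk (hum.comp (measurable_sc2 hΦ hε)))).indicator measurableSet_meets
    rw [← lintegral_indicator measurableSet_meets, lintegral_Ph2 hI]
    refine lintegral_congr fun p => lintegral_congr fun q => ?_
    simp only [lineApp, e1, e2, e3]
    by_cases hM : Meets ε (p, q)
    · rw [indicator_of_mem (show (p, q) ∈ {q : Ph × Ph | Meets ε q} from hM)]
    · rw [indicator_of_notMem (show (p, q) ∉ {q : Ph × Ph | Meets ε q} from hM)]
      exact h0 _ _ (by rw [e1, e2]; exact hM)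
  rw [hL]
  rw [lintegral_sc2 hΦ hε (F := fun q q' => G (u q) (u q'))
    (hG.comp ((hum.comp measurable_fst).prodMk (hum.comp measurable_snd)))]
  have hI : Measurable ({q : Ph × Ph | Meets ε q}.indicator
      fun q => G (u (sc2inv Φ ε q)) (u q)) :=
    (hG.comp ((hum.comp (measurable_sc2inv hΦ hε)).prodMk hum)).indicator measurableSet_meets
  rw [← lintegral_indicator measurableSet_meets, lintegral_Ph2 hI]
  refine lintegral_congr fun p => lintegral_congr fun q => ?_
  by_cases hM : Meets ε (p, q)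
  · rw [indicator_of_mem (show (p, q) ∈ {q : Ph × Ph | Meets ε q} from hM),
      indicator_of_mem (show Function.update (Function.update Z i p) k q ∈
        {Z : ι → Ph | Meets ε (Z i, Z k)} by
          change Meets ε (_, _); rw [e1, e2]; exact hM)]
    simp only [e1, e2, e3, hu]
  · rw [indicator_of_notMem (show (p, q) ∉ {q : Ph × Ph | Meets ε q} from hM),
      indicator_of_notMem]
    intro h
    change Meets ε (_, _) at h
    rw [e1, e2] at h
    exact hM h

/-! ### Volumes -/

/-- The volume of the unit ball. -/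
def ω₃ : ℝ≥0∞ := volume (Metric.closedBall (0 : E3) 1)

theorem ω₃_ne_top : ω₃ ≠ ∞ := (isCompact_closedBall (0 : E3) 1).measure_lt_top.ne

theorem ω₃_ne_zero : ω₃ ≠ 0 :=
  (lt_of_lt_of_le (Metric.measure_ball_pos volume (0 : E3) one_pos)
    (measure_mono Metric.ball_subset_closedBall)).ne'

theorem vol_closedBall (x : E3) {R : ℝ} (hR : 0 ≤ R) :
    volume (Metric.closedBall x R) = ENNReal.ofReal (R ^ 3) * ω₃ := by
  rw [Measure.addHaar_closedBall' _ _ hR]
  unfold ω₃
  simp

/-- A set of times is covered by few times: `n + 1` intervals of length `d / n`. -/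
theorem exists_grid {s₀ d s : ℝ} (h0 : s₀ ≤ s) (h1 : s ≤ s₀ + d) (n : ℕ) (hn : 0 < n) :
    ∃ j : Fin (n + 1), |s - (s₀ + j * (d / n))| ≤ d / n := by
  have hn' : (0 : ℝ) < n := by exact_mod_cast hn
  have hd : 0 ≤ d := by linarith
  rcases eq_or_lt_of_le hd with h2 | h2
  · refine ⟨0, ?_⟩
    have : s = s₀ := by linarith
    rw [this, ← h2]
    simp
  have hdn : 0 < d / n := by positivity
  set j := ⌊(s - s₀) / (d / n)⌋₊ with hj
  have h3 : 0 ≤ (s - s₀) / (d / n) := div_nonneg (by linarith) hdn.le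
  have h4 : (j : ℝ) ≤ (s - s₀) / (d / n) := Nat.floor_le h3
  have h5 : (s - s₀) / (d / n) < j + 1 := Nat.lt_floor_add_one _
  have h6 : (s - s₀) / (d / n) ≤ n := by
    rw [div_le_iff₀ hdn]
    have : (n : ℝ) * (d / n) = d := by field_simp
    linarith
  have h7 : j ≤ n := by
    have : (j : ℝ) ≤ n := h4.trans h6
    exact_mod_cast this
  refine ⟨⟨j, Nat.lt_succ_of_le h7⟩, ?_⟩
  rw [le_div_iff₀ hdn] at h4
  rw [div_lt_iff₀ hdn] at h5
  simp only
  rw [abs_le]
  constructor <;> nlinarith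

/-- The translations which bring two lines into contact during a time interval of length `d`. -/
theorem vol_tube_le (hε : 0 < ε) (y u : E3) (s₀ : ℝ) {d : ℝ} (hd : 0 ≤ d) :
    volume {a : E3 | ∃ s, s₀ ≤ s ∧ s ≤ s₀ + d ∧ ‖y + s • u + a‖ ≤ ε} ≤
      ENNReal.ofReal (32 * ε ^ 2 * (ε + d * ‖u‖)) * ω₃ := by
  set n : ℕ := ⌈d * ‖u‖ / ε⌉₊ + 1 with hn
  have hn0 : 0 < n := Nat.succ_pos _
  have hn1 : d * ‖u‖ / ε ≤ n := by
    have := Nat.le_ceil (d * ‖u‖ / ε)
    rw [hn]; push_cast; linarith
  have hn2 : (n : ℝ) ≤ d * ‖u‖ / ε + 2 := by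
    have := Nat.ceil_lt_add_one (show 0 ≤ d * ‖u‖ / ε by positivity)
    rw [hn]; push_cast; linarith
  have hn' : (0 : ℝ) < n := by exact_mod_cast hn0
  have hsub : {a : E3 | ∃ s, s₀ ≤ s ∧ s ≤ s₀ + d ∧ ‖y + s • u + a‖ ≤ ε} ⊆
      ⋃ j : Fin (n + 1), Metric.closedBall (-(y + (s₀ + j * (d / n)) • u)) (2 * ε) := by
    rintro a ⟨s, h1, h2, h3⟩
    obtain ⟨j, hj⟩ := exists_grid h1 h2 n hn0
    refine mem_iUnion.2 ⟨j, ?_⟩
    rw [Metric.mem_closedBall, dist_eq_norm]
    have h4 : a - -(y + (s₀ + (j : ℝ) * (d / n)) • u) =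
        (y + s • u + a) - (s - (s₀ + (j : ℝ) * (d / n))) • u := by
      rw [sub_smul]; abel
    rw [h4]
    have h5 : ‖(s - (s₀ + (j : ℝ) * (d / n))) • u‖ ≤ ε := by
      rw [norm_smul, Real.norm_eq_abs]
      calc _ ≤ d / n * ‖u‖ := mul_le_mul_of_nonneg_right hj (norm_nonneg _)
        _ = d * ‖u‖ / n := by ring
        _ ≤ ε := by
          rw [div_le_iff₀ hn']
          rw [div_le_iff₀ hε] at hn1
          linarith
    calc _ ≤ ‖y + s • u + a‖ + ‖(s - (s₀ + (j : ℝ) * (d / n))) • u‖ := norm_sub_le _ _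
      _ ≤ 2 * ε := by linarith
  refine (measure_mono hsub).trans ((measure_iUnion_le _).trans ?_)
  simp only [vol_closedBall _ (by positivity : (0 : ℝ) ≤ 2 * ε)]
  rw [tsum_fintype, Finset.sum_const, Finset.card_univ, Fintype.card_fin, nsmul_eq_mul,
    ← mul_assoc]
  refine mul_le_mul' ?_ le_rfl
  rw [← ENNReal.ofReal_natCast, ← ENNReal.ofReal_mul (by positivity)]
  refine ENNReal.ofReal_le_ofReal ?_
  push_cast
  have h6 : ((n : ℝ) + 1) * ε ≤ d * ‖u‖ + 3 * ε := by
    have : (n : ℝ) * ε ≤ (d * ‖u‖ / ε + 2) * ε := mul_le_mul_of_nonneg_right hn2 hε.le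
    rw [add_mul, div_mul_cancel₀ _ hε.ne'] at this
    linarith
  calc ((n : ℝ) + 1) * (2 * ε) ^ 3 = 8 * ε ^ 2 * (((n : ℝ) + 1) * ε) := by ring
    _ ≤ 8 * ε ^ 2 * (d * ‖u‖ + 3 * ε) := mul_le_mul_of_nonneg_left h6 (by positivity)
    _ ≤ 32 * ε ^ 2 * (ε + d * ‖u‖) := by
      have : 0 ≤ d * ‖u‖ := by positivity
      nlinarith [sq_nonneg ε, mul_nonneg (sq_nonneg ε) this, mul_pos (pow_pos hε 2) hε]

/-- Two balls at two times. -/
theorem vol_pair_le {θ σ R : ℝ} (h : θ < σ) (hR : 0 ≤ R) (y z : E3) :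
    volume {c : Ph | ‖y + (c.1 + θ • c.2)‖ ≤ R ∧ ‖z + (c.1 + σ • c.2)‖ ≤ R} ≤
      ENNReal.ofReal (8 * R ^ 6 / (σ - θ) ^ 3) * (ω₃ * ω₃) := by
  have hm : MeasurableSet {c : Ph | ‖y + (c.1 + θ • c.2)‖ ≤ R ∧ ‖z + (c.1 + σ • c.2)‖ ≤ R} := by
    refine MeasurableSet.inter ?_ ?_
    · exact measurableSet_le (f := fun c : Ph => ‖y + (c.1 + θ • c.2)‖) (by fun_prop)
        measurable_const
    · exact measurableSet_le (f := fun c : Ph => ‖z + (c.1 + σ • c.2)‖) (by fun_prop)
        measurable_const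
  rw [Measure.volume_eq_prod, Measure.prod_apply_symm hm]
  have hδ : 0 < σ - θ := sub_pos.2 h
  have h1 : ∀ c2 : E3, volume ((fun c1 : E3 => ((c1, c2) : Ph)) ⁻¹'
      {c : Ph | ‖y + (c.1 + θ • c.2)‖ ≤ R ∧ ‖z + (c.1 + σ • c.2)‖ ≤ R}) ≤
      (Metric.closedBall ((σ - θ)⁻¹ • (y - z)) (2 * R / (σ - θ))).indicator
        (fun _ => ENNReal.ofReal (R ^ 3) * ω₃) c2 := by
    intro c2
    by_cases hc : c2 ∈ Metric.closedBall ((σ - θ)⁻¹ • (y - z)) (2 * R / (σ - θ))
    · rw [indicator_of_mem hc, ← vol_closedBall (-(y + θ • c2)) hR]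
      refine measure_mono fun c1 hc1 => ?_
      rw [Metric.mem_closedBall, dist_eq_norm]
      have h2 : c1 - -(y + θ • c2) = y + (c1 + θ • c2) := by abel
      rw [h2]
      exact hc1.1
    · rw [indicator_of_notMem hc]
      refine le_of_eq ?_
      rw [show (fun c1 : E3 => ((c1, c2) : Ph)) ⁻¹'
        {c : Ph | ‖y + (c.1 + θ • c.2)‖ ≤ R ∧ ‖z + (c.1 + σ • c.2)‖ ≤ R} = ∅ from ?_,
        measure_empty]
      refine eq_empty_iff_forall_notMem.2 fun c1 hc1 => hc ?_
      obtain ⟨h2, h3⟩ := hc1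
      simp only at h2 h3
      rw [Metric.mem_closedBall, dist_eq_norm]
      have h4 : c2 - (σ - θ)⁻¹ • (y - z) = (σ - θ)⁻¹ • ((z + (c1 + σ • c2)) -
          (y + (c1 + θ • c2))) := by
        have h5 : (z + (c1 + σ • c2)) - (y + (c1 + θ • c2)) = (σ - θ) • c2 - (y - z) := by
          rw [sub_smul]; abel
        rw [h5, smul_sub (σ - θ)⁻¹ ((σ - θ) • c2) (y - z), smul_smul, inv_mul_cancel₀ hδ.ne',
          one_smul]
      rw [h4, norm_smul, Real.norm_eq_abs, abs_of_pos (inv_pos.2 hδ), inv_mul_eq_div]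
      refine div_le_div_of_nonneg_right ?_ hδ.le
      calc _ ≤ ‖z + (c1 + σ • c2)‖ + ‖y + (c1 + θ • c2)‖ := norm_sub_le _ _
        _ ≤ 2 * R := by linarith
  refine (lintegral_mono h1).trans ?_
  rw [lintegral_indicator Metric.isClosed_closedBall.measurableSet, setLIntegral_const,
    vol_closedBall _ (by positivity)]
  have h5 : ENNReal.ofReal (R ^ 3) * ω₃ * (ENNReal.ofReal ((2 * R / (σ - θ)) ^ 3) * ω₃) =
      (ENNReal.ofReal (R ^ 3) * ENNReal.ofReal ((2 * R / (σ - θ)) ^ 3)) * (ω₃ * ω₃) := by ring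
  rw [h5, ← ENNReal.ofReal_mul (by positivity)]
  refine mul_le_mul' (ENNReal.ofReal_le_ofReal (le_of_eq ?_)) le_rfl
  field_simp
  ring

end Vale.Agent.P119.IND
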