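import Vale.Agent.P119.IND.Tri
import Vale.Agent.P119.IND.Prog3

/-!
# P119: the tester lemma (`helper76`)

Two lines `pa`, `pi` are within `ε M` of each other at all times of a set `S`.  Then the motions
`c` of a third line `pb`, of bounded size, which bring it into contact with `pa` at a time `s ∈ S`
and with `pi` at the time `s + ε` have volume at least `c ε² |S|`.
-/

open MeasureTheory Set Filter Topology Metric
open scoped ENNReal

namespace Vale.Agent.P119.RA

open KU FL

/-- The time spent in a ball by a straight path. -/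
theorem volume_time_le (z V : E3) {ρ : ℝ} (hρ : 0 ≤ ρ) :
    volume {s : ℝ | ‖z + s • V‖ < ρ} * ‖V‖ₑ ≤ ENNReal.ofReal (2 * ρ) := by
  rcases eq_or_ne V 0 with h0 | h0
  · rw [h0]; simp
  have hV : 0 < ‖V‖ := norm_pos_iff.2 h0
  have hd : Metric.ediam {s : ℝ | ‖z + s • V‖ < ρ} ≤ ENNReal.ofReal (2 * ρ / ‖V‖) := by
    refine Metric.ediam_le fun s hs s' hs' => ?_
    rw [edist_dist]
    refine ENNReal.ofReal_le_ofReal ?_
    rw [Real.dist_eq, le_div_iff₀ hV]
    have h1 : |s - s'| * ‖V‖ = ‖(z + s • V) - (z + s' • V)‖ := by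
      rw [show (z + s • V) - (z + s' • V) = (s - s') • V by module, norm_smul, Real.norm_eq_abs]
    rw [h1]
    have h2 : ‖z + s • V‖ < ρ := hs
    have h3 : ‖z + s' • V‖ < ρ := hs'
    calc _ ≤ ‖z + s • V‖ + ‖z + s' • V‖ := norm_sub_le _ _
      _ ≤ 2 * ρ := by linarith
  have h2 := (Real.volume_le_diam {s : ℝ | ‖z + s • V‖ < ρ}).trans hd
  calc volume {s : ℝ | ‖z + s • V‖ < ρ} * ‖V‖ₑ
      ≤ ENNReal.ofReal (2 * ρ / ‖V‖) * ‖V‖ₑ := by gcongr
    _ = ENNReal.ofReal (2 * ρ) := by
        rw [← ofReal_norm, ← ENNReal.ofReal_mul (by positivity), div_mul_cancel₀ _ hV.ne']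

/-- The constant of the mean speed on a ball. -/
noncomputable def g₀ : ℝ≥0∞ := ENNReal.ofReal (1 / 8) * (ENNReal.ofReal (63 / 512) * bv)

theorem g₀_ne_zero : g₀ ≠ 0 := by
  unfold g₀
  refine mul_ne_zero ?_ (mul_ne_zero ?_ bv_ne_zero)
  · simp
  · simp

theorem g₀_ne_top : g₀ ≠ ∞ :=
  ENNReal.mul_ne_top ENNReal.ofReal_ne_top (ENNReal.mul_ne_top ENNReal.ofReal_ne_top bv_ne_top)

/-- The mean speed on a ball of radius `1/2` is bounded below. -/
theorem g₀_le (x : E3) : g₀ ≤ ∫⁻ v in ball x (1 / 2), ‖v‖ₑ := by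
  set D : Set E3 := ball x (1 / 2) \ closedBall 0 (1 / 8) with hD
  have hb : volume (ball x (1 / 2)) = ENNReal.ofReal ((1 / 2) ^ 3) * bv := by
    rw [Measure.addHaar_ball volume _ (by norm_num), finrank_euclideanSpace_fin, bv]
  have h1 : ENNReal.ofReal (63 / 512) * bv ≤ volume D := by
    have h2 := le_measure_sdiff (μ := (volume : Measure E3)) (s₁ := ball x (1 / 2))
      (s₂ := closedBall (0 : E3) (1 / 8))
    refine le_trans (le_of_eq ?_) h2
    rw [hb, FL.vol_closedBall _ (by norm_num),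
      ← ENNReal.sub_mul (fun _ _ => bv_ne_top), ← ENNReal.ofReal_sub _ (by norm_num)]
    norm_num
  calc g₀ = ENNReal.ofReal (1 / 8) * (ENNReal.ofReal (63 / 512) * bv) := rfl
    _ ≤ ENNReal.ofReal (1 / 8) * volume D := by gcongr
    _ = ∫⁻ _ in D, ENNReal.ofReal (1 / 8) := by rw [setLIntegral_const]
    _ ≤ ∫⁻ v in D, ‖v‖ₑ := by
        refine setLIntegral_mono' (measurableSet_ball.diff measurableSet_closedBall)
          fun v hv => ?_
        rw [← ofReal_norm]
        refine ENNReal.ofReal_le_ofReal ?_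
        have h3 : v ∉ closedBall (0 : E3) (1 / 8) := hv.2
        rw [mem_closedBall, dist_zero_right, not_le] at h3
        exact h3.le
    _ ≤ _ := lintegral_mono_set sdiff_subset

/-- **The tester lemma.** -/
theorem tester {ε M W : ℝ} (hε : 0 < ε) {pa pi pb : Ph} {S : Set ℝ} (hS : MeasurableSet S)
    (hM : ∀ s ∈ S, ‖(KU.free s pi).1 - (KU.free s pa).1‖ ≤ ε * M)
    (hW : M + 1 / 2 + ‖pb.2 - pi.2‖ ≤ W) :
    ENNReal.ofReal (ε ^ 2 / 8) * (bv * g₀) * volume S ≤
      volume {c : Ph | ‖c.2‖ ≤ W ∧ ∃ s ∈ S,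
        Ctc ε (KU.free s pa) (KU.free s (boost c pb)) ∧
        Ctc ε (KU.free (s + ε) pi) (KU.free (s + ε) (boost c pb))} := by
  set E : Set Ph := {c : Ph | ‖c.2‖ ≤ W ∧ ∃ s ∈ S,
        Ctc ε (KU.free s pa) (KU.free s (boost c pb)) ∧
        Ctc ε (KU.free (s + ε) pi) (KU.free (s + ε) (boost c pb))} with hE
  -- the good pairs
  set D : ℝ → E3 := fun s => ε⁻¹ • ((pi.1 + s • pi.2) - (pa.1 + s • pa.2)) with hD
  have hDc : Continuous D := by rw [hD]; fun_prop
  set Gd : Set (Ph × ℝ) := {q | q.2 ∈ S ∧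
    ‖(pb.1 + q.1.1 + q.2 • (pb.2 + q.1.2)) - (pa.1 + q.2 • pa.2)‖ < ε / 2 ∧
    ‖(pb.2 + q.1.2 - pi.2) - D q.2‖ < 1 / 2} with hGd
  have hGm : MeasurableSet Gd := by
    have hDm : Measurable fun q : Ph × ℝ => D q.2 := hDc.measurable.comp measurable_snd
    have a1 : MeasurableSet {q : Ph × ℝ |
        ‖(pb.1 + q.1.1 + q.2 • (pb.2 + q.1.2)) - (pa.1 + q.2 • pa.2)‖ < ε / 2} :=
      measurableSet_lt (by fun_prop) measurable_const
    have a2 : MeasurableSet {q : Ph × ℝ | ‖(pb.2 + q.1.2 - pi.2) - D q.2‖ < 1 / 2} :=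
      measurableSet_lt (by fun_prop) measurable_const
    exact (measurable_snd hS).inter (a1.inter a2)
  have hsub : ∀ c s, (c, s) ∈ Gd → c ∈ E := by
    rintro c s ⟨h1, h2, h3⟩
    simp only at h1 h2 h3
    have hb1 : (KU.free s (boost c pb)).1 = pb.1 + c.1 + s • (pb.2 + c.2) := rfl
    have ha1 : (KU.free s pa).1 = pa.1 + s • pa.2 := rfl
    refine ⟨?_, s, h1, ?_, ?_⟩
    · have h4 : c.2 = ((pb.2 + c.2 - pi.2) - D s) + D s - (pb.2 - pi.2) := by abel
      have h5 : ‖D s‖ ≤ M := by
        have h6 := hM s h1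
        have h7 : D s = ε⁻¹ • ((KU.free s pi).1 - (KU.free s pa).1) := rfl
        rw [h7, norm_smul, norm_inv, Real.norm_eq_abs, abs_of_pos hε, inv_mul_le_iff₀ hε]
        exact h6
      rw [h4]
      calc _ ≤ ‖((pb.2 + c.2 - pi.2) - D s) + D s‖ + ‖pb.2 - pi.2‖ := norm_sub_le _ _
        _ ≤ (‖(pb.2 + c.2 - pi.2) - D s‖ + ‖D s‖) + ‖pb.2 - pi.2‖ := by
            gcongr; exact norm_add_le _ _
        _ ≤ W := by linarith
    · refine ctc_of_lt ?_
      rw [norm_sub_rev, hb1, ha1]
      linarith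
    · refine ctc_of_lt ?_
      rw [norm_sub_rev]
      have h4 : (KU.free (s + ε) (boost c pb)).1 - (KU.free (s + ε) pi).1 =
          ((pb.1 + c.1 + s • (pb.2 + c.2)) - (pa.1 + s • pa.2)) +
            ε • ((pb.2 + c.2 - pi.2) - D s) := by
        have h5 : (KU.free (s + ε) (boost c pb)).1 = pb.1 + c.1 + (s + ε) • (pb.2 + c.2) := rfl
        have h6 : (KU.free (s + ε) pi).1 = pi.1 + (s + ε) • pi.2 := rfl
        have h7 : ε • D s = (pi.1 + s • pi.2) - (pa.1 + s • pa.2) := by
          simp only [hD]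
          rw [smul_smul, mul_inv_cancel₀ hε.ne', one_smul]
        rw [h5, h6, smul_sub, h7]
        module
      rw [h4]
      calc _ ≤ _ := norm_add_le _ _
        _ < ε / 2 + ε * (1 / 2) := by
            refine add_lt_add_of_lt_of_le h2 ?_
            rw [norm_smul, Real.norm_eq_abs, abs_of_pos hε]
            gcongr
        _ = ε := by ring
  have hw : Measurable fun q : Ph × ℝ => ‖pb.2 + q.1.2 - pa.2‖ₑ := by fun_prop
  -- upper bound of the double integral
  have hup : ∫⁻ c : Ph, ∫⁻ s : ℝ, Gd.indicator (fun q => ‖pb.2 + q.1.2 - pa.2‖ₑ) (c, s) ≤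
      ENNReal.ofReal ε * volume E := by
    have h1 : ∀ c : Ph, ∫⁻ s : ℝ, Gd.indicator (fun q => ‖pb.2 + q.1.2 - pa.2‖ₑ) (c, s) ≤
        E.indicator (fun _ => ENNReal.ofReal ε) c := by
      intro c
      by_cases hc : c ∈ E
      · rw [indicator_of_mem hc]
        have h2 : ∀ s : ℝ, Gd.indicator (fun q => ‖pb.2 + q.1.2 - pa.2‖ₑ) (c, s) ≤
            {s : ℝ | ‖(pb.1 + c.1 - pa.1) + s • (pb.2 + c.2 - pa.2)‖ < ε / 2}.indicator
              (fun _ => ‖pb.2 + c.2 - pa.2‖ₑ) s := by
          intro s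
          by_cases hs : (c, s) ∈ Gd
          · rw [indicator_of_mem hs, indicator_of_mem]
            obtain ⟨-, h3, -⟩ := hs
            simp only at h3
            show ‖(pb.1 + c.1 - pa.1) + s • (pb.2 + c.2 - pa.2)‖ < ε / 2
            have h4 : (pb.1 + c.1 - pa.1) + s • (pb.2 + c.2 - pa.2) =
                (pb.1 + c.1 + s • (pb.2 + c.2)) - (pa.1 + s • pa.2) := by module
            rw [h4]
            exact h3
          · rw [indicator_of_notMem hs]; exact zero_le
        refine (lintegral_mono h2).trans ?_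
        have hm : MeasurableSet {s : ℝ | ‖(pb.1 + c.1 - pa.1) + s • (pb.2 + c.2 - pa.2)‖ < ε / 2} := by
          refine (isOpen_lt ?_ continuous_const).measurableSet
          fun_prop
        rw [lintegral_indicator_const hm, mul_comm]
        refine (volume_time_le _ _ (by positivity)).trans (le_of_eq ?_)
        congr 1; ring
      · rw [indicator_of_notMem hc]
        refine le_of_eq ?_
        have h0 : ∀ s : ℝ, Gd.indicator (fun q => ‖pb.2 + q.1.2 - pa.2‖ₑ) (c, s) = 0 := by
          intro s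
          exact indicator_of_notMem (fun h => hc (hsub c s h)) _
        simp only [h0, lintegral_zero]
    refine (lintegral_mono h1).trans ?_
    calc ∫⁻ c, E.indicator (fun _ => ENNReal.ofReal ε) c ≤ ENNReal.ofReal ε * volume E := by
          exact lintegral_indicator_const_le _ _
      _ = _ := rfl
  -- lower bound
  have hlow : (ENNReal.ofReal ((ε / 2) ^ 3) * bv * g₀) * volume S ≤
      ∫⁻ c : Ph, ∫⁻ s : ℝ, Gd.indicator (fun q => ‖pb.2 + q.1.2 - pa.2‖ₑ) (c, s) := by
    have hsf := sigmaFinite_Ph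
    rw [lintegral_lintegral_swap (f := fun (c : Ph) (s : ℝ) =>
      Gd.indicator (fun q => ‖pb.2 + q.1.2 - pa.2‖ₑ) (c, s)) (hw.indicator hGm).aemeasurable]
    calc (ENNReal.ofReal ((ε / 2) ^ 3) * bv * g₀) * volume S
        = ∫⁻ _ in S, (ENNReal.ofReal ((ε / 2) ^ 3) * bv * g₀) := by rw [setLIntegral_const]
      _ ≤ ∫⁻ s in S, ∫⁻ c : Ph, Gd.indicator (fun q => ‖pb.2 + q.1.2 - pa.2‖ₑ) (c, s) := by
          refine setLIntegral_mono' hS fun s hs => ?_
          have h1 : ∀ c : Ph, Gd.indicator (fun q => ‖pb.2 + q.1.2 - pa.2‖ₑ) (c, s) =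
              {y : E3 | ‖y‖ < ε / 2}.indicator (fun _ => (1 : ℝ≥0∞))
                (c.1 + ((pb.1 + s • (pb.2 + c.2)) - (pa.1 + s • pa.2))) *
              {y : E3 | ‖y‖ < 1 / 2}.indicator (fun _ => ‖pb.2 + c.2 - pa.2‖ₑ)
                ((pb.2 + c.2 - pi.2) - D s) := by
            intro c
            have e1 : c.1 + ((pb.1 + s • (pb.2 + c.2)) - (pa.1 + s • pa.2)) =
                (pb.1 + c.1 + s • (pb.2 + c.2)) - (pa.1 + s • pa.2) := by abel
            rw [e1]
            by_cases a1 : ‖(pb.1 + c.1 + s • (pb.2 + c.2)) - (pa.1 + s • pa.2)‖ < ε / 2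
            · rw [indicator_of_mem (show _ ∈ {y : E3 | ‖y‖ < ε / 2} from a1), one_mul]
              by_cases a2 : ‖(pb.2 + c.2 - pi.2) - D s‖ < 1 / 2
              · rw [indicator_of_mem (show _ ∈ {y : E3 | ‖y‖ < 1 / 2} from a2),
                  indicator_of_mem (show (c, s) ∈ Gd from ⟨hs, a1, a2⟩)]
              · rw [indicator_of_notMem (show _ ∉ {y : E3 | ‖y‖ < 1 / 2} from a2),
                  indicator_of_notMem (show (c, s) ∉ Gd from fun h => a2 h.2.2)]
            · rw [indicator_of_notMem (show _ ∉ {y : E3 | ‖y‖ < ε / 2} from a1), zero_mul,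
                indicator_of_notMem (show (c, s) ∉ Gd from fun h => a1 h.2.1)]
          simp_rw [h1]
          have hball : MeasurableSet {y : E3 | ‖y‖ < ε / 2} :=
            (isOpen_lt continuous_norm continuous_const).measurableSet
          have hone : Measurable ({y : E3 | ‖y‖ < ε / 2}.indicator (fun _ => (1 : ℝ≥0∞))) :=
            measurable_const.indicator hball
          have hm1 : Measurable fun c : Ph => {y : E3 | ‖y‖ < ε / 2}.indicator
              (fun _ => (1 : ℝ≥0∞)) (c.1 + ((pb.1 + s • (pb.2 + c.2)) - (pa.1 + s • pa.2))) :=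
            hone.comp (by fun_prop)
          have hm2' : Measurable fun c : Ph => ‖pb.2 + c.2 - pa.2‖ₑ := by fun_prop
          have hm2 : Measurable fun c : Ph => {y : E3 | ‖y‖ < 1 / 2}.indicator
              (fun _ => ‖pb.2 + c.2 - pa.2‖ₑ) ((pb.2 + c.2 - pi.2) - D s) := by
            have h2 : MeasurableSet {c : Ph | ‖(pb.2 + c.2 - pi.2) - D s‖ < 1 / 2} := by
              refine (isOpen_lt ?_ continuous_const).measurableSet
              fun_prop
            exact hm2'.indicator h2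
          have hm : Measurable fun c : Ph => {y : E3 | ‖y‖ < ε / 2}.indicator
              (fun _ => (1 : ℝ≥0∞)) (c.1 + ((pb.1 + s • (pb.2 + c.2)) - (pa.1 + s • pa.2))) *
              {y : E3 | ‖y‖ < 1 / 2}.indicator (fun _ => ‖pb.2 + c.2 - pa.2‖ₑ)
                ((pb.2 + c.2 - pi.2) - D s) := hm1.mul hm2
          rw [Measure.volume_eq_prod, lintegral_prod_symm _ hm.aemeasurable]
          simp only
          have h3 : ∀ c2 : E3, ∫⁻ c1 : E3, {y : E3 | ‖y‖ < ε / 2}.indicator
              (fun _ => (1 : ℝ≥0∞)) (c1 + ((pb.1 + s • (pb.2 + c2)) - (pa.1 + s • pa.2))) *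
              {y : E3 | ‖y‖ < 1 / 2}.indicator (fun _ => ‖pb.2 + c2 - pa.2‖ₑ)
                ((pb.2 + c2 - pi.2) - D s) =
              (ENNReal.ofReal ((ε / 2) ^ 3) * bv) *
              {y : E3 | ‖y‖ < 1 / 2}.indicator (fun _ => ‖pb.2 + c2 - pa.2‖ₑ)
                ((pb.2 + c2 - pi.2) - D s) := by
            intro c2
            have hm3 : Measurable fun c1 : E3 => {y : E3 | ‖y‖ < ε / 2}.indicator
              (fun _ => (1 : ℝ≥0∞)) (c1 + ((pb.1 + s • (pb.2 + c2)) - (pa.1 + s • pa.2))) :=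
              hone.comp (by fun_prop)
            rw [lintegral_mul_const _ hm3,
              lintegral_add_right_eq_self (fun y : E3 => {y : E3 | ‖y‖ < ε / 2}.indicator
                (fun _ => (1 : ℝ≥0∞)) y), lintegral_indicator_const
                hball, one_mul]
            congr 1
            have h4 : {y : E3 | ‖y‖ < ε / 2} = ball (0 : E3) (ε / 2) := by
              ext y; simp
            rw [h4, Measure.addHaar_ball volume _ (by positivity), finrank_euclideanSpace_fin, bv]
          simp_rw [h3]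
          have hm4 : Measurable fun c2 : E3 => {y : E3 | ‖y‖ < 1 / 2}.indicator
              (fun _ => ‖pb.2 + c2 - pa.2‖ₑ) ((pb.2 + c2 - pi.2) - D s) := by
            have h2 : MeasurableSet {c2 : E3 | ‖(pb.2 + c2 - pi.2) - D s‖ < 1 / 2} := by
              refine (isOpen_lt ?_ continuous_const).measurableSet
              fun_prop
            exact (by fun_prop : Measurable fun c2 : E3 => ‖pb.2 + c2 - pa.2‖ₑ).indicator h2
          rw [lintegral_const_mul _ hm4]
          refine mul_le_mul' le_rfl ?_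
          -- the velocity integral
          set x₀ : E3 := pi.2 + D s - pa.2 with hx₀
          have h5 : ∫⁻ c2 : E3, {y : E3 | ‖y‖ < 1 / 2}.indicator
              (fun _ => ‖pb.2 + c2 - pa.2‖ₑ) ((pb.2 + c2 - pi.2) - D s) =
              ∫⁻ v : E3, (ball x₀ (1 / 2)).indicator (fun v => ‖v‖ₑ) v := by
            rw [← lintegral_add_right_eq_self (fun v : E3 =>
              (ball x₀ (1 / 2)).indicator (fun v => ‖v‖ₑ) v) (pb.2 - pa.2)]
            refine lintegral_congr fun c2 => ?_
            have h6 : ((pb.2 + c2 - pi.2) - D s) = (c2 + (pb.2 - pa.2)) - x₀ := by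
              rw [hx₀]; abel
            have h7 : pb.2 + c2 - pa.2 = c2 + (pb.2 - pa.2) := by abel
            rw [h6, h7]
            by_cases a1 : c2 + (pb.2 - pa.2) ∈ ball x₀ (1 / 2)
            · rw [indicator_of_mem a1, indicator_of_mem]
              rw [mem_ball, dist_eq_norm] at a1
              exact a1
            · rw [indicator_of_notMem a1, indicator_of_notMem]
              rw [mem_ball, dist_eq_norm] at a1
              exact a1
          rw [h5, lintegral_indicator measurableSet_ball]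
          exact g₀_le x₀
      _ ≤ _ := setLIntegral_le_lintegral _ _
  have hfin := hlow.trans hup
  have hε0 : ENNReal.ofReal ε ≠ 0 := by simpa using hε
  have h8 : (ENNReal.ofReal ((ε / 2) ^ 3) * bv * g₀) * volume S =
      ENNReal.ofReal ε * (ENNReal.ofReal (ε ^ 2 / 8) * (bv * g₀) * volume S) := by
    rw [show (ε / 2) ^ 3 = ε * (ε ^ 2 / 8) by ring, ENNReal.ofReal_mul hε.le]
    ring
  rw [h8] at hfin
  exact (ENNReal.mul_le_mul_iff_right hε0 ENNReal.ofReal_ne_top).1 hfin

end Vale.Agent.P119.RA
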