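import Vale.Agent.P119.IND.Long
import Vale.Agent.P119.IND.Tester

/-!
# P119, block IND: a pair in contact and a third line near it (`helper76`)

`near_dom`: the labels `a`, `i` are joined by `P`, the label `k` is not joined to them; the mass of
the runs of `P` after which `a` and `k` are in contact and `i` is near `a` is at most a constant
times the mass of the program `P ++ [gh a k, gh i k]`, which is closed.
-/

open MeasureTheory Filter Topology Set
open scoped ENNReal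

set_option linter.unusedSectionVars false

noncomputable section

namespace Vale.Agent.P119.IND

open KU MM

variable {ι : Type} [DecidableEq ι] [Fintype ι] {Φ : E3 → ℝ} {ε T b : ℝ}

/-- The volume of the velocities of size at most `W`. -/
theorem vol_W_ne_top (W : ℝ) : volume (Metric.closedBall (0 : E3) W) ≠ ∞ :=
  (isCompact_closedBall (0 : E3) W).measure_lt_top.ne

/-- **The reverse average.** -/
theorem rev_avg (hb : 0 < b) {D R₁ : Finset ι} {k : ι} (hkD : k ∈ D) (hkR : k ∉ R₁)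
    (hRD : ∀ r ∈ R₁, r ∉ D) {H : (ι → Ph) → ℝ≥0∞} (hH : Measurable H) (W : ℝ) :
    ∫⁻ Z, spat (insert k R₁) Z * wgt b Z *
      ∫⁻ c in {c : Ph | ‖c.2‖ ≤ W}, H (mv D c Z) ≤
      ENNReal.ofReal (Real.exp (b * (Fintype.card ι * W ^ 2))) *
        (ω₃ * volume (Metric.closedBall (0 : E3) W)) * massF (b / 2) R₁ H := by
  have hmv : Measurable fun q : (ι → Ph) × Ph => mv D q.2 q.1 :=
    measurable_mv D measurable_snd measurable_fst
  have hAm : Measurable fun Z : ι → Ph => spat (insert k R₁) Z * wgt b Z :=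
    (measurable_spat _).mul (measurable_wgt b)
  have hWm : MeasurableSet {c : Ph | ‖c.2‖ ≤ W} :=
    measurableSet_le measurable_snd.norm measurable_const
  have h1 : ∀ Z : ι → Ph, spat (insert k R₁) Z * wgt b Z *
      ∫⁻ c in {c : Ph | ‖c.2‖ ≤ W}, H (mv D c Z) =
      ∫⁻ c in {c : Ph | ‖c.2‖ ≤ W}, spat (insert k R₁) Z * wgt b Z * H (mv D c Z) := fun Z =>
    (lintegral_const_mul _ (hH.comp (hmv.comp measurable_prodMk_left))).symm
  simp only [h1]
  rw [lintegral_lintegral_swap]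
  swap
  · exact ((hAm.comp measurable_fst).mul (hH.comp hmv)).aemeasurable
  set E₁ : ℝ≥0∞ := ENNReal.ofReal (Real.exp (b * (Fintype.card ι * W ^ 2))) with hE₁
  have h2 : ∀ c ∈ {c : Ph | ‖c.2‖ ≤ W},
      ∫⁻ Z : ι → Ph, spat (insert k R₁) Z * wgt b Z * H (mv D c Z) ≤
      ∫⁻ Z : ι → Ph, E₁ * (φ₁ ((Z k).1 - c.1) * (spat R₁ Z * (wgt (b / 2) Z * H Z))) := by
    intro c hc
    have hc' : ‖c.2‖ ≤ W := hc
    have hmc : Measurable fun Z : ι → Ph => mv D (-c) Z := measurable_mv' D (-c)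
    have h3 := lintegral_mv D c (G := fun Z => (spat (insert k R₁) (mv D (-c) Z) *
      wgt b (mv D (-c) Z)) * H Z) (((hAm.comp hmc)).mul hH)
    have h4 : ∀ Z : ι → Ph, mv D (-c) (mv D c Z) = Z := by
      intro Z
      rw [mv_mv, neg_add_cancel, mv_zero]
    simp only [h4] at h3
    rw [h3]
    refine lintegral_mono fun Z => ?_
    have h5 : ‖(-c).2‖ ≤ W := by
      change ‖-(c.2)‖ ≤ W
      rwa [norm_neg]
    have h6 := wgt_vel hb D h5 Z
    rw [spat_insert hkR, spat_mv hRD]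
    have h7 : (mv D (-c) Z k).1 = (Z k).1 - c.1 := by
      rw [mv_of_mem hkD]
      unfold boost
      simp only [Prod.fst_neg]
      abel
    rw [h7]
    calc φ₁ ((Z k).1 - c.1) * spat R₁ Z * wgt b (mv D (-c) Z) * H Z
        ≤ φ₁ ((Z k).1 - c.1) * spat R₁ Z * (E₁ * wgt (b / 2) Z) * H Z :=
          mul_le_mul' (mul_le_mul' le_rfl h6) le_rfl
      _ = _ := by ring
  refine (setLIntegral_mono' hWm h2).trans ?_
  rw [lintegral_lintegral_swap]
  swap
  · have a1 : Measurable fun q : Ph × (ι → Ph) => φ₁ ((q.2 k).1 - q.1.1) :=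
      measurable_φ₁.comp ((((measurable_pi_apply k).comp measurable_snd).fst).sub
        measurable_fst.fst)
    have a2 : Measurable fun q : Ph × (ι → Ph) => spat R₁ q.2 * (wgt (b / 2) q.2 * H q.2) :=
      ((measurable_spat _).mul ((measurable_wgt _).mul hH)).comp measurable_snd
    exact ((a1.mul a2).const_mul _).aemeasurable
  have h8 : ∀ Z : ι → Ph, ∫⁻ c in {c : Ph | ‖c.2‖ ≤ W}, E₁ * (φ₁ ((Z k).1 - c.1) *
      (spat R₁ Z * (wgt (b / 2) Z * H Z))) =
      E₁ * (ω₃ * volume (Metric.closedBall (0 : E3) W)) *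
        (spat R₁ Z * (wgt (b / 2) Z * H Z)) := by
    intro Z
    have a3 : Measurable fun c : Ph => φ₁ ((Z k).1 - c.1) :=
      measurable_φ₁.comp (measurable_const.sub measurable_fst)
    rw [lintegral_const_mul _ (a3.mul_const _), lintegral_mul_const _ a3]
    have a4 : ∫⁻ c in {c : Ph | ‖c.2‖ ≤ W}, φ₁ ((Z k).1 - c.1) =
        ω₃ * volume (Metric.closedBall (0 : E3) W) := by
      rw [← lintegral_indicator hWm]
      have a5 : ∀ c : Ph, {c : Ph | ‖c.2‖ ≤ W}.indicator (fun c => φ₁ ((Z k).1 - c.1)) c =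
          φ₁ ((Z k).1 - c.1) * (Metric.closedBall (0 : E3) W).indicator 1 c.2 := by
        intro c
        by_cases a6 : ‖c.2‖ ≤ W
        · rw [indicator_of_mem (show c ∈ {c : Ph | ‖c.2‖ ≤ W} from a6),
            indicator_of_mem (show c.2 ∈ Metric.closedBall (0 : E3) W by simpa using a6)]
          simp
        · rw [indicator_of_notMem (show c ∉ {c : Ph | ‖c.2‖ ≤ W} from a6),
            indicator_of_notMem (show c.2 ∉ Metric.closedBall (0 : E3) W by simpa using a6),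
            mul_zero]
      simp only [a5]
      have a7 : Measurable fun x : E3 => φ₁ ((Z k).1 - x) :=
        measurable_φ₁.comp (measurable_const.sub measurable_id)
      have a8 : Measurable ((Metric.closedBall (0 : E3) W).indicator (1 : E3 → ℝ≥0∞)) :=
        measurable_const.indicator Metric.isClosed_closedBall.measurableSet
      rw [Measure.volume_eq_prod, lintegral_prod_mul (f := fun x : E3 => φ₁ ((Z k).1 - x))
        (g := (Metric.closedBall (0 : E3) W).indicator 1) a7.aemeasurable a8.aemeasurable,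
        lintegral_sub_left_eq_self φ₁ (Z k).1, lintegral_φ₁,
        lintegral_indicator_one Metric.isClosed_closedBall.measurableSet]
    rw [a4]; ring
  simp only [h8]
  have a9 : Measurable fun Z : ι → Ph => spat R₁ Z * (wgt (b / 2) Z * H Z) :=
    (measurable_spat _).mul ((measurable_wgt _).mul hH)
  rw [lintegral_const_mul _ a9]
  rfl

theorem En_trans (B : Finset ι) (a : E3) (Z : ι → Ph) : En (mv B (a, 0) Z) = En Z := by
  unfold En
  refine Finset.sum_congr rfl fun i _ => ?_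
  by_cases hi : i ∈ B
  · rw [mv_of_mem hi]
    unfold boost
    simp
  · rw [mv_of_notMem hi]

variable (Φ ε T) in
/-- The times after all the events of `P` at which the lines of `a` and `i` are near. -/
def tmS (T₂ M₁ K : ℝ) (P : List (Ev ι)) (a k i : ι) (Z : ι → Ph) : Set ℝ :=
  {s | 0 ≤ s ∧ s ≤ T₂ ∧ RunTo Φ ε T 0 (pl T P) (fun _ => 0) Z s ∧
    finB Φ ε (pl T P) (fun _ => 0) Z a ≤ s ∧ finB Φ ε (pl T P) (fun _ => 0) Z k ≤ s ∧
    finB Φ ε (pl T P) (fun _ => 0) Z i ≤ s ∧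
    ‖(KU.free s (finZ Φ ε (pl T P) Z i)).1 - (KU.free s (finZ Φ ε (pl T P) Z a)).1‖ ≤ ε * M₁ ∧
    En Z ≤ K}

/-- Joint measurability of the distance of two lines. -/
theorem measurable_dist_free {X : Type*} [MeasurableSpace X] {p q : X → Ph} (hp : Measurable p)
    (hq : Measurable q) {u : X → ℝ} (hu : Measurable u) :
    Measurable fun x => ‖(KU.free (u x) (p x)).1 - (KU.free (u x) (q x)).1‖ := by
  unfold KU.free
  exact ((hp.fst.add (hu.smul hp.snd)).sub (hq.fst.add (hu.smul hq.snd))).norm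

theorem measurableSet_tmS (hΦ : IsPotential Φ) (hε : ε ≠ 0) (T₂ M₁ K : ℝ) (P : List (Ev ι))
    (a k i : ι) : MeasurableSet {x : (ι → Ph) × ℝ | x.2 ∈ tmS Φ ε T T₂ M₁ K P a k i x.1} := by
  have hZ : Measurable fun x : (ι → Ph) × ℝ => finZ Φ ε (pl T P) x.1 :=
    measurable_finZ hΦ hε _ measurable_fst
  have hB : Measurable fun x : (ι → Ph) × ℝ => finB Φ ε (pl T P) (fun _ => 0) x.1 :=
    measurable_finB hΦ hε _ (β := fun _ _ => 0) measurable_const measurable_fst
  have hz : ∀ j, Measurable fun x : (ι → Ph) × ℝ => finZ Φ ε (pl T P) x.1 j := fun j =>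
    (measurable_pi_apply j).comp hZ
  have hb : ∀ j, Measurable fun x : (ι → Ph) × ℝ => finB Φ ε (pl T P) (fun _ => 0) x.1 j :=
    fun j => (measurable_pi_apply j).comp hB
  have hr : MeasurableSet {x : (ι → Ph) × ℝ |
      RunTo Φ ε T 0 (pl T P) (fun _ => 0) x.1 x.2} :=
    measurableSet_runTo hΦ hε _ (β := fun _ _ => 0) measurable_const measurable_fst
      measurable_const measurable_snd
  exact (measurableSet_le measurable_const measurable_snd).inter
    ((measurableSet_le measurable_snd measurable_const).inter (hr.inter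
    ((measurableSet_le (hb a) measurable_snd).inter ((measurableSet_le (hb k) measurable_snd).inter
    ((measurableSet_le (hb i) measurable_snd).inter
    ((measurableSet_le (measurable_dist_free (hz i) (hz a) measurable_snd)
      measurable_const).inter
      (measurableSet_le (measurable_En.comp measurable_fst) measurable_const)))))))

theorem tmS_trans {T₂ M₁ K : ℝ} {P : List (Ev ι)} {a k i : ι} {D : Finset ι}
    (hD : Cl D (pl T P)) (ha : a ∉ D) (hi : i ∉ D) (x : E3) (Z : ι → Ph) :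
    tmS Φ ε T T₂ M₁ K P a k i (mv D (x, 0) Z) = tmS Φ ε T T₂ M₁ K P a k i Z := by
  unfold tmS
  simp only [runTo_mv hD, finB_mv hD, finZ_mv hD, mv_of_notMem ha, mv_of_notMem hi, En_trans]

variable (Φ ε T) in
/-- `a` and `k` are in contact at a time after all the events of `P`, and `i` is near. -/
def ntS (M M' K : ℝ) (P : List (Ev ι)) (a k i : ι) : Set (ι → Ph) :=
  {Z | En Z ≤ K ∧ ∃ h, 0 ≤ h ∧ h ≤ T ∧ RunTo Φ ε T 0 (pl T P) (fun _ => 0) Z h ∧
    finB Φ ε (pl T P) (fun _ => 0) Z a ≤ h ∧ finB Φ ε (pl T P) (fun _ => 0) Z k ≤ h ∧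
    finB Φ ε (pl T P) (fun _ => 0) Z i ≤ h + ε * M' ∧
    ‖(KU.free h (finZ Φ ε (pl T P) Z a)).1 - (KU.free h (finZ Φ ε (pl T P) Z k)).1‖ ≤ ε ∧
    ‖(KU.free h (finZ Φ ε (pl T P) Z i)).1 - (KU.free h (finZ Φ ε (pl T P) Z a)).1‖ ≤ ε * M}

/-- Two lines stay near for a short time. -/
theorem dist_free_le (p q : Ph) {h s : ℝ} (hs : h ≤ s) :
    ‖(KU.free s p).1 - (KU.free s q).1‖ ≤ ‖(KU.free h p).1 - (KU.free h q).1‖ + (s - h) * ‖p.2 - q.2‖ := by
  have e : (KU.free s p).1 - (KU.free s q).1 = ((KU.free h p).1 - (KU.free h q).1) +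
      (s - h) • (p.2 - q.2) := by
    unfold KU.free
    simp only
    module
  rw [e]
  refine (norm_add_le _ _).trans (add_le_add le_rfl ?_)
  rw [norm_smul, Real.norm_eq_abs, abs_of_nonneg (sub_nonneg.2 hs)]

/-- The times at which the lines `p`, `q` are near, in `N`. -/
def nearTS (M₃ : ℝ) (N : (ι → Ph) → Set ℝ) (ε : ℝ) (p q : (ι → Ph) → Ph) : Set ((ι → Ph) × ℝ) :=
  {x | x.2 ∈ N x.1 ∧ ‖(KU.free x.2 (p x.1)).1 - (KU.free x.2 (q x.1)).1‖ ≤ ε * M₃}

/-- The time during which the three lines are near. -/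
def nearT (M₃ : ℝ) (N : (ι → Ph) → Set ℝ) (ε : ℝ) (p q : (ι → Ph) → Ph) (Z : ι → Ph) : ℝ≥0∞ :=
  ∫⁻ s, (nearTS M₃ N ε p q).indicator 1 (Z, s)

theorem nt_le_nearT (hΦ : IsPotential Φ) (hε : 0 < ε) (hε1 : ε ≤ 1) {M M' K : ℝ}
    (hM' : 0 ≤ M') {P : List (Ev ι)} {a k i : ι} {Z : ι → Ph}
    (hZ : Z ∈ ntS Φ ε T M M' K P a k i) :
    ENNReal.ofReal ε ≤ nearT (1 + (M' + 1) * (1 + K))
      (tmS Φ ε T (T + M' + 1) (M + (M' + 1) * (1 + K)) K P a k i) ε
      (fun Z => finZ Φ ε (pl T P) Z a) (fun Z => finZ Φ ε (pl T P) Z k) Z := by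
  obtain ⟨hE, h, h0, hT, hR, ha, hk, hi, hd, hn⟩ := hZ
  have hEn : En (finZ Φ ε (pl T P) Z) = En Z := En_finZ hΦ hε.ne' hR.run
  have hsp : ∀ j l : ι, ‖(finZ Φ ε (pl T P) Z j).2 - (finZ Φ ε (pl T P) Z l).2‖ ≤ 1 + K :=
    fun j l => (speed_finZ hEn j l).trans (by linarith)
  have hsub : ∀ s ∈ Icc (h + ε * M') (h + ε * M' + ε), (Z, s) ∈ nearTS
      (1 + (M' + 1) * (1 + K)) (tmS Φ ε T (T + M' + 1) (M + (M' + 1) * (1 + K)) K P a k i) ε
      (fun Z => finZ Φ ε (pl T P) Z a) (fun Z => finZ Φ ε (pl T P) Z k) := by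
    intro s hs
    obtain ⟨h1, h2⟩ := hs
    have hεM : 0 ≤ ε * M' := by positivity
    have h3 : h ≤ s := by linarith
    have h4 : s - h ≤ ε * (M' + 1) := by linarith
    have h5 : ∀ j l : ι, (s - h) * ‖(finZ Φ ε (pl T P) Z j).2 - (finZ Φ ε (pl T P) Z l).2‖ ≤
        ε * ((M' + 1) * (1 + K)) := by
      intro j l
      calc _ ≤ (ε * (M' + 1)) * (1 + K) :=
            mul_le_mul h4 (hsp j l) (norm_nonneg _) (by positivity)
        _ = _ := by ring
    refine ⟨⟨by linarith, ?_, hR.mono_right h3, ha.trans h3, hk.trans h3, by linarith, ?_, hE⟩, ?_⟩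
    · have : ε * M' ≤ 1 * M' := mul_le_mul_of_nonneg_right hε1 hM'
      simp only
      linarith
    · refine (dist_free_le _ _ h3).trans ?_
      have := h5 i a
      simp only
      nlinarith
    · refine (dist_free_le _ _ h3).trans ?_
      have := h5 a k
      simp only
      nlinarith
  unfold nearT
  calc ENNReal.ofReal ε = volume (Icc (h + ε * M') (h + ε * M' + ε)) := by
        rw [Real.volume_Icc]; congr 1; ring
    _ ≤ ∫⁻ s, (Icc (h + ε * M') (h + ε * M' + ε)).indicator 1 s := by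
        rw [lintegral_indicator_one measurableSet_Icc]
    _ ≤ _ := by
        refine lintegral_mono fun s => ?_
        by_cases hs : s ∈ Icc (h + ε * M') (h + ε * M' + ε)
        · rw [indicator_of_mem hs, indicator_of_mem (hsub s hs)]
          exact le_rfl
        · rw [indicator_of_notMem hs]
          exact zero_le

/-- The run with the two additional contacts. -/
theorem run_two (hΦ : IsPotential Φ) (hε : 0 < ε) {M' M₁ K : ℝ} (hM' : 0 ≤ M')
    (hε1 : ε ≤ 1) {P : List (Ev ι)} {a k i : ι} (hak : a ≠ k) (hik : i ≠ k) {D : Finset ι}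
    (hD : Cl D (pl T P)) (ha : a ∉ D) (hi : i ∉ D) (hk : k ∈ D) {Z : ι → Ph} {s : ℝ}
    (hs : s ∈ tmS Φ ε T (T + M' + 1) M₁ K P a k i Z) {c : Ph}
    (h1 : Ctc ε (KU.free s (finZ Φ ε (pl T P) Z a))
      (KU.free s (boost c (finZ Φ ε (pl T P) Z k))))
    (h2 : Ctc ε (KU.free (s + ε) (finZ Φ ε (pl T P) Z i))
      (KU.free (s + ε) (boost c (finZ Φ ε (pl T P) Z k)))) :
    Run Φ ε (T + M' + 2) 0 (pl (T + M' + 2) (P ++ [Ev.gh a k, Ev.gh i k])) (fun _ => 0)
      (mv D c Z) := by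
  obtain ⟨g1, g2, g3, g4, g5, g6, g7, g8⟩ := hs
  have hpl : pl (T + M' + 2) (P ++ [Ev.gh a k, Ev.gh i k]) =
      pl (T + M' + 2) P ++ [(Ev.gh a k, T + M' + 2), (Ev.gh i k, T + M' + 2)] := by
    unfold pl
    rw [List.map_append]
    rfl
  rw [hpl]
  have r1 : RunTo Φ ε T 0 (pl T P) (fun _ => 0) (mv D c Z) s := (runTo_mv hD c 0 _ Z s).2 g3
  have r2 : RunTo Φ ε (T + M' + 2) 0 (pl (T + M' + 2) P) (fun _ => 0) (mv D c Z) s :=
    r1.widen (by linarith)
  have hB0 : ∀ j, 0 ≤ finB Φ ε (pl T P) (fun _ => 0) Z j :=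
    fun j => finB_nonneg hΦ hε (β := fun _ => 0) (fun _ => le_rfl) g3.run j
  refine r2.append ?_
  rw [finB_plT (T + M' + 2) T, finZ_plT (T + M' + 2) T, finB_mv hD, finZ_mv hD]
  have hm : ∀ j l : ι, 0 ≤ max (finB Φ ε (pl T P) (fun _ => 0) Z j)
      (finB Φ ε (pl T P) (fun _ => 0) Z l) := fun j l => (hB0 j).trans (le_max_left _ _)
  refine ⟨s, le_rfl, by linarith, ⟨hak, g4, g5, ?_, ?_⟩, s + ε, by linarith, by linarith,
    ⟨hik, ?_, ?_, ?_, ?_⟩, trivial⟩
  · rw [mv_of_notMem ha, mv_of_mem hk]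
    exact h1
  · have := hm a k
    simp only
    linarith
  · change finB Φ ε (pl T P) (fun _ => 0) Z i ≤ s + ε
    linarith
  · change finB Φ ε (pl T P) (fun _ => 0) Z k ≤ s + ε
    linarith
  · change Ctc ε (KU.free (s + ε) (mv D c (finZ Φ ε (pl T P) Z) i))
      (KU.free (s + ε) (mv D c (finZ Φ ε (pl T P) Z) k))
    rw [mv_of_notMem hi, mv_of_mem hk]
    exact h2
  · have := hm i k
    change s + ε ≤ max (finB Φ ε (pl T P) (fun _ => 0) Z i)
      (finB Φ ε (pl T P) (fun _ => 0) Z k) + (T + M' + 2)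
    linarith

theorem measurable_nearTS (hΦ : IsPotential Φ) (hε : 0 < ε) (M₃ T₂ M₁ K : ℝ) (P : List (Ev ι))
    (a k i : ι) : MeasurableSet (nearTS M₃ (tmS Φ ε T T₂ M₁ K P a k i) ε
      (fun Z => finZ Φ ε (pl T P) Z a) (fun Z => finZ Φ ε (pl T P) Z k)) := by
  have hZ : Measurable fun x : (ι → Ph) × ℝ => finZ Φ ε (pl T P) x.1 :=
    measurable_finZ hΦ hε.ne' _ measurable_fst
  exact (measurableSet_tmS hΦ hε.ne' T₂ M₁ K P a k i).inter (measurableSet_le
    (measurable_dist_free ((measurable_pi_apply a).comp hZ) ((measurable_pi_apply k).comp hZ)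
      measurable_snd) measurable_const)

/-- **Domination by a closed program.** -/
theorem near_dom (hΦ : IsPotential Φ) (hb : 0 < b) {P : List (Ev ι)} {a k i : ι}
    (hak : ¬Jn (pl T P) a k) (hai : Jn (pl T P) a i) {M M' K : ℝ} (hM : 0 ≤ M)
    (hM' : 0 ≤ M') (hK : 0 ≤ K) : ∃ C : ℝ≥0∞, C ≠ ∞ ∧ ∀ ε : ℝ, 0 < ε → ε ≤ 1 →
    ∀ R₁ : Finset ι, (∀ r ∈ R₁, ¬Jn (pl T P) k r) →
    massF b R₁ ((ntS Φ ε T M M' K P a k i).indicator 1) ≤
      C * massF (b / 2) R₁ (runI Φ ε (T + M' + 2)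
        (pl (T + M' + 2) (P ++ [Ev.gh a k, Ev.gh i k]))) := by
  set M₁ : ℝ := M + (M' + 1) * (1 + K) with hM₁
  set M₃ : ℝ := 1 + (M' + 1) * (1 + K) with hM₃
  have hM₃0 : 0 < M₃ := by positivity
  have hM₁0 : 0 ≤ M₁ := by positivity
  set W : ℝ := M₁ + 1 / 2 + (1 + K) with hW
  set E₁ : ℝ≥0∞ := ENNReal.ofReal (Real.exp (b * (Fintype.card ι * W ^ 2))) *
    (ω₃ * volume (Metric.closedBall (0 : E3) W)) with hE₁
  have hE₁t : E₁ ≠ ∞ := ENNReal.mul_ne_top ENNReal.ofReal_ne_top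
    (ENNReal.mul_ne_top ω₃_ne_top (vol_W_ne_top W))
  set g : ℝ≥0∞ := FL.bv * RA.g₀ with hg
  have hg0 : g ≠ 0 := mul_ne_zero FL.bv_ne_zero RA.g₀_ne_zero
  have hgt : g ≠ ∞ := ENNReal.mul_ne_top FL.bv_ne_top RA.g₀_ne_top
  refine ⟨ENNReal.ofReal (8 * M₃ ^ 3) * g⁻¹ * E₁, ENNReal.mul_ne_top (ENNReal.mul_ne_top
    ENNReal.ofReal_ne_top (ENNReal.inv_ne_top.2 hg0)) hE₁t, ?_⟩
  intro ε hε hε1 R₁ hR₁
  have hkR : k ∉ R₁ := fun h => hR₁ k h (Jn.refl _ _)
  set D : Finset ι := cls (pl T P) k with hD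
  have hcl : Cl D (pl T P) := cl_cls (pl T P) k
  have hkD : k ∈ D := self_mem_cls _ k
  have haD : a ∉ D := fun h => hak (mem_cls.1 h).symm
  have hiD : i ∉ D := fun h => hak (hai.trans (mem_cls.1 h).symm)
  have hRD : ∀ r ∈ R₁, r ∉ D := fun r hr h => hR₁ r hr (mem_cls.1 h)
  have hne : a ≠ k := fun h => hak (h ▸ Jn.refl _ _)
  have hik : i ≠ k := fun h => hak (h ▸ hai)
  set N : (ι → Ph) → Set ℝ := tmS Φ ε T (T + M' + 1) M₁ K P a k i with hN
  set p : (ι → Ph) → Ph := fun Z => finZ Φ ε (pl T P) Z a with hp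
  set q : (ι → Ph) → Ph := fun Z => finZ Φ ε (pl T P) Z k with hq
  have hNm : MeasurableSet {x : (ι → Ph) × ℝ | x.2 ∈ N x.1} :=
    measurableSet_tmS hΦ hε.ne' _ _ _ P a k i
  have h𝒩 : MeasurableSet (nearTS M₃ N ε p q) := measurable_nearTS hΦ hε M₃ _ _ _ P a k i
  have h𝒩m : Measurable ((nearTS M₃ N ε p q).indicator (1 : (ι → Ph) × ℝ → ℝ≥0∞)) :=
    measurable_const.indicator h𝒩
  set H : (ι → Ph) → ℝ≥0∞ := nearT M₃ N ε p q with hH
  have hHm : Measurable H := h𝒩m.lintegral_prod_right'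
  set Y : ℝ≥0∞ := massF (b / 2) R₁ (runI Φ ε (T + M' + 2)
        (pl (T + M' + 2) (P ++ [Ev.gh a k, Ev.gh i k]))) with hY
  set X : ℝ≥0∞ := massF b R₁ ((ntS Φ ε T M M' K P a k i).indicator 1) with hX
  -- step A
  have sA : ENNReal.ofReal ε * X ≤ massF b R₁ H := by
    simp only [hX]
    unfold massF
    rw [← lintegral_const_mul' _ _ ENNReal.ofReal_ne_top]
    refine lintegral_mono fun Z => ?_
    by_cases hZ : Z ∈ ntS Φ ε T M M' K P a k i
    · rw [indicator_of_mem hZ]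
      have := nt_le_nearT hΦ hε hε1 hM' hZ
      calc ENNReal.ofReal ε * (spat R₁ Z * (wgt b Z * (1 : (ι → Ph) → ℝ≥0∞) Z))
          = spat R₁ Z * (wgt b Z * ENNReal.ofReal ε) := by
            simp only [Pi.one_apply]; ring
        _ ≤ _ := mul_le_mul' le_rfl (mul_le_mul' le_rfl this)
    · rw [indicator_of_notMem hZ]
      simp
  -- step B
  set I : ℝ≥0∞ := ∫⁻ Z, spat (insert k R₁) Z * wgt b Z * volume (N Z) with hI
  have hFm : Measurable fun Z : ι → Ph => spat R₁ Z * wgt b Z :=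
    (measurable_spat _).mul (measurable_wgt b)
  have sB : massF b R₁ H = ENNReal.ofReal ((ε * M₃) ^ 3) * I := by
    have h1 := lintegral_avg D (F := fun Z => spat R₁ Z * wgt b Z) (H := H) hFm hHm
      (fun x Z => by rw [spat_mv hRD, wgt_mv]) (U := fun Z => (Z k).1)
      (measurable_pi_apply k).fst (fun x Z => by rw [mv_of_mem hkD]; rfl) measurable_φ₁
    have h2 : ∀ Z : ι → Ph, ∫⁻ x : E3, H (mv D (x, 0) Z) =
        ENNReal.ofReal ((ε * M₃) ^ 3) * ω₃ * volume (N Z) := by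
      intro Z
      simp only [hH]
      unfold nearT
      have hmv : Measurable fun y : E3 × ℝ => (mv D ((y.1, 0) : Ph) Z, y.2) :=
        (measurable_mv D (measurable_fst.prodMk measurable_const) measurable_const).prodMk
          measurable_snd
      rw [lintegral_lintegral_swap (f := fun (x : E3) (s : ℝ) =>
        (nearTS M₃ N ε p q).indicator (1 : (ι → Ph) × ℝ → ℝ≥0∞) (mv D (x, 0) Z, s))
        (h𝒩m.comp hmv).aemeasurable]
      have h3 : ∀ s : ℝ, ∫⁻ x : E3, (nearTS M₃ N ε p q).indicator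
          (1 : (ι → Ph) × ℝ → ℝ≥0∞) (mv D (x, 0) Z, s) =
          (N Z).indicator (fun _ => ENNReal.ofReal ((ε * M₃) ^ 3) * ω₃) s := by
        intro s
        by_cases hs : s ∈ N Z
        · rw [indicator_of_mem hs]
          rw [← vol_closedBall ((KU.free s (p Z)).1 - (KU.free s (q Z)).1)
            (by positivity : 0 ≤ ε * M₃),
            ← lintegral_indicator_one Metric.isClosed_closedBall.measurableSet]
          refine lintegral_congr fun x => ?_
          have h4 : (mv D (x, 0) Z, s) ∈ nearTS M₃ N ε p q ↔ x ∈ Metric.closedBall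
              ((KU.free s (p Z)).1 - (KU.free s (q Z)).1) (ε * M₃) := by
            unfold nearTS
            simp only [mem_ofPred_eq, Metric.mem_closedBall, dist_eq_norm]
            have h5 : s ∈ N (mv D (x, 0) Z) ↔ s ∈ N Z := by
              simp only [hN]
              rw [tmS_trans hcl haD hiD]
            rw [h5]
            simp only [hp, hq]
            rw [finZ_mv hcl, mv_of_notMem haD, mv_of_mem hkD]
            have h6 : (KU.free s (finZ Φ ε (pl T P) Z a)).1 -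
                (KU.free s (boost (x, 0) (finZ Φ ε (pl T P) Z k))).1 =
                -(x - ((KU.free s (finZ Φ ε (pl T P) Z a)).1 -
                  (KU.free s (finZ Φ ε (pl T P) Z k)).1)) := by
              unfold KU.free boost
              simp only [add_zero]
              abel
            rw [h6, norm_neg]
            exact ⟨fun h => h.2, fun h => ⟨hs, h⟩⟩
          by_cases h7 : (mv D (x, 0) Z, s) ∈ nearTS M₃ N ε p q
          · rw [indicator_of_mem h7, indicator_of_mem (h4.1 h7)]; rfl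
          · rw [indicator_of_notMem h7, indicator_of_notMem fun h => h7 (h4.2 h)]
        · rw [indicator_of_notMem hs]
          have h4 : ∀ x : E3, (mv D (x, 0) Z, s) ∉ nearTS M₃ N ε p q := by
            intro x h
            refine hs ?_
            have h5 : s ∈ N (mv D (x, 0) Z) := h.1
            simp only [hN] at h5 ⊢
            rwa [tmS_trans hcl haD hiD] at h5
          have h5 : ∀ x : E3, (nearTS M₃ N ε p q).indicator
              (1 : (ι → Ph) × ℝ → ℝ≥0∞) (mv D (x, 0) Z, s) = 0 := fun x =>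
            indicator_of_notMem (h4 x) _
          simp only [h5, lintegral_zero]
      simp only [h3]
      have hNZ : MeasurableSet (N Z) := measurable_prodMk_left hNm
      rw [lintegral_indicator_const hNZ]
    simp only [h2] at h1
    rw [lintegral_φ₁] at h1
    have h8 : ∫⁻ Z, spat R₁ Z * wgt b Z * φ₁ (Z k).1 *
        (ENNReal.ofReal ((ε * M₃) ^ 3) * ω₃ * volume (N Z)) =
        ω₃ * (ENNReal.ofReal ((ε * M₃) ^ 3) * I) := by
      simp only [hI]
      rw [← lintegral_const_mul' _ _ ENNReal.ofReal_ne_top, ← lintegral_const_mul' _ _ ω₃_ne_top]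
      refine lintegral_congr fun Z => ?_
      rw [spat_insert hkR]
      ring
    rw [h8] at h1
    have h9 := (ENNReal.mul_right_inj ω₃_ne_zero ω₃_ne_top).1 h1
    rw [← h9]
    unfold massF
    exact lintegral_congr fun Z => by ring
  -- step C
  have hrm : Measurable (runI Φ ε (T + M' + 2)
      (pl (T + M' + 2) (P ++ [Ev.gh a k, Ev.gh i k]))) := measurable_runI hΦ hε.ne' _
  have sC : ∀ Z : ι → Ph, ENNReal.ofReal (ε ^ 2 / 8) * g * volume (N Z) ≤
      ∫⁻ c in {c : Ph | ‖c.2‖ ≤ W}, runI Φ ε (T + M' + 2)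
        (pl (T + M' + 2) (P ++ [Ev.gh a k, Ev.gh i k])) (mv D c Z) := by
    intro Z
    rcases (N Z).eq_empty_or_nonempty with h0 | ⟨s₀, hs₀⟩
    · rw [h0, measure_empty, mul_zero]; exact zero_le
    have hEK : En Z ≤ K := hs₀.2.2.2.2.2.2.2
    have hrun : RunTo Φ ε T 0 (pl T P) (fun _ => 0) Z s₀ := hs₀.2.2.1
    have hEn : En (finZ Φ ε (pl T P) Z) = En Z := En_finZ hΦ hε.ne' hrun.run
    have h1 := RA.tester (ε := ε) (M := M₁) (W := W) hε (pa := finZ Φ ε (pl T P) Z a)
      (pi := finZ Φ ε (pl T P) Z i) (pb := finZ Φ ε (pl T P) Z k) (S := N Z)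
      (measurable_prodMk_left hNm) (fun s hs => hs.2.2.2.2.2.2.1)
      (by
        have := (speed_finZ hEn k i)
        simp only [hW]
        linarith)
    refine h1.trans ?_
    have hWm : MeasurableSet {c : Ph | ‖c.2‖ ≤ W} :=
      measurableSet_le measurable_snd.norm measurable_const
    have hcm : Measurable fun c : Ph => runI Φ ε (T + M' + 2)
        (pl (T + M' + 2) (P ++ [Ev.gh a k, Ev.gh i k])) (mv D c Z) :=
      hrm.comp (measurable_mv D measurable_id measurable_const)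
    have hAm : MeasurableSet ({c : Ph | ‖c.2‖ ≤ W} ∩ {c : Ph | runI Φ ε (T + M' + 2)
        (pl (T + M' + 2) (P ++ [Ev.gh a k, Ev.gh i k])) (mv D c Z) = 1}) :=
      hWm.inter (hcm (measurableSet_singleton 1))
    rw [← lintegral_indicator hWm]
    calc volume {c : Ph | ‖c.2‖ ≤ W ∧ ∃ s ∈ N Z,
          Ctc ε (KU.free s (finZ Φ ε (pl T P) Z a))
            (KU.free s (boost c (finZ Φ ε (pl T P) Z k))) ∧
          Ctc ε (KU.free (s + ε) (finZ Φ ε (pl T P) Z i))
            (KU.free (s + ε) (boost c (finZ Φ ε (pl T P) Z k)))}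
        ≤ volume ({c : Ph | ‖c.2‖ ≤ W} ∩ {c : Ph | runI Φ ε (T + M' + 2)
          (pl (T + M' + 2) (P ++ [Ev.gh a k, Ev.gh i k])) (mv D c Z) = 1}) := by
          refine measure_mono ?_
          rintro c ⟨hc, s, hs, hc1, hc2⟩
          exact ⟨hc, runI_of _ (run_two hΦ hε hM' hε1 hne hik hcl haD hiD hkD hs hc1 hc2)⟩
      _ = ∫⁻ c, ({c : Ph | ‖c.2‖ ≤ W} ∩ {c : Ph | runI Φ ε (T + M' + 2)
          (pl (T + M' + 2) (P ++ [Ev.gh a k, Ev.gh i k])) (mv D c Z) = 1}).indicator 1 c :=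
          (lintegral_indicator_one hAm).symm
      _ ≤ _ := by
          refine lintegral_mono fun c => ?_
          by_cases hc : c ∈ {c : Ph | ‖c.2‖ ≤ W} ∩ {c : Ph | runI Φ ε (T + M' + 2)
            (pl (T + M' + 2) (P ++ [Ev.gh a k, Ev.gh i k])) (mv D c Z) = 1}
          · rw [indicator_of_mem hc, indicator_of_mem hc.1]
            have := hc.2
            simp only [mem_ofPred_eq] at this
            rw [this]
            rfl
          · rw [indicator_of_notMem hc]
            exact zero_le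
  -- step D
  have sD : ENNReal.ofReal (ε ^ 2 / 8) * g * I ≤ E₁ * Y := by
    have h1 := rev_avg (b := b) hb hkD hkR hRD hrm W
    refine le_trans ?_ h1
    simp only [hI]
    rw [← lintegral_const_mul' _ _ (ENNReal.mul_ne_top ENNReal.ofReal_ne_top hgt)]
    refine lintegral_mono fun Z => ?_
    calc ENNReal.ofReal (ε ^ 2 / 8) * g * (spat (insert k R₁) Z * wgt b Z * volume (N Z))
        = spat (insert k R₁) Z * wgt b Z * (ENNReal.ofReal (ε ^ 2 / 8) * g * volume (N Z)) := by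
          ring
      _ ≤ _ := mul_le_mul' le_rfl (sC Z)
  -- step E
  have e1 : ENNReal.ofReal ((ε * M₃) ^ 3) = ENNReal.ofReal ε * ENNReal.ofReal (ε ^ 2 / 8) *
      ENNReal.ofReal (8 * M₃ ^ 3) := by
    rw [← ENNReal.ofReal_mul hε.le, ← ENNReal.ofReal_mul (by positivity)]
    congr 1; ring
  have hε0 : ENNReal.ofReal ε ≠ 0 := by simpa using hε
  have hε2 : ENNReal.ofReal (ε ^ 2 / 8) ≠ 0 := by
    have : 0 < ε ^ 2 / 8 := by positivity
    simpa using this
  have e2 : (ENNReal.ofReal ε * ENNReal.ofReal (ε ^ 2 / 8) * g) * X ≤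
      (ENNReal.ofReal ε * ENNReal.ofReal (ε ^ 2 / 8) * g) *
        (ENNReal.ofReal (8 * M₃ ^ 3) * g⁻¹ * E₁ * Y) := by
    calc (ENNReal.ofReal ε * ENNReal.ofReal (ε ^ 2 / 8) * g) * X
        = (ENNReal.ofReal (ε ^ 2 / 8) * g) * (ENNReal.ofReal ε * X) := by ring
      _ ≤ (ENNReal.ofReal (ε ^ 2 / 8) * g) * (ENNReal.ofReal ((ε * M₃) ^ 3) * I) := by
          rw [← sB]; exact mul_le_mul' le_rfl sA
      _ = ENNReal.ofReal ((ε * M₃) ^ 3) * (ENNReal.ofReal (ε ^ 2 / 8) * g * I) := by ring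
      _ ≤ ENNReal.ofReal ((ε * M₃) ^ 3) * (E₁ * Y) := mul_le_mul' le_rfl sD
      _ = (ENNReal.ofReal ε * ENNReal.ofReal (ε ^ 2 / 8)) *
          (ENNReal.ofReal (8 * M₃ ^ 3) * E₁ * Y) * (g * g⁻¹) := by
          rw [e1, ENNReal.mul_inv_cancel hg0 hgt]; ring
      _ = _ := by ring
  exact (ENNReal.mul_le_mul_iff_right (mul_ne_zero (mul_ne_zero hε0 hε2) hg0)
    (ENNReal.mul_ne_top (ENNReal.mul_ne_top ENNReal.ofReal_ne_top ENNReal.ofReal_ne_top) hgt)).1 e2

end Vale.Agent.P119.IND
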