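import Vale.Agent.P119.IND.TriWin3
import Vale.Agent.P119.IND.TriTest

/-!
# P119, block IND: the masses of the irregular final contacts (`helper76`)

* `quad_small`: two colliding pairs in contact;
* `tri_small`: a third body at a colliding pair.
-/

open MeasureTheory Filter Topology Set
open scoped ENNReal

set_option linter.unusedSectionVars false

noncomputable section

namespace Vale.Agent.P119.IND

open KU MM

variable {ι : Type} [DecidableEq ι] [Fintype ι] {Φ : E3 → ℝ} {ε T b : ℝ}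

/-! ### Births -/

theorem winR_births (hΦ : IsPotential Φ) (hε : 0 < ε) (P₁ L P₃ : List (Ev ι)) (a k : ι)
    {β : ι → ℝ} (hβ : ∀ j, 0 ≤ β j) :
    winR Φ ε T P₁ L P₃ a k β ⊆ winR Φ ε T P₁ L P₃ a k fun _ => 0 := by
  rintro Z ⟨h1, h2, h3, h4, h5, h6, h7, h8⟩
  have h0 : (0 : ι → ℝ) ≤ fun _ => 0 := fun _ => le_rfl
  have hle : (fun _ => 0 : ι → ℝ) ≤ β := hβ
  have g6 : RunTo Φ ε T 0 (pl T P₁) (fun _ => 0) Z (hitT ε (qq Φ ε T P₁ a k Z)) :=
    h6.birth hΦ hε h0 hle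
  have g0 : (0 : ι → ℝ) ≤ finB Φ ε (pl T P₁) (fun _ => 0) Z := finB_nonneg hΦ hε h0 g6.run
  have gle : finB Φ ε (pl T P₁) (fun _ => 0) Z ≤ finB Φ ε (pl T P₁) β Z := finB_mono _ hle Z
  exact ⟨h1, h2, h3, (gle a).trans h4, (gle k).trans h5, g6, h7.birth hΦ hε g0 gle,
    h8.birth hΦ hε g0 gle⟩

theorem triR_births (hΦ : IsPotential Φ) (hε : 0 < ε) (P₁ P₂ P₃ : List (Ev ι)) (a k i : ι)
    {β : ι → ℝ} (hβ : ∀ j, 0 ≤ β j) :
    triR hΦ ε T P₁ P₂ P₃ a k i β ⊆ triR hΦ ε T P₁ P₂ P₃ a k i fun _ => 0 := by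
  rintro Z ⟨h1, h2, h3, h4⟩
  exact ⟨winR_births hΦ hε _ _ _ _ _ hβ h1, h2, (finB_mono (β' := fun _ => 0) _ hβ Z i).trans h3, h4⟩

theorem quadR_births (hΦ : IsPotential Φ) (hε : 0 < ε) (P₁ P₂ P₃ P₄ : List (Ev ι)) (i w a k : ι)
    {β : ι → ℝ} (hβ : ∀ j, 0 ≤ β j) :
    quadR Φ ε T P₁ P₂ P₃ P₄ i w a k β ⊆ quadR Φ ε T P₁ P₂ P₃ P₄ i w a k fun _ => 0 :=
  inter_subset_inter_left _ (winR_births hΦ hε _ _ _ _ _ hβ)

/-! ### Centres of mass -/

theorem covL_com {Q : List (Ev ι × ℝ)} {P : List (Ev ι)} {a k : ι} (hQ : ∀ e ∈ pl T P, e ∈ Q)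
    (hak : (Ev.gh a k, T) ∈ Q) : CovL Q a fun Z => com (qq Φ ε T P a k Z) := by
  intro B hB x Z
  have h1 : Cl B (pl T P) := hB.mono hQ
  have h2 : a ∈ B ↔ k ∈ B := hB _ hak
  unfold qq
  simp only
  rw [finZ_mv h1, mv_pair h2, com_boost _ (finZ Φ ε (pl T P) Z a, finZ Φ ε (pl T P) Z k)]

theorem measurable_com_qq (hΦ : IsPotential Φ) (hε : ε ≠ 0) (P : List (Ev ι)) (a k : ι) :
    Measurable fun Z : ι → Ph => com (qq Φ ε T P a k Z) :=
  continuous_com.measurable.comp (measurable_qq hΦ hε P a k measurable_id)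

theorem vel_half {v : E3} {E : ℝ} (h : ‖v‖ ^ 2 ≤ E) : ‖v‖ ≤ (1 + E) / 2 := by
  nlinarith [sq_nonneg (‖v‖ - 1)]

theorem vel_fin (hΦ : IsPotential Φ) (hε : ε ≠ 0) {P : List (Ev ι × ℝ)}
    (hne : ∀ f ∈ P, f.1.fst ≠ f.1.snd) (Z : ι → Ph) (j : ι) :
    ‖(finZ Φ ε P Z j).2‖ ≤ (1 + En Z) / 2 := by
  refine vel_half ?_
  rw [← En_fin hΦ hε hne Z]
  exact sq_le_En _ j

theorem vel_com (hΦ : IsPotential Φ) (hε : ε ≠ 0) {P : List (Ev ι)}
    (hne : ∀ f ∈ pl T P, f.1.fst ≠ f.1.snd) (Z : ι → Ph) (a k : ι) :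
    ‖(com (qq Φ ε T P a k Z)).2‖ ≤ (1 + En Z) / 2 := by
  have h1 := vel_fin hΦ hε hne Z a
  have h2 := vel_fin hΦ hε hne Z k
  unfold com qq
  simp only
  rw [norm_smul]
  have h3 := norm_add_le (finZ Φ ε (pl T P) Z a).2 (finZ Φ ε (pl T P) Z k).2
  have h4 : ‖(2 : ℝ)⁻¹‖ = 1 / 2 := by norm_num
  rw [h4]
  linarith

theorem speed_le_two {p q : Ph} {E : ℝ} (hp : ‖p.2‖ ≤ (1 + E) / 2) (hq : ‖q.2‖ ≤ (1 + E) / 2) :
    ‖p.2 - q.2‖ ≤ 1 + E := by
  have := norm_sub_le p.2 q.2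
  linarith

/-! ### Two colliding pairs -/

/-- **Two colliding pairs in contact.** -/
theorem quad_small (hΦ : IsPotential Φ) (hT : 0 ≤ T) (hb : 0 < b) {P₁ P₂ P₃ P₄ : List (Ev ι)}
    {i w a k : ι} (hiw : i ≠ w)
    (hwf : Wf (pl T (P₁ ++ Ev.gh i w :: (P₂ ++ Ev.gh a k :: (P₃ ++ P₄))))) {δ : ℝ≥0∞}
    (hδ : δ ≠ 0) : ∀ᶠ ε : ℝ in 𝓝[>] 0, ∀ β : ι → ℝ, (∀ j, 0 ≤ β j) → ∀ R,
      Trv (pl T (P₁ ++ Ev.gh i w :: (P₂ ++ Ev.gh a k :: (P₃ ++ P₄))) ++ [(Ev.gh a i, T)]) R →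
      massF b R ((quadR Φ ε T P₁ P₂ P₃ P₄ i w a k β).indicator 1) ≤
        δ * ENNReal.ofReal (ε ^ 2) ^ (Fintype.card ι - R.card) := by
  have hl : P₂ ++ Ev.gh a k :: (P₃ ++ P₄) = (P₂ ++ Ev.gh a k :: P₃) ++ P₄ := by simp
  rw [hl] at hwf ⊢
  have h := win_small (ι := ι) (P₁ := P₁) (L := P₂ ++ Ev.gh a k :: P₃) (P₃ := P₄) hΦ hT hb hiw
    (by simp) hwf a i hδ
  filter_upwards [h, ev_one] with ε H ⟨h2, h3⟩
  intro β hβ R hR
  have hm : ∀ f ∈ pl T (P₁ ++ P₂), f ∈ pl T (P₁ ++ Ev.gh i w :: (P₂ ++ Ev.gh a k :: P₃)) := by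
    intro f hf
    rw [pl_append] at hf
    rw [pl_insert, pl_insert]
    simp only [List.mem_append, List.mem_cons] at hf ⊢
    tauto
  have hm1 : ∀ f ∈ pl T P₁, f ∈ pl T (P₁ ++ Ev.gh i w :: (P₂ ++ Ev.gh a k :: P₃)) := by
    intro f hf
    rw [pl_insert]
    exact List.mem_append_left _ hf
  have hH := H (fun Z => com (qq Φ ε T (P₁ ++ P₂) a k Z)) (fun Z => com (qq Φ ε T P₁ i w Z))
    (measurable_com_qq hΦ h2.ne' _ _ _) (measurable_com_qq hΦ h2.ne' _ _ _)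
    (covL_com hm (by rw [pl_insert, pl_insert]; simp))
    (covL_com hm1 (by rw [pl_insert]; simp))
    (fun hne Z => speed_le_two
      (vel_com hΦ h2.ne' (fun f hf => hne f (by
        rw [pl_append] at hf ⊢
        rw [pl_insert]
        simp only [List.mem_append, List.mem_cons] at hf ⊢
        tauto)) Z a k)
      (vel_com hΦ h2.ne' (fun f hf => hne f (by
        rw [pl_append]
        exact List.mem_append_left _ hf)) Z i w)) R hR
  refine le_trans (massF_mono fun Z => ?_) hH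
  exact indicator_le_indicator_of_subset (quadR_births hΦ h2 _ _ _ _ _ _ _ _ hβ)
    (fun _ => zero_le) Z

/-! ### A third body, no event during the collision -/

variable (Φ T) in
/-- The pair `a`, `k` begins to collide after the events of `P₁`, and `i` is near. -/
def nrS (ε M M' K : ℝ) (P₁ : List (Ev ι)) (a k i : ι) : Set (ι → Ph) :=
  {Z | En Z ≤ K ∧ Meets ε (qq Φ ε T P₁ a k Z) ∧ 0 ≤ hitT ε (qq Φ ε T P₁ a k Z) ∧
    hitT ε (qq Φ ε T P₁ a k Z) ≤ T ∧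
    RunTo Φ ε T 0 (pl T P₁) (fun _ => 0) Z (hitT ε (qq Φ ε T P₁ a k Z)) ∧
    finB Φ ε (pl T P₁) (fun _ => 0) Z a ≤ hitT ε (qq Φ ε T P₁ a k Z) ∧
    finB Φ ε (pl T P₁) (fun _ => 0) Z k ≤ hitT ε (qq Φ ε T P₁ a k Z) ∧
    finB Φ ε (pl T P₁) (fun _ => 0) Z i ≤ hitT ε (qq Φ ε T P₁ a k Z) + ε * M' ∧
    ‖(KU.free (hitT ε (qq Φ ε T P₁ a k Z)) (finZ Φ ε (pl T P₁) Z a)).1 -
      (KU.free (hitT ε (qq Φ ε T P₁ a k Z)) (finZ Φ ε (pl T P₁) Z i)).1‖ ≤ ε * M}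

theorem measurableSet_nrS (hΦ : IsPotential Φ) (hε : ε ≠ 0) (M M' K : ℝ) (P₁ : List (Ev ι))
    (a k i : ι) : MeasurableSet (nrS Φ T ε M M' K P₁ a k i) := by
  have hq : Measurable fun Z : ι → Ph => qq Φ ε T P₁ a k Z :=
    measurable_qq hΦ hε P₁ a k measurable_id
  have hh : Measurable fun Z : ι → Ph => hitT ε (qq Φ ε T P₁ a k Z) := measurable_hitT.comp hq
  have hZ : Measurable fun Z : ι → Ph => finZ Φ ε (pl T P₁) Z :=
    measurable_finZ hΦ hε _ measurable_id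
  have hB : Measurable fun Z : ι → Ph => finB Φ ε (pl T P₁) (fun _ => 0) Z :=
    measurable_finB hΦ hε _ (β := fun _ _ => 0) measurable_const measurable_id
  have hb : ∀ j, Measurable fun Z : ι → Ph => finB Φ ε (pl T P₁) (fun _ => 0) Z j := fun j =>
    (measurable_pi_apply j).comp hB
  have hz : ∀ j, Measurable fun Z : ι → Ph => finZ Φ ε (pl T P₁) Z j := fun j =>
    (measurable_pi_apply j).comp hZ
  have a1 : MeasurableSet {Z : ι → Ph | En Z ≤ K} := measurableSet_le measurable_En measurable_const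
  have a2 : MeasurableSet {Z : ι → Ph | Meets ε (qq Φ ε T P₁ a k Z)} := hq measurableSet_meets
  have a3 : MeasurableSet {Z : ι → Ph | 0 ≤ hitT ε (qq Φ ε T P₁ a k Z)} :=
    measurableSet_le measurable_const hh
  have a4 : MeasurableSet {Z : ι → Ph | hitT ε (qq Φ ε T P₁ a k Z) ≤ T} :=
    measurableSet_le hh measurable_const
  have a5 : MeasurableSet {Z : ι → Ph |
      RunTo Φ ε T 0 (pl T P₁) (fun _ => 0) Z (hitT ε (qq Φ ε T P₁ a k Z))} :=
    measurableSet_runTo hΦ hε _ (β := fun _ _ => 0) measurable_const measurable_id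
      measurable_const hh
  have a6 : MeasurableSet {Z : ι → Ph | finB Φ ε (pl T P₁) (fun _ => 0) Z a ≤
      hitT ε (qq Φ ε T P₁ a k Z)} := measurableSet_le (hb a) hh
  have a7 : MeasurableSet {Z : ι → Ph | finB Φ ε (pl T P₁) (fun _ => 0) Z k ≤
      hitT ε (qq Φ ε T P₁ a k Z)} := measurableSet_le (hb k) hh
  have a8 : MeasurableSet {Z : ι → Ph | finB Φ ε (pl T P₁) (fun _ => 0) Z i ≤
      hitT ε (qq Φ ε T P₁ a k Z) + ε * M'} := measurableSet_le (hb i) (hh.add_const _)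
  have a9 : MeasurableSet {Z : ι → Ph |
      ‖(KU.free (hitT ε (qq Φ ε T P₁ a k Z)) (finZ Φ ε (pl T P₁) Z a)).1 -
      (KU.free (hitT ε (qq Φ ε T P₁ a k Z)) (finZ Φ ε (pl T P₁) Z i)).1‖ ≤ ε * M} :=
    measurableSet_le (measurable_dist_line (hz a) (hz i) hh) measurable_const
  exact a1.inter (a2.inter (a3.inter (a4.inter (a5.inter (a6.inter (a7.inter (a8.inter a9)))))))

theorem inv_nrS (M M' K : ℝ) {P₁ : List (Ev ι)} {Q : List (Ev ι × ℝ)} {a k i : ι}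
    (hQ : ∀ e ∈ pl T P₁, e ∈ Q) (hak : (Ev.gh a k, T) ∈ Q) (hai : (Ev.gh a i, T) ∈ Q) :
    Inv Q fun Z => (nrS Φ T ε M M' K P₁ a k i).indicator (1 : (ι → Ph) → ℝ≥0∞) Z := by
  intro B hB x Z
  have h1 : Cl B (pl T P₁) := hB.mono hQ
  have h2 : a ∈ B ↔ k ∈ B := hB _ hak
  have h3 : a ∈ B ↔ i ∈ B := hB _ hai
  refine ind_congr ?_
  have e1 : qq Φ ε T P₁ a k (mv B (x, 0) Z) =
      (boost (if a ∈ B then (x, 0) else 0) (qq Φ ε T P₁ a k Z).1,
        boost (if a ∈ B then (x, 0) else 0) (qq Φ ε T P₁ a k Z).2) := by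
    unfold qq
    rw [finZ_mv h1, mv_pair h2]
  have e2 := mv_pair h3 (x, 0) (finZ Φ ε (pl T P₁) Z)
  rw [Prod.mk.injEq] at e2
  unfold nrS
  simp only [mem_ofPred_eq]
  rw [En_trans, runTo_mv h1, finB_mv h1, finZ_mv h1, e1, e2.1, e2.2,
    meets_boost _ (qq Φ ε T P₁ a k Z), hitT_boost _ (qq Φ ε T P₁ a k Z)]
  have h4 : ∀ (s : ℝ) (c p q : Ph), (KU.free s (boost c p)).1 - (KU.free s (boost c q)).1 =
      (KU.free s p).1 - (KU.free s q).1 := by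
    intro s c p q
    unfold KU.free boost
    simp only
    module
  rw [h4]

theorem jn_le {P Q : List (Ev ι × ℝ)} (h : ∀ e ∈ P, Jn Q e.1.fst e.1.snd) {i k : ι}
    (hJ : Jn P i k) : Jn Q i k := by
  induction hJ with
  | rel x y h' =>
    obtain ⟨e, he, rfl, rfl⟩ := h'
    exact h e he
  | refl x => exact Jn.refl _ _
  | symm x y _ ih => exact ih.symm
  | trans x y z _ _ ih1 ih2 => exact ih1.trans ih2

theorem jn_plT {T' : ℝ} {P : List (Ev ι)} {Q : List (Ev ι × ℝ)}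
    (h : ∀ e ∈ pl T' P, e ∈ Q) {i k : ι} (hJ : Jn (pl T P) i k) : Jn Q i k := by
  refine jn_sub (fun e he => ?_) hJ
  unfold pl at he
  obtain ⟨f, hf, rfl⟩ := List.mem_map.1 he
  exact ⟨(f, T'), h _ (List.mem_map.2 ⟨f, hf, rfl⟩), rfl⟩

/-- The same classes. -/
theorem trv_two {T' : ℝ} {P₁ : List (Ev ι)} {a k i : ι} {R : Finset ι}
    (h : Trv (pl T (P₁ ++ [Ev.gh a k]) ++ [(Ev.gh a i, T)]) R) :
    Trv (pl T' (P₁ ++ [Ev.gh a k, Ev.gh i k])) R := by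
  refine h.congr fun c d => ⟨jn_le fun e he => ?_, jn_le fun e he => ?_⟩
  · have hak : Jn (pl T' (P₁ ++ [Ev.gh a k, Ev.gh i k])) a k :=
      jn_of_mem (e := (Ev.gh a k, T')) (by unfold pl; simp)
    have hik : Jn (pl T' (P₁ ++ [Ev.gh a k, Ev.gh i k])) i k :=
      jn_of_mem (e := (Ev.gh i k, T')) (by unfold pl; simp)
    rw [pl_append] at he
    simp only [List.mem_append, List.mem_cons, List.not_mem_nil, or_false, pl, List.map_cons,
      List.map_nil, List.mem_map] at he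
    rcases he with (⟨f, hf, rfl⟩ | rfl) | rfl
    · exact jn_of_mem (e := (f, T')) (by unfold pl; simp [hf])
    · exact hak
    · exact hak.trans hik.symm
  · have hak : Jn (pl T (P₁ ++ [Ev.gh a k]) ++ [(Ev.gh a i, T)]) a k :=
      jn_of_mem (e := (Ev.gh a k, T)) (by unfold pl; simp)
    have hai : Jn (pl T (P₁ ++ [Ev.gh a k]) ++ [(Ev.gh a i, T)]) a i :=
      jn_of_mem (e := (Ev.gh a i, T)) (by simp)
    rw [pl_append] at he
    simp only [List.mem_append, List.mem_cons, List.not_mem_nil, or_false, pl, List.map_cons,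
      List.map_nil, List.mem_map] at he
    rcases he with ⟨f, hf, rfl⟩ | rfl | rfl
    · exact jn_of_mem (e := (f, T)) (by unfold pl; simp [hf])
    · exact hak
    · exact hai.symm.trans hak

theorem trv_swap {P₁ : List (Ev ι)} {a k i : ι} {R : Finset ι}
    (h : Trv (pl T (P₁ ++ [Ev.gh a k]) ++ [(Ev.gh a i, T)]) R) :
    Trv (pl T (P₁ ++ [Ev.gh k a]) ++ [(Ev.gh k i, T)]) R := by
  refine h.congr fun c d => ⟨jn_le fun e he => ?_, jn_le fun e he => ?_⟩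
  · have hak : Jn (pl T (P₁ ++ [Ev.gh k a]) ++ [(Ev.gh k i, T)]) k a :=
      jn_of_mem (e := (Ev.gh k a, T)) (by unfold pl; simp)
    have hik : Jn (pl T (P₁ ++ [Ev.gh k a]) ++ [(Ev.gh k i, T)]) k i :=
      jn_of_mem (e := (Ev.gh k i, T)) (by unfold pl; simp)
    rw [pl_append] at he
    simp only [List.mem_append, List.mem_cons, List.not_mem_nil, or_false, pl, List.map_cons,
      List.map_nil, List.mem_map] at he
    rcases he with (⟨f, hf, rfl⟩ | rfl) | rfl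
    · exact jn_of_mem (e := (f, T)) (by unfold pl; simp [hf])
    · exact hak.symm
    · exact hak.symm.trans hik
  · have hak : Jn (pl T (P₁ ++ [Ev.gh a k]) ++ [(Ev.gh a i, T)]) a k :=
      jn_of_mem (e := (Ev.gh a k, T)) (by unfold pl; simp)
    have hai : Jn (pl T (P₁ ++ [Ev.gh a k]) ++ [(Ev.gh a i, T)]) a i :=
      jn_of_mem (e := (Ev.gh a i, T)) (by simp)
    rw [pl_append] at he
    simp only [List.mem_append, List.mem_cons, List.not_mem_nil, or_false, pl, List.map_cons,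
      List.map_nil, List.mem_map] at he
    rcases he with (⟨f, hf, rfl⟩ | rfl) | rfl
    · exact jn_of_mem (e := (f, T)) (by unfold pl; simp [hf])
    · exact hak.symm
    · exact hak.symm.trans hai

/-- `near_dom` and the small lemma. -/
theorem nt_small (hΦ : IsPotential Φ) (hT : 0 ≤ T) (hb : 0 < b) {P₁ : List (Ev ι)} {a k i : ι}
    (hbr : ¬Jn (pl T P₁) a k) (hai : Jn (pl T P₁) a i)
    (hwf : ∀ T', Wf (pl T' (P₁ ++ [Ev.gh a k, Ev.gh i k]))) {M M' K : ℝ} (hM : 0 ≤ M)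
    (hM' : 0 ≤ M') (hK : 0 ≤ K) : ∃ C : ℝ≥0∞, C ≠ ∞ ∧ ∀ ε : ℝ, 0 < ε → ε ≤ 1 →
    ∀ S : Set (ι → Ph), MeasurableSet S → S ⊆ ntS Φ ε T M M' K P₁ a k i →
    Inv (pl T (P₁ ++ [Ev.gh a k]) ++ [(Ev.gh a i, T)])
      (fun Z => S.indicator (1 : (ι → Ph) → ℝ≥0∞) Z) →
    ∀ R, Trv (pl T (P₁ ++ [Ev.gh a k]) ++ [(Ev.gh a i, T)]) R →
    massF b R (S.indicator 1) ≤
      C * ENNReal.ofReal (√ε) * ENNReal.ofReal (ε ^ 2) ^ (Fintype.card ι - R.card) := by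
  obtain ⟨C₁, hC₁, H₁⟩ := near_dom (ι := ι) hΦ hb hbr hai hM hM' hK
  have hcl : Closed (pl (T + M' + 2) (P₁ ++ [Ev.gh a k, Ev.gh i k])) := by
    have hl : pl (T + M' + 2) (P₁ ++ [Ev.gh a k, Ev.gh i k]) =
        pl (T + M' + 2) (P₁ ++ [Ev.gh a k]) ++ [(Ev.gh i k, T + M' + 2)] := by
      unfold pl; simp
    rw [hl, closed_concat]
    right
    change Jn _ i k
    have h1 : Jn (pl (T + M' + 2) (P₁ ++ [Ev.gh a k])) a k :=
      jn_of_mem (e := (Ev.gh a k, T + M' + 2)) (by unfold pl; simp)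
    have h2 : Jn (pl (T + M' + 2) (P₁ ++ [Ev.gh a k])) a i := by
      refine jn_plT (T' := T + M' + 2) (fun e he => ?_) hai
      rw [pl_append]
      exact List.mem_append_left _ he
    exact h2.symm.trans h1
  obtain ⟨C₂, hC₂, H₂⟩ := small_pl_le (ι := ι) (T := T + M' + 2) hΦ (by linarith)
    (show 0 < b / 2 by positivity) (hwf (T + M' + 2)) hcl
  refine ⟨C₁ * C₂, ENNReal.mul_ne_top hC₁ hC₂, ?_⟩
  intro ε hε hε1 S hS hSn hSi R hR
  obtain ⟨R₁, hR₁, haR, hcard, hmass⟩ := exists_rep (b := b) hR a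
    (F := fun Z => S.indicator (1 : (ι → Ph) → ℝ≥0∞) Z) (measurable_const.indicator hS) hSi
  have hmass' : massF b R (S.indicator 1) = massF b R₁ (S.indicator 1) := hmass
  rw [hmass']
  have hak : Jn (pl T (P₁ ++ [Ev.gh a k]) ++ [(Ev.gh a i, T)]) a k :=
    jn_of_mem (e := (Ev.gh a k, T)) (by unfold pl; simp)
  have hno : ∀ r ∈ R₁, ¬Jn (pl T P₁) k r := by
    intro r hr hJ
    have h1 : Jn (pl T (P₁ ++ [Ev.gh a k]) ++ [(Ev.gh a i, T)]) k r :=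
      hJ.mono fun e he => by
        rw [pl_append]
        exact List.mem_append_left _ (List.mem_append_left _ he)
    have h2 := hR₁.uni a haR r hr (hak.trans h1)
    exact hbr (h2 ▸ hJ).symm
  have h1 := H₁ ε hε hε1 R₁ hno
  have h2 := H₂ ε hε hε1 R₁ (trv_two hR₁)
  have h3 : massF b R₁ (S.indicator 1) ≤
      massF b R₁ ((ntS Φ ε T M M' K P₁ a k i).indicator 1) :=
    massF_mono fun Z => indicator_le_indicator_of_subset hSn (fun _ => zero_le) Z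
  refine h3.trans (h1.trans ((mul_le_mul' le_rfl h2).trans (le_of_eq ?_)))
  rw [hcard]
  ring

end Vale.Agent.P119.IND
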