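import Vale.Agent.P119.IND.NearR
import Vale.Agent.P119.IND.IrrInv
import Vale.Agent.P119.IND.TriMass

/-!
# P119, block IND: the masses of two programs near each other (`helper295`)

* `Lfn.Ok.covL`, `Lfn.Ok.speed`: the line functions of `helper498` are attached to a label, and their
  speeds are bounded by the energy;
* `massR_near`: the mass of `nearR` is bounded (the near edge is counted as a joining edge);
* `nears_bdd`, `nears_small`: the relations `nears Φ T N c₁` with `c₁ < c₀` are small.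
-/

open MeasureTheory Filter Topology Set
open scoped ENNReal NNReal

set_option linter.unusedSectionVars false

noncomputable section

namespace Vale.Agent.P119.IND

open KU FL GC MM PB.CT

variable {Φ : E3 → ℝ} {ε T b c : ℝ}

section lfn

variable {ι : Type} [DecidableEq ι]

theorem Cl.jn {Q : List (Ev ι × ℝ)} {B : Finset ι} (h : Cl B Q) {i k : ι} (hJ : Jn Q i k) :
    i ∈ B ↔ k ∈ B := by
  induction hJ with
  | rel x y h' =>
    obtain ⟨e, he, rfl, rfl⟩ := h'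
    exact h e he
  | refl x => exact Iff.rfl
  | symm x y _ ih => exact ih.symm
  | trans x y z _ _ ih1 ih2 => exact ih1.trans ih2

theorem Lfn.Ok.cl {Q : List (Ev ι × ℝ)} {g : Lfn ι} (h : g.Ok Q) {B : Finset ι} (hB : Cl B Q) :
    Cl B (pl T g.P) := by
  intro e he
  unfold pl at he
  obtain ⟨e', he', rfl⟩ := List.mem_map.1 he
  exact hB.jn (h.ev e' he').2

theorem Lfn.Ok.covL {Q : List (Ev ι × ℝ)} {g : Lfn ι} (h : g.Ok Q) :
    CovL Q g.i (g.val Φ ε T) := by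
  intro B hB x Z
  have h1 : Cl B (pl T g.P) := h.cl hB
  have h2 : g.i ∈ B ↔ g.k ∈ B := hB.jn h.jn
  unfold Lfn.val qq
  rw [finZ_mv h1, mv_pair h2, com_boost _ (finZ Φ ε (pl T g.P) Z g.i, finZ Φ ε (pl T g.P) Z g.k)]

theorem Lfn.Ok.speed [Fintype ι] (hΦ : IsPotential Φ) (hε : ε ≠ 0) {Q : List (Ev ι × ℝ)}
    {g : Lfn ι} (h : g.Ok Q) (Z : ι → Ph) : ‖(g.val Φ ε T Z).2‖ ≤ (1 + En Z) / 2 := by
  refine vel_com hΦ hε (fun f hf => ?_) Z g.i g.k
  unfold pl at hf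
  obtain ⟨e', he', rfl⟩ := List.mem_map.1 hf
  exact (h.ev e' he').1

end lfn

/-- A near relation is invariant under the translations of the classes. -/
theorem nearR_inv {n : ℕ} {P : List (Ev (Fin n))} {g₁ g₂ : Lfn (Fin n)} (h₁ : g₁.Ok (pl T P))
    (h₂ : g₂.Ok (pl T P)) {B : Finset (Fin n)} (hB : Cl B (pl T P ++ [(Ev.gh g₁.i g₂.i, T)]))
    (β : Fin n → ℝ) (a : E3) (Z : Fin n → Ph) :
    (fun i => (β i, mv B ((a, 0) : Ph) Z i)) ∈ nearR Φ ε T P g₁ g₂ ↔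
      (fun i => (β i, Z i)) ∈ nearR Φ ε T P g₁ g₂ := by
  have hB1 : Cl B (pl T P) := hB.mono fun e he => List.mem_append_left _ he
  have hik : g₁.i ∈ B ↔ g₂.i ∈ B := hB (Ev.gh g₁.i g₂.i, T) (by simp)
  refine and_congr (run_mv hB1 _ 0 β Z) ?_
  have e1 := h₁.covL (Φ := Φ) (ε := ε) (T := T) B hB1 a Z
  have e2 := h₂.covL (Φ := Φ) (ε := ε) (T := T) B hB1 a Z
  refine mem_cmR_mv (x := a) ?_
  by_cases hi : g₁.i ∈ B
  · left
    rw [if_pos hi] at e1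
    rw [if_pos (hik.1 hi)] at e2
    exact ⟨e1, e2⟩
  · right
    rw [if_neg hi, boost_zero] at e1
    rw [if_neg fun h => hi (hik.2 h), boost_zero] at e2
    exact ⟨e1, e2⟩

/-- **The mass of the near relations.** -/
theorem massR_near (hΦ : IsPotential Φ) {f₀ : Ph → ℝ} (hf : Measurable f₀) {M₁ : ℝ} (hM₁ : 0 ≤ M₁)
    (hmarg : ∀ v, ∫⁻ x, ENNReal.ofReal (f₀ (x, v)) ≤ ENNReal.ofReal (M₁ * Real.exp (-b * ‖v‖ ^ 2)))
    (hbc : c < b) {T : ℝ} (hT : 0 ≤ T) (N : ℕ) :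
    ∃ C : ℝ≥0∞, C ≠ ∞ ∧ ∀ ε : ℝ, 0 < ε → ε ≤ 1 → ∀ n ≤ N, ∀ P : List (Ev (Fin n)), P.length ≤ N →
      ∀ g₁ g₂ : Lfn (Fin n), g₁.Ok (pl T P) → g₂.Ok (pl T P) → ∀ Rs,
      Trv (pl T P ++ [(Ev.gh g₁.i g₂.i, T)]) Rs →
      MassR f₀ ε b c (nearR Φ ε T P g₁ g₂) Rs C := by
  have hbc' : 0 < b - c := by linarith
  have h1 : ∀ n k : ℕ, ∃ C : ℝ≥0∞, C ≠ ∞ ∧ ∀ P : List (Ev (Fin n) × ℝ), P.length = k →
      (∀ e ∈ P, 0 ≤ e.2) → ∀ ε : ℝ, 0 < ε → ∀ R : Finset (Fin n), Trv P R →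
      mass Φ ε T ((b - c) / 2) R P ≤
        C * ENNReal.ofReal (ε ^ 2) ^ (Fintype.card (Fin n) - R.card) * cost ε [] P := fun n k =>
    mass_le hΦ T k ((b - c) / 2) (by linarith)
  choose C hC h using h1
  set K : ℝ≥0∞ := 1 + ENNReal.ofReal M₁ * ω₃⁻¹ with hK
  have hK1 : 1 ≤ K := le_self_add
  have hKt : K ≠ ∞ := by
    rw [hK]
    exact ENNReal.add_ne_top.2 ⟨ENNReal.one_ne_top, ENNReal.mul_ne_top ENNReal.ofReal_ne_top
      (ENNReal.inv_ne_top.2 ω₃_ne_zero)⟩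
  set A : ℝ≥0∞ := ENNReal.ofReal (1 + T) with hA
  have hA1 : 1 ≤ A := by
    rw [hA, ← ENNReal.ofReal_one]
    exact ENNReal.ofReal_le_ofReal (by linarith)
  refine ⟨K ^ N * (Cf (b - c) T * ((∑ n ∈ Finset.range (N + 1), ∑ k ∈ Finset.range (N + 1),
    C n k) * A ^ N)),
    ENNReal.mul_ne_top (ENNReal.pow_ne_top hKt) (ENNReal.mul_ne_top (Cf_ne_top _ _)
      (ENNReal.mul_ne_top (ENNReal.sum_ne_top.2
      fun n _ => ENNReal.sum_ne_top.2 fun k _ => hC n k) (ENNReal.pow_ne_top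
      ENNReal.ofReal_ne_top))), ?_⟩
  intro ε hε hε1 n hn P hP g₁ g₂ hg₁ hg₂ Rs hRs
  have h2 : MassR f₀ ε b c (nearR Φ ε T P g₁ g₂) Rs ((ENNReal.ofReal M₁ * ω₃⁻¹) ^ Rs.card *
      (Cf (b - c) T * (C n P.length * A ^ P.length))) := by
    refine massR_of_loc hf hM₁ hmarg hε hRs (measurableSet_nearR hΦ hε.ne' P g₁ g₂)
      (fun r _ β a Z => nearR_inv hg₁ hg₂ (cl_cls _ r) β a Z) fun β hβ => ?_
    have h3 : massF (b - c) Rs (fun Z => runI Φ ε T (pl T P) Z *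
        (cmR ε T (g₁.val Φ ε T) (g₂.val Φ ε T)).indicator 1 Z) ≤
        Cf (b - c) T * (C n P.length * A ^ P.length) *
          ENNReal.ofReal (ε ^ 2) ^ (Fintype.card (Fin n) - Rs.card) := by
      refine fin_peel hε hε1 hT hbc' (measurable_runI hΦ hε.ne' _) (inv_runI _)
        (measurable_lval hΦ hε.ne' g₁) (measurable_lval hΦ hε.ne' g₂) hg₁.covL hg₂.covL
        (fun Z => speed_le_two (hg₁.speed hΦ hε.ne' Z) (hg₂.speed hΦ hε.ne' Z))
        (fun R' hR' => ?_) hRs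
      have h4 := h n P.length (pl T P) (by simp [pl]) (fun e he => by
        obtain ⟨e', -, rfl⟩ := List.mem_map.1 he
        exact hT) ε hε R' hR'
      have h5 : cost ε [] (pl T P) ≤ A ^ P.length := by
        have h6 := cost_le hT hε1 [] (P := pl T P) fun e he => by
          obtain ⟨e', -, rfl⟩ := List.mem_map.1 he
          exact le_rfl
        rwa [show (pl T P).length = P.length by simp [pl]] at h6
      rw [mass_eq_massF] at h4
      calc _ ≤ C n P.length * ENNReal.ofReal (ε ^ 2) ^ (Fintype.card (Fin n) - R'.card) *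
            cost ε [] (pl T P) := h4
        _ ≤ C n P.length * ENNReal.ofReal (ε ^ 2) ^ (Fintype.card (Fin n) - R'.card) *
            A ^ P.length := mul_le_mul_right h5 _
        _ = _ := by ring
    rw [Fintype.card_fin] at h3
    have h4 : ∫⁻ Z : Fin n → Ph, spat Rs Z * (wgt (b - c) Z *
        ({Z : Fin n → Ph | (fun i => (β i, Z i)) ∈ nearR Φ ε T P g₁ g₂}).indicator 1 Z) ≤
        massF (b - c) Rs (fun Z => runI Φ ε T (pl T P) Z *
        (cmR ε T (g₁.val Φ ε T) (g₂.val Φ ε T)).indicator 1 Z) := by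
      refine lintegral_mono fun Z => mul_le_mul' le_rfl (mul_le_mul' le_rfl ?_)
      by_cases hZ : Z ∈ {Z : Fin n → Ph | (fun i => (β i, Z i)) ∈ nearR Φ ε T P g₁ g₂}
      · have h5 : Run Φ ε T 0 (pl T P) (fun _ => 0) Z :=
          run_horizon hΦ hε le_rfl le_rfl (fun _ => le_rfl) hβ hZ.1
        have h6 : Z ∈ cmR ε T (g₁.val Φ ε T) (g₂.val Φ ε T) := hZ.2
        rw [indicator_of_mem hZ]
        beta_reduce
        rw [runI_of _ h5, indicator_of_mem h6]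
        simp
      · rw [indicator_of_notMem hZ]
        exact zero_le
    refine h4.trans (h3.trans (le_of_eq ?_))
    ring
  intro β hβ
  refine (h2 β hβ).trans ?_
  have h3 : (ENNReal.ofReal M₁ * ω₃⁻¹) ^ Rs.card ≤ K ^ N := by
    have h4 : Rs.card ≤ N := by
      have := Finset.card_le_univ Rs
      rw [Fintype.card_fin] at this
      omega
    calc (ENNReal.ofReal M₁ * ω₃⁻¹) ^ Rs.card ≤ K ^ Rs.card :=
          pow_le_pow_left' le_add_self _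
      _ ≤ K ^ N := pow_le_pow_right₀ hK1 h4
  have h5 : C n P.length ≤ ∑ n ∈ Finset.range (N + 1), ∑ k ∈ Finset.range (N + 1), C n k := by
    refine le_trans ?_ (Finset.single_le_sum (f := fun n => ∑ k ∈ Finset.range (N + 1), C n k)
      (fun _ _ => zero_le) (Finset.mem_range.2 (Nat.lt_succ_of_le hn)))
    exact Finset.single_le_sum (f := fun k => C n k) (fun _ _ => zero_le)
      (Finset.mem_range.2 (Nat.lt_succ_of_le hP))
  have h6 : A ^ P.length ≤ A ^ N := pow_le_pow_right₀ hA1 hP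
  exact mul_le_mul' h3 (mul_le_mul' le_rfl (mul_le_mul' h5 h6))

variable {f₀ : Ph → ℝ} {M₁ : ℝ}

theorem nears_bdd (hΦ : IsPotential Φ) (hf : Measurable f₀) (hM₁ : 0 ≤ M₁)
    (hmarg : ∀ v, ∫⁻ x, ENNReal.ofReal (f₀ (x, v)) ≤ ENNReal.ofReal (M₁ * Real.exp (-b * ‖v‖ ^ 2)))
    (hbc : c < b) (hT : 0 ≤ T) {N c₀ : ℕ} {r : Rln} (hr : r ∈ nears Φ T N c₀) :
    r.Bdd f₀ b c c₀ := by
  obtain ⟨C, hC, h1⟩ := massR_near hΦ hf hM₁ hmarg hbc hT N
  obtain ⟨n, hn, P, g₁, g₂, Rs, h2, rfl⟩ := hr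
  refine ⟨fun ε hε => measurableSet_nearR hΦ hε.ne' P g₁ g₂, C, hC, fun ε hε hε1 =>
    ⟨C, h1 ε hε hε1 n hn P h2.len g₁ g₂ h2.ok₁ h2.ok₂ Rs h2.trv, mul_le_mul_left ?_ _⟩⟩
  exact pow_le_pow_right₀ (one_le_muE hε hε1) h2.card

/-- From bounded masses with fewer classes to `Small`. -/
theorem Rln.small_of_lt {c₀ : ℕ} {r : Rln} (hm : ∀ ε : ℝ, 0 < ε → MeasurableSet (r.R ε))
    (hc : r.Rs.card < c₀) {C : ℝ≥0∞} (hC : C ≠ ∞)
    (h : ∀ ε : ℝ, 0 < ε → ε ≤ 1 → MassR f₀ ε b c (r.R ε) r.Rs C) : r.Small f₀ b c c₀ := by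
  refine ⟨hm, fun ε => ENNReal.ofReal (ε ^ 2) * C, ?_, fun ε hε hε1 => ⟨C, h ε hε hε1, ?_⟩⟩
  · have h5 : Tendsto (fun ε : ℝ => ENNReal.ofReal (ε ^ 2)) (𝓝[>] 0) (𝓝 0) := by
      have h6 : Tendsto (fun ε : ℝ => ε ^ 2) (𝓝[>] 0) (𝓝 (0 ^ 2)) :=
        ((continuous_pow 2).tendsto 0).mono_left nhdsWithin_le_nhds
      have h7 := ENNReal.tendsto_ofReal h6
      simpa using h7
    have h6 := ENNReal.Tendsto.mul_const (b := C) h5 (Or.inr hC)
    rwa [zero_mul] at h6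
  · have h5 : muE ε ^ r.Rs.card ≤ muE ε ^ (c₀ - 1) :=
      pow_le_pow_right₀ (one_le_muE hε hε1) (by omega)
    have h6 : muE ε ^ c₀ * (ENNReal.ofReal (ε ^ 2) * C) = muE ε ^ (c₀ - 1) * C := by
      obtain ⟨k, rfl⟩ : ∃ k, c₀ = k + 1 := ⟨c₀ - 1, by omega⟩
      rw [Nat.add_sub_cancel, pow_succ]
      calc muE ε ^ k * muE ε * (ENNReal.ofReal (ε ^ 2) * C) =
            muE ε ^ k * (muE ε * ENNReal.ofReal (ε ^ 2)) * C := by ring
        _ = _ := by rw [muE_mul hε, mul_one]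
    rw [h6]
    exact mul_le_mul_left h5 _

/-- **The near relations with fewer classes are small.** -/
theorem nears_small (hΦ : IsPotential Φ) (hf : Measurable f₀) (hM₁ : 0 ≤ M₁)
    (hmarg : ∀ v, ∫⁻ x, ENNReal.ofReal (f₀ (x, v)) ≤ ENNReal.ofReal (M₁ * Real.exp (-b * ‖v‖ ^ 2)))
    (hbc : c < b) (hT : 0 ≤ T) {N c₀ c₁ : ℕ} (hc : c₁ < c₀) {r : Rln} (hr : r ∈ nears Φ T N c₁) :
    r.Small f₀ b c c₀ := by
  obtain ⟨C, hC, h1⟩ := massR_near hΦ hf hM₁ hmarg hbc hT N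
  obtain ⟨n, hn, P, g₁, g₂, Rs, h2, rfl⟩ := hr
  exact Rln.small_of_lt (fun ε hε => measurableSet_nearR hΦ hε.ne' P g₁ g₂)
    (h2.card.trans_lt hc) hC fun ε hε hε1 =>
      h1 ε hε hε1 n hn P h2.len g₁ g₂ h2.ok₁ h2.ok₂ Rs h2.trv

end Vale.Agent.P119.IND
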