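import Vale.Agent.P119.IND.AttachGen
import Vale.Agent.P119.M.Near

/-!
# P119: a third body at a colliding pair, preparations (`helper76`)

* `dly Φ p`: duration of a collision at scale one; `sepT - hitT = ε dly`.
* `tri_near`: a line `l` in contact with one of the two particles of the pair `q` at a time of the
  collision is within `ε (1 + dly (..))` of that particle (and of the other one) at the time `hitT`.
* `lintegral_chiW_dly`: the collisions with `dly > M` have small mass, uniformly in `ε`.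
-/

open MeasureTheory Set Filter Topology Metric ProbabilityTheory
open scoped ENNReal

namespace Vale.Agent.P119.RA

open KU FL

/-- The duration of a collision at scale one. -/
noncomputable def dly (Φ : E3 → ℝ) (p : Ph) : ℝ := tout Φ p - tin p

theorem measurable_dly {Φ : E3 → ℝ} (hΦ : IsPotential Φ) : Measurable (dly Φ) :=
  (measurable_tout hΦ).sub measurable_tin

theorem sepT_sub_hitT {Φ : E3 → ℝ} {ε : ℝ} (q : Ph × Ph) :
    sepT Φ ε q - hitT ε q = ε * dly Φ (rel ε q) := by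
  unfold sepT hitT dly; ring

theorem dly_pos {Φ : E3 → ℝ} (hΦ : IsPotential Φ) {p : Ph} (h : Exits Φ p) (hb : ‖perp p‖ < 1) :
    0 < dly Φ p := sub_pos.2 (tin_lt_tout hΦ h hb)

theorem dly_free {Φ : E3 → ℝ} (hΦ : IsPotential Φ) {p : Ph} (hp : p.2 ≠ 0) (s : ℝ) :
    dly Φ (KU.free s p) = dly Φ p := by
  unfold dly; rw [tout_free hΦ hp, tin_free hp]; ring

theorem dly_inc {Φ : E3 → ℝ} (hΦ : IsPotential Φ) {ε : ℝ} (hε : ε ≠ 0) (e : Ph) {u : E3}
    (hV : e.2 - u ≠ 0) (σ : ℝ) (ξ : E3) :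
    dly Φ (rel ε (e, inc ε e u σ ξ)) = dly Φ (K1.refl (e.2 - u) ξ, e.2 - u) := by
  unfold inc
  rw [rel_partner hε]
  exact dly_free hΦ (p := (K1.refl (e.2 - u) ξ, e.2 - u)) hV _

section near

variable {Φ : E3 → ℝ} {ε : ℝ}

theorem norm_sub_le_of_speedOn {Z : ℝ → E3} {c a t : ℝ} (hc : 0 ≤ c)
    (h : SpeedOn Z (fun _ => ENNReal.ofReal c) a t) (hat : a ≤ t) : ‖Z t - Z a‖ ≤ c * (t - a) := by
  have h1 := h a ⟨le_rfl, hat⟩ t ⟨hat, le_rfl⟩ hat
  rw [setLIntegral_const, Real.volume_Icc, ← ENNReal.ofReal_mul hc] at h1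
  exact (ENNReal.ofReal_le_ofReal_iff (mul_nonneg hc (sub_nonneg.2 hat))).1 h1

/-- Displacement of the first particle during the collision. -/
theorem disp1 (hΦ : IsPotential Φ) (hε : 0 < ε) {q : Ph × Ph} (hM : Meets ε q) {s : ℝ}
    (hs : hitT ε q ≤ s) : ‖(pairLine Φ ε q s).1.1 - (KU.free (hitT ε q) q.1).1‖ ≤
      cS hΦ * (1 + √(‖q.1.2‖ ^ 2 + ‖q.2.2‖ ^ 2)) * (s - hitT ε q) := by
  have h1 := norm_sub_le_of_speedOn (by have := cS_nonneg hΦ; positivity)
    (speedOn_pairLine1 hΦ hε.ne' hM.1 le_rfl (hitT ε q) s) hs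
  rwa [pairLine_before hΦ hε hM.1 hM.2.le le_rfl] at h1

/-- Displacement of the second particle during the collision. -/
theorem disp2 (hΦ : IsPotential Φ) (hε : 0 < ε) {q : Ph × Ph} (hM : Meets ε q) {s : ℝ}
    (hs : hitT ε q ≤ s) : ‖(pairLine Φ ε q s).2.1 - (KU.free (hitT ε q) q.2).1‖ ≤
      cS hΦ * (1 + √(‖q.1.2‖ ^ 2 + ‖q.2.2‖ ^ 2)) * (s - hitT ε q) := by
  have h1 := norm_sub_le_of_speedOn (by have := cS_nonneg hΦ; positivity)
    (speedOn_pairLine2 hΦ hε.ne' hM.1 le_rfl (hitT ε q) s) hs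
  rwa [pairLine_before hΦ hε hM.1 hM.2.le le_rfl] at h1

theorem norm_free_sub (s r : ℝ) (l : Ph) : ‖(KU.free s l).1 - (KU.free r l).1‖ = |s - r| * ‖l.2‖ := by
  unfold KU.free
  simp only
  rw [show l.1 + s • l.2 - (l.1 + r • l.2) = (s - r) • l.2 by module, norm_smul, Real.norm_eq_abs]

/-- The distance of the two lines at the hitting time is `ε`. -/
theorem dist_hitT (hε : 0 < ε) {q : Ph × Ph} (hM : Meets ε q) :
    ‖(KU.free (hitT ε q) q.1).1 - (KU.free (hitT ε q) q.2).1‖ ≤ ε := by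
  have h0 := hM.1
  have hp : (rel ε q).2 ≠ 0 := h0
  have h1 : (KU.free (hitT ε q) q.1).1 - (KU.free (hitT ε q) q.2).1 =
      ε • (KU.free (tin (rel ε q)) (rel ε q)).1 := by
    unfold hitT KU.free rel
    simp only
    rw [smul_add, smul_smul, mul_inv_cancel₀ hε.ne', one_smul, smul_smul]
    module
  rw [h1, norm_smul, Real.norm_eq_abs, abs_of_pos hε]
  have h2 : (KU.free (tin (rel ε q)) (rel ε q)).1 = perp (rel ε q) - half (rel ε q) • (rel ε q).2 := by
    unfold KU.free tin perp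
    simp only
    module
  have h3 : (inner ℝ (perp (rel ε q)) (rel ε q).2 : ℝ) = 0 := inner_perp _
  have h4 := half_sq hp hM.2.le
  have h5 : ‖(KU.free (tin (rel ε q)) (rel ε q)).1‖ ^ 2 = 1 := by
    rw [h2, norm_sub_sq_real, inner_smul_right, h3, norm_smul, mul_pow, Real.norm_eq_abs, sq_abs]
    linarith
  have h6 : ‖(KU.free (tin (rel ε q)) (rel ε q)).1‖ ≤ 1 := by
    nlinarith [norm_nonneg (KU.free (tin (rel ε q)) (rel ε q)).1]
  nlinarith

/-- The size of the neighbourhood of a collision, in units of `ε`. -/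
noncomputable def nbh (hΦ : IsPotential Φ) (ε : ℝ) (q : Ph × Ph) (l : Ph) : ℝ :=
  2 + dly Φ (rel ε q) * (cS hΦ * (1 + √(‖q.1.2‖ ^ 2 + ‖q.2.2‖ ^ 2)) + ‖l.2‖)

/-- **A third body at a colliding pair** is near both particles at the beginning of the
collision. -/
theorem tri_near (hΦ : IsPotential Φ) (hε : 0 < ε) {q : Ph × Ph} (hM : Meets ε q)
    {l : Ph} {s : ℝ} (h1 : hitT ε q ≤ s) (h2 : s ≤ sepT Φ ε q)
    (hc : Ctc ε (pairLine Φ ε q s).1 (KU.free s l) ∨ Ctc ε (pairLine Φ ε q s).2 (KU.free s l)) :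
    ‖(KU.free (hitT ε q) q.1).1 - (KU.free (hitT ε q) l).1‖ ≤ ε * nbh hΦ ε q l ∧
      ‖(KU.free (hitT ε q) q.2).1 - (KU.free (hitT ε q) l).1‖ ≤ ε * nbh hΦ ε q l := by
  set r := hitT ε q with hr
  have hd : s - r ≤ ε * dly Φ (rel ε q) := by rw [← sepT_sub_hitT]; linarith
  set c := cS hΦ * (1 + √(‖q.1.2‖ ^ 2 + ‖q.2.2‖ ^ 2)) with hcdef
  have hc0 : 0 ≤ c := by have := cS_nonneg hΦ; positivity
  have hfl : ‖(KU.free s l).1 - (KU.free r l).1‖ ≤ ε * dly Φ (rel ε q) * ‖l.2‖ := by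
    rw [norm_free_sub, abs_of_nonneg (sub_nonneg.2 h1)]
    gcongr
  have hdist := dist_hitT hε hM
  rw [← hr] at hdist
  have e1 : ε * nbh hΦ ε q l = 2 * ε + ε * dly Φ (rel ε q) * c + ε * dly Φ (rel ε q) * ‖l.2‖ := by
    unfold nbh; rw [← hcdef]; ring
  have hcd : c * (s - r) ≤ ε * dly Φ (rel ε q) * c := by
    rw [mul_comm]; gcongr
  rcases hc with hc | hc
  · have a1 := disp1 hΦ hε hM h1
    rw [← hr, ← hcdef] at a1
    have a2 : ‖(KU.free r q.1).1 - (KU.free r l).1‖ ≤ ε + c * (s - r) + ‖(KU.free s l).1 - (KU.free r l).1‖ := by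
      have : (KU.free r q.1).1 - (KU.free r l).1 = -((pairLine Φ ε q s).1.1 - (KU.free r q.1).1) +
          ((pairLine Φ ε q s).1.1 - (KU.free s l).1) + ((KU.free s l).1 - (KU.free r l).1) := by abel
      rw [this]
      refine (norm_add_le _ _).trans (add_le_add ((norm_add_le _ _).trans ?_) le_rfl)
      rw [norm_neg, add_comm]
      exact add_le_add hc.le a1
    have a3 : ‖(KU.free r q.2).1 - (KU.free r l).1‖ ≤ ‖(KU.free r q.1).1 - (KU.free r l).1‖ + ε := by
      have : (KU.free r q.2).1 - (KU.free r l).1 = ((KU.free r q.1).1 - (KU.free r l).1) +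
          -((KU.free r q.1).1 - (KU.free r q.2).1) := by abel
      rw [this]
      refine (norm_add_le _ _).trans (add_le_add le_rfl ?_)
      rw [norm_neg]; exact hdist
    constructor <;> rw [e1] <;> linarith
  · have a1 := disp2 hΦ hε hM h1
    rw [← hr, ← hcdef] at a1
    have a2 : ‖(KU.free r q.2).1 - (KU.free r l).1‖ ≤ ε + c * (s - r) + ‖(KU.free s l).1 - (KU.free r l).1‖ := by
      have : (KU.free r q.2).1 - (KU.free r l).1 = -((pairLine Φ ε q s).2.1 - (KU.free r q.2).1) +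
          ((pairLine Φ ε q s).2.1 - (KU.free s l).1) + ((KU.free s l).1 - (KU.free r l).1) := by abel
      rw [this]
      refine (norm_add_le _ _).trans (add_le_add ((norm_add_le _ _).trans ?_) le_rfl)
      rw [norm_neg, add_comm]
      exact add_le_add hc.le a1
    have a3 : ‖(KU.free r q.1).1 - (KU.free r l).1‖ ≤ ‖(KU.free r q.2).1 - (KU.free r l).1‖ + ε := by
      have : (KU.free r q.1).1 - (KU.free r l).1 = ((KU.free r q.2).1 - (KU.free r l).1) +
          ((KU.free r q.1).1 - (KU.free r q.2).1) := by abel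
      rw [this]
      exact (norm_add_le _ _).trans (add_le_add le_rfl hdist)
    constructor <;> rw [e1] <;> linarith

end near

/-! ### Long collisions are rare -/

/-- The indicator of the collisions of duration `> M`. -/
noncomputable def chiD (Φ : E3 → ℝ) (M : ℝ) (q : E3 × E3) : ℝ≥0∞ :=
  {q : E3 × E3 | M < dly Φ (K1.refl q.1 q.2, q.1)}.indicator (fun _ => 1) q

theorem measurableSet_dly {Φ : E3 → ℝ} (hΦ : IsPotential Φ) (M : ℝ) :
    MeasurableSet {q : E3 × E3 | M < dly Φ (K1.refl q.1 q.2, q.1)} := by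
  have h : Measurable fun q : E3 × E3 => dly Φ (K1.refl q.1 q.2, q.1) :=
    (measurable_dly hΦ).comp (K1.measurable_refl.prodMk measurable_fst)
  exact measurableSet_lt measurable_const h

theorem measurable_chiD {Φ : E3 → ℝ} (hΦ : IsPotential Φ) (M : ℝ) : Measurable (chiD Φ M) :=
  measurable_const.indicator (measurableSet_dly hΦ M)

theorem lintegral_chiW_one_ne_top {b : ℝ} (hb : 0 < b) :
    ∫⁻ ξ, (∫⁻ V : E3, chiW b (fun _ => 1) (V, ξ)) ∂K1.sig ≠ ∞ := by
  have h0 : ∀ ξ : E3, ∫⁻ V : E3, chiW b (fun _ => 1) (V, ξ) ≤ I0 (b / 2) := by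
    intro ξ
    refine lintegral_mono fun V => ?_
    unfold chiW
    simp only [mul_one]
    rw [← ofReal_norm, ← ENNReal.ofReal_mul (norm_nonneg _)]
    apply ENNReal.ofReal_le_ofReal
    rw [show b / 2 / 2 = b / 4 by ring]
    have := Real.exp_nonneg (-(b / 4) * ‖V‖ ^ 2)
    nlinarith [norm_nonneg V]
  refine (lt_of_le_of_lt (lintegral_mono h0) ?_).ne
  rw [lintegral_const]
  exact ENNReal.mul_lt_top (I0_ne_top (by positivity)).lt_top K1.sig_univ_lt

/-- **Long collisions are rare.** -/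
theorem tendsto_chiW_chiD {Φ : E3 → ℝ} (hΦ : IsPotential Φ) {b : ℝ} (hb : 0 < b) :
    Tendsto (fun M : ℕ => ∫⁻ ξ, (∫⁻ V : E3, chiW b (chiD Φ (M : ℝ)) (V, ξ)) ∂K1.sig) atTop
      (𝓝 0) := by
  have hm : ∀ M : ℝ, Measurable (chiW b (chiD Φ M)) := fun M => measurable_chiW (measurable_chiD hΦ M)
  have hle : ∀ (M : ℝ) (q : E3 × E3), chiW b (chiD Φ M) q ≤ chiW b (fun _ => 1) q := by
    intro M q
    unfold chiW chiD
    refine mul_le_mul' le_rfl ?_
    by_cases h : q ∈ {q : E3 × E3 | M < dly Φ (K1.refl q.1 q.2, q.1)}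
    · rw [indicator_of_mem h]
    · rw [indicator_of_notMem h]; exact zero_le
  have hswap : ∀ F : E3 × E3 → ℝ≥0∞, Measurable F → ∫⁻ ξ, (∫⁻ V : E3, F (V, ξ)) ∂K1.sig =
      ∫⁻ q, F q ∂((volume : Measure E3).prod K1.sig) := by
    intro F hF
    rw [lintegral_prod_symm' _ hF]
  simp_rw [fun M : ℕ => hswap _ (hm (M : ℝ))]
  have hlim := tendsto_lintegral_of_dominated_convergence
    (μ := (volume : Measure E3).prod K1.sig)
    (F := fun (M : ℕ) q => chiW b (chiD Φ (M : ℝ)) q) (f := fun _ => 0)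
    (chiW b (fun _ => 1)) (fun M => hm M) (fun M => Eventually.of_forall (hle M))
    (by rw [← hswap _ (measurable_chiW measurable_const)]; exact lintegral_chiW_one_ne_top hb)
    (by
      refine Eventually.of_forall fun q => ?_
      refine tendsto_const_nhds.congr' ?_
      obtain ⟨N, hN⟩ := exists_nat_ge (dly Φ (K1.refl q.1 q.2, q.1))
      filter_upwards [eventually_ge_atTop N] with M hM
      have : q ∉ {q : E3 × E3 | (M : ℝ) < dly Φ (K1.refl q.1 q.2, q.1)} := by
        intro h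
        have h1 : (M : ℝ) < dly Φ (K1.refl q.1 q.2, q.1) := h
        have h2 : (N : ℝ) ≤ M := by exact_mod_cast hM
        linarith
      unfold chiW chiD
      rw [indicator_of_notMem this, mul_zero])
  simpa using hlim

end Vale.Agent.P119.RA
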