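import Vale.Agent.P119.IND.RunTo
import Vale.Agent.P119.IND.Tri

/-!
# P119, block IND: the relations of the irregular final contacts `tri`, `trip`, `quad` (`helper76`)

* `winR P₁ L P₃ a k`: after `P₁` the labels `a` and `k` begin to collide; the events of `L` take
  place during the collision (in the window `[hitT, hitT + ε dly]`), those of `P₃` after `L`;
* `cmR`: two lines are within `2 ε` at some time of `[0, T]`;
* `triR P₁ P₂ P₃ a k i`: a third body `i` is in contact with the colliding pair `a`, `k` at a time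
  after the events of `P₂` and before those of `P₃`;
* `quadR P₁ P₂ P₃ P₄ i w a k`: the pair `i`, `w` begins to collide after `P₁`, the pair `a`, `k` after
  `P₁ ++ P₂`; they are in contact after `P₃` and before `P₄`.
-/

open MeasureTheory Filter Topology Set
open scoped ENNReal

set_option linter.unusedSectionVars false

noncomputable section

namespace Vale.Agent.P119.IND

open KU MM

variable {ι : Type} [DecidableEq ι] {Φ : E3 → ℝ} {ε T : ℝ}

variable (Φ ε T) in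
/-- The two lines of `a` and `k` after the plain program `P`. -/
def qq (P : List (Ev ι)) (a k : ι) (Z : ι → Ph) : Ph × Ph :=
  (finZ Φ ε (pl T P) Z a, finZ Φ ε (pl T P) Z k)

/-- The (non negative) duration of the collision at scale one. -/
def dpl (Φ : E3 → ℝ) (ε : ℝ) (q : Ph × Ph) : ℝ := max 0 (RA.dly Φ (rel ε q))

theorem dpl_nonneg (Φ : E3 → ℝ) (ε : ℝ) (q : Ph × Ph) : 0 ≤ dpl Φ ε q := le_max_left _ _

/-- The size of the neighbourhood of a collision, in units of `ε`. -/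
def nbp (hΦ : IsPotential Φ) (ε : ℝ) (q : Ph × Ph) (l : Ph) : ℝ :=
  2 + dpl Φ ε q * (FL.cS hΦ * (1 + √(‖q.1.2‖ ^ 2 + ‖q.2.2‖ ^ 2)) + ‖l.2‖)

variable (Φ ε T) in
/-- The pair `a`, `k` begins to collide after the events of `P₁`; the events of `L` take place in the
window of the collision, those of `P₃` afterwards. -/
def winR (P₁ L P₃ : List (Ev ι)) (a k : ι) (β : ι → ℝ) : Set (ι → Ph) :=
  {Z | Meets ε (qq Φ ε T P₁ a k Z) ∧ 0 ≤ hitT ε (qq Φ ε T P₁ a k Z) ∧
    hitT ε (qq Φ ε T P₁ a k Z) ≤ T ∧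
    finB Φ ε (pl T P₁) β Z a ≤ hitT ε (qq Φ ε T P₁ a k Z) ∧
    finB Φ ε (pl T P₁) β Z k ≤ hitT ε (qq Φ ε T P₁ a k Z) ∧
    RunTo Φ ε T 0 (pl T P₁) β Z (hitT ε (qq Φ ε T P₁ a k Z)) ∧
    RunTo Φ ε T (hitT ε (qq Φ ε T P₁ a k Z)) (pl T L) (finB Φ ε (pl T P₁) β Z)
      (finZ Φ ε (pl T P₁) Z) (hitT ε (qq Φ ε T P₁ a k Z) + ε * dpl Φ ε (qq Φ ε T P₁ a k Z)) ∧
    Run Φ ε T (hitT ε (qq Φ ε T P₁ a k Z)) (pl T (L ++ P₃)) (finB Φ ε (pl T P₁) β Z)
      (finZ Φ ε (pl T P₁) Z)}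

/-- Two lines are within `2 ε` at some time of `[0, T]`. -/
def cmR (ε T : ℝ) (p q : (ι → Ph) → Ph) : Set (ι → Ph) :=
  {Z | ∃ s, 0 ≤ s ∧ s ≤ 0 + T ∧ ‖(KU.free s (p Z)).1 - (KU.free s (q Z)).1‖ ≤ 2 * ε}

/-- **A third body at a colliding pair.** -/
def triR (hΦ : IsPotential Φ) (ε T : ℝ) (P₁ P₂ P₃ : List (Ev ι)) (a k i : ι) (β : ι → ℝ) :
    Set (ι → Ph) :=
  winR Φ ε T P₁ P₂ P₃ a k β ∩
  (cmR ε T (fun Z => com (qq Φ ε T P₁ a k Z)) (fun Z => finZ Φ ε (pl T (P₁ ++ P₂)) Z i) ∩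
  {Z | finB Φ ε (pl T (P₁ ++ P₂)) β Z i ≤
      hitT ε (qq Φ ε T P₁ a k Z) + ε * dpl Φ ε (qq Φ ε T P₁ a k Z) ∧
    ‖(KU.free (hitT ε (qq Φ ε T P₁ a k Z)) (qq Φ ε T P₁ a k Z).1).1 -
      (KU.free (hitT ε (qq Φ ε T P₁ a k Z)) (finZ Φ ε (pl T (P₁ ++ P₂)) Z i)).1‖ ≤
      ε * nbp hΦ ε (qq Φ ε T P₁ a k Z) (finZ Φ ε (pl T (P₁ ++ P₂)) Z i)})

/-- **Two colliding pairs in contact.** -/
def quadR (Φ : E3 → ℝ) (ε T : ℝ) (P₁ P₂ P₃ P₄ : List (Ev ι)) (i w a k : ι) (β : ι → ℝ) :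
    Set (ι → Ph) :=
  winR Φ ε T P₁ (P₂ ++ Ev.gh a k :: P₃) P₄ i w β ∩
  cmR ε T (fun Z => com (qq Φ ε T (P₁ ++ P₂) a k Z)) (fun Z => com (qq Φ ε T P₁ i w Z))

/-! ### Measurability -/

section Meas

variable [Fintype ι] {X : Type*} [MeasurableSpace X]

theorem measurable_qq (hΦ : IsPotential Φ) (hε : ε ≠ 0) (P : List (Ev ι)) (a k : ι)
    {Z : X → ι → Ph} (hZ : Measurable Z) : Measurable fun x => qq Φ ε T P a k (Z x) := by
  have h := measurable_finZ hΦ hε (pl T P) hZ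
  exact ((measurable_pi_apply a).comp h).prodMk ((measurable_pi_apply k).comp h)

theorem measurable_dpl (hΦ : IsPotential Φ) : Measurable (dpl Φ ε) :=
  measurable_const.max ((RA.measurable_dly hΦ).comp continuous_rel.measurable)

theorem measurable_nbp (hΦ : IsPotential Φ) {q : X → Ph × Ph} (hq : Measurable q) {l : X → Ph}
    (hl : Measurable l) : Measurable fun x => nbp hΦ ε (q x) (l x) := by
  have h1 : Measurable fun x => dpl Φ ε (q x) := (measurable_dpl hΦ).comp hq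
  have h2 : Measurable fun x => √(‖(q x).1.2‖ ^ 2 + ‖(q x).2.2‖ ^ 2) :=
    ((hq.fst.snd.norm.pow_const 2).add (hq.snd.snd.norm.pow_const 2)).sqrt
  have h3 : Measurable fun x => ‖(l x).2‖ := hl.snd.norm
  unfold nbp
  exact (h1.mul (((h2.const_add 1).const_mul _).add h3)).const_add 2

/-- Joint measurability of the distance of two lines. -/
theorem measurable_dist_line {p q : X → Ph} (hp : Measurable p) (hq : Measurable q) {u : X → ℝ}
    (hu : Measurable u) : Measurable fun x => ‖(KU.free (u x) (p x)).1 - (KU.free (u x) (q x)).1‖ := by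
  unfold KU.free
  exact ((hp.fst.add (hu.smul hp.snd)).sub (hq.fst.add (hu.smul hq.snd))).norm

theorem measurableSet_winR (hΦ : IsPotential Φ) (hε : ε ≠ 0) (P₁ L P₃ : List (Ev ι)) (a k : ι)
    {β : X → ι → ℝ} (hβ : Measurable β) {Z : X → ι → Ph} (hZ : Measurable Z) :
    MeasurableSet {x | Z x ∈ winR Φ ε T P₁ L P₃ a k (β x)} := by
  have hq := measurable_qq (T := T) hΦ hε P₁ a k hZ
  have hh : Measurable fun x => hitT ε (qq Φ ε T P₁ a k (Z x)) := measurable_hitT.comp hq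
  have hB := measurable_finB hΦ hε (pl T P₁) hβ hZ
  have hZ1 := measurable_finZ hΦ hε (pl T P₁) hZ
  have hd : Measurable fun x => hitT ε (qq Φ ε T P₁ a k (Z x)) +
      ε * dpl Φ ε (qq Φ ε T P₁ a k (Z x)) := hh.add (((measurable_dpl hΦ).comp hq).const_mul ε)
  have hb : ∀ j, Measurable fun x => finB Φ ε (pl T P₁) (β x) (Z x) j := fun j =>
    (measurable_pi_apply j).comp hB
  exact (hq measurableSet_meets).inter ((measurableSet_le measurable_const hh).inter
    ((measurableSet_le hh measurable_const).inter ((measurableSet_le (hb a) hh).inter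
    ((measurableSet_le (hb k) hh).inter
    ((measurableSet_runTo hΦ hε (pl T P₁) hβ hZ measurable_const hh).inter
    ((measurableSet_runTo hΦ hε (pl T L) hB hZ1 hh hd).inter
      ((sc_run hΦ hε (pl T (L ++ P₃)) hB hZ1).mem hh)))))))

theorem measurableSet_cmR {p q : (ι → Ph) → Ph} (hp : Measurable p) (hq : Measurable q)
    {Z : X → ι → Ph} (hZ : Measurable Z) : MeasurableSet {x | Z x ∈ cmR ε T p q} := by
  have hp' := hp.comp hZ
  have hq' := hq.comp hZ
  have h1 : SC fun x => {s | ‖(KU.free s (p (Z x))).1 - (KU.free s (q (Z x))).1‖ - 2 * ε ≤ 0} := by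
    refine SC.closed (F := fun x s => ‖(KU.free s (p (Z x))).1 - (KU.free s (q (Z x))).1‖ - 2 * ε)
      (fun s => ?_) (fun x => ?_)
    · exact (measurable_dist_line hp' hq' measurable_const).sub_const _
    · unfold KU.free
      fun_prop
  refine (h1.meet (l := fun _ => 0) (u := fun _ => 0 + T) measurable_const
    measurable_const).congr ?_
  ext x
  unfold cmR
  simp only [mem_ofPred_eq]
  refine exists_congr fun s => and_congr_right fun _ => and_congr_right fun _ => ?_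
  exact sub_nonpos

theorem measurableSet_triR (hΦ : IsPotential Φ) (hε : ε ≠ 0) (P₁ P₂ P₃ : List (Ev ι))
    (a k i : ι) {β : X → ι → ℝ} (hβ : Measurable β) {Z : X → ι → Ph} (hZ : Measurable Z) :
    MeasurableSet {x | Z x ∈ triR hΦ ε T P₁ P₂ P₃ a k i (β x)} := by
  have hq := measurable_qq (T := T) hΦ hε P₁ a k hZ
  have hh : Measurable fun x => hitT ε (qq Φ ε T P₁ a k (Z x)) := measurable_hitT.comp hq
  have hB2 := measurable_finB hΦ hε (pl T (P₁ ++ P₂)) hβ hZ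
  have hZ2 := measurable_finZ hΦ hε (pl T (P₁ ++ P₂)) hZ
  have hl : Measurable fun x => finZ Φ ε (pl T (P₁ ++ P₂)) (Z x) i :=
    (measurable_pi_apply i).comp hZ2
  have hd : Measurable fun x => hitT ε (qq Φ ε T P₁ a k (Z x)) +
      ε * dpl Φ ε (qq Φ ε T P₁ a k (Z x)) := hh.add (((measurable_dpl hΦ).comp hq).const_mul ε)
  have hn : Measurable fun x => nbp hΦ ε (qq Φ ε T P₁ a k (Z x))
      (finZ Φ ε (pl T (P₁ ++ P₂)) (Z x) i) := measurable_nbp hΦ hq hl
  have hA : MeasurableSet {x | Z x ∈ winR Φ ε T P₁ P₂ P₃ a k (β x)} :=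
    measurableSet_winR hΦ hε P₁ P₂ P₃ a k hβ hZ
  have hp1 : Measurable fun Z : ι → Ph => com (qq Φ ε T P₁ a k Z) :=
    continuous_com.measurable.comp (measurable_qq hΦ hε P₁ a k measurable_id)
  have hp2 : Measurable fun Z : ι → Ph => finZ Φ ε (pl T (P₁ ++ P₂)) Z i :=
    (measurable_pi_apply i).comp (measurable_finZ hΦ hε (pl T (P₁ ++ P₂)) measurable_id)
  have hC : MeasurableSet {x | Z x ∈ cmR ε T (fun Z => com (qq Φ ε T P₁ a k Z))
      (fun Z => finZ Φ ε (pl T (P₁ ++ P₂)) Z i)} := measurableSet_cmR hp1 hp2 hZ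
  have hD : MeasurableSet {x | finB Φ ε (pl T (P₁ ++ P₂)) (β x) (Z x) i ≤
      hitT ε (qq Φ ε T P₁ a k (Z x)) + ε * dpl Φ ε (qq Φ ε T P₁ a k (Z x))} :=
    measurableSet_le ((measurable_pi_apply i).comp hB2) hd
  have hE : MeasurableSet {x | ‖(KU.free (hitT ε (qq Φ ε T P₁ a k (Z x)))
      (qq Φ ε T P₁ a k (Z x)).1).1 - (KU.free (hitT ε (qq Φ ε T P₁ a k (Z x)))
        (finZ Φ ε (pl T (P₁ ++ P₂)) (Z x) i)).1‖ ≤
      ε * nbp hΦ ε (qq Φ ε T P₁ a k (Z x)) (finZ Φ ε (pl T (P₁ ++ P₂)) (Z x) i)} :=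
    measurableSet_le (measurable_dist_line hq.fst hl hh) (hn.const_mul ε)
  exact hA.inter (hC.inter (hD.inter hE))

theorem measurableSet_quadR (hΦ : IsPotential Φ) (hε : ε ≠ 0) (P₁ P₂ P₃ P₄ : List (Ev ι))
    (i w a k : ι) {β : X → ι → ℝ} (hβ : Measurable β) {Z : X → ι → Ph} (hZ : Measurable Z) :
    MeasurableSet {x | Z x ∈ quadR Φ ε T P₁ P₂ P₃ P₄ i w a k (β x)} :=
  (measurableSet_winR hΦ hε P₁ _ P₄ i w hβ hZ).inter
    (measurableSet_cmR (continuous_com.measurable.comp (measurable_qq hΦ hε (P₁ ++ P₂) a k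
      measurable_id)) (continuous_com.measurable.comp (measurable_qq hΦ hε P₁ i w
      measurable_id)) hZ)

end Meas

end Vale.Agent.P119.IND
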