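import Vale.Agent.P119.IND.IrrX2
import Vale.Agent.P119.IND.TriDef

/-!
# P119, block IND: irregular contacts at a colliding pair, membership (`helper350`)

* `pair_near_com`: the particles of a colliding pair are within `ε / 2` of the centre of mass;
* `mem_winR`, `mem_triR`, `mem_quadR`: a timed run with an irregular contact at a colliding pair is in
  the relations `winR`, `triR`, `quadR` of `helper76`;
* `TriOK`, `QuadOK`: the conditions on the programs; `IrrX.tri_mem`, `IrrX.trip_mem`,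
  `IrrX.quad_mem`.
-/

open MeasureTheory Filter Topology Set
open scoped ENNReal

set_option linter.unusedSectionVars false

noncomputable section

namespace Vale.Agent.P119.IND

open KU MM

variable {Φ : E3 → ℝ} {ε T : ℝ} {ι : Type} [DecidableEq ι]

/-! ### Distances to the centre of mass -/

theorem mk2_dist_com (hε : 0 < ε) (c p : Ph) (hp : ‖p.1‖ ≤ 1) :
    ‖(mk2 ε c p).1.1 - c.1‖ ≤ ε / 2 ∧ ‖(mk2 ε c p).2.1 - c.1‖ ≤ ε / 2 := by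
  have h1 : ‖(2 : ℝ)⁻¹ • (ε • p.1)‖ ≤ ε / 2 := by
    rw [norm_smul, norm_smul, Real.norm_eq_abs, Real.norm_eq_abs, abs_of_pos hε,
      abs_of_pos (by norm_num : (0 : ℝ) < 2⁻¹)]
    nlinarith
  unfold mk2
  simp only
  constructor
  · rw [add_sub_cancel_left]; exact h1
  · rw [sub_sub_cancel_left, norm_neg]; exact h1

theorem norm_traj_le_one (hΦ : IsPotential Φ) {p : Ph} (hp : p.2 ≠ 0) (hb : ‖perp p‖ < 1)
    {u : ℝ} (h1 : tin p ≤ u) (h : u = tin p ∨ (Exits Φ p ∧ u ≤ tout Φ p)) :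
    ‖(traj Φ p u).1‖ ≤ 1 := by
  rcases h with h | ⟨hx, h2⟩
  · rw [h]; exact (norm_traj_tin hΦ hp hb.le).le
  · rcases h1.eq_or_lt with h3 | h3
    · rw [← h3]; exact (norm_traj_tin hΦ hp hb.le).le
    · rcases h2.eq_or_lt with h4 | h4
      · rw [h4]; exact (norm_traj_tout hΦ hx hb.le).le
      · exact ((norm_traj_lt_one_iff hΦ hx hb u).2 ⟨h3, h4⟩).le

/-- The particles of a colliding pair are within `ε / 2` of the centre of mass. -/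
theorem pair_near_com (hΦ : IsPotential Φ) (hε : 0 < ε) {q : Ph × Ph} (hm : Meets ε q) {s : ℝ}
    (h1 : hitT ε q ≤ s) (h : s = hitT ε q ∨ (Exits Φ (rel ε q) ∧ s ≤ sepT Φ ε q)) :
    ‖(pairLine Φ ε q s).1.1 - (KU.free s (com q)).1‖ ≤ ε / 2 ∧
      ‖(pairLine Φ ε q s).2.1 - (KU.free s (com q)).1‖ ≤ ε / 2 := by
  unfold pairLine
  refine mk2_dist_com hε _ _ (norm_traj_le_one hΦ (p := rel ε q) hm.1 hm.2 ?_ ?_)
  · rw [le_div_iff₀ hε, mul_comm]; exact h1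
  · rcases h with h | ⟨hx, h⟩
    · left
      rw [h]
      unfold hitT
      field_simp
    · right
      refine ⟨hx, ?_⟩
      rw [div_le_iff₀ hε, mul_comm]; exact h

/-! ### Runs -/

theorem RunT.runTo (hΦ : IsPotential Φ) (hε : 0 < ε) {Q : List (Ev ι × ℝ)} {r σ : ℝ}
    {β : ι → ℝ} {Z : ι → Ph} (hβ : ∀ j, 0 ≤ β j) (h : RunT Φ ε T r Q β Z) (hr : r ≤ σ)
    (hQ : ∀ e ∈ Q, e.2 ≤ σ) : RunTo Φ ε T r (pl T (Q.map Prod.fst)) β Z σ := by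
  induction Q generalizing r β Z with
  | nil => exact hr
  | cons e Q ih =>
    obtain ⟨h1, h2, h3, h4⟩ := h
    exact ⟨e.2, h1, h2, h3.at hβ h2, ih (birthAppS_nonneg hΦ hε h3 hβ) h4 (hQ e List.mem_cons_self)
      fun e' he' => hQ e' (List.mem_cons_of_mem _ he')⟩

theorem finZ_plain (T : ℝ) (Q : List (Ev ι × ℝ)) (Z : ι → Ph) :
    finZ Φ ε (pl T (Q.map Prod.fst)) Z = finZ Φ ε Q Z := finZ_fst (pl_fst T Q) Z

theorem finB_plain (T : ℝ) (Q : List (Ev ι × ℝ)) (β : ι → ℝ) (Z : ι → Ph) :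
    finB Φ ε (pl T (Q.map Prod.fst)) β Z = finB Φ ε Q β Z := finB_fst (pl_fst T Q) β Z

theorem qq_plain (Q : List (Ev ι × ℝ)) (a k : ι) (Z : ι → Ph) :
    qq Φ ε T (Q.map Prod.fst) a k Z = (finZ Φ ε Q Z a, finZ Φ ε Q Z k) := by
  unfold qq
  rw [finZ_plain]

/-- **The window of a collision.** -/
theorem mem_winR (hΦ : IsPotential Φ) (hε : 0 < ε) {A L B : List (Ev ι × ℝ)} {β : ι → ℝ}
    {Z : ι → Ph} (hβ : ∀ j, 0 ≤ β j) (hr : RunT Φ ε T 0 (A ++ (L ++ B)) β Z) {a k : ι} {h : ℝ}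
    (hh : hitT ε (finZ Φ ε A Z a, finZ Φ ε A Z k) = h)
    (hm : Meets ε (finZ Φ ε A Z a, finZ Φ ε A Z k)) (ba : finB Φ ε A β Z a ≤ h)
    (bk : finB Φ ε A β Z k ≤ h) (hT : h ≤ T) (hA : ∀ e ∈ A, e.2 ≤ h) (hL : ∀ e ∈ L, h ≤ e.2)
    (hL' : ∀ e ∈ L, e.2 ≤ h + ε * dpl Φ ε (finZ Φ ε A Z a, finZ Φ ε A Z k))
    (hB : ∀ e ∈ B, h ≤ e.2) :
    Z ∈ winR Φ ε T (A.map Prod.fst) (L.map Prod.fst) (B.map Prod.fst) a k β := by
  have hfB : ∀ j, 0 ≤ finB Φ ε A β Z j := fun j => (hβ j).trans ((hr.left).le_finB hΦ hε j)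
  have h0 : 0 ≤ h := (hfB a).trans ba
  have hLB : ∀ e ∈ L ++ B, h ≤ e.2 := by
    intro e he
    rcases List.mem_append.1 he with he | he
    · exact hL e he
    · exact hB e he
  have hr2 := hr.right hLB
  have hd : h ≤ h + ε * dpl Φ ε (finZ Φ ε A Z a, finZ Φ ε A Z k) := by
    have := mul_nonneg hε.le (dpl_nonneg Φ ε (finZ Φ ε A Z a, finZ Φ ε A Z k))
    linarith
  unfold winR
  simp only [mem_ofPred_eq, qq_plain, finB_plain, finZ_plain, hh]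
  refine ⟨hm, h0, hT, ba, bk, hr.left.runTo hΦ hε hβ h0 hA,
    hr2.left.runTo hΦ hε hfB hd hL', ?_⟩
  rw [← List.map_append]
  exact hr2.run hΦ hε hfB

theorem RunT.append_left {A B C : List (Ev ι × ℝ)} {r : ℝ} {β : ι → ℝ} {Z : ι → Ph}
    (h : RunT Φ ε T r (A ++ (B ++ C)) β Z) : RunT Φ ε T r (A ++ B) β Z := by
  rw [← List.append_assoc] at h
  exact h.left

theorem nbh_le_nbp (hΦ : IsPotential Φ) (ε : ℝ) (q : Ph × Ph) (l : Ph) :
    RA.nbh hΦ ε q l ≤ nbp hΦ ε q l := by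
  unfold RA.nbh nbp
  have h1 : RA.dly Φ (rel ε q) ≤ dpl Φ ε q := le_max_right _ _
  have h2 : 0 ≤ FL.cS hΦ * (1 + √(‖q.1.2‖ ^ 2 + ‖q.2.2‖ ^ 2)) + ‖l.2‖ := by
    have := FL.cS_nonneg hΦ
    positivity
  nlinarith [mul_le_mul_of_nonneg_right h1 h2]

theorem two_le_nbp (hΦ : IsPotential Φ) (ε : ℝ) (q : Ph × Ph) (l : Ph) : 2 ≤ nbp hΦ ε q l := by
  unfold nbp
  have h1 := dpl_nonneg Φ ε q
  have h2 : 0 ≤ FL.cS hΦ * (1 + √(‖q.1.2‖ ^ 2 + ‖q.2.2‖ ^ 2)) + ‖l.2‖ := by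
    have := FL.cS_nonneg hΦ
    positivity
  nlinarith [mul_nonneg h1 h2]

/-- **A third body at a colliding pair.** -/
theorem mem_triR (hΦ : IsPotential Φ) (hε : 0 < ε) {A₁ A₂ B : List (Ev ι × ℝ)} {β : ι → ℝ}
    {Z : ι → Ph} (hβ : ∀ j, 0 ≤ β j) (hr : RunT Φ ε T 0 (A₁ ++ (A₂ ++ B)) β Z) {a k i : ι}
    {h s : ℝ} (hh : hitT ε (finZ Φ ε A₁ Z a, finZ Φ ε A₁ Z k) = h)
    (hm : Meets ε (finZ Φ ε A₁ Z a, finZ Φ ε A₁ Z k)) (ba : finB Φ ε A₁ β Z a ≤ h)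
    (bk : finB Φ ε A₁ β Z k ≤ h) (hhs : h ≤ s) (hT : s ≤ T)
    (hs : s ≤ h + ε * dpl Φ ε (finZ Φ ε A₁ Z a, finZ Φ ε A₁ Z k))
    (hA : ∀ e ∈ A₁, e.2 ≤ h) (hL : ∀ e ∈ A₂, h ≤ e.2) (hL' : ∀ e ∈ A₂, e.2 ≤ s)
    (hB : ∀ e ∈ B, s ≤ e.2) (bi : finB Φ ε (A₁ ++ A₂) β Z i ≤ s)
    (hcm : ‖(KU.free s (com (finZ Φ ε A₁ Z a, finZ Φ ε A₁ Z k))).1 -
      (KU.free s (finZ Φ ε (A₁ ++ A₂) Z i)).1‖ ≤ 2 * ε)
    (hnear : ‖(KU.free h (finZ Φ ε A₁ Z a)).1 - (KU.free h (finZ Φ ε (A₁ ++ A₂) Z i)).1‖ ≤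
      ε * nbp hΦ ε (finZ Φ ε A₁ Z a, finZ Φ ε A₁ Z k) (finZ Φ ε (A₁ ++ A₂) Z i)) :
    Z ∈ triR hΦ ε T (A₁.map Prod.fst) (A₂.map Prod.fst) (B.map Prod.fst) a k i β := by
  have hfB : 0 ≤ finB Φ ε (A₁ ++ A₂) β Z i :=
    (hβ i).trans (hr.append_left.le_finB hΦ hε i)
  refine ⟨mem_winR hΦ hε hβ hr hh hm ba bk (hhs.trans hT) hA hL
    (fun e he => (hL' e he).trans hs) fun e he => hhs.trans (hB e he), ?_, ?_⟩
  · refine ⟨s, hfB.trans bi, by rw [zero_add]; exact hT, ?_⟩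
    simp only [qq_plain, ← List.map_append, finZ_plain]
    exact hcm
  · simp only [mem_ofPred_eq, qq_plain, ← List.map_append, finB_plain, finZ_plain, hh]
    exact ⟨bi.trans hs, hnear⟩

/-! ### The conditions on the programs -/

/-- The programs of `triR`. -/
structure TriOK (T : ℝ) (P₁ P₂ P₃ : List (Ev ι)) (a k i : ι) : Prop where
  ak : a ≠ k
  ia : i ≠ a
  ik : i ≠ k
  wf : Wf (pl T (P₁ ++ Ev.gh a k :: (P₂ ++ P₃)))
  wf1 : Wf (pl T (P₁ ++ [Ev.gh a k, Ev.gh i k]))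
  wf2 : Wf (pl T (P₁ ++ [Ev.gh k a, Ev.gh i a]))
  na : ∀ e ∈ P₂ ++ P₃, e.fst ≠ a ∧ e.snd ≠ a
  nk : ∀ e ∈ P₂ ++ P₃, e.fst ≠ k ∧ e.snd ≠ k

/-- The programs of `quadR`. -/
structure QuadOK (T : ℝ) (P₁ P₂ P₃ P₄ : List (Ev ι)) (i w a k : ι) : Prop where
  iw : i ≠ w
  ak : a ≠ k
  ia : i ≠ a
  ik : i ≠ k
  wa : w ≠ a
  wk : w ≠ k
  wf : Wf (pl T (P₁ ++ Ev.gh i w :: (P₂ ++ Ev.gh a k :: (P₃ ++ P₄))))
  ni : ∀ e ∈ P₂ ++ (P₃ ++ P₄), e.fst ≠ i ∧ e.snd ≠ i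
  nw : ∀ e ∈ P₂ ++ (P₃ ++ P₄), e.fst ≠ w ∧ e.snd ≠ w
  na : ∀ e ∈ P₃ ++ P₄, e.fst ≠ a ∧ e.snd ≠ a
  nk : ∀ e ∈ P₃ ++ P₄, e.fst ≠ k ∧ e.snd ≠ k

theorem wf_map_fst {Q : List (Ev ι × ℝ)} {P : List (Ev ι)} (T : ℝ) (hP : Q.map Prod.fst = P)
    (h : Wf Q) : Wf (pl T P) := by
  refine wf_fst ?_ h
  rw [map_fst_pl, hP]

theorem NotDr.left {A B : List (Ev ι × ℝ)} {j : ι} (h : NotDr (A ++ B) j) : NotDr A j :=
  fun e he => h e (List.mem_append_left _ he)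

theorem NotDr.right {A B : List (Ev ι × ℝ)} {j : ι} (h : NotDr (A ++ B) j) : NotDr B j :=
  fun e he => h e (List.mem_append_right _ he)

theorem NoUse.left {A B : List (Ev ι × ℝ)} {j : ι} (h : NoUse (A ++ B) j) : NoUse A j :=
  fun e he => h e (List.mem_append_left _ he)

theorem NoUse.right {A B : List (Ev ι × ℝ)} {j : ι} (h : NoUse (A ++ B) j) : NoUse B j :=
  fun e he => h e (List.mem_append_right _ he)

theorem NoUse.plain {A : List (Ev ι × ℝ)} {j : ι} (h : NoUse A j) :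
    ∀ e ∈ A.map Prod.fst, e.fst ≠ j ∧ e.snd ≠ j := by
  intro e he
  obtain ⟨e', he', rfl⟩ := List.mem_map.1 he
  exact h e' he'

/-- Two ghosts after a program which does not drop their labels. -/
theorem wf_two {A : List (Ev ι × ℝ)} (hA : Wf A) {a k i : ι} (na : NotDr A a) (nk : NotDr A k)
    (ni : NotDr A i) (hia : i ≠ a) (hka : k ≠ a) (s s' : ℝ) :
    Wf (A ++ [(Ev.gh a k, s), (Ev.gh i k, s')]) := by
  have h1 : Wf (A ++ [(Ev.gh i k, s')]) := by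
    refine wf_insert (Q₂ := []) (by rwa [List.append_nil]) (fun e he c d hcd =>
      ⟨ni e he c d hcd, nk e he c d hcd⟩) fun e he => absurd he List.not_mem_nil
  refine wf_insert h1 (fun e he c d hcd => ⟨na e he c d hcd, nk e he c d hcd⟩) fun e he => ?_
  rw [List.mem_singleton] at he
  rw [he]
  exact ⟨hia, hka⟩

theorem triOK_of {A₁ A₂ B : List (Ev ι × ℝ)} {a k i : ι} (T : ℝ) (hw : Wf (A₁ ++ (A₂ ++ B)))
    (hak : a ≠ k) (hia : i ≠ a) (hik : i ≠ k) (na : NotDr (A₁ ++ (A₂ ++ B)) a)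
    (nk : NotDr (A₁ ++ (A₂ ++ B)) k) (ni : NotDr (A₁ ++ (A₂ ++ B)) i)
    (va : NoUse (A₂ ++ B) a) (vk : NoUse (A₂ ++ B) k) :
    TriOK T (A₁.map Prod.fst) (A₂.map Prod.fst) (B.map Prod.fst) a k i := by
  refine ⟨hak, hia, hik, ?_, ?_, ?_, ?_, ?_⟩
  · exact wf_map_fst T (by simp) (wf_insert (s := 0) hw (fun e he c d hcd =>
      ⟨na.left e he c d hcd, nk.left e he c d hcd⟩) va)
  · exact wf_map_fst T (by simp) (wf_two hw.left na.left nk.left ni.left hia hak.symm 0 0)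
  · exact wf_map_fst T (by simp) (wf_two hw.left nk.left na.left ni.left hik hak 0 0)
  · rw [← List.map_append]; exact va.plain
  · rw [← List.map_append]; exact vk.plain

/-! ### The irregular contacts -/

section Contacts

variable {A B : List (Ev ι × ℝ)} {β : ι → ℝ} {Z : ι → Ph} {s : ℝ}

/-- **The contacts `tri`.** -/
theorem tri_mem (hΦ : IsPotential Φ) (hε : 0 < ε) (hβ : ∀ j, 0 ≤ β j)
    (hr : RunT Φ ε T 0 (A ++ B) β Z) (hw : Wf (A ++ B)) (hsT : s ≤ T) (hA : ∀ e ∈ A, e.2 ≤ s)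
    (hB : ∀ e ∈ B, s ≤ e.2) {x y C : ι}
    (hcol : ColS Φ ε (finB Φ ε A β Z) (finZ Φ ε A Z) x y s)
    (hCx : C ≠ x) (hCy : C ≠ y) (bC : finB Φ ε A β Z C ≤ s)
    (hc : Ctc ε (pairLine Φ ε (finZ Φ ε A Z x, finZ Φ ε A Z y) s).1
        (KU.free s (finZ Φ ε A Z C)) ∨
      Ctc ε (pairLine Φ ε (finZ Φ ε A Z x, finZ Φ ε A Z y) s).2 (KU.free s (finZ Φ ε A Z C)))
    (nx : NotDr (A ++ B) x) (ny : NotDr (A ++ B) y) (nC : NotDr (A ++ B) C)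
    (ux : UseLe A x (hitT ε (finZ Φ ε A Z x, finZ Φ ε A Z y)))
    (uy : UseLe A y (hitT ε (finZ Φ ε A Z x, finZ Φ ε A Z y)))
    (vx : NoUse B x) (vy : NoUse B y) :
    ∃ P₁ P₂ P₃ : List (Ev ι), P₁ ++ (P₂ ++ P₃) = (A ++ B).map Prod.fst ∧
      TriOK T P₁ P₂ P₃ x y C ∧ Z ∈ triR hΦ ε T P₁ P₂ P₃ x y C β := by
  obtain ⟨A₁, A₂, hA12, h1, h2⟩ := hr.left.exists_split
    (hitT ε (finZ Φ ε A Z x, finZ Φ ε A Z y))
  subst hA12
  have vx2 : NoUse A₂ x := ux.noUse le_rfl h2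
  have vy2 : NoUse A₂ y := uy.noUse le_rfl h2
  obtain ⟨hne, hm, hx, bx, by', hh1, hh2⟩ := hcol
  simp only [vx2.finZ, vy2.finZ, vx2.finB, vy2.finB] at hm hx bx by' hh1 hh2 hc h1 h2
  rw [List.append_assoc] at hr hw nx ny nC
  have hpc := pair_near_com hΦ hε hm hh1 (Or.inr ⟨hx, hh2⟩)
  have hdly : s ≤ hitT ε (finZ Φ ε A₁ Z x, finZ Φ ε A₁ Z y) +
      ε * dpl Φ ε (finZ Φ ε A₁ Z x, finZ Φ ε A₁ Z y) := by
    have h3 := RA.sepT_sub_hitT (Φ := Φ) (ε := ε) (finZ Φ ε A₁ Z x, finZ Φ ε A₁ Z y)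
    have h4 : RA.dly Φ (rel ε (finZ Φ ε A₁ Z x, finZ Φ ε A₁ Z y)) ≤
      dpl Φ ε (finZ Φ ε A₁ Z x, finZ Φ ε A₁ Z y) := le_max_right _ _
    have h5 := mul_le_mul_of_nonneg_left h4 hε.le
    linarith
  refine ⟨A₁.map Prod.fst, A₂.map Prod.fst, B.map Prod.fst, by simp,
    triOK_of T hw hne hCx hCy nx ny nC (vx2.append vx) (vy2.append vy),
    mem_triR hΦ hε hβ hr rfl hm bx.le by'.le hh1 hsT hdly h1 (fun e he => (h2 e he).le)
      (fun e he => hA e (List.mem_append_right _ he)) hB bC ?_ ?_⟩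
  · rcases hc with hc | hc
    · have e1 : (KU.free s (com (finZ Φ ε A₁ Z x, finZ Φ ε A₁ Z y))).1 -
          (KU.free s (finZ Φ ε (A₁ ++ A₂) Z C)).1 =
          -((pairLine Φ ε (finZ Φ ε A₁ Z x, finZ Φ ε A₁ Z y) s).1.1 -
            (KU.free s (com (finZ Φ ε A₁ Z x, finZ Φ ε A₁ Z y))).1) +
          ((pairLine Φ ε (finZ Φ ε A₁ Z x, finZ Φ ε A₁ Z y) s).1.1 -
            (KU.free s (finZ Φ ε (A₁ ++ A₂) Z C)).1) := by abel
      rw [e1]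
      refine (norm_add_le _ _).trans ?_
      rw [norm_neg]
      have h3 := hpc.1
      have h4 := hc.le
      linarith
    · have e1 : (KU.free s (com (finZ Φ ε A₁ Z x, finZ Φ ε A₁ Z y))).1 -
          (KU.free s (finZ Φ ε (A₁ ++ A₂) Z C)).1 =
          -((pairLine Φ ε (finZ Φ ε A₁ Z x, finZ Φ ε A₁ Z y) s).2.1 -
            (KU.free s (com (finZ Φ ε A₁ Z x, finZ Φ ε A₁ Z y))).1) +
          ((pairLine Φ ε (finZ Φ ε A₁ Z x, finZ Φ ε A₁ Z y) s).2.1 -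
            (KU.free s (finZ Φ ε (A₁ ++ A₂) Z C)).1) := by abel
      rw [e1]
      refine (norm_add_le _ _).trans ?_
      rw [norm_neg]
      have h3 := hpc.2
      have h4 := hc.le
      linarith
  · exact ((RA.tri_near hΦ hε hm hh1 hh2 hc).1).trans
      (mul_le_mul_of_nonneg_left (nbh_le_nbp hΦ _ _ _) hε.le)

/-- **The contacts `trip`**, with the pair `y`, `x`. -/
theorem trip_mem (hΦ : IsPotential Φ) (hε : 0 < ε) (hβ : ∀ j, 0 ≤ β j)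
    (hr : RunT Φ ε T 0 (A ++ B) β Z) (hw : Wf (A ++ B)) (hsT : s ≤ T) (hA : ∀ e ∈ A, e.2 ≤ s)
    (hB : ∀ e ∈ B, s ≤ e.2) {x y C : ι} (hxy : x ≠ y) (hCx : C ≠ x) (hCy : C ≠ y)
    (bx : finB Φ ε A β Z x < s) (by' : finB Φ ε A β Z y < s) (bC : finB Φ ε A β Z C ≤ s)
    (hm : Meets ε (finZ Φ ε A Z x, finZ Φ ε A Z y))
    (hh : hitT ε (finZ Φ ε A Z x, finZ Φ ε A Z y) = s)
    (hc : Ctc ε (KU.free s (finZ Φ ε A Z y)) (KU.free s (finZ Φ ε A Z C)))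
    (nx : NotDr (A ++ B) x) (ny : NotDr (A ++ B) y) (nC : NotDr (A ++ B) C)
    (vx : NoUse B x) (vy : NoUse B y) :
    ∃ P₁ P₂ P₃ : List (Ev ι), P₁ ++ (P₂ ++ P₃) = (A ++ B).map Prod.fst ∧
      TriOK T P₁ P₂ P₃ y x C ∧ Z ∈ triR hΦ ε T P₁ P₂ P₃ y x C β := by
  have hm' : Meets ε (finZ Φ ε A Z y, finZ Φ ε A Z x) := (meets_swap (ε := ε) _).2 hm
  have hh' : hitT ε (finZ Φ ε A Z y, finZ Φ ε A Z x) = s :=
    (hitT_swap (ε := ε) (finZ Φ ε A Z x, finZ Φ ε A Z y)).trans hh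
  have hpc := pair_near_com (Φ := Φ) hΦ hε hm' hh'.le (Or.inl hh'.symm)
  have hbef := pairLine_before hΦ hε hm'.1 hm'.2.le (t := s) hh'.symm.le
  rw [hbef] at hpc
  have hdly : s ≤ s + ε * dpl Φ ε (finZ Φ ε A Z y, finZ Φ ε A Z x) := by
    have := mul_nonneg hε.le (dpl_nonneg Φ ε (finZ Φ ε A Z y, finZ Φ ε A Z x))
    linarith
  have hr' : RunT Φ ε T 0 (A ++ ([] ++ B)) β Z := hr
  have hd := hc.le
  have hnil : ∀ {p : Ev ι × ℝ → Prop}, ∀ e ∈ ([] : List (Ev ι × ℝ)), p e :=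
    fun e he => absurd he List.not_mem_nil
  refine ⟨A.map Prod.fst, [], B.map Prod.fst, by simp,
    triOK_of (A₂ := []) T hw hxy.symm hCy hCx ny nx nC vy vx,
    mem_triR hΦ hε (A₂ := []) hβ hr' hh' hm' by'.le bx.le le_rfl hsT hdly hA
      hnil hnil hB (by rwa [List.append_nil]) ?_ ?_⟩
  · rw [List.append_nil]
    have e1 : (KU.free s (com (finZ Φ ε A Z y, finZ Φ ε A Z x))).1 -
        (KU.free s (finZ Φ ε A Z C)).1 =
        -((KU.free s (finZ Φ ε A Z y)).1 -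
          (KU.free s (com (finZ Φ ε A Z y, finZ Φ ε A Z x))).1) +
        ((KU.free s (finZ Φ ε A Z y)).1 - (KU.free s (finZ Φ ε A Z C)).1) := by abel
    rw [e1]
    refine (norm_add_le _ _).trans ?_
    rw [norm_neg]
    have h3 := hpc.1
    linarith
  · rw [List.append_nil]
    have h3 := two_le_nbp hΦ ε (finZ Φ ε A Z y, finZ Φ ε A Z x) (finZ Φ ε A Z C)
    nlinarith

/-- Insertion of a contact in the middle of a timed run. -/
theorem RunT.insert {A L : List (Ev ι × ℝ)} {r : ℝ} {β : ι → ℝ} {Z : ι → Ph} {h : ℝ}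
    (hr : RunT Φ ε T r (A ++ L) β Z) (hrh : r ≤ h) (hT : h ≤ T) (hA : ∀ e ∈ A, e.2 ≤ h)
    (hL : ∀ e ∈ L, h ≤ e.2) {a k : ι} (hak : a ≠ k) (ba : finB Φ ε A β Z a ≤ h)
    (bk : finB Φ ε A β Z k ≤ h)
    (hc : Ctc ε (KU.free h (finZ Φ ε A Z a)) (KU.free h (finZ Φ ε A Z k))) :
    RunT Φ ε T r (A ++ (Ev.gh a k, h) :: L) β Z := by
  refine hr.left.append hrh hA ⟨le_rfl, hT, ⟨h - finB Φ ε A β Z a, ?_⟩, hr.right hL⟩
  simp only [At]
  refine ⟨hak, ba, bk, hc, ?_⟩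
  have h4 := le_max_left (finB Φ ε A β Z a) (finB Φ ε A β Z k)
  linarith

theorem quadOK_of {A₁ A₂ A₃ B : List (Ev ι × ℝ)} {i w a k : ι} (T : ℝ)
    (hw : Wf (A₁ ++ (A₂ ++ (A₃ ++ B)))) (hiw : i ≠ w) (hak : a ≠ k) (hia : i ≠ a) (hik : i ≠ k)
    (hwa : w ≠ a) (hwk : w ≠ k) (ni : NotDr (A₁ ++ (A₂ ++ (A₃ ++ B))) i)
    (nw : NotDr (A₁ ++ (A₂ ++ (A₃ ++ B))) w) (na : NotDr (A₁ ++ (A₂ ++ (A₃ ++ B))) a)
    (nk : NotDr (A₁ ++ (A₂ ++ (A₃ ++ B))) k) (vi : NoUse (A₂ ++ (A₃ ++ B)) i)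
    (vw : NoUse (A₂ ++ (A₃ ++ B)) w) (va : NoUse (A₃ ++ B) a) (vk : NoUse (A₃ ++ B) k) :
    QuadOK T (A₁.map Prod.fst) (A₂.map Prod.fst) (A₃.map Prod.fst) (B.map Prod.fst) i w a k := by
  refine ⟨hiw, hak, hia, hik, hwa, hwk, ?_, ?_, ?_, ?_, ?_⟩
  · refine wf_map_fst (Q := A₁ ++ (Ev.gh i w, 0) :: (A₂ ++ (Ev.gh a k, 0) :: (A₃ ++ B))) T
      (by simp) ?_
    refine wf_insert ?_ (fun e he c d hcd => ⟨ni.left e he c d hcd, nw.left e he c d hcd⟩) ?_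
    · rw [← List.append_assoc]
      rw [← List.append_assoc] at hw
      refine wf_insert hw (fun e he c d hcd => ?_) va
      rw [← List.append_assoc] at na nk
      exact ⟨na.left e he c d hcd, nk.left e he c d hcd⟩
    · intro e he
      rcases List.mem_append.1 he with he | he
      · exact vi.left e he
      · rcases List.mem_cons.1 he with rfl | he
        · exact ⟨hia.symm, hik.symm⟩
        · exact vi.right e he
  · rw [← List.map_append, ← List.map_append]; exact vi.plain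
  · rw [← List.map_append, ← List.map_append]; exact vw.plain
  · rw [← List.map_append]; exact va.plain
  · rw [← List.map_append]; exact vk.plain

/-- **Two colliding pairs in contact**: the pair `i`, `w` begins first. -/
theorem quad_mem (hΦ : IsPotential Φ) (hε : 0 < ε) (hβ : ∀ j, 0 ≤ β j)
    (hr : RunT Φ ε T 0 (A ++ B) β Z) (hw : Wf (A ++ B)) (hsT : s ≤ T) (hA : ∀ e ∈ A, e.2 ≤ s)
    (hB : ∀ e ∈ B, s ≤ e.2) {i w a k : ι}
    (hcol : ColS Φ ε (finB Φ ε A β Z) (finZ Φ ε A Z) a k s)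
    (hcol' : ColS Φ ε (finB Φ ε A β Z) (finZ Φ ε A Z) i w s)
    (hle : hitT ε (finZ Φ ε A Z i, finZ Φ ε A Z w) ≤ hitT ε (finZ Φ ε A Z a, finZ Φ ε A Z k))
    (hia : i ≠ a) (hik : i ≠ k) (hwa : w ≠ a) (hwk : w ≠ k)
    (hc : Ctc ε (pairLine Φ ε (finZ Φ ε A Z a, finZ Φ ε A Z k) s).1
      (pairLine Φ ε (finZ Φ ε A Z i, finZ Φ ε A Z w) s).1)
    (na : NotDr (A ++ B) a) (nk : NotDr (A ++ B) k) (ni : NotDr (A ++ B) i)
    (nw : NotDr (A ++ B) w)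
    (ua : UseLe A a (hitT ε (finZ Φ ε A Z a, finZ Φ ε A Z k)))
    (uk : UseLe A k (hitT ε (finZ Φ ε A Z a, finZ Φ ε A Z k)))
    (ui : UseLe A i (hitT ε (finZ Φ ε A Z i, finZ Φ ε A Z w)))
    (uw : UseLe A w (hitT ε (finZ Φ ε A Z i, finZ Φ ε A Z w)))
    (va : NoUse B a) (vk : NoUse B k) (vi : NoUse B i) (vw : NoUse B w) :
    ∃ P₁ P₂ P₃ P₄ : List (Ev ι), P₁ ++ (P₂ ++ (P₃ ++ P₄)) = (A ++ B).map Prod.fst ∧
      QuadOK T P₁ P₂ P₃ P₄ i w a k ∧ Z ∈ quadR Φ ε T P₁ P₂ P₃ P₄ i w a k β := by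
  obtain ⟨A₁, A', hA', h1, h2⟩ := hr.left.exists_split
    (hitT ε (finZ Φ ε A Z i, finZ Φ ε A Z w))
  subst hA'
  have vi' : NoUse A' i := ui.noUse le_rfl h2
  have vw' : NoUse A' w := uw.noUse le_rfl h2
  obtain ⟨hiw, hm', hx', bi, bw, hh1', hh2'⟩ := hcol'
  obtain ⟨hak, hm, hx, ba, bk, hh1, hh2⟩ := hcol
  simp only [vi'.finZ, vw'.finZ, vi'.finB, vw'.finB] at hm' hx' bi bw hh1' hh2' hc h1 h2 hle
  set q' : Ph × Ph := (finZ Φ ε A₁ Z i, finZ Φ ε A₁ Z w) with hq'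
  have hrA' : RunT Φ ε T (hitT ε q') A' (finB Φ ε A₁ β Z) (finZ Φ ε A₁ Z) :=
    hr.left.right fun e he => (h2 e he).le
  obtain ⟨A₂, A₃, hA', h3, h4⟩ := hrA'.exists_split
    (hitT ε (finZ Φ ε (A₁ ++ A') Z a, finZ Φ ε (A₁ ++ A') Z k))
  subst hA'
  have ua' : UseLe ((A₁ ++ A₂) ++ A₃) a
      (hitT ε (finZ Φ ε (A₁ ++ (A₂ ++ A₃)) Z a, finZ Φ ε (A₁ ++ (A₂ ++ A₃)) Z k)) := by
    intro e he
    exact ua e (by rwa [List.append_assoc] at he)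
  have uk' : UseLe ((A₁ ++ A₂) ++ A₃) k
      (hitT ε (finZ Φ ε (A₁ ++ (A₂ ++ A₃)) Z a, finZ Φ ε (A₁ ++ (A₂ ++ A₃)) Z k)) := by
    intro e he
    exact uk e (by rwa [List.append_assoc] at he)
  have va' : NoUse A₃ a := ua'.noUse le_rfl h4
  have vk' : NoUse A₃ k := uk'.noUse le_rfl h4
  have eZa : finZ Φ ε (A₁ ++ (A₂ ++ A₃)) Z a = finZ Φ ε (A₁ ++ A₂) Z a := by
    rw [← List.append_assoc]; exact va'.finZ Z
  have eZk : finZ Φ ε (A₁ ++ (A₂ ++ A₃)) Z k = finZ Φ ε (A₁ ++ A₂) Z k := by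
    rw [← List.append_assoc]; exact vk'.finZ Z
  have eBa : finB Φ ε (A₁ ++ (A₂ ++ A₃)) β Z a = finB Φ ε (A₁ ++ A₂) β Z a := by
    rw [← List.append_assoc]; exact va'.finB β Z
  have eBk : finB Φ ε (A₁ ++ (A₂ ++ A₃)) β Z k = finB Φ ε (A₁ ++ A₂) β Z k := by
    rw [← List.append_assoc]; exact vk'.finB β Z
  simp only [eZa, eZk, eBa, eBk] at hm hx ba bk hh1 hh2 hc h3 h4 hle
  set q : Ph × Ph := (finZ Φ ε (A₁ ++ A₂) Z a, finZ Φ ε (A₁ ++ A₂) Z k) with hq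
  have hr4 : RunT Φ ε T 0 (A₁ ++ (A₂ ++ (A₃ ++ B))) β Z := by
    simpa only [List.append_assoc] using hr
  have hw4 : Wf (A₁ ++ (A₂ ++ (A₃ ++ B))) := by simpa only [List.append_assoc] using hw
  have hfB : 0 ≤ finB Φ ε A₁ β Z i := (hβ i).trans (hr4.left.le_finB hΦ hε i)
  have h0' : 0 ≤ hitT ε q' := hfB.trans bi.le
  have hA3s : ∀ e ∈ A₃, e.2 ≤ s := fun e he => hA e (List.mem_append_right _
    (List.mem_append_right _ he))
  have hA12 : ∀ e ∈ A₁ ++ A₂, e.2 ≤ hitT ε q := by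
    intro e he
    rcases List.mem_append.1 he with he | he
    · exact (h1 e he).trans hle
    · exact h3 e he
  -- the run with the second contact
  have hr5 : RunT Φ ε T 0 (A₁ ++ ((A₂ ++ (Ev.gh a k, hitT ε q) :: A₃) ++ B)) β Z := by
    have h5 : RunT Φ ε T 0 ((A₁ ++ A₂) ++ (A₃ ++ B)) β Z := by
      simpa only [List.append_assoc] using hr4
    have h6 := h5.insert (h0'.trans hle) (hh1.trans hsT) hA12 (fun e he => by
      rcases List.mem_append.1 he with he | he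
      · exact (h4 e he).le
      · exact hh1.trans (hB e he)) hak ba.le bk.le (M.ctc_hitT hε hm)
    simpa only [List.append_assoc, List.cons_append] using h6
  have hsep : s ≤ hitT ε q' + ε * dpl Φ ε q' := by
    have h7 := RA.sepT_sub_hitT (Φ := Φ) (ε := ε) q'
    have h8 : RA.dly Φ (rel ε q') ≤ dpl Φ ε q' := le_max_right _ _
    have h9 := mul_le_mul_of_nonneg_left h8 hε.le
    linarith
  have hpc := pair_near_com hΦ hε hm hh1 (Or.inr ⟨hx, hh2⟩)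
  have hpc' := pair_near_com hΦ hε hm' hh1' (Or.inr ⟨hx', hh2'⟩)
  have hL : ∀ e ∈ A₂ ++ (Ev.gh a k, hitT ε q) :: A₃, hitT ε q' ≤ e.2 ∧ e.2 ≤ s := by
    intro e he
    rcases List.mem_append.1 he with he | he
    · exact ⟨(h2 e (List.mem_append_left _ he)).le, (h3 e he).trans hh1⟩
    · rcases List.mem_cons.1 he with rfl | he
      · exact ⟨hle, hh1⟩
      · exact ⟨hle.trans (h4 e he).le, hA3s e he⟩
  have hn4 : ∀ {j : ι}, NotDr ((A₁ ++ (A₂ ++ A₃)) ++ B) j →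
      NotDr (A₁ ++ (A₂ ++ (A₃ ++ B))) j := by
    intro j hj
    simpa only [List.append_assoc] using hj
  refine ⟨A₁.map Prod.fst, A₂.map Prod.fst, A₃.map Prod.fst, B.map Prod.fst, by simp,
    quadOK_of T hw4 hiw hak hia hik hwa hwk (hn4 ni) (hn4 nw) (hn4 na) (hn4 nk) ?_ ?_
      (va'.append va) (vk'.append vk), ?_, ?_⟩
  · rw [← List.append_assoc]; exact vi'.append vi
  · rw [← List.append_assoc]; exact vw'.append vw
  · have h10 := mem_winR hΦ hε hβ hr5 (a := i) (k := w) (h := hitT ε q') rfl hm' bi.le bw.le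
      (hh1'.trans hsT) h1 (fun e he => (hL e he).1) (fun e he => (hL e he).2.trans hsep)
      fun e he => hh1'.trans (hB e he)
    have e1 : (A₂ ++ (Ev.gh a k, hitT ε q) :: A₃).map Prod.fst =
        A₂.map Prod.fst ++ Ev.gh a k :: A₃.map Prod.fst := by simp
    rwa [e1] at h10
  · refine ⟨s, h0'.trans hh1', by rw [zero_add]; exact hsT, ?_⟩
    simp only [← List.map_append, qq_plain]
    have e1 : (KU.free s (com q)).1 - (KU.free s (com q')).1 =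
        -((pairLine Φ ε q s).1.1 - (KU.free s (com q)).1) +
        ((pairLine Φ ε q s).1.1 - (pairLine Φ ε q' s).1.1) +
        ((pairLine Φ ε q' s).1.1 - (KU.free s (com q')).1) := by abel
    rw [e1]
    refine (norm_add_le _ _).trans ((add_le_add (norm_add_le _ _) le_rfl).trans ?_)
    rw [norm_neg]
    have h11 := hpc.1
    have h12 := hpc'.1
    have h13 := hc.le
    linarith

end Contacts

end Vale.Agent.P119.IND
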