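import Vale.Agent.P119.IND.TriSmall
import Vale.Agent.P119.IND.IrrMem

/-!
# P119, block IND: the masses of the irregular final contacts, final form (`helper76`)

`TriOK.small`, `TriOK.smallF`, `QuadOK.small`: the masses of `triR`, `triF`, `quadR` are `o(1)`.
-/

open MeasureTheory Filter Topology Set
open scoped ENNReal

set_option linter.unusedSectionVars false

noncomputable section

namespace Vale.Agent.P119.IND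

open KU MM

variable {ι : Type} [DecidableEq ι] [Fintype ι] {Φ : E3 → ℝ} {ε T b : ℝ}

theorem wf_pl_of {T' : ℝ} {P : List (Ev ι)} (h : Wf (pl T P)) : Wf (pl T' P) := by
  refine wf_fst ?_ h
  rw [map_fst_pl, map_fst_pl]

/-- The masses of `triG` with the conditions `TriOK`. -/
theorem TriOK.smallG {P₁ P₂ P₃ : List (Ev ι)} {a k i : ι} (h : TriOK T P₁ P₂ P₃ a k i)
    (hΦ : IsPotential Φ) (hT : 0 ≤ T) (hb : 0 < b) {κ : ℝ} (hκ : 0 ≤ κ) {c : Ph × Ph → Ph}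
    (hc : LineC c) {δ : ℝ≥0∞} (hδ : δ ≠ 0) :
    ∀ᶠ ε : ℝ in 𝓝[>] 0, ∀ β : ι → ℝ, (∀ j, 0 ≤ β j) → ∀ R,
      Trv (pl T (P₁ ++ Ev.gh a k :: (P₂ ++ P₃)) ++ [(Ev.gh a i, T)]) R →
      massF b R ((triG Φ κ c ε T P₁ P₂ P₃ a k i β).indicator 1) ≤
        δ * ENNReal.ofReal (ε ^ 2) ^ (Fintype.card ι - R.card) :=
  tri_small hΦ hT hb hκ hc h.ak h.wf (fun _ => wf_pl_of h.wf1) (fun _ => wf_pl_of h.wf2) hδ

/-- The mass of `triR`. -/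
theorem TriOK.small {P₁ P₂ P₃ : List (Ev ι)} {a k i : ι} (h : TriOK T P₁ P₂ P₃ a k i)
    (hΦ : IsPotential Φ) (hT : 0 ≤ T) (hb : 0 < b) {δ : ℝ≥0∞} (hδ : δ ≠ 0) :
    ∀ᶠ ε : ℝ in 𝓝[>] 0, ∀ β : ι → ℝ, (∀ j, 0 ≤ β j) → ∀ R,
      Trv (pl T (P₁ ++ Ev.gh a k :: (P₂ ++ P₃)) ++ [(Ev.gh a i, T)]) R →
      massF b R ((triR hΦ ε T P₁ P₂ P₃ a k i β).indicator 1) ≤
        δ * ENNReal.ofReal (ε ^ 2) ^ (Fintype.card ι - R.card) :=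
  h.smallG hΦ hT hb (FL.cS_nonneg hΦ) lineC_com hδ

/-- The mass of `triF`. -/
theorem TriOK.smallF {P₁ P₂ P₃ : List (Ev ι)} {a k i : ι} (h : TriOK T P₁ P₂ P₃ a k i)
    (hΦ : IsPotential Φ) (hT : 0 ≤ T) (hb : 0 < b) {δ : ℝ≥0∞} (hδ : δ ≠ 0) :
    ∀ᶠ ε : ℝ in 𝓝[>] 0, ∀ β : ι → ℝ, (∀ j, 0 ≤ β j) → ∀ R,
      Trv (pl T (P₁ ++ Ev.gh a k :: (P₂ ++ P₃)) ++ [(Ev.gh a i, T)]) R →
      massF b R ((triF hΦ ε T P₁ P₂ P₃ a k i β).indicator 1) ≤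
        δ * ENNReal.ofReal (ε ^ 2) ^ (Fintype.card ι - R.card) :=
  h.smallG hΦ hT hb (by have := FL.cS_nonneg hΦ; linarith) lineC_fst hδ

/-- The mass of `quadR`. -/
theorem QuadOK.small {P₁ P₂ P₃ P₄ : List (Ev ι)} {i w a k : ι}
    (h : QuadOK T P₁ P₂ P₃ P₄ i w a k) (hΦ : IsPotential Φ) (hT : 0 ≤ T) (hb : 0 < b)
    {δ : ℝ≥0∞} (hδ : δ ≠ 0) :
    ∀ᶠ ε : ℝ in 𝓝[>] 0, ∀ β : ι → ℝ, (∀ j, 0 ≤ β j) → ∀ R,
      Trv (pl T (P₁ ++ Ev.gh i w :: (P₂ ++ Ev.gh a k :: (P₃ ++ P₄))) ++ [(Ev.gh a i, T)]) R →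
      massF b R ((quadR Φ ε T P₁ P₂ P₃ P₄ i w a k β).indicator 1) ≤
        δ * ENNReal.ofReal (ε ^ 2) ^ (Fintype.card ι - R.card) :=
  quad_small hΦ hT hb h.iw h.wf hδ

end Vale.Agent.P119.IND
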