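import Vale.Agent.P119.IND.IrrInv
import Vale.Agent.P119.IND.IrrSmall

/-!
# P119, block IND: a third body at a colliding pair, with a general line (`helper350`)

* `mem_triG_mv`: the relation `triG` of `helper76` is invariant under the translations of the classes;
* **`free_mem`**: the contacts `tri` with the undisturbed line of the first particle are in `triF`.
-/

open MeasureTheory Filter Topology Set
open scoped ENNReal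

set_option linter.unusedSectionVars false

noncomputable section

namespace Vale.Agent.P119.IND

open KU MM

variable {ι : Type} [DecidableEq ι] {Φ : E3 → ℝ} {ε T : ℝ}

theorem mem_triG_mv {κ : ℝ} {c : Ph × Ph → Ph} (hc : LineC c) {B : Finset ι}
    {P₁ P₂ P₃ : List (Ev ι)}
    (h1 : Cl B (pl T P₁)) (h2 : Cl B (pl T P₂)) (h3 : Cl B (pl T P₃)) {a k i : ι}
    (hak : a ∈ B ↔ k ∈ B) (hai : a ∈ B ↔ i ∈ B) (x : E3) (β : ι → ℝ) (Z : ι → Ph) :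
    mv B (x, 0) Z ∈ triG Φ κ c ε T P₁ P₂ P₃ a k i β ↔ Z ∈ triG Φ κ c ε T P₁ P₂ P₃ a k i β := by
  have h12 := cl_pl_append h1 h2
  have hr := rel_qq_mv (Φ := Φ) (ε := ε) h1 hak x Z
  unfold triG
  simp only [mem_inter_iff]
  rw [mem_winR_mv h1 h2 h3 hak]
  refine and_congr_right fun _ => ?_
  have hi : (a ∈ B ∧ finZ Φ ε (pl T (P₁ ++ P₂)) (mv B (x, 0) Z) i =
      boost (x, 0) (finZ Φ ε (pl T (P₁ ++ P₂)) Z i)) ∨
      (a ∉ B ∧ finZ Φ ε (pl T (P₁ ++ P₂)) (mv B (x, 0) Z) i =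
        finZ Φ ε (pl T (P₁ ++ P₂)) Z i) := by
    rw [finZ_mv h12]
    by_cases ha : a ∈ B
    · exact Or.inl ⟨ha, mv_of_mem (hai.1 ha) _ _⟩
    · exact Or.inr ⟨ha, mv_of_notMem (fun h => ha (hai.2 h)) _ _⟩
  refine and_congr ?_ ?_
  · refine mem_cmR_mv (x := x) ?_
    rcases qq_mv (Φ := Φ) (ε := ε) h1 hak x Z with ⟨ha, e1⟩ | ⟨ha, e1⟩
    · rcases hi with ⟨-, e2⟩ | ⟨hna, -⟩
      · left
        exact ⟨by rw [e1]; exact hc.cov _ _, e2⟩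
      · exact absurd ha hna
    · rcases hi with ⟨ha', -⟩ | ⟨-, e2⟩
      · exact absurd ha' ha
      · right
        exact ⟨by rw [e1], e2⟩
  · simp only [mem_ofPred_eq, hitT_of_rel hr, dpl_of_rel (Φ := Φ) hr, finB_mv h12]
    refine and_congr_right fun _ => ?_
    rcases qq_mv (Φ := Φ) (ε := ε) h1 hak x Z with ⟨ha, e1⟩ | ⟨ha, e1⟩
    · rcases hi with ⟨-, e2⟩ | ⟨hna, -⟩
      · have e3 : nbk Φ κ ε (qq Φ ε T P₁ a k (mv B (x, 0) Z))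
            (finZ Φ ε (pl T (P₁ ++ P₂)) (mv B (x, 0) Z) i) =
            nbk Φ κ ε (qq Φ ε T P₁ a k Z) (finZ Φ ε (pl T (P₁ ++ P₂)) Z i) := by
          unfold nbk
          rw [dpl_of_rel (Φ := Φ) hr, e1, e2]
          unfold boost
          simp only [add_zero]
        rw [e3, e1, e2, free_boost, free_boost]
        unfold boost
        simp only [add_sub_add_right_eq_sub]
      · exact absurd ha hna
    · rcases hi with ⟨ha', -⟩ | ⟨-, e2⟩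
      · exact absurd ha' ha
      · rw [e1, e2]

theorem mem_triG (hΦ : IsPotential Φ) (hε : 0 < ε) (κ : ℝ) (c : Ph × Ph → Ph) {A₁ A₂ B : List (Ev ι × ℝ)} {β : ι → ℝ}
    {Z : ι → Ph} (hβ : ∀ j, 0 ≤ β j) (hr : RunT Φ ε T 0 (A₁ ++ (A₂ ++ B)) β Z) {a k i : ι}
    {h s : ℝ} (hh : hitT ε (finZ Φ ε A₁ Z a, finZ Φ ε A₁ Z k) = h)
    (hm : Meets ε (finZ Φ ε A₁ Z a, finZ Φ ε A₁ Z k)) (ba : finB Φ ε A₁ β Z a ≤ h)
    (bk : finB Φ ε A₁ β Z k ≤ h) (hhs : h ≤ s) (hT : s ≤ T)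
    (hs : s ≤ h + ε * dpl Φ ε (finZ Φ ε A₁ Z a, finZ Φ ε A₁ Z k))
    (hA : ∀ e ∈ A₁, e.2 ≤ h) (hL : ∀ e ∈ A₂, h ≤ e.2) (hL' : ∀ e ∈ A₂, e.2 ≤ s)
    (hB : ∀ e ∈ B, s ≤ e.2) (bi : finB Φ ε (A₁ ++ A₂) β Z i ≤ s)
    (hcm : ‖(KU.free s (c (finZ Φ ε A₁ Z a, finZ Φ ε A₁ Z k))).1 -
      (KU.free s (finZ Φ ε (A₁ ++ A₂) Z i)).1‖ ≤ 2 * ε)
    (hnear : ‖(KU.free h (finZ Φ ε A₁ Z a)).1 - (KU.free h (finZ Φ ε (A₁ ++ A₂) Z i)).1‖ ≤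
      ε * nbk Φ κ ε (finZ Φ ε A₁ Z a, finZ Φ ε A₁ Z k) (finZ Φ ε (A₁ ++ A₂) Z i)) :
    Z ∈ triG Φ κ c ε T (A₁.map Prod.fst) (A₂.map Prod.fst) (B.map Prod.fst) a k i β := by
  have hfB : 0 ≤ finB Φ ε (A₁ ++ A₂) β Z i :=
    (hβ i).trans (hr.append_left.le_finB hΦ hε i)
  refine ⟨mem_winR hΦ hε hβ hr hh hm ba bk (hhs.trans hT) hA hL
    (fun e he => (hL' e he).trans hs) fun e he => hhs.trans (hB e he), ?_, ?_⟩
  · refine ⟨s, hfB.trans bi, by rw [zero_add]; exact hT, ?_⟩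
    simp only [qq_plain, ← List.map_append, finZ_plain]
    exact hcm
  · simp only [mem_ofPred_eq, qq_plain, ← List.map_append, finB_plain, finZ_plain, hh]
    exact ⟨bi.trans hs, hnear⟩

/-- Two lines in contact at the end of a short time are near at its beginning. -/
theorem free_near (hΦ : IsPotential Φ) (hε : 0 < ε) {q : Ph × Ph} {l : Ph} {h s : ℝ}
    (hhs : h ≤ s) (hs : s ≤ h + ε * dpl Φ ε q)
    (hc : ‖(KU.free s q.1).1 - (KU.free s l).1‖ ≤ ε) :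
    ‖(KU.free h q.1).1 - (KU.free h l).1‖ ≤ ε * nbk Φ (FL.cS hΦ + 1) ε q l := by
  have e1 : (KU.free h q.1).1 - (KU.free h l).1 =
      ((KU.free s q.1).1 - (KU.free s l).1) - (s - h) • (q.1.2 - l.2) := by
    unfold KU.free
    simp only
    module
  have h1 : ‖(s - h) • (q.1.2 - l.2)‖ ≤ ε * dpl Φ ε q * (‖q.1.2‖ + ‖l.2‖) := by
    rw [norm_smul, Real.norm_eq_abs, abs_of_nonneg (sub_nonneg.2 hhs)]
    exact mul_le_mul (by linarith) (norm_sub_le _ _) (norm_nonneg _)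
      (mul_nonneg hε.le (dpl_nonneg Φ ε q))
  have h2 : ‖q.1.2‖ ≤ (FL.cS hΦ + 1) * (1 + √(‖q.1.2‖ ^ 2 + ‖q.2.2‖ ^ 2)) := by
    have h3 : ‖q.1.2‖ ≤ √(‖q.1.2‖ ^ 2 + ‖q.2.2‖ ^ 2) :=
      Real.le_sqrt_of_sq_le (by nlinarith [sq_nonneg ‖q.2.2‖])
    have h4 := FL.cS_nonneg hΦ
    have h5 := Real.sqrt_nonneg (‖q.1.2‖ ^ 2 + ‖q.2.2‖ ^ 2)
    nlinarith
  have h3 : ε * dpl Φ ε q * (‖q.1.2‖ + ‖l.2‖) ≤
      ε * (dpl Φ ε q * ((FL.cS hΦ + 1) * (1 + √(‖q.1.2‖ ^ 2 + ‖q.2.2‖ ^ 2)) + ‖l.2‖)) := by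
    rw [mul_assoc]
    exact mul_le_mul_of_nonneg_left (mul_le_mul_of_nonneg_left (by linarith)
      (dpl_nonneg Φ ε q)) hε.le
  rw [e1]
  refine (norm_sub_le _ _).trans ?_
  unfold nbk
  linarith

/-- **The contacts `tri` with the undisturbed line.** -/
theorem free_mem (hΦ : IsPotential Φ) (hε : 0 < ε) {A B : List (Ev ι × ℝ)} {β : ι → ℝ}
    {Z : ι → Ph} {s : ℝ} (hβ : ∀ j, 0 ≤ β j)
    (hr : RunT Φ ε T 0 (A ++ B) β Z) (hw : Wf (A ++ B)) (hsT : s ≤ T) (hA : ∀ e ∈ A, e.2 ≤ s)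
    (hB : ∀ e ∈ B, s ≤ e.2) {x y C : ι}
    (hcol : ColS Φ ε (finB Φ ε A β Z) (finZ Φ ε A Z) x y s)
    (hCx : C ≠ x) (hCy : C ≠ y) (bC : finB Φ ε A β Z C ≤ s)
    (hc : Ctc ε (KU.free s (finZ Φ ε A Z x)) (KU.free s (finZ Φ ε A Z C)))
    (nx : NotDr (A ++ B) x) (ny : NotDr (A ++ B) y) (nC : NotDr (A ++ B) C)
    (ux : UseLe A x (hitT ε (finZ Φ ε A Z x, finZ Φ ε A Z y)))
    (uy : UseLe A y (hitT ε (finZ Φ ε A Z x, finZ Φ ε A Z y)))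
    (vx : NoUse B x) (vy : NoUse B y) :
    ∃ P₁ P₂ P₃ : List (Ev ι), P₁ ++ (P₂ ++ P₃) = (A ++ B).map Prod.fst ∧
      TriOK T P₁ P₂ P₃ x y C ∧ Z ∈ triF hΦ ε T P₁ P₂ P₃ x y C β := by
  obtain ⟨A₁, A₂, hA12, h1, h2⟩ := hr.left.exists_split
    (hitT ε (finZ Φ ε A Z x, finZ Φ ε A Z y))
  subst hA12
  have vx2 : NoUse A₂ x := ux.noUse le_rfl h2
  have vy2 : NoUse A₂ y := uy.noUse le_rfl h2
  obtain ⟨hne, hm, hx, bx, by', hh1, hh2⟩ := hcol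
  simp only [vx2.finZ, vy2.finZ, vx2.finB, vy2.finB] at hm hx bx by' hh1 hh2 hc h1 h2
  rw [List.append_assoc] at hr hw nx ny nC
  have hdly : s ≤ hitT ε (finZ Φ ε A₁ Z x, finZ Φ ε A₁ Z y) +
      ε * dpl Φ ε (finZ Φ ε A₁ Z x, finZ Φ ε A₁ Z y) := by
    have h3 := RA.sepT_sub_hitT (Φ := Φ) (ε := ε) (finZ Φ ε A₁ Z x, finZ Φ ε A₁ Z y)
    have h4 : RA.dly Φ (rel ε (finZ Φ ε A₁ Z x, finZ Φ ε A₁ Z y)) ≤
      dpl Φ ε (finZ Φ ε A₁ Z x, finZ Φ ε A₁ Z y) := le_max_right _ _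
    have h5 := mul_le_mul_of_nonneg_left h4 hε.le
    linarith
  have hcl := hc.le
  exact ⟨A₁.map Prod.fst, A₂.map Prod.fst, B.map Prod.fst, by simp,
    triOK_of T hw hne hCx hCy nx ny nC (vx2.append vx) (vy2.append vy),
    mem_triG hΦ hε (FL.cS hΦ + 1) Prod.fst hβ hr rfl hm bx.le by'.le hh1 hsT hdly h1 (fun e he => (h2 e he).le)
      (fun e he => hA e (List.mem_append_right _ he)) hB bC (by linarith)
      (free_near (q := (finZ Φ ε A₁ Z x, finZ Φ ε A₁ Z y)) hΦ hε hh1 hdly hcl)⟩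

end Vale.Agent.P119.IND
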