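import Vale.Agent.P119.IND.IrrQuad
import Vale.Agent.P119.IND.IrrFree

/-!
# P119, block IND: the irregular contacts are negligible (`helper350`)

* `triGs`: the finite sets of the relations `triG` of `helper76`; `triGs_finite`, `triGs_small`;
* **`irrs hΦ T N c₀`**: the finite set of the relations of all irregular contacts; `irrs_finite`,
  **`irrs_small`**: they have small mass, compared with `μ ^ c₀`;
* **`IrrO.sbad`**: a labelled program with at most `c₀` classes and an irregular contact satisfies one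
  of these relations.
-/

open MeasureTheory Filter Topology Set
open scoped ENNReal

set_option linter.unusedSectionVars false

noncomputable section

namespace Vale.Agent.P119.IND

open KU FL M M.CTree TL GC MM AU PB.CT

variable {Φ : E3 → ℝ} {ε T t : ℝ}

/-- The relation of a third body at a colliding pair, with the line `c`. -/
def relG (Φ : E3 → ℝ) (κ : ℝ) (c : Ph × Ph → Ph) (ε T : ℝ) {n : ℕ} (P₁ P₂ P₃ : List (Ev (Fin n)))
    (a k i : Fin n) : Set (Fin n → ℝ × Ph) :=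
  {y | (fun j => (y j).2) ∈ triG Φ κ c ε T P₁ P₂ P₃ a k i fun j => (y j).1}

theorem measurableSet_relG (hΦ : IsPotential Φ) (hε : ε ≠ 0) (κ : ℝ) {c : Ph × Ph → Ph}
    (hc : LineC c) {n : ℕ} (P₁ P₂ P₃ : List (Ev (Fin n))) (a k i : Fin n) :
    MeasurableSet (relG Φ κ c ε T P₁ P₂ P₃ a k i) :=
  measurableSet_triG hΦ hε κ hc P₁ P₂ P₃ a k i measurable_births measurable_lines

/-- The relations of a third body at a colliding pair, with the line `c`. -/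
def triGs (Φ : E3 → ℝ) (κ : ℝ) (c : Ph × Ph → Ph) (T : ℝ) (N c₀ : ℕ) : Set Rln :=
  {r | ∃ n ≤ N, ∃ (P₁ P₂ P₃ : List (Ev (Fin n))) (a k i : Fin n) (Rs : Finset (Fin n)),
    (P₁ ++ (P₂ ++ P₃)).length ≤ N ∧
    Trv (pl T (P₁ ++ Ev.gh a k :: (P₂ ++ P₃)) ++ [(Ev.gh a i, T)]) Rs ∧ Rs.card ≤ c₀ ∧
    TriOK T P₁ P₂ P₃ a k i ∧ r = ⟨n, fun ε => relG Φ κ c ε T P₁ P₂ P₃ a k i, Rs⟩}

theorem tris_eq (hΦ : IsPotential Φ) (T : ℝ) (N c₀ : ℕ) :
    tris hΦ T N c₀ = triGs Φ (FL.cS hΦ) com T N c₀ := rfl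

theorem triGs_finite (Φ : E3 → ℝ) (κ : ℝ) (c : Ph × Ph → Ph) (T : ℝ) (N c₀ : ℕ) :
    (triGs Φ κ c T N c₀).Finite := by
  have h1 : ∀ n : Fin (N + 1), (({P : List (Ev (Fin n)) | P.length ≤ N} ×ˢ
      ({P : List (Ev (Fin n)) | P.length ≤ N} ×ˢ {P : List (Ev (Fin n)) | P.length ≤ N})) ×ˢ
      (Set.univ : Set (Fin n × Fin n × Fin n × Finset (Fin n)))).Finite := fun n =>
    ((List.finite_length_le (Ev (Fin n)) N).prod ((List.finite_length_le (Ev (Fin n)) N).prod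
      (List.finite_length_le (Ev (Fin n)) N))).prod Set.finite_univ
  have h2 : (⋃ n : Fin (N + 1), (fun x : (List (Ev (Fin n)) × List (Ev (Fin n)) ×
      List (Ev (Fin n))) × (Fin n × Fin n × Fin n × Finset (Fin n)) =>
      (⟨n, fun ε => relG Φ κ c ε T x.1.1 x.1.2.1 x.1.2.2 x.2.1 x.2.2.1 x.2.2.2.1, x.2.2.2.2⟩ :
        Rln)) '' (({P : List (Ev (Fin n)) | P.length ≤ N} ×ˢ
      ({P : List (Ev (Fin n)) | P.length ≤ N} ×ˢ {P : List (Ev (Fin n)) | P.length ≤ N})) ×ˢ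
      (Set.univ : Set (Fin n × Fin n × Fin n × Finset (Fin n))))).Finite :=
    Set.finite_iUnion fun n => (h1 n).image _
  refine h2.subset ?_
  rintro r ⟨n, hn, P₁, P₂, P₃, a, k, i, Rs, h3, -, -, -, rfl⟩
  rw [List.length_append, List.length_append] at h3
  exact mem_iUnion.2 ⟨⟨n, Nat.lt_succ_of_le hn⟩, ((P₁, P₂, P₃), (a, k, i, Rs)),
    ⟨⟨show P₁.length ≤ N by omega, show P₂.length ≤ N by omega, show P₃.length ≤ N by omega⟩,
      mem_univ _⟩, rfl⟩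

theorem triGs_small {f₀ : Ph → ℝ} {b c M₁ : ℝ} (hΦ : IsPotential Φ) (hf : Measurable f₀)
    (hM₁ : 0 ≤ M₁)
    (hmarg : ∀ v, ∫⁻ x, ENNReal.ofReal (f₀ (x, v)) ≤ ENNReal.ofReal (M₁ * Real.exp (-b * ‖v‖ ^ 2)))
    (hbc : c < b) (hT : 0 ≤ T) {κ : ℝ} (hκ : 0 ≤ κ) {ln : Ph × Ph → Ph} (hln : LineC ln)
    {N c₀ : ℕ} {r : Rln} (hr : r ∈ triGs Φ κ ln T N c₀) : r.Small f₀ b c c₀ := by
  obtain ⟨n, -, P₁, P₂, P₃, a, k, i, Rs, -, hRs, hRc, hok, rfl⟩ := hr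
  refine Rln.small_of_loc hf hM₁ hmarg (fun ε hε => measurableSet_relG hΦ hε.ne' κ hln _ _ _ _ _ _)
    hRc hRs ?_ ?_
  · intro ε _ j _ β x Z
    have h1 := cl_edges (cl_cls
      (pl T (P₁ ++ Ev.gh a k :: (P₂ ++ P₃)) ++ [(Ev.gh a i, T)]) j)
    have h2 : ∀ {P : List (Ev (Fin n))}, (∀ p ∈ ed P, p ∈ ed (P₁ ++ (P₂ ++ P₃))) →
        Cl (cls (pl T (P₁ ++ Ev.gh a k :: (P₂ ++ P₃)) ++ [(Ev.gh a i, T)]) j) (pl T P) :=
      fun {P} hP => cl_pl_of_ed fun p hp => h1 p (mem_edges_tri.2 (Or.inl (hP p hp)))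
    refine mem_triG_mv hln (h2 fun p hp => ?_) (h2 fun p hp => ?_) (h2 fun p hp => ?_)
      (h1 (a, k) (mem_edges_tri.2 (Or.inr (Or.inl rfl))))
      (h1 (a, i) (mem_edges_tri.2 (Or.inr (Or.inr rfl)))) x β Z
    · simp only [mem_ed_append]; tauto
    · simp only [mem_ed_append]; tauto
    · simp only [mem_ed_append]; tauto
  · intro δ hδ
    filter_upwards [hok.smallG hΦ hT (sub_pos.2 hbc) hκ hln hδ] with ε h β hβ
    have h1 := h β hβ Rs hRs
    rwa [Fintype.card_fin] at h1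

/-- **The relations of all irregular contacts.** -/
def irrs (hΦ : IsPotential Φ) (T : ℝ) (N c₀ : ℕ) : Set Rln :=
  igs Φ T N c₀ ∪ (tris hΦ T N c₀ ∪ (triGs Φ (FL.cS hΦ + 1) Prod.fst T N c₀ ∪ quads Φ T N c₀))

theorem irrs_finite (hΦ : IsPotential Φ) (T : ℝ) (N c₀ : ℕ) : (irrs hΦ T N c₀).Finite :=
  (igs_finite Φ T N c₀).union ((tris_finite hΦ T N c₀).union
    ((triGs_finite Φ _ _ T N c₀).union (quads_finite Φ T N c₀)))

/-- **The irregular contacts have small mass.** -/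
theorem irrs_small {f₀ : Ph → ℝ} {b c M₁ : ℝ} (hΦ : IsPotential Φ) (hf : Measurable f₀)
    (hM₁ : 0 ≤ M₁)
    (hmarg : ∀ v, ∫⁻ x, ENNReal.ofReal (f₀ (x, v)) ≤ ENNReal.ofReal (M₁ * Real.exp (-b * ‖v‖ ^ 2)))
    (hbc : c < b) (hT : 0 ≤ T) {N c₀ : ℕ} {r : Rln} (hr : r ∈ irrs hΦ T N c₀) :
    r.Small f₀ b c c₀ := by
  have h0 := FL.cS_nonneg hΦ
  rcases hr with hr | hr | hr | hr
  · exact igs_small hΦ hf hM₁ hmarg hbc hT hr
  · rw [tris_eq] at hr
    exact triGs_small hΦ hf hM₁ hmarg hbc hT h0 lineC_com hr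
  · exact triGs_small hΦ hf hM₁ hmarg hbc hT (by linarith) lineC_fst hr
  · exact quads_small hΦ hf hM₁ hmarg hbc hT hr

theorem irrs_mono_N (hΦ : IsPotential Φ) (T : ℝ) {N N' c₀ : ℕ} (hN : N ≤ N') :
    irrs hΦ T N c₀ ⊆ irrs hΦ T N' c₀ := by
  rintro r (hr | hr | hr | hr)
  · obtain ⟨n, hn, P₁, i, k, P₂, Rs, h1, h2⟩ := hr
    exact Or.inl ⟨n, hn.trans hN, P₁, i, k, P₂, Rs, h1.trans hN, h2⟩
  · obtain ⟨n, hn, P₁, P₂, P₃, a, k, i, Rs, h1, h2⟩ := hr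
    exact Or.inr (Or.inl ⟨n, hn.trans hN, P₁, P₂, P₃, a, k, i, Rs, h1.trans hN, h2⟩)
  · obtain ⟨n, hn, P₁, P₂, P₃, a, k, i, Rs, h1, h2⟩ := hr
    exact Or.inr (Or.inr (Or.inl ⟨n, hn.trans hN, P₁, P₂, P₃, a, k, i, Rs, h1.trans hN, h2⟩))
  · obtain ⟨n, hn, P₁, P₂, P₃, P₄, i, w, a, k, Rs, h1, h2⟩ := hr
    exact Or.inr (Or.inr (Or.inr ⟨n, hn.trans hN, P₁, P₂, P₃, P₄, i, w, a, k, Rs,
      h1.trans hN, h2⟩))

/-! ### The contacts satisfy the relations -/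

section SB

variable {m q n N c₀ : ℕ} {S : Fin m → CTree} {l : Fin q → Src} {w : Finset Ph}

/-- **The contacts `tri` with the undisturbed line of the first particle.** -/
theorem free_sbad {z : Fin n → Src} {A B : List (Ev (Fin n) × ℝ)} {s : ℝ} {Rs : Finset (Fin n)}
    (hΦ : IsPotential Φ) (hε : 0 < ε) (hn : n ≤ N) (hM : (A ++ B).length ≤ N)
    (hz : LabT S l w z) {x y C : Fin n}
    (hR : Trv (pl t ((A ++ B).map Prod.fst ++ evs [(x, y), (x, C)])) Rs) (hRc : Rs.card ≤ c₀)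
    (hRl : ∀ i ∈ Rs, z i ∉ range l) (hβ : ∀ i, 0 ≤ (z i).1) (hw : Wf (A ++ B))
    (hr : RunT Φ ε t 0 (A ++ B) (fun i => (z i).1) fun i => (z i).2.1) (hst : s ≤ t)
    (hA : ∀ e ∈ A, e.2 ≤ s) (hB : ∀ e ∈ B, s ≤ e.2)
    (hcol : ColS Φ ε (finB Φ ε A (fun i => (z i).1) fun i => (z i).2.1)
      (finZ Φ ε A fun i => (z i).2.1) x y s)
    (hCx : C ≠ x) (hCy : C ≠ y) (bC : finB Φ ε A (fun i => (z i).1) (fun i => (z i).2.1) C ≤ s)
    (hc : Ctc ε (KU.free s (finZ Φ ε A (fun i => (z i).2.1) x))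
      (KU.free s (finZ Φ ε A (fun i => (z i).2.1) C)))
    (nx : NotDr (A ++ B) x) (ny : NotDr (A ++ B) y) (nC : NotDr (A ++ B) C)
    (ux : UseLe A x (hitT ε (finZ Φ ε A (fun i => (z i).2.1) x,
      finZ Φ ε A (fun i => (z i).2.1) y)))
    (uy : UseLe A y (hitT ε (finZ Φ ε A (fun i => (z i).2.1) x,
      finZ Φ ε A (fun i => (z i).2.1) y)))
    (vx : NoUse B x) (vy : NoUse B y) :
    SBad (triGs Φ (FL.cS hΦ + 1) Prod.fst t N c₀) ε S l w := by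
  obtain ⟨P₁, P₂, P₃, h1, h2, h3⟩ := free_mem hΦ hε hβ hr hw hst hA hB hcol hCx hCy bC hc nx ny nC
    ux uy vx vy
  refine ⟨_, ⟨n, hn, P₁, P₂, P₃, x, y, C, Rs, ?_, ?_, hRc, h2, rfl⟩, z, hz, h3, hRl⟩
  · rw [h1, List.length_map]; exact hM
  · rw [← h1] at hR
    refine trv_of_joined (fun p hp => ?_) (fun p hp => ?_) hR
    · rw [mem_edges_evs] at hp
      refine Edg.joined_edge (mem_edges_tri.2 ?_)
      rcases hp with hp | hp
      · exact Or.inl hp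
      · simp only [List.mem_cons, List.not_mem_nil, or_false] at hp
        exact Or.inr hp
    · rw [mem_edges_tri] at hp
      refine Edg.joined_edge (mem_edges_evs.2 ?_)
      rcases hp with hp | hp
      · exact Or.inl hp
      · refine Or.inr ?_
        simp only [List.mem_cons, List.not_mem_nil, or_false]
        exact hp

/-- **An irregular contact satisfies one of the relations.** -/
theorem IrrO.sbad (hΦ : IsPotential Φ) (hε : 0 < ε) (h : IrrO Φ ε T c₀ N S l w) :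
    SBad (irrs hΦ T N c₀) ε S l w := by
  obtain ⟨n, hn, z, A, B, s, es, Rs, hM, hz, hR, hRc, hRl, hβ, hw, hr, h0, hst, hA, hB, hI⟩ := h
  cases hI with
  | tri x y C hcol hCx hCy bC hc nx ny nC ux uy vx vy =>
    rcases hc with hc | hc | hc
    · exact (tri_sbad hΦ hε hn hM hz hR hRc hRl hβ hw hr hst hA hB hcol hCx hCy bC (Or.inl hc)
        nx ny nC ux uy vx vy).mono fun r hr => Or.inr (Or.inl hr)
    · exact (tri_sbad hΦ hε hn hM hz hR hRc hRl hβ hw hr hst hA hB hcol hCx hCy bC (Or.inr hc)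
        nx ny nC ux uy vx vy).mono fun r hr => Or.inr (Or.inl hr)
    · exact (free_sbad hΦ hε hn hM hz hR hRc hRl hβ hw hr hst hA hB hcol hCx hCy bC hc
        nx ny nC ux uy vx vy).mono fun r hr => Or.inr (Or.inr (Or.inl hr))
  | quad x y u v hcol hcol' r1 r2 r3 r4 hc nx ny nu nv ux uy uu uv vx vy vu vv =>
    exact (quad_sbad hΦ hε hn hM hz hR hRc hRl hβ hw hr hst hA hB hcol hcol' r1 r2 r3 r4 hc
      nx ny nu nv ux uy uu uv vx vy vu vv).mono fun r hr => Or.inr (Or.inr (Or.inr hr))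
  | trip x y C hxy hCx hCy bx by' bC hm hh hc nx ny nC vx vy =>
    exact (trip_sbad hΦ hε hn hM hz hR hRc hRl hβ hw hr hst hA hB hxy hCx hCy bx by' bC hm hh hc
      nx ny nC vx vy).mono fun r hr => Or.inr (Or.inl hr)
  | two i k hik bi bk hc hI ni nk vi vk =>
    exact (igs_sbad hΦ hε hn hM hz hR hRc hRl hβ hw hr h0 hst hA hik bi bk hc hI ni nk vi
      vk).mono fun r hr => Or.inl hr

/-- The same with a smaller horizon, fewer classes and fewer labels. -/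
theorem IrrO.sbad_of_le {c₁ N' : ℕ} (hΦ : IsPotential Φ) (hε : 0 < ε)
    (h : IrrO Φ ε t c₁ N' S l w) (ht : t ≤ T) (hc : c₁ ≤ c₀) (hN : N' ≤ N) :
    SBad (irrs hΦ T N c₀) ε S l w := ((h.mono_t ht).mono hc hN).sbad hΦ hε

end SB

end Vale.Agent.P119.IND
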