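import Vale.Agent.P119.IND.LawsR
import Vale.Agent.P119.PB.ExhW
import Vale.Agent.P119.PB.Op8

/-!
# P119, block IND: the law of a tree hit by a free line, in the norm of the touch probabilities
(`helper723`)

* `w2`: the weight of the structure law: the line `(s, l 0, n)` hits the root line of the tree `T 0`;
* `lintegral_XI_le`: the integral over the Gaussian lines of `XI` is an integral over the structure
  law in the form of `law_le`, `exc_lim`;
* `Nm_XI_le`: the norm.
-/

open MeasureTheory Filter Topology Set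
open scoped ENNReal

noncomputable section

namespace Vale.Agent.P119.IND.L2

open KU FL M CTree GC MM AU PB PB.CT

variable {Φ : E3 → ℝ} {ε : ℝ} {L : ℕ} {f₀ : Ph → ℝ} {κ₀ b s t : ℝ} {n : ℕ}

/-- The line `(s, l 0, n)` hits the root line of the tree `T 0` up to the time `t`. -/
structure Ok2 (Φ : E3 → ℝ) (ε : ℝ) (L : ℕ) (t s : ℝ) (n : ℕ) (T : CTree) (z : Ph) : Prop where
  ok : CTree.ok Φ ε T
  depth : T.depth ≤ L
  ext_le : ext Φ ε T ≤ t
  hit : hitI ε t (s, z, n) (ln Φ ε T)
  notMem : ((s, z, n) : Src) ∉ T.leaves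

/-- The weight of the structure law. -/
def w2 (Φ : E3 → ℝ) (ε : ℝ) (L : ℕ) (t s : ℝ) (n : ℕ) (T : Fin 1 → CTree) (l : Fin 1 → Ph) :
    ℝ≥0∞ := PB.ind (Ok2 Φ ε L t s n (T 0) (l 0))

theorem w2_ne_zero {T : Fin 1 → CTree} {l : Fin 1 → Ph} (h : w2 Φ ε L t s n T l ≠ 0) :
    Ok2 Φ ε L t s n (T 0) (l 0) := by
  by_contra hcon
  exact h (ind_of_not hcon)

theorem base_w2 {T : Fin 1 → CTree} {l : Fin 1 → Ph} (h : w2 Φ ε L t s n T l ≠ 0) :
    Base Φ ε T (lns (fun _ => s) (fun _ => n) l) := by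
  have h1 := w2_ne_zero h
  refine ⟨fun j => ?_, fun i j hij => absurd (Subsingleton.elim i j) hij,
    Function.injective_of_subsingleton _, fun i j => ?_⟩
  · rw [Subsingleton.elim j 0]
    exact h1.ok
  · rw [Subsingleton.elim i 0, Subsingleton.elim j 0]
    exact h1.notMem

theorem w2_le_one (T : Fin 1 → CTree) (l : Fin 1 → Ph) : w2 Φ ε L t s n T l ≤ 1 := ind_le_one _

theorem w2_le {c : ℝ} (hc : 0 ≤ c) (T : Fin 1 → CTree) (l : Fin 1 → Ph) :
    w2 Φ ε L t s n T l ≤
      1 * ENNReal.ofReal (Real.exp (c * (∑ j, enT (T j) + ∑ j, ‖(l j).2‖ ^ 2))) := by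
  rw [one_mul]
  refine (w2_le_one T l).trans ?_
  rw [← ENNReal.ofReal_one]
  refine ENNReal.ofReal_le_ofReal (Real.one_le_exp (mul_nonneg hc (add_nonneg ?_ ?_)))
  · exact Finset.sum_nonneg fun j _ => enT_nonneg _
  · exact Finset.sum_nonneg fun j _ => sq_nonneg _

theorem measurableSet_notMem (s : ℝ) (n : ℕ) :
    MeasurableSet {p : CTree × Ph | ((s, p.2, n) : Src) ∉ p.1.leaves} := by
  have h1 : MM.RS fun p : CTree × Ph => p.1.leaves := MM.RS.leaves measurable_fst
  have h2 : Measurable fun p : CTree × Ph => ((s, p.2, n) : Src) :=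
    measurable_const.prodMk (measurable_snd.prodMk measurable_const)
  exact (h1.measurableSet_mem_of h2).compl

theorem measurableSet_Ok2 (hΦ : IsPotential Φ) (hε : 0 < ε) (L : ℕ) (t s : ℝ) (n : ℕ) :
    MeasurableSet {p : CTree × Ph | Ok2 Φ ε L t s n p.1 p.2} := by
  have h1 : MeasurableSet {p : CTree × Ph | CTree.ok Φ ε p.1} :=
    measurable_fst (M.measurableSet_ok hΦ hε.ne')
  have h2 : MeasurableSet {p : CTree × Ph | p.1.depth ≤ L} :=
    (M.measurable_depth.comp measurable_fst) (measurableSet_Iic (a := L))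
  have h3 : MeasurableSet {p : CTree × Ph | ext Φ ε p.1 ≤ t} :=
    measurableSet_le ((M.measurable_ext hΦ hε.ne').comp measurable_fst) measurable_const
  have h4 : MeasurableSet {p : CTree × Ph | hitI ε t (s, p.2, n) (ln Φ ε p.1)} :=
    measurableSet_hitI (measurable_const.prodMk (measurable_snd.prodMk measurable_const))
      ((M.measurable_ln hΦ hε.ne').comp measurable_fst)
  have h5 := measurableSet_notMem s n
  have e : {p : CTree × Ph | Ok2 Φ ε L t s n p.1 p.2} = {p | CTree.ok Φ ε p.1} ∩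
      ({p | p.1.depth ≤ L} ∩ ({p | ext Φ ε p.1 ≤ t} ∩
        ({p | hitI ε t (s, p.2, n) (ln Φ ε p.1)} ∩ {p | ((s, p.2, n) : Src) ∉ p.1.leaves}))) := by
    ext p
    exact ⟨fun h => ⟨h.1, h.2, h.3, h.4, h.5⟩, fun h => ⟨h.1, h.2.1, h.2.2.1, h.2.2.2.1, h.2.2.2.2⟩⟩
  rw [e]
  exact h1.inter (h2.inter (h3.inter (h4.inter h5)))

theorem measurable_w2 (hΦ : IsPotential Φ) (hε : 0 < ε) (L : ℕ) (t s : ℝ) (n : ℕ) :
    Measurable fun p : (Fin 1 → CTree) × (Fin 1 → Ph) => w2 Φ ε L t s n p.1 p.2 := by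
  refine PB.measurable_ind ?_
  have h1 : Measurable fun p : (Fin 1 → CTree) × (Fin 1 → Ph) => (p.1 0, p.2 0) :=
    ((measurable_pi_apply 0).comp measurable_fst).prodMk
      ((measurable_pi_apply 0).comp measurable_snd)
  exact h1 (measurableSet_Ok2 hΦ hε L t s n)

/-- The lines which belong to a tree are negligible. -/
theorem ae_notMem (s : ℝ) (n : ℕ) (T : CTree) : ∀ᵐ z : Ph, ((s, z, n) : Src) ∉ T.leaves := by
  have h1 : {z : Ph | ((s, z, n) : Src) ∈ T.leaves}.Finite := by
    refine (T.leaves_finite.image fun σ : Src => σ.2.1).subset ?_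
    intro z hz
    exact ⟨_, hz, rfl⟩
  have : NullSingletonClass (volume : Measure Ph) := by
    change NullSingletonClass ((volume : Measure E3).prod (volume : Measure E3))
    infer_instance
  have h2 : (volume : Measure Ph) {z : Ph | ((s, z, n) : Src) ∈ T.leaves} = 0 := h1.measure_zero _
  have h3 : ∀ᵐ z : Ph, z ∉ {z : Ph | ((s, z, n) : Src) ∈ T.leaves} := measure_eq_zero_iff_ae_notMem.1 h2
  exact h3

theorem lintegral_fin_one' {X : Type*} [MeasurableSpace X] (ν : Measure X) (F : X → ℝ≥0∞) :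
    ∫⁻ p : Fin 1 → X, F (p 0) ∂(Measure.pi fun _ : Fin 1 => ν) = ∫⁻ x, F x ∂ν := by
  have h3 := measurePreserving_funUnique ν (Fin 1)
  have h4 := h3.lintegral_comp_emb (MeasurableEquiv.measurableEmbedding _) F
  rw [← h4]
  rfl

/-- The tree `T` is alive over the gas `w`, and the event `E` holds. -/
def bad2 (Φ : E3 → ℝ) (ε : ℝ) (L : ℕ) (t s : ℝ) (n : ℕ) (E : Src → Finset Src → CTree → Prop)
    (T : Fin 1 → CTree) (l : Fin 1 → Ph) (w : Conf Ph) : Prop :=
  alT Φ ε L t (wS (pts w)) (T 0) ∧ E (s, l 0, n) (wS (pts w)) (T 0)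

/-- **The integral of `XI` over the Gaussian lines** is an integral over the structure law. -/
theorem lintegral_XI_le (h₀ : GoodDatum f₀ κ₀) (hΦ : IsPotential Φ) (hε : 0 < ε) (L : ℕ)
    (b t s : ℝ) (n : ℕ) {E : Src → Finset Src → CTree → Prop}
    (hE : MeasurableSet {p : (Ph × CTree) × Conf Ph | E (s, p.1.1, n) (wS (pts p.2)) p.1.2}) :
    ∫⁻ z : Ph, PB.gw b z.2 * XI f₀ Φ ε L t (s, z, n) (fun V T => PB.ind (E (s, z, n) V T)) ≤
      ∫⁻ T, ∫⁻ l : Fin 1 → Ph, (∏ j, g1 b (l j).2) * (w2 Φ ε L t s n T l *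
        (PP f₀ ε) {w | bad2 Φ ε L t s n E T l w}) ∂volume
        ∂(Measure.pi fun _ : Fin 1 => tree (inten f₀ ε) L) := by
  have hfin := isFiniteMeasure_inten (ε := ε) h₀
  have hP := isProbability_PP (ε := ε) h₀
  -- the event
  have hEm : MeasurableSet {p : (Ph × CTree) × Conf Ph |
      alT Φ ε L t (wS (pts p.2)) p.1.2 ∧ E (s, p.1.1, n) (wS (pts p.2)) p.1.2} := by
    refine MeasurableSet.inter ?_ hE
    exact measurableSet_alT hΦ hε (RM.rs_wS measurable_snd) (measurable_snd.comp measurable_fst)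
      measurable_const
  set A : Ph → CTree → Conf Ph → Prop := fun z T w =>
    alT Φ ε L t (wS (pts w)) T ∧ E (s, z, n) (wS (pts w)) T with hA
  have hhit : MeasurableSet {p : Ph × CTree | hitI ε t (s, p.1, n) (ln Φ ε p.2)} :=
    measurableSet_hitI (measurable_const.prodMk (measurable_fst.prodMk measurable_const))
      ((M.measurable_ln hΦ hε.ne').comp measurable_snd)
  -- the joint function
  set F : Ph → CTree → ℝ≥0∞ := fun z T => PB.gw b z.2 *
    (PB.ind (hitI ε t (s, z, n) (ln Φ ε T)) * (PP f₀ ε) {w | A z T w}) with hF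
  have hFm : Measurable fun p : Ph × CTree => F p.1 p.2 := by
    refine ((PB.measurable_gw b).comp (measurable_snd.comp measurable_fst)).mul
      ((PB.measurable_ind hhit).mul ?_)
    exact measurable_measure_prodMk_left hEm
  have h1 : ∀ z : Ph, PB.gw b z.2 * XI f₀ Φ ε L t (s, z, n)
      (fun V T => PB.ind (E (s, z, n) V T)) = ∫⁻ T, F z T ∂(tree (inten f₀ ε) L) := by
    intro z
    unfold XI XX
    have hz : Measurable fun p : Conf Ph × CTree => ((z, p.2), p.1) :=
      ((measurable_const.prodMk measurable_snd).prodMk measurable_fst)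
    have m1 : MeasurableSet {p : Conf Ph × CTree | A z p.2 p.1} := hz hEm
    have m2 : MeasurableSet {p : Conf Ph × CTree | hitI ε t (s, z, n) (ln Φ ε p.2)} :=
      (measurable_const.prodMk measurable_snd : Measurable fun p : Conf Ph × CTree =>
        (z, p.2)) hhit
    have e1 : ∀ (w : Conf Ph) (T : CTree), PB.ind (alT Φ ε L t (wS (pts w)) T) *
        (PB.ind (hitI ε t (s, z, n) (ln Φ ε T)) * PB.ind (E (s, z, n) (wS (pts w)) T)) =
        PB.ind (hitI ε t (s, z, n) (ln Φ ε T)) * PB.ind (A z T w) := by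
      intro w T
      rw [hA]
      simp only [ind_and]
      ring
    simp only [e1]
    have m3 : Measurable fun p : Conf Ph × CTree =>
        PB.ind (hitI ε t (s, z, n) (ln Φ ε p.2)) * PB.ind (A z p.2 p.1) :=
      (PB.measurable_ind m2).mul (PB.measurable_ind m1)
    rw [lintegral_lintegral_swap m3.aemeasurable, ← lintegral_const_mul']
    swap
    · exact ENNReal.ofReal_ne_top
    refine lintegral_congr fun T => ?_
    have m4 : MeasurableSet {w : Conf Ph | A z T w} :=
      (measurable_id.prodMk measurable_const : Measurable fun w : Conf Ph => (w, T)) m1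
    rw [lintegral_const_mul]
    · have e2 : (fun w : Conf Ph => PB.ind (A z T w)) = {w | A z T w}.indicator 1 := by
        funext w
        by_cases hw : A z T w
        · rw [indicator_of_mem (show w ∈ {w | A z T w} from hw), ind_of hw]
          rfl
        · rw [indicator_of_notMem (show w ∉ {w | A z T w} from hw), ind_of_not hw]
      rw [e2, lintegral_indicator_one m4]
    · exact PB.measurable_ind m4
  simp only [h1]
  rw [lintegral_lintegral_swap hFm.aemeasurable]
  refine le_trans (lintegral_mono fun T => ?_) (le_of_eq (lintegral_fin_one'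
    (tree (inten f₀ ε) L) fun T => ∫⁻ l : Fin 1 → Ph, (∏ j, g1 b (l j).2) *
    (PB.ind (Ok2 Φ ε L t s n T (l 0)) * (PP f₀ ε) {w | A (l 0) T w})).symm)
  have e3 : ∀ l : Fin 1 → Ph, (∏ j, g1 b (l j).2) *
      (PB.ind (Ok2 Φ ε L t s n T (l 0)) * (PP f₀ ε) {w | A (l 0) T w}) =
      g1 b (l 0).2 * (PB.ind (Ok2 Φ ε L t s n T (l 0)) * (PP f₀ ε) {w | A (l 0) T w}) := by
    intro l
    rw [Fin.prod_univ_one]
  simp only [e3]
  rw [PB.lintegral_fin_one fun z => g1 b z.2 *
    (PB.ind (Ok2 Φ ε L t s n T z) * (PP f₀ ε) {w | A z T w})]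
  refine lintegral_mono_ae ?_
  filter_upwards [ae_notMem s n T] with z hz
  rw [hF]
  refine mul_le_mul_right ?_ _
  by_cases h0 : {w : Conf Ph | A z T w} = ∅
  · rw [h0, measure_empty, mul_zero, mul_zero]
  obtain ⟨w, hw⟩ := nonempty_iff_ne_empty.2 h0
  refine mul_le_mul_left (ind_mono fun h2 => ?_) _
  exact ⟨hw.1.ok, hw.1.depth, hw.1.ext_le, h2, hz⟩

end Vale.Agent.P119.IND.L2
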