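import Vale.Agent.P119.IND.PairDet
import Vale.Agent.P119.PB.PairGood

/-!
# P119, block IND: the lines of a real colliding pair (`helper621`)

`RP Φ ε L hΦ hε U W x y`: the histories `x` and `y` are real in the world `W = U ∪ (node x y).leaves`,
they collide with each other, and their roots are not exposed when the collision begins.

**`RP.pk`**: then no third tree of the world of lines is in contact with one of the two lines before the
collision, as long as the lines do not interact (`PK` for the packets `pks Φ ε x y`).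

**`RP.pairOut`**: the failures of `M.Good` for the packets `pks Φ ε x y`.
-/

open MeasureTheory Filter Topology Set
open scoped ENNReal NNReal

noncomputable section

namespace Vale.Agent.P119.IND

open KU M M.CTree TL RB PB

variable {Φ : E3 → ℝ} {ε : ℝ} {L : ℕ} {hΦ : IsPotential Φ} {hε : 0 < ε} {U W : Finset Src}
  {x y z : CTree} {r s t u : ℝ}

/-- **The real colliding pair.** -/
structure RP (Φ : E3 → ℝ) (ε : ℝ) (L : ℕ) (hΦ : IsPotential Φ) (hε : 0 < ε) (U W : Finset Src)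
    (x y : CTree) : Prop where
  hW : (W : Set Src) = (U : Set Src) ∪ (node x y).leaves
  bU : ∀ a ∈ U, 0 ≤ a.1 ∧ a.2.2 ≤ L
  disj : Disjoint (U : Set Src) (node x y).leaves
  inj : InjOn (rsrc Φ ε) (outs x ∪ outs y)
  fresh : ∀ z ∈ outs x ∪ outs y, rsrc Φ ε z ∉ U
  live : live Φ ε L (W : Set Src) (node x y) (sig Φ ε (node x y))
  ux : ¬(Y Φ ε L hΦ hε).Exp W x.root (sig Φ ε (node x y))
  uy : ¬(Y Φ ε L hΦ hε).Exp W y.root (sig Φ ε (node x y))

theorem live_of_lt {V : Set Src} {T : CTree} {c : ℝ} (hs : c < s)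
    (h : ∀ v, c ≤ v → v < s → M.live Φ ε L V T v) : M.live Φ ε L V T s := by
  have h1 := h _ le_rfl hs
  refine ⟨h1.sub, h1.ok, h1.depth, h1.sig_le.trans hs.le, fun X q hq hh => ?_⟩
  obtain ⟨v, hv1, hv2⟩ := exists_between (max_lt hq hs)
  exact (h v ((le_max_right _ _).trans hv1.le) hv2).nohit X q ((le_max_left _ _).trans_lt hv1) hh

namespace RP

variable (h : RP Φ ε L hΦ hε U W x y)

include h

theorem ok : ok Φ ε (node x y) := h.live.ok

theorem ne : x ≠ y := by
  rintro rfl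
  exact Set.disjoint_left.1 h.ok.2.2.1 x.root_mem_leaves x.root_mem_leaves

theorem ax : alive Φ ε L (W : Set Src) x (sig Φ ε (node x y)) :=
  live_left hΦ hε W.finite_toSet h.live

theorem ay : alive Φ ε L (W : Set Src) y (sig Φ ε (node x y)) :=
  live_right hΦ hε W.finite_toSet h.live

theorem nonneg : ∀ a ∈ W, 0 ≤ a.1 := by
  intro a ha
  have h1 : a ∈ (W : Set Src) := Finset.mem_coe.2 ha
  rw [h.hW] at h1
  rcases h1 with h1 | h1 | h1
  · exact (h.bU a (Finset.mem_coe.1 h1)).1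
  · exact birth_of_ok h.ok.1 a h1
  · exact birth_of_ok h.ok.2.1 a h1

theorem outs_ok (hz : z ∈ outs x ∪ outs y) : M.CTree.ok Φ ε z ∧ z.depth ≤ L := by
  have hd := h.live.depth
  have hd' : max x.depth y.depth + 1 ≤ L := hd
  rcases hz with hz | hz
  · exact ⟨TL.outs_ok hΦ h.ok.1 hz, (outs_depth hz).trans (by omega)⟩
  · exact ⟨TL.outs_ok hΦ h.ok.2.1 hz, (outs_depth hz).trans (by omega)⟩

/-- The packets are disjoint. -/
theorem dK : ∀ i ∈ pks Φ ε x y, ∀ j ∈ pks Φ ε x y, i ≠ j → Disjoint i j := by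
  have key : ∀ z ∈ exs x ∪ exs y, Disjoint (prk Φ ε x y) (sgl (rsrc Φ ε z)) := by
    intro z hz
    rw [Finset.disjoint_left]
    intro a ha ha'
    have h1 : a = rsrc Φ ε z := Finset.mem_singleton.1 ha'
    have hne : z.root ≠ x.root ∧ z.root ≠ y.root := by
      rcases hz with hz | hz
      · refine ⟨exs_root_ne h.ok.1 hz, fun hcon => ?_⟩
        exact Set.disjoint_left.1 h.ok.2.2.1 (exs_leaves hz z.root_mem_leaves)
          (hcon ▸ y.root_mem_leaves)
      · refine ⟨fun hcon => ?_, exs_root_ne h.ok.2.1 hz⟩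
        exact Set.disjoint_left.1 h.ok.2.2.1 x.root_mem_leaves
          (hcon ▸ exs_leaves hz z.root_mem_leaves)
    rcases mem_prk.1 ha with h2 | h2
    · exact hne.1 (congrArg CTree.root (h.inj (exs_sub_outs hz) left_mem_outs (h1.symm.trans h2)))
    · exact hne.2 (congrArg CTree.root
        (h.inj (exs_sub_outs hz) right_mem_outs (h1.symm.trans h2)))
  intro i hi j hj hij
  rcases pks_cases hi with rfl | hi <;> rcases pks_cases hj with rfl | hj
  · exact absurd rfl hij
  · obtain ⟨z, hz, rfl⟩ := mem_epk.1 hj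
    exact key z hz
  · obtain ⟨z, hz, rfl⟩ := mem_epk.1 hi
    exact (key z hz).symm
  · obtain ⟨z, hz, rfl⟩ := mem_epk.1 hi
    obtain ⟨z', hz', rfl⟩ := mem_epk.1 hj
    rw [Finset.disjoint_left]
    intro a ha ha'
    refine hij ?_
    rw [← Finset.mem_singleton.1 ha, ← Finset.mem_singleton.1 ha']

theorem dV : ∀ k ∈ pks Φ ε x y, Disjoint U k := by
  intro k hk
  rw [Finset.disjoint_left]
  intro a ha ha'
  have h1 : a ∈ lw2 Φ ε U x y := mem_wF.2 (Or.inr ⟨k, hk, ha'⟩)
  rcases pks_cases hk with rfl | hk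
  · rcases mem_prk.1 ha' with rfl | rfl
    · exact h.fresh x left_mem_outs ha
    · exact h.fresh y right_mem_outs ha
  · obtain ⟨z, hz, rfl⟩ := mem_epk.1 hk
    rw [Finset.mem_singleton.1 ha'] at ha
    exact h.fresh z (exs_sub_outs hz) ha

theorem bK : ∀ k ∈ pks Φ ε x y, ∀ a ∈ k, 0 ≤ a.1 ∧ a.2.2 ≤ L := by
  have key : ∀ z ∈ outs x ∪ outs y, 0 ≤ (rsrc Φ ε z).1 ∧ (rsrc Φ ε z).2.2 ≤ L := fun z hz =>
    ⟨ext_nonneg hΦ hε (h.outs_ok hz).1, (h.outs_ok hz).2⟩
  intro k hk a ha
  rcases pks_cases hk with rfl | hk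
  · rcases mem_prk.1 ha with rfl | rfl
    · exact key x left_mem_outs
    · exact key y right_mem_outs
  · obtain ⟨z, hz, rfl⟩ := mem_epk.1 hk
    rw [Finset.mem_singleton.1 ha]
    exact key z (exs_sub_outs hz)

/-- **The setup of TREES -> LINES before the first failing time.** -/
theorem setup (hg : ∀ e ∈ allTimes Φ ε L (lw2 Φ ε U x y : Set Src), e < r →
      M.Good Φ ε L U id (pks Φ ε x y) e) (hv : s < r) :
    TF.Setup Φ ε L (U : Set Src) {x, y} (CTree.ext Φ ε) s := by
  classical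
  have hne : Nonempty (Finset Src) := ⟨∅⟩
  have hpw : ∀ T ∈ ({x, y} : Set CTree), ∀ T' ∈ ({x, y} : Set CTree), T ≠ T' →
      Disjoint T.leaves T'.leaves := by
    rintro T (rfl | rfl) T' (rfl | rfl) hne
    · exact absurd rfl hne
    · exact h.ok.2.2.1
    · exact h.ok.2.2.1.symm
    · exact absurd rfl hne
  have hWe : (W : Set Src) = (U : Set Src) ∪ TF.lvs {x, y} := by
    rw [TF.lvs_pair]; exact h.hW
  have hin : InjOn (msrc Φ ε (CTree.ext Φ ε)) (TF.ous {x, y}) := by
    rw [TF.ous_pair]; exact h.inj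
  have hfr : ∀ z ∈ TF.ous {x, y}, msrc Φ ε (CTree.ext Φ ε) z ∉ (U : Set Src) := by
    rw [TF.ous_pair]; exact fun z hz hm => h.fresh z hz (Finset.mem_coe.1 hm)
  have hdj : Disjoint (U : Set Src) (TF.lvs {x, y}) := by
    rw [TF.lvs_pair]; exact h.disj
  have key := TF.setup_rhoF (Φ := Φ) (ε := ε) (L := L) (U := (U : Set Src)) (F := {x, y})
    (ρ := CTree.ext Φ ε) (t := s) (hΦ := hΦ) (hε := hε) (W := W) hpw
  rw [TF.rhoF_ext'] at key
  refine key ?_ ((finite_singleton y).insert x) U.finite_toSet hdj hWe (fun T _ => Or.inl rfl) ?_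
    hin hfr ?_
  · rw [← hWe]
    rintro T (rfl | rfl)
    · exact alive_anti h.ax h.ok.2.2.2.2.2.1.le le_rfl
    · exact alive_anti h.ay h.ok.2.2.2.2.2.2.le le_rfl
  · rintro T (rfl | rfl) q hq he
    · exact h.ux (FB.Sys.Exp.mono he (hq.le.trans h.ok.2.2.2.2.2.1.le))
    · exact h.uy (FB.Sys.Exp.mono he (hq.le.trans h.ok.2.2.2.2.2.2.le))
  · intro p q v hvs hp hq hd hh
    have hlw := coe_lw2' (Φ := Φ) (ε := ε) (U := U) (x := x) (y := y)
    rw [← hlw] at hp hq
    have hV : ((lw2 Φ ε U x y : Finset Src) : Set Src).Finite := Finset.finite_toSet _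
    -- the hit is a first hit
    have g1 := fh_hit hΦ hε hp.ok hh
    have g2 := fh_le hΦ hε hp.ok hh
    have g3 : fh Φ ε p q = v := by
      refine le_antisymm g2 (not_lt.1 fun hlt => ?_)
      exact hp.nohit q _ hlt g1 (alive_anti hq g2 (hit_ext_le g1))
    have hmem : v ∈ allTimes Φ ε L (lw2 Φ ε U x y : Set Src) :=
      Or.inr ⟨(p, q), ⟨⟨hp.sub, hp.depth⟩, ⟨(alive_pre hq).sub, (alive_pre hq).depth⟩⟩, g3⟩
    have hG := hg v hmem (hvs.trans_lt hv)
    have hC := hG.cubeW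
    have hidx : ∀ z ∈ TF.ous {x, y}, Idx (fun J => (wF U id J : Set Src)) (pks Φ ε x y)
        (ixp Φ ε x y z) (msrc Φ ε (CTree.ext Φ ε) z) := by
      rw [TF.ous_pair]
      intro z hz
      have h1 : ixp Φ ε x y z ∈ pks Φ ε x y ∧ rsrc Φ ε z ∈ ixp Φ ε x y z := by
        unfold ixp
        split_ifs with hc
        · refine ⟨prk_mem, mem_prk.2 ?_⟩
          rcases hc with rfl | rfl
          · exact Or.inl rfl
          · exact Or.inr rfl
        · rcases outs_cases hz with rfl | rfl | hz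
          · exact absurd (Or.inl rfl) hc
          · exact absurd (Or.inr rfl) hc
          · exact ⟨sgl_mem_pks hz, Finset.mem_singleton_self _⟩
      exact hG.idx h1.1 h1.2
    have hpair : ∀ z ∈ TF.ous {x, y}, ∀ z' ∈ TF.ous {x, y}, z ≠ z' →
        ixp Φ ε x y z = ixp Φ ε x y z' → Disjoint z.leaves z'.leaves := by
      rw [TF.ous_pair]
      have key : ∀ z ∈ outs x ∪ outs y, ∀ z' ∈ outs x ∪ outs y, z ≠ z' → (z = x ∨ z = y) →
          ¬(z' = x ∨ z' = y) → prk Φ ε x y ≠ sgl (rsrc Φ ε z') := by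
        intro z hz z' hz' hzz hzc hz'c he
        have h2 : rsrc Φ ε z ∈ prk Φ ε x y := mem_prk.2 (by
          rcases hzc with rfl | rfl
          · exact Or.inl rfl
          · exact Or.inr rfl)
        rw [he] at h2
        exact hzz (h.inj hz hz' (Finset.mem_singleton.1 h2))
      intro z hz z' hz' hzz he
      unfold ixp at he
      split_ifs at he with h1 h2 h2
      · rcases h1 with rfl | rfl <;> rcases h2 with rfl | rfl
        · exact absurd rfl hzz
        · exact h.ok.2.2.1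
        · exact h.ok.2.2.1.symm
        · exact absurd rfl hzz
      · exact absurd he (key z hz z' hz' hzz h1 h2)
      · exact absurd he.symm (key z' hz' z hz (Ne.symm hzz) h2 h1)
      · have h3 : rsrc Φ ε z ∈ sgl (rsrc Φ ε z) := Finset.mem_singleton_self _
        rw [he] at h3
        exact absurd (h.inj hz hz' (Finset.mem_singleton.1 h3)) hzz
    rw [hlw] at hp hq
    exact TF.indep_of_NI hΦ hε hC hG.ni (Finset.Subset.refl _) hlw.symm (ixp Φ ε x y) hidx hpair
      hdj hin hfr p q v le_rfl hp hq hd hh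

/-- A tree of the world of lines in the real world. -/
theorem exists_real (hg : ∀ e ∈ allTimes Φ ε L (lw2 Φ ε U x y : Set Src), e < r →
      M.Good Φ ε L U id (pks Φ ε x y) e) {B : CTree} (hb : Bg Φ ε B r)
    (hl : M.live Φ ε L (lw2 Φ ε U x y : Set Src) B r) (hx : B.root ≠ rsrc Φ ε x)
    (hy : B.root ≠ rsrc Φ ε y) : ∃ X, M.live Φ ε L (W : Set Src) X r ∧
      st Φ ε X r = st Φ ε B r ∧ X.root ≠ x.root ∧ X.root ≠ y.root := by
  have hlw := coe_lw2' (Φ := Φ) (ε := ε) (U := U) (x := x) (y := y)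
  have hS : TF.Setup Φ ε L (U : Set Src) {x, y} (CTree.ext Φ ε) (r - 1) :=
    h.setup hg (by linarith)
  have hsub : B.leaves ⊆ TF.lwd Φ ε (CTree.ext Φ ε) (U : Set Src) {x, y} := by
    rw [← hlw]; exact hl.sub
  have hxo : x ∈ TF.ous {x, y} := by rw [TF.ous_pair]; exact left_mem_outs
  have hyo : y ∈ TF.ous {x, y} := by rw [TF.ous_pair]; exact right_mem_outs
  have hWe : (W : Set Src) = (U : Set Src) ∪ TF.lvs {x, y} := by
    rw [TF.lvs_pair]; exact h.hW
  refine ⟨TF.th Φ ε (CTree.ext Φ ε) {x, y} B, ?_, TF.th_st hΦ hε hS hsub hl.sig_le, ?_, ?_⟩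
  · rcases hl.sig_le.lt_or_eq with h1 | h1
    · refine live_of_lt h1 fun v hv hvr => ?_
      have h2 := hl.anti hvr.le hv
      rw [hlw] at h2
      rw [hWe]
      exact ((TF.live_th hΦ hε (h.setup hg hvr) le_rfl hsub).1 h2).1
    · have h2 : B = leaf B.root := by
        rcases hb with hb | hb
        · exact absurd h1 hb.ne
        · exact hb
      have hβ : B.root ∈ TF.lwd Φ ε (CTree.ext Φ ε) (U : Set Src) {x, y} :=
        hsub B.root_mem_leaves
      rw [h2] at h1 hl ⊢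
      rcases hβ with hβ | ⟨z, hz, hβ⟩
      · have h3 : TF.th Φ ε (CTree.ext Φ ε) {x, y} (leaf B.root) = leaf B.root :=
          TF.fs_of_mem hS hβ
        rw [h3]
        refine ⟨?_, hl.ok, hl.depth, hl.sig_le, fun X q hq hh => ?_⟩
        · rw [hWe]
          exact singleton_subset_iff.2 (Or.inl hβ)
        · have h4 : B.root.1 ≤ q := hh.1
          have h5 : B.root.1 = r := h1
          exact absurd hq (not_lt.2 (h5 ▸ h4))
      · have h3 : TF.th Φ ε (CTree.ext Φ ε) {x, y} (leaf B.root) = z := by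
          rw [← hβ]
          exact TF.th_leaf_msrc hS hz
        have h4 := hS.alive z hz
        have h5 : CTree.ext Φ ε z = r := by
          have h6 : B.root.1 = r := h1
          rw [← hβ] at h6
          exact h6
        rw [h3, hWe, ← h5]
        rw [← hWe] at h4 ⊢
        exact ((alive_iff_live hΦ hε W.finite_toSet).1 h4).1
  · intro hcon
    have h1 : (TF.th Φ ε (CTree.ext Φ ε) {x, y} (leaf (rsrc Φ ε x))).root = x.root := by
      rw [show TF.th Φ ε (CTree.ext Φ ε) {x, y} (leaf (rsrc Φ ε x)) = x from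
        TF.th_leaf_msrc hS hxo]
    exact hx (TF.th_root_inj (y' := leaf (rsrc Φ ε x)) hS hsub
      (singleton_subset_iff.2 (TF.msrc_mem hxo)) (hcon.trans h1.symm))
  · intro hcon
    have h1 : (TF.th Φ ε (CTree.ext Φ ε) {x, y} (leaf (rsrc Φ ε y))).root = y.root := by
      rw [show TF.th Φ ε (CTree.ext Φ ε) {x, y} (leaf (rsrc Φ ε y)) = y from
        TF.th_leaf_msrc hS hyo]
    exact hy (TF.th_root_inj (y' := leaf (rsrc Φ ε y)) hS hsub
      (singleton_subset_iff.2 (TF.msrc_mem hyo)) (hcon.trans h1.symm))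

/-- A third real tree is not in contact with the pair before the collision. -/
theorem not_ctc (hr : r ≤ sig Φ ε (node x y)) {X : CTree} (hX : M.live Φ ε L (W : Set Src) X r)
    (h1 : X.root ≠ x.root) (h2 : X.root ≠ y.root) :
    (CTree.ext Φ ε x ≤ r → ¬Ctc ε (st Φ ε X r) (KU.free r (ln Φ ε x))) ∧
      (CTree.ext Φ ε y ≤ r → ¬Ctc ε (st Φ ε X r) (KU.free r (ln Φ ε y))) := by
  have hW := W.finite_toSet
  have key : ∀ a b : CTree, M.live Φ ε L (W : Set Src) (node a b) (sig Φ ε (node x y)) →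
      sig Φ ε (node a b) = sig Φ ε (node x y) → X.root ≠ a.root → X.root ≠ b.root →
      ¬(Y Φ ε L hΦ hε).Exp W a.root (sig Φ ε (node x y)) → CTree.ext Φ ε a ≤ r →
      ¬Ctc ε (st Φ ε X r) (KU.free r (ln Φ ε a)) := by
    intro a b hab hs g1 g2 gE g3 hc
    have aa := live_left hΦ hε hW hab
    rw [hs] at aa
    have ar : alive Φ ε L (W : Set Src) a r := alive_anti aa hr g3
    have la := ((alive_iff_live hΦ hε hW).1 ar).1
    have hm : mcon Φ ε L (W : Set Src) r a.root X.root := by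
      refine ⟨g1.symm, a, X, rfl, rfl, la, hX, ?_⟩
      rw [st_after hΦ hε la.ok g3]
      exact hc.symm
    obtain ⟨T, T', e1, e2, c, d, rfl, rfl, e3⟩ :=
      part_of_not_exp (fun he => gE (FB.Sys.Exp.mono he hr)) hm
    obtain ⟨r1, l1⟩ := (stat_eq_some_iff hΦ hε hW).1 e1
    obtain ⟨r2, l2⟩ := (stat_eq_some_iff hΦ hε hW).1 e2
    have hba : Bg Φ ε a r := Bg.of_alive hΦ hε ar
    rcases l1.sig_le.lt_or_eq with h3 | h3
    · have h4 : node c d = a := Bg.unique hΦ hε hW l1.live la (Or.inl h3) hba r1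
      rw [h4] at e3
      exact absurd g3 (not_le.2 e3)
    · have h5 := live_left hΦ hε hW l1.live
      rw [h3] at h5
      have h6 : c = a := Bg.unique hΦ hε hW ((alive_iff_live hΦ hε hW).1 h5).1 la
        (Bg.of_alive hΦ hε h5) hba r1
      subst h6
      have h7 := lives_node_unique hΦ hε hW l1 hab
      rw [h7] at r2
      exact g2 r2.symm
  refine ⟨key x y h.live rfl h1 h2 h.ux, key y x ?_ (sig_swap x y) h2 h1 h.uy⟩
  exact live_swap hΦ h.live (sig_lt_ext hΦ hε h.ok).le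

/-- **The packets of the lines of a real colliding pair.** -/
theorem pk : PK Φ ε L U (pks Φ ε x y) (prk Φ ε x y) (rsrc Φ ε x) (rsrc Φ ε y) := by
  have hok := h.ok
  refine ⟨⟨ext_nonneg hΦ hε hok.1, ext_nonneg hΦ hε hok.2.1, ?_, hok.2.2.2.1, hok.2.2.2.2.1,
    hok.2.2.2.2.2.1, hok.2.2.2.2.2.2⟩, prk_mem, fun a => mem_prk, h.dV, h.dK, h.bU, h.bK, ?_⟩
  · refine Set.disjoint_singleton.2 fun hcon => h.ne ?_
    exact h.inj left_mem_outs right_mem_outs hcon
  · intro r hr hg B hb hl h1 h2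
    obtain ⟨X, g1, g2, g3, g4⟩ := h.exists_real hg hb hl h1 h2
    have h5 := h.not_ctc hr g1 g3 g4
    rw [g2] at h5
    exact h5

/-- **The failures of the good event for the lines of a real colliding pair.** -/
theorem pairOut {V₀ : Set Src} (hV₀ : V₀ ⊆ (U : Set Src)) (hu : u < CTree.ext Φ ε (node x y))
    (hut : u ≤ t) (hg : ¬M.Good Φ ε L U id (pks Φ ε x y) u) (m : ℕ) :
    ∃ s ≤ u, PairOut hΦ hε L V₀ {σ | ∃ z ∈ outs x ∪ outs y, rsrc Φ ε z = σ}
      (lw2 Φ ε U x y : Set Src) (rsrc Φ ε x) (rsrc Φ ε y) (sig Φ ε (node x y)) t m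
      (Nb0 L m) s := by
  obtain ⟨s, hs, hO⟩ := h.pk.pairOut hΦ hε hV₀ hu hut hg m
  have e : {σ | ∃ k ∈ pks Φ ε x y, σ ∈ k} = {σ | ∃ z ∈ outs x ∪ outs y, rsrc Φ ε z = σ} := by
    ext σ
    constructor
    · rintro ⟨k, hk, hσ⟩
      rcases pks_cases hk with rfl | hk
      · rcases mem_prk.1 hσ with rfl | rfl
        · exact ⟨x, left_mem_outs, rfl⟩
        · exact ⟨y, right_mem_outs, rfl⟩
      · obtain ⟨z, hz, rfl⟩ := mem_epk.1 hk
        exact ⟨z, exs_sub_outs hz, (Finset.mem_singleton.1 hσ).symm⟩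
    · rintro ⟨z, hz, rfl⟩
      rcases outs_cases hz with rfl | rfl | hz
      · exact ⟨_, prk_mem, mem_prk.2 (Or.inl rfl)⟩
      · exact ⟨_, prk_mem, mem_prk.2 (Or.inr rfl)⟩
      · exact ⟨_, sgl_mem_pks hz, Finset.mem_singleton_self _⟩
  rw [e] at hO
  exact ⟨s, hs, hO⟩

end RP

end Vale.Agent.P119.IND
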