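import Vale.Agent.P119.IND.ExcProg

/-!
# P119, block IND: the mass of the base structures (`helper755`)

* `mass_set`: a structure law whose base structures satisfy one of the relations of a finite set of
  relations of bounded mass has mass at most `C μ ^ (c₀ - q)`;
* **`mass_prog`**: the same for the base structures which run a program with at most `c₀` classes.
-/

open MeasureTheory Filter Topology Set
open scoped ENNReal NNReal

set_option linter.unusedSectionVars false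

noncomputable section

namespace Vale.Agent.P119.IND

open KU FL M CTree GC MM AU PB.CT

variable {Φ : E3 → ℝ} {f₀ : Ph → ℝ} {κ₀ b c M₀ M₁ : ℝ}

/-- **The mass of a structure law**: one of the relations of a finite set of relations of bounded
mass holds for the base structures. -/
theorem mass_set (h : GoodDatum f₀ κ₀) (hc : 0 ≤ c)
    (hf : ∀ z, f₀ z ≤ M₀ * Real.exp (-b * ‖z.2‖ ^ 2)) (m q L c₀ : ℕ) {S₀ : Set Rln}
    (hS₀ : S₀.Finite) (hB : ∀ r ∈ S₀, r.Bdd f₀ b c c₀) :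
    ∃ C : ℝ≥0∞, C ≠ ∞ ∧ ∀ ε : ℝ, 0 < ε → ε ≤ 1 → ∀ s : Fin q → ℝ, (∀ j, 0 ≤ s j) →
      ∀ (dl : Fin q → ℕ) (W : (Fin m → CTree) → (Fin q → Ph) → ℝ≥0∞),
      (Measurable fun p : (Fin m → CTree) × (Fin q → Ph) => W p.1 p.2) → ∀ CW : ℝ≥0∞,
      (∀ T l, W T l ≤ CW * ENNReal.ofReal (Real.exp (c * enB T l))) →
      (∀ T l, W T l ≠ 0 → Base Φ ε T (lns s dl l)) →
      (∀ T l, W T l ≠ 0 → SBad S₀ ε T (lns s dl l) ∅) →
      muE ε ^ q * ∫⁻ T, ∫⁻ l : Fin q → Ph, (∏ j, g1 b (l j).2) * W T l ∂volume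
        ∂(Measure.pi fun _ : Fin m => tree (inten f₀ ε) L) ≤ CW * (muE ε ^ c₀ * C) := by
  have : Fintype S₀ := hS₀.fintype
  have h1 : ∀ r : S₀, ∃ η : ℝ≥0∞, ∃ δ : ℝ → ℝ≥0∞, η ≠ ∞ ∧ ∀ ε : ℝ, 0 < ε → ε ≤ 1 →
      MassR f₀ ε b c (r.1.R ε) r.1.Rs (δ ε) ∧
        muE ε ^ r.1.Rs.card * δ ε ≤ muE ε ^ c₀ * η := by
    intro r
    obtain ⟨-, η, hη, h2⟩ := hB r.1 r.2
    refine ⟨η, fun ε => if h3 : 0 < ε ∧ ε ≤ 1 then (h2 ε h3.1 h3.2).choose else 0, hη,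
      fun ε hε hε1 => ?_⟩
    simp only [dif_pos (And.intro hε hε1)]
    exact (h2 ε hε hε1).choose_spec
  choose η₀ δ₀ hη₀t h2 using h1
  set K : ℝ≥0∞ := ((shapes L).card ^ m : ℕ) *
    ((∑ d : S₀, (d.1.n.factorial * ENNReal.ofReal (max 1 M₀) ^ d.1.n)) * ∑ d : S₀, η₀ d) with hK
  have hKt : K ≠ ∞ := by
    refine ENNReal.mul_ne_top (ENNReal.natCast_ne_top _) (ENNReal.mul_ne_top ?_ ?_)
    · exact ENNReal.sum_ne_top.2 fun d _ => ENNReal.mul_ne_top (ENNReal.natCast_ne_top _)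
        (ENNReal.pow_ne_top ENNReal.ofReal_ne_top)
    · exact ENNReal.sum_ne_top.2 fun d _ => hη₀t d
  refine ⟨K, hKt, fun ε hε hε1 s hs dl W hW CW hWb hbase hbase' => ?_⟩
  have hfin := isFiniteMeasure_inten (ε := ε) h
  have hPP : IsProbabilityMeasure (PP f₀ ε) := isProbability_PP h
  have hprob : (PP f₀ ε) {_w : Conf Ph | True} = 1 := by
    rw [Set.ofPred_true]
    exact measure_univ
  have h3 : muE ε ^ q * ∫⁻ T, ∫⁻ l : Fin q → Ph, (∏ j, g1 b (l j).2) *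
      (W T l * (PP f₀ ε) {_w : Conf Ph | True}) ∂volume
        ∂(Measure.pi fun _ : Fin m => tree (inten f₀ ε) L) ≤
      CW * (((shapes L).card ^ m : ℕ) *
        ∑ d : S₀, (d.1.n.factorial * (ENNReal.ofReal (max 1 M₀) ^ d.1.n *
          (muE ε ^ d.1.Rs.card * δ₀ d ε)))) := by
    refine lawR_le h hε.le hc hf L (fun d : S₀ => (hB d.1 d.2).1 ε hε)
      (Rs := fun d : S₀ => d.1.Rs) (δ := fun d => δ₀ d ε) (fun d => (h2 d ε hε hε1).1) hs dl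
      hW (CW := CW) (fun T l => hWb T l) hbase (bad := fun _ _ _ => True) (fun T l h3 => ?_)
    obtain ⟨r, hr, z, h4, h5, h6⟩ := hbase' T l h3
    refine Eventually.of_forall fun w _ => ⟨⟨r, hr⟩, z, ⟨h4.inj, fun i => ?_, h4.trees, h4.lines⟩,
      h5, h6⟩
    rcases h4.mem i with h7 | h7 | h7
    · exact Or.inl h7
    · exact Or.inr (Or.inl h7)
    · unfold wS at h7
      simp at h7
  have e1 : muE ε ^ q * ∫⁻ T, ∫⁻ l : Fin q → Ph, (∏ j, g1 b (l j).2) * W T l ∂volume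
        ∂(Measure.pi fun _ : Fin m => tree (inten f₀ ε) L) =
      muE ε ^ q * ∫⁻ T, ∫⁻ l : Fin q → Ph, (∏ j, g1 b (l j).2) *
      (W T l * (PP f₀ ε) {_w : Conf Ph | True}) ∂volume
        ∂(Measure.pi fun _ : Fin m => tree (inten f₀ ε) L) := by
    rw [hprob]
    simp only [mul_one]
  rw [e1]
  refine h3.trans (mul_le_mul_right ?_ _)
  have e4 : ∀ d : S₀, (d.1.n.factorial : ℝ≥0∞) * (ENNReal.ofReal (max 1 M₀) ^ d.1.n *
      (muE ε ^ d.1.Rs.card * δ₀ d ε)) ≤ (d.1.n.factorial * ENNReal.ofReal (max 1 M₀) ^ d.1.n) *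
        (muE ε ^ c₀ * ∑ d : S₀, η₀ d) := by
    intro d
    rw [← mul_assoc]
    refine mul_le_mul_right (((h2 d ε hε hε1).2).trans (mul_le_mul_right ?_ _)) _
    exact Finset.single_le_sum (f := η₀) (fun _ _ => zero_le) (Finset.mem_univ d)
  refine (mul_le_mul_right (Finset.sum_le_sum fun d _ => e4 d) _).trans (le_of_eq ?_)
  rw [← Finset.sum_mul, hK]
  ring

/-- **The mass of the base structures** which run a program with at most `c₀` classes. -/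
theorem mass_prog (h : GoodDatum f₀ κ₀) (hΦ : IsPotential Φ) (hc : 0 ≤ c) (hcb : c < b)
    (_hM₀ : 0 ≤ M₀) (hf : ∀ z, f₀ z ≤ M₀ * Real.exp (-b * ‖z.2‖ ^ 2)) (hM₁ : 0 ≤ M₁)
    (hmarg : ∀ v, ∫⁻ x, ENNReal.ofReal (f₀ (x, v)) ≤ ENNReal.ofReal (M₁ * Real.exp (-b * ‖v‖ ^ 2)))
    (m q L c₀ N₀ : ℕ) {T₀ : ℝ} (hT₀ : 0 ≤ T₀) :
    ∃ C : ℝ≥0∞, C ≠ ∞ ∧ ∀ ε : ℝ, 0 < ε → ε ≤ 1 → ∀ s : Fin q → ℝ, (∀ j, 0 ≤ s j) →
      ∀ (dl : Fin q → ℕ) (W : (Fin m → CTree) → (Fin q → Ph) → ℝ≥0∞),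
      (Measurable fun p : (Fin m → CTree) × (Fin q → Ph) => W p.1 p.2) → ∀ CW : ℝ≥0∞,
      (∀ T l, W T l ≤ CW * ENNReal.ofReal (Real.exp (c * enB T l))) →
      (∀ T l, W T l ≠ 0 → Base Φ ε T (lns s dl l)) →
      (∀ T l, W T l ≠ 0 → PrgO Φ ε T₀ c₀ N₀ T (lns s dl l) ∅) →
      muE ε ^ q * ∫⁻ T, ∫⁻ l : Fin q → Ph, (∏ j, g1 b (l j).2) * W T l ∂volume
        ∂(Measure.pi fun _ : Fin m => tree (inten f₀ ε) L) ≤ CW * (muE ε ^ c₀ * C) := by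
  obtain ⟨C, hC, h1⟩ := mass_set (Φ := Φ) h hc hf m q L c₀ (progs_finite Φ T₀ N₀ c₀)
    (fun r hr => progs_bdd hΦ h.meas hM₁ hmarg hcb hT₀ hr)
  exact ⟨C, hC, fun ε hε hε1 s hs dl W hW CW hWb hbase hbase' =>
    h1 ε hε hε1 s hs dl W hW CW hWb hbase fun T l hTl => (hbase' T l hTl).sbad⟩

end Vale.Agent.P119.IND
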