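import Vale.Agent.P119.IND.DetOut

/-!
# P119, block IND: the outputs for a pair of lines in collision (`helper621`)

The two lines `rx`, `ry` collide at the time `s₀` with each other; all the outputs are at times before
the end of this collision.

* `NR rx ry T`: `T` is not a history of `rx`, `ry`;
* `NPair rx ry s₀ F G`: no collision of `rx` or `ry` belongs to the family, `rx` and `ry` are not the
  first label of a ghost, and the ghosts with second label `rx` or `ry` take place before `s₀`;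
* `IrrN`: the irregular final contacts: `rx`, `ry` are not among the labels, except as the whole
  colliding pair (then `s₀ ≤ s`), or as the flying third body of `tri` (then `s ≤ s₀`);
* `PairOut`: the outputs.
-/

open MeasureTheory Filter Topology Set
open scoped ENNReal NNReal

noncomputable section

namespace Vale.Agent.P119.IND

open KU M M.CTree TL

variable {Φ : E3 → ℝ} {ε : ℝ} {L : ℕ}

/-- `T` is not a history of `rx`, `ry`. -/
def NR (rx ry : Src) (T : CTree) : Prop := T.root ≠ rx ∧ T.root ≠ ry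

/-- The pair `x`, `y` does not contain `rx`, `ry`, or it is the pair of the two leaves. -/
def PrN (rx ry : Src) (s₀ s : ℝ) (x y : CTree) : Prop :=
  (NR rx ry x ∧ NR rx ry y) ∨
    (s₀ ≤ s ∧ ((x = leaf rx ∧ y = leaf ry) ∨ (x = leaf ry ∧ y = leaf rx)))

/-- The labels `rx`, `ry` in the family. -/
structure NPair (rx ry : Src) (s₀ : ℝ) (F : Finset CTree) (G : List Gh) : Prop where
  node : ∀ a b, node a b ∈ F → NR rx ry (node a b)
  fst : ∀ g ∈ G, NR rx ry g.1
  snd : ∀ g ∈ G, NR rx ry g.2.1 ∨ ((g.2.1 = leaf rx ∨ g.2.1 = leaf ry) ∧ g.2.2 ≤ s₀)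

/-- The irregular final contacts at the time `s`, with their edges. -/
inductive IrrN (Φ : E3 → ℝ) (ε : ℝ) (rx ry : Src) (s₀ : ℝ) (F : Finset CTree) (G : List Gh)
    (s : ℝ) : List (Src × Src) → Prop
  /-- the flying tree `C` is in contact with one of the particles of the colliding pair `x`, `y` -/
  | tri (x y C : CTree) (hx : IsLast F x) (hy : IsLast F y) (hC : IsLast F C)
      (hok : ok Φ ε (node x y)) (h1 : sig Φ ε (node x y) ≤ s) (h2 : s ≤ ext Φ ε (node x y))
      (eC : ext Φ ε C ≤ s) (hCx : C.root ≠ x.root) (hCy : C.root ≠ y.root)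
      (hc : Ctc ε (st Φ ε (node x y) s) (KU.free s (ln Φ ε C)) ∨
        Ctc ε (st Φ ε (node y x) s) (KU.free s (ln Φ ε C)))
      (nd : ∀ g ∈ G, g.1.root ≠ x.root ∧ g.1.root ≠ y.root ∧ g.1.root ≠ C.root)
      (tg : ∀ g ∈ G, g.2.1.root = x.root ∨ g.2.1.root = y.root →
        g.2.2 ≤ sig Φ ε (node x y))
      (np : PrN rx ry s₀ s x y) (nC : NR rx ry C ∨ ((C = leaf rx ∨ C = leaf ry) ∧ s ≤ s₀)) :
      IrrN Φ ε rx ry s₀ F G s [(x.root, y.root), (x.root, C.root)]
  /-- the colliding pairs `x`, `y` and `u`, `v` are in contact -/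
  | quad (x y u v : CTree) (hx : IsLast F x) (hy : IsLast F y) (hu : IsLast F u)
      (hv : IsLast F v) (hok : ok Φ ε (node x y)) (h1 : sig Φ ε (node x y) ≤ s)
      (h2 : s ≤ ext Φ ε (node x y)) (hok' : ok Φ ε (node u v)) (h1' : sig Φ ε (node u v) ≤ s)
      (h2' : s ≤ ext Φ ε (node u v)) (r1 : x.root ≠ u.root) (r2 : x.root ≠ v.root)
      (r3 : y.root ≠ u.root) (r4 : y.root ≠ v.root)
      (hc : Ctc ε (st Φ ε (node x y) s) (st Φ ε (node u v) s))
      (nd : ∀ g ∈ G, g.1.root ≠ x.root ∧ g.1.root ≠ y.root ∧ g.1.root ≠ u.root ∧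
        g.1.root ≠ v.root)
      (tg : ∀ g ∈ G, g.2.1.root = x.root ∨ g.2.1.root = y.root →
        g.2.2 ≤ sig Φ ε (node x y))
      (tg' : ∀ g ∈ G, g.2.1.root = u.root ∨ g.2.1.root = v.root →
        g.2.2 ≤ sig Φ ε (node u v))
      (np : PrN rx ry s₀ s x y) (np' : PrN rx ry s₀ s u v) :
      IrrN Φ ε rx ry s₀ F G s [(x.root, y.root), (u.root, v.root), (x.root, u.root)]
  /-- three flying trees, at the entrance of the first two -/
  | trip (x y C : CTree) (hx : IsLast F x) (hy : IsLast F y) (hC : IsLast F C)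
      (ex : ext Φ ε x < s) (ey : ext Φ ε y < s) (eC : ext Φ ε C ≤ s) (hxy : x.root ≠ y.root)
      (hCx : C.root ≠ x.root) (hCy : C.root ≠ y.root) (hm : Meets ε (ln Φ ε x, ln Φ ε y))
      (hh : hitT ε (ln Φ ε x, ln Φ ε y) = s)
      (hc : Ctc ε (KU.free s (ln Φ ε y)) (KU.free s (ln Φ ε C)))
      (nd : ∀ g ∈ G, g.1.root ≠ x.root ∧ g.1.root ≠ y.root ∧ g.1.root ≠ C.root)
      (nx : NR rx ry x) (ny : NR rx ry y) (nC : NR rx ry C) :
      IrrN Φ ε rx ry s₀ F G s [(x.root, y.root), (y.root, C.root)]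
  /-- two flying trees, at the end of a collision or at a birth -/
  | born (A B : CTree) (hA : IsLast F A) (hB : IsLast F B) (hr : A.root ≠ B.root)
      (hs : s = max (ext Φ ε A) (ext Φ ε B))
      (hc : Ctc ε (KU.free s (ln Φ ε A)) (KU.free s (ln Φ ε B)))
      (nd : ∀ g ∈ G, g.1.root ≠ A.root ∧ g.1.root ≠ B.root) (nA : NR rx ry A)
      (nB : NR rx ry B) :
      IrrN Φ ε rx ry s₀ F G s [(A.root, B.root)]
  /-- two flying trees, grazing -/
  | graze (A B : CTree) (hA : IsLast F A) (hB : IsLast F B) (hr : A.root ≠ B.root)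
      (hg : Graze Φ ε A B s) (nd : ∀ g ∈ G, g.1.root ≠ A.root ∧ g.1.root ≠ B.root)
      (nA : NR rx ry A) (nB : NR rx ry B) :
      IrrN Φ ε rx ry s₀ F G s [(A.root, B.root)]

theorem NR.swap {rx ry : Src} {T : CTree} (h : NR rx ry T) : NR ry rx T := ⟨h.2, h.1⟩

theorem PrN.swap {rx ry : Src} {s₀ s : ℝ} {x y : CTree} (h : PrN rx ry s₀ s x y) :
    PrN ry rx s₀ s x y :=
  h.imp (fun h => ⟨h.1.swap, h.2.swap⟩) fun h => ⟨h.1, h.2.symm⟩

theorem NPair.swap {rx ry : Src} {s₀ : ℝ} {F : Finset CTree} {G : List Gh}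
    (h : NPair rx ry s₀ F G) : NPair ry rx s₀ F G :=
  ⟨fun a b hab => (h.node a b hab).swap, fun g hg => (h.fst g hg).swap,
    fun g hg => (h.snd g hg).imp NR.swap fun h => ⟨h.1.symm, h.2⟩⟩

theorem IrrN.swap {rx ry : Src} {s₀ s : ℝ} {F : Finset CTree} {G : List Gh}
    {es : List (Src × Src)} (h : IrrN Φ ε rx ry s₀ F G s es) : IrrN Φ ε ry rx s₀ F G s es := by
  cases h with
  | tri x y C hx hy hC hok h1 h2 eC hCx hCy hc nd tg np nC =>
    exact .tri x y C hx hy hC hok h1 h2 eC hCx hCy hc nd tg np.swap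
      (nC.imp NR.swap fun h => ⟨h.1.symm, h.2⟩)
  | quad x y u v hx hy hu hv hok h1 h2 hok' h1' h2' r1 r2 r3 r4 hc nd tg tg' np np' =>
    exact .quad x y u v hx hy hu hv hok h1 h2 hok' h1' h2' r1 r2 r3 r4 hc nd tg tg' np.swap
      np'.swap
  | trip x y C hx hy hC ex ey eC hxy hCx hCy hm hh hc nd nx ny nC =>
    exact .trip x y C hx hy hC ex ey eC hxy hCx hCy hm hh hc nd nx.swap ny.swap nC.swap
  | born A B hA hB hr hs hc nd nA nB => exact .born A B hA hB hr hs hc nd nA.swap nB.swap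
  | graze A B hA hB hr hg nd nA nB => exact .graze A B hA hB hr hg nd nA.swap nB.swap

/-- The irregular contact, without the information about `rx`, `ry`. -/
theorem IrrN.irr {rx ry : Src} {s₀ s : ℝ} {F : Finset CTree} {G : List Gh}
    {es : List (Src × Src)} (h : IrrN Φ ε rx ry s₀ F G s es) :
    Irr Φ ε (fun _ _ => True) F G s es := by
  cases h with
  | tri x y C hx hy hC hok h1 h2 eC hCx hCy hc nd tg np nC =>
    exact .tri x y C hx hy hC hok h1 h2 eC hCx hCy hc nd tg (Or.inl trivial)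
  | quad x y u v hx hy hu hv hok h1 h2 hok' h1' h2' r1 r2 r3 r4 hc nd tg tg' np np' =>
    exact .quad x y u v hx hy hu hv hok h1 h2 hok' h1' h2' r1 r2 r3 r4 hc nd tg tg' trivial trivial
  | trip x y C hx hy hC ex ey eC hxy hCx hCy hm hh hc nd nx ny nC =>
    exact .trip x y C hx hy hC ex ey eC hxy hCx hCy hm hh hc nd trivial trivial
  | born A B hA hB hr hs hc nd nA nB => exact .born A B hA hB hr hs hc nd trivial
  | graze A B hA hB hr hg nd nA nB => exact .graze A B hA hB hr hg nd trivial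

/-- **The outputs for a pair of lines in collision.** -/
inductive PairOut (hΦ : IsPotential Φ) (hε : 0 < ε) (L : ℕ) (V₀ ins all : Set Src)
    (rx ry : Src) (s₀ t : ℝ) (m N : ℕ) (s : ℝ) : Prop
  /-- a long clean chain -/
  | clean (σ : Src) (hσ : σ ∈ ins) (h : HasClean hΦ hε.ne' L t (t + 1) m V₀ σ.1 σ.2.1)
  /-- a connected family, which contains two special labels or a closing ghost -/
  | closed (F : Finset CTree) (G : List Gh)
      (hB : BFam Φ ε s N all (fun _ => True) (fun _ _ => True) F G) (hN : NPair rx ry s₀ F G)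
      (σ : Src) (hσ : σ ∈ ins) (hσF : σ ∈ lab F) (hJ : ∀ a ∈ lab F, FJ F G a σ)
      (hc : (∃ y ∈ lab F, y ∉ V₀ ∧ y ≠ σ) ∨ ∃ G₁ g G₂, G = G₁ ++ g :: G₂ ∧
        FJ F (G₁ ++ G₂) g.1.root g.2.1.root)
  /-- a family with an irregular final contact, connected together with it -/
  | irr (F : Finset CTree) (G : List Gh) (es : List (Src × Src))
      (hB : BFam Φ ε s N all (fun _ => True) (fun _ _ => True) F G) (hN : NPair rx ry s₀ F G)
      (σ : Src) (hσ : σ ∈ ins) (hσF : σ ∈ lab F) (hJ : ∀ a ∈ lab F, FX F G es a σ)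
      (h : IrrN Φ ε rx ry s₀ F G s es)

theorem PairOut.swap {hΦ : IsPotential Φ} {hε : 0 < ε} {V₀ ins all : Set Src} {rx ry : Src}
    {s₀ t s : ℝ} {m N : ℕ} (h : PairOut hΦ hε L V₀ ins all rx ry s₀ t m N s) :
    PairOut hΦ hε L V₀ ins all ry rx s₀ t m N s := by
  cases h with
  | clean σ hσ h => exact .clean σ hσ h
  | closed F G hB hN σ hσ hσF hJ hc => exact .closed F G hB hN.swap σ hσ hσF hJ hc
  | irr F G es hB hN σ hσ hσF hJ h => exact .irr F G es hB hN.swap σ hσ hσF hJ h.swap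

end Vale.Agent.P119.IND
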