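import Vale.Agent.P119.IND.PairIns
import Vale.Agent.P119.IND.PairBase
import Vale.Agent.P119.IND.PairOut

/-!
# P119, block IND: a base structure with one colliding pair (`helper667`)

The gas sees the two lines of a colliding pair before their collision as two free lines; the collision
of the pair is not an event of the base program but it joins the two labels.

* `IrrO.of_ins`: an irregular contact of the grafted program, with the inserted collision;
* `PairEs`: the edges of the irregular contacts;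
* `BaseP.prgC_pair`, `BaseP.prgO_pair`, `BaseP.irrO_pair`: the exits over a base with `c₀` components,
  the collision of the pair being an additional edge;
* `SBase.exists_base_pair`: base structures; `PPair Φ ε T F₀ D₀ X x y`: a base structure (with exact
  births) which contains a colliding pair `x`, `y`; `PPair.of_pair`, `PPair.add_tree`;
* **`PPair.law`**: the outputs `PairOut` of the deterministic analysis (`helper621`) give the
  alternatives `LawC` of the laws.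
-/

open Set
open scoped ENNReal

set_option linter.unusedSectionVars false

noncomputable section

namespace Vale.Agent.P119.IND

open KU M M.CTree TL GC AU

variable {Φ : E3 → ℝ} {ε T t : ℝ}

/-! ### The irregular contacts, with the inserted collision -/

section Irr

variable {ι : Type} [DecidableEq ι] {m q c₀ N : ℕ} {T₀ : Fin m → CTree} {l : Fin q → Src}
  {w : Finset Ph}

/-- **An irregular contact, with an inserted collision.** -/
theorem IrrO.of_ins [Fintype ι] (hΦ : IsPotential Φ) (hε : 0 < ε) (hι : Fintype.card ι ≤ N)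
    {z : ι → Src} {M : List (Ev ι × ℝ)} {s s₀ : ℝ} {es : List (ι × ι)} {a b : ι}
    (hM : M.length + 1 ≤ N) (hz : LabT T₀ l w z) (hb0 : ∀ i, 0 ≤ (z i).1) (hw : Wf M)
    (hr : RunT Φ ε t 0 M (fun i => (z i).1) (fun i => (z i).2.1))
    (hI : InsOK Φ ε M (fun i => (z i).1) (fun i => (z i).2.1) a b s₀) (h0 : 0 ≤ s₀)
    (hT : s₀ ≤ t) (hst : s ≤ t) (h : IrrP Φ ε M (fun i => (z i).1) (fun i => (z i).2.1) s es)
    (hc : (∀ p ∈ es, (p.1 ≠ a ∧ p.1 ≠ b) ∧ p.2 ≠ a ∧ p.2 ≠ b) ∨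
      (s ≤ s₀ ∧ (∀ p ∈ es, p.1 ≠ a ∧ p.2 ≠ a) ∧
        ∃ x y c C, es = [(x, y), (c, C)] ∧ x ≠ b ∧ y ≠ b))
    {R : Finset ι} (hR : ∀ i, ∃ r ∈ R, Edg.Joined (edges M ++ (es ++ [(a, b)])) i r)
    (hRc : R.card ≤ c₀) (hRl : ∀ i ∈ R, z i ∉ range l) : IrrO Φ ε t c₀ N T₀ l w := by
  classical
  obtain ⟨A, B, hAB, hA, hB⟩ := hr.exists_split s
  subst hAB
  have h6 := h.split hB
  obtain ⟨j, hj⟩ := h6.exists_birth
  have h8 := (hr.left).le_finB hΦ hε j
  have hs0 : 0 ≤ s := (hb0 j).trans (h8.trans hj)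
  rcases le_or_gt s s₀ with hss | hss
  · -- the collision of the pair is inserted after the contact
    obtain ⟨B₁, B₂, hB12, h1, h2⟩ := (hr.right fun e he => (hB e he).le).exists_split s₀
    subst hB12
    have hr' := hr
    have hw' := hw
    have hI' := hI
    rw [← List.append_assoc] at hr' hw' hI'
    obtain ⟨r1, w1⟩ := hI'.insert hr' hw' h0 hT (fun e he => by
      rcases List.mem_append.1 he with he | he
      · exact (hA e he).trans hss
      · exact h1 e he) h2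
    rw [List.append_assoc] at r1 w1
    have hX : IrrX Φ ε A (B₁ ++ (Ev.gh a b, s₀) :: B₂) (fun i => (z i).1)
        (fun i => (z i).2.1) s es := by
      refine h6.insB ?_ ?_
      · rcases hc with hc | ⟨-, hc, -⟩
        · exact fun p hp => ⟨(hc p hp).1.1, (hc p hp).2.1⟩
        · exact hc
      · rcases hc with hc | ⟨-, -, hc⟩
        · exact Or.inl fun p hp => ⟨(hc p hp).1.2, (hc p hp).2.2⟩
        · exact Or.inr hc
    obtain ⟨Rs, h9, h10, h11⟩ := exists_trans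
      (Edg.joined_equivalence (edges (A ++ (B₁ ++ (Ev.gh a b, s₀) :: B₂)) ++ es)) R fun i => by
        obtain ⟨r, hr1, hr2⟩ := hR i
        refine ⟨r, hr1, hr2.mono fun p hp => ?_⟩
        rcases List.mem_append.1 hp with hp | hp
        · refine List.mem_append_left _ ?_
          obtain ⟨e, he, rfl⟩ := List.mem_map.1 hp
          refine List.mem_map.2 ⟨e, ?_, rfl⟩
          simp only [List.mem_append, List.mem_cons] at he ⊢
          tauto
        · rcases List.mem_append.1 hp with hp | hp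
          · exact List.mem_append_right _ hp
          · rw [List.mem_singleton.1 hp]
            exact List.mem_append_left _ (List.mem_map.2 ⟨(Ev.gh a b, s₀), by simp, rfl⟩)
    refine IrrO.of_fintype (A := A) (B := B₁ ++ (Ev.gh a b, s₀) :: B₂) (s := s) (es := es)
      (Rs := Rs) hι ?_ hz ⟨fun i => ?_, fun r hr r' hr' hJ => h11 r hr r' hr' (jn_evs.1 hJ)⟩
      ((Finset.card_le_card h9).trans hRc) (fun i hi => hRl i (h9 hi)) hb0 w1 r1 hs0 hst hA
      (fun e he => ?_) hX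
    · simp only [List.length_append, List.length_cons] at hM ⊢
      omega
    · obtain ⟨r, hr1, hJ⟩ := h10 i
      exact ⟨r, hr1, jn_evs.2 hJ⟩
    · rcases List.mem_append.1 he with he | he
      · exact (hB e (List.mem_append_left _ he)).le
      · rcases List.mem_cons.1 he with rfl | he
        · exact hss
        · exact (hB e (List.mem_append_right _ he)).le
  · -- the collision of the pair is inserted before the contact
    have hc' := hc.resolve_right fun h' => absurd h'.1 (not_le.2 hss)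
    obtain ⟨A₁, A₂, hA12, h1, h2⟩ := (hr.left).exists_split s₀
    subst hA12
    have hr' := hr
    have hw' := hw
    have hI' := hI
    rw [List.append_assoc] at hr' hw' hI'
    obtain ⟨r1, w1⟩ := hI'.insert hr' hw' h0 hT h1 (fun e he => by
      rcases List.mem_append.1 he with he | he
      · exact h2 e he
      · exact hss.trans (hB e he))
    have e1 : A₁ ++ (Ev.gh a b, s₀) :: (A₂ ++ B) = (A₁ ++ (Ev.gh a b, s₀) :: A₂) ++ B := by
      rw [List.append_assoc, List.cons_append]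
    rw [e1] at r1 w1
    obtain ⟨Rs, h9, h10, h11⟩ := exists_trans
      (Edg.joined_equivalence (edges ((A₁ ++ (Ev.gh a b, s₀) :: A₂) ++ B) ++ es)) R fun i => by
        obtain ⟨r, hr1, hr2⟩ := hR i
        refine ⟨r, hr1, hr2.mono fun p hp => ?_⟩
        rcases List.mem_append.1 hp with hp | hp
        · refine List.mem_append_left _ ?_
          obtain ⟨e, he, rfl⟩ := List.mem_map.1 hp
          refine List.mem_map.2 ⟨e, ?_, rfl⟩
          simp only [List.mem_append, List.mem_cons] at he ⊢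
          tauto
        · rcases List.mem_append.1 hp with hp | hp
          · exact List.mem_append_right _ hp
          · rw [List.mem_singleton.1 hp]
            exact List.mem_append_left _ (List.mem_map.2 ⟨(Ev.gh a b, s₀), by simp, rfl⟩)
    refine IrrO.of_fintype (A := A₁ ++ (Ev.gh a b, s₀) :: A₂) (B := B) (s := s) (es := es)
      (Rs := Rs) hι ?_ hz ⟨fun i => ?_, fun r hr r' hr' hJ => h11 r hr r' hr' (jn_evs.1 hJ)⟩
      ((Finset.card_le_card h9).trans hRc) (fun i hi => hRl i (h9 hi)) hb0 w1 r1 hs0 hst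
      (fun e he => ?_) (fun e he => (hB e he).le) (h6.insA hc')
    · simp only [List.length_append, List.length_cons] at hM ⊢
      omega
    · obtain ⟨r, hr1, hJ⟩ := h10 i
      exact ⟨r, hr1, jn_evs.2 hJ⟩
    · rcases List.mem_append.1 he with he | he
      · exact (h1 e he).trans hss.le
      · rcases List.mem_cons.1 he with rfl | he
        · exact hss.le
        · exact hA e (List.mem_append_right _ he)

end Irr

/-- **The edges of the irregular contacts** in a world with the colliding pair `r₁`, `r₂`: the pair is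
one of the colliding pairs of the contact, or its lines are not particles of the contact, or one of
them is the third particle of a contact before the collision. -/
def PairEs (r₁ r₂ : Src) (s₀ s : ℝ) (es : List (Src × Src)) : Prop :=
  (r₁, r₂) ∈ es ∨ (r₂, r₁) ∈ es ∨
    (∀ p ∈ es, (p.1 ≠ r₁ ∧ p.1 ≠ r₂) ∧ p.2 ≠ r₁ ∧ p.2 ≠ r₂) ∨
    (s ≤ s₀ ∧ ∃ a b c, es = [(a, b), (a, c)] ∧ (a ≠ r₁ ∧ a ≠ r₂) ∧ b ≠ r₁ ∧ b ≠ r₂)

theorem map_pair_eq {α β : Type*} {f : α → β} {es' : List (α × α)} {a b c : β}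
    (h : [(a, b), (a, c)] = es'.map (Prod.map f f)) :
    ∃ a' b' a'' c', es' = [(a', b'), (a'', c')] ∧ f a' = a ∧ f b' = b ∧ f a'' = a := by
  rcases es' with _ | ⟨⟨p, q⟩, _ | ⟨⟨p', q'⟩, _ | ⟨p'', es'⟩⟩⟩
  · simp at h
  · simp at h
  · simp only [List.map_cons, List.map_nil, Prod.map_apply, List.cons.injEq, Prod.mk.injEq,
      and_true] at h
    exact ⟨p, q, p', q', rfl, h.1.1.symm, h.1.2.symm, h.2.1.symm⟩
  · simp at h

theorem NPair.np {r₁ r₂ : Src} {s₀ : ℝ} {F : Finset CTree} {G : List Gh}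
    (h : NPair r₁ r₂ s₀ F G) : NP r₁ r₂ s₀ F G := by
  refine ⟨fun a b hab => h.node a b hab, fun g hg => h.fst g hg, fun g hg hr => ?_⟩
  rcases h.snd g hg with h1 | h1
  · rcases hr with hr | hr
    · exact absurd hr h1.1
    · exact absurd hr h1.2
  · exact h1.2

theorem IrrN.pairEs {r₁ r₂ : Src} {s₀ s : ℝ} {F : Finset CTree} {G : List Gh}
    {es : List (Src × Src)} (h : IrrN Φ ε r₁ r₂ s₀ F G s es) : PairEs r₁ r₂ s₀ s es := by
  have key : ∀ {a b : CTree} {es : List (Src × Src)}, (a.root, b.root) ∈ es →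
      ((a = leaf r₁ ∧ b = leaf r₂) ∨ (a = leaf r₂ ∧ b = leaf r₁)) → PairEs r₁ r₂ s₀ s es := by
    rintro a b es hab (⟨rfl, rfl⟩ | ⟨rfl, rfl⟩)
    · exact Or.inl hab
    · exact Or.inr (Or.inl hab)
  cases h with
  | tri x y C hx hy hC hok h1 h2 eC hCx hCy hc nd tg np nC =>
    rcases np with ⟨n1, n2⟩ | ⟨-, n1⟩
    · rcases nC with nC | ⟨-, hs⟩
      · refine Or.inr (Or.inr (Or.inl fun p hp => ?_))
        simp only [List.mem_cons, List.not_mem_nil, or_false] at hp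
        rcases hp with rfl | rfl
        · exact ⟨n1, n2⟩
        · exact ⟨n1, nC⟩
      · exact Or.inr (Or.inr (Or.inr ⟨hs, x.root, y.root, C.root, rfl, n1, n2⟩))
    · exact key (List.mem_cons_self) n1
  | quad x y u v hx hy hu hv hok h1 h2 hok' h1' h2' r1 r2 r3 r4 hc nd tg tg' np np' =>
    rcases np with ⟨n1, n2⟩ | ⟨-, n1⟩
    · rcases np' with ⟨n3, n4⟩ | ⟨-, n3⟩
      · refine Or.inr (Or.inr (Or.inl fun p hp => ?_))
        simp only [List.mem_cons, List.not_mem_nil, or_false] at hp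
        rcases hp with rfl | rfl | rfl
        · exact ⟨n1, n2⟩
        · exact ⟨n3, n4⟩
        · exact ⟨n1, n3⟩
      · exact key (by simp) n3
    · exact key (List.mem_cons_self) n1
  | trip x y C hx hy hC ex ey eC hxy hCx hCy hm hh hc nd nx ny nC =>
    refine Or.inr (Or.inr (Or.inl fun p hp => ?_))
    simp only [List.mem_cons, List.not_mem_nil, or_false] at hp
    rcases hp with rfl | rfl
    · exact ⟨nx, ny⟩
    · exact ⟨ny, nC⟩
  | born A B hA hB hr hs hc nd nA nB =>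
    refine Or.inr (Or.inr (Or.inl fun p hp => ?_))
    rw [List.mem_singleton.1 hp]
    exact ⟨nA, nB⟩
  | graze A B hA hB hr hg nd nA nB =>
    refine Or.inr (Or.inr (Or.inl fun p hp => ?_))
    rw [List.mem_singleton.1 hp]
    exact ⟨nA, nB⟩

/-! ### The exits -/

section exits

variable {κ : Type} [DecidableEq κ] {z x : κ → Src} {D : Set κ}
  {Q : List (Ev κ × ℝ)} {m q c₀ N : ℕ} {T₀ : Fin m → CTree} {l : Fin q → Src} {w : Finset Ph}
  {R₀ : Finset κ} {F : Finset CTree} {G : List Gh} {i₁ i₂ : κ} {s₀ : ℝ}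

theorem PairB.nonneg (hΦ : IsPotential Φ) (hε : 0 < ε) (hB : BaseP Φ ε T z x D Q)
    (hP : PairB ε T x D i₁ i₂ s₀) : 0 ≤ s₀ :=
  (hB.nonneg i₁).trans ((hB.run.le_finB hΦ hε i₁).trans ((hB.bir i₁ hP.d₁).trans hP.b₁))

/-- **The grafted program, with the collision of the pair.** -/
theorem Grf.exists_insert (hΦ : IsPotential Φ) (hε : 0 < ε) (hB : BaseP Φ ε T z x D Q)
    {V : Set Src} [DecidableEq (κ ⊕ Frl F V)] {M Q₁ : List (Ev (κ ⊕ Frl F V) × ℝ)}
    (h : Grf Φ ε T z x D Q F G V M Q₁) (hF : Fam Φ ε T F G) (hP : PairB ε T x D i₁ i₂ s₀)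
    (hN : NP (x i₁) (x i₂) s₀ F G) :
    ∃ M' : List (Ev (κ ⊕ Frl F V) × ℝ),
      M'.Perm (mapP Sum.inl (Q ++ [(Ev.gh i₁ i₂, s₀)]) ++ Q₁) ∧
      M'.Perm ((Ev.gh (Sum.inl i₁) (Sum.inl i₂), s₀) :: M) ∧
      RunT Φ ε T 0 M' (fun i => (zAll z F V i).1) (fun i => (zAll z F V i).2.1) ∧ Wf M' := by
  obtain ⟨A, L, hAL, hA, hL⟩ := h.run.exists_split s₀
  subst hAL
  obtain ⟨h1, h2⟩ := (h.insOK hΦ hε hB hF hP hN).insert h.run h.wf (hP.nonneg hΦ hε hB) hP.le
    hA hL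
  refine ⟨_, ?_, List.perm_middle, h1, h2⟩
  have e1 : mapP Sum.inl (Q ++ [(Ev.gh i₁ i₂, s₀)]) ++ Q₁ =
      mapP (Sum.inl : κ → κ ⊕ Frl F V) Q ++ (Ev.gh (Sum.inl i₁) (Sum.inl i₂), s₀) :: Q₁ := by
    unfold mapP
    rw [List.map_append, List.append_assoc]
    rfl
  rw [e1]
  exact List.perm_middle.trans ((h.perm.cons _).trans List.perm_middle.symm)

theorem jn_insert {ι : Type} [DecidableEq ι] {M M' : List (Ev ι × ℝ)} {a b : ι} {s₀ : ℝ}
    (h : M'.Perm ((Ev.gh a b, s₀) :: M)) {i k : ι} :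
    Jn M' i k ↔ Edg.Joined (edges M ++ [(a, b)]) i k := by
  rw [jn_perm h, jn_iff_joined]
  exact Edg.joined_perm (List.perm_append_singleton (a, b) (edges M)).symm

theorem CovB.cov_pair (hR : CovB z (Q ++ [(Ev.gh i₁ i₂, s₀)]) l c₀ R₀) (i : κ) :
    ∃ r ∈ R₀, Edg.Joined (edges Q ++ [(i₁, i₂)]) i r := by
  obtain ⟨r, hr, hJ⟩ := hR.cov i
  refine ⟨r, hr, ?_⟩
  have h1 := jn_iff_joined.1 hJ
  rwa [edges_append] at h1

/-- The classes of the grafted program with the collision of the pair. -/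
theorem Grf.cover_pair (hB : BaseP Φ ε T z x D Q)
    {V : Set Src} [DecidableEq (κ ⊕ Frl F V)] {M M' Q₁ : List (Ev (κ ⊕ Frl F V) × ℝ)}
    (h : Grf Φ ε T z x D Q F G V M Q₁) (hF : Fam Φ ε T F G)
    (hV : ∀ σ ∈ lab F, σ ∈ V ∨ ∃ i ∉ D, x i = σ) (hVx : ∀ i ∉ D, x i ∉ V)
    (hM : M'.Perm ((Ev.gh (Sum.inl i₁) (Sum.inl i₂), s₀) :: M))
    (hc : ∀ σ ∈ lab F, σ ∈ V → ∃ i ∉ D, FX F G [] (x i) σ)
    (hR : CovB z (Q ++ [(Ev.gh i₁ i₂, s₀)]) l c₀ R₀) (i : κ ⊕ Frl F V) :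
    ∃ r ∈ R₀.map ⟨Sum.inl, Sum.inl_injective⟩, Jn M' i r := by
  obtain ⟨r, hr, hJ⟩ := h.cover' hB hF hV hVx (es := []) (es' := [(Sum.inl i₁, Sum.inl i₂)])
    (fun p hp => absurd hp List.not_mem_nil) (es₀ := [(i₁, i₂)]) (fun p hp => by
      rw [List.mem_singleton.1 hp]
      exact Edg.joined_of_mem (by simp)) hc hR.cov_pair i
  exact ⟨r, hr, (jn_insert hM).2 hJ⟩

variable [Fintype κ]

/-- **A closed family.** -/
theorem BaseP.prgC_pair (hΦ : IsPotential Φ) (hε : 0 < ε) (hB : BaseP Φ ε T z x D Q)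
    (hP : PairB ε T x D i₁ i₂ s₀) (hR : CovB z (Q ++ [(Ev.gh i₁ i₂, s₀)]) l c₀ R₀)
    (hL : BLab T₀ l z) (hzw : ∀ i, z i ∉ wS w)
    (hxw : ∀ i ∉ D, x i ∉ wS w) (hF : Fam Φ ε T F G) (hN : NP (x i₁) (x i₂) s₀ F G)
    (hG : GrOn x D w F G [])
    (hcl : FCl F G ∨ ∃ i ∉ D, ∃ k ∉ D, i ≠ k ∧ Jn (Q ++ [(Ev.gh i₁ i₂, s₀)]) i k ∧
      FJ F G (x i) (x k))
    (h1 : Fintype.card κ + F.card ≤ N) (h2 : Q.length + F.card + G.length + 1 ≤ N) :
    PrgC Φ ε T c₀ N T₀ l w := by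
  classical
  obtain ⟨M, Q₁, h⟩ := hB.graft_fam hΦ hε hF (V := (wS w : Set Src)) hG.mem fun i hi => hxw i hi
  obtain ⟨M', p1, p2, r1, w1⟩ := h.exists_insert hΦ hε hB hF hP hN
  have : Fintype (Frl F (wS w : Set Src)) := Fintype.ofFinite _
  have hlen : M'.length ≤ N := by
    have e0 := p2.length_eq
    rw [List.length_cons] at e0
    have e1 := h.length_eq
    have e2 := h.len
    have e3 := card_nl_le F
    omega
  have hc : Closed M' := by
    refine closed_graft p1 ?_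
    rcases hcl with hcl | ⟨i, hi, k, hk, hik, hJ', hJ⟩
    · exact Or.inl (h.cl hcl)
    · refine Or.inr ⟨Sum.inl i, Sum.inl k, fun h' => hik (Sum.inl_injective h'), ?_, ?_⟩
      · exact hJ'.map Sum.inl
      · exact h.jn _ _ (inl_notMem hi) (inl_notMem hk) hJ
  obtain ⟨Rs, h3, h4, h5⟩ := exists_trans (jn_equivalence M') _
    (h.cover_pair hB hF hG.mem (fun i hi => hxw i hi) p2 hG.con hR)
  refine PrgC.of_fintype (ι := κ ⊕ Frl F (wS w : Set Src)) (P := M'.map Prod.fst) ?_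
    (by rw [List.length_map]; exact hlen) (hL.labT hB.inj hzw F) (Rs := Rs)
    ⟨fun i => ?_, fun r hr r' hr' hJ => h5 r hr r' hr' ((jn_pl T M').1 hJ)⟩ ?_ ?_
    (wf_pl T w1) ((closed_pl T M').2 hc) ?_
  · rw [Fintype.card_sum]
    have := card_frl_le F (wS w : Set Src)
    omega
  · obtain ⟨r, hr, hJ⟩ := h4 i
    exact ⟨r, hr, (jn_pl T M').2 hJ⟩
  · refine (Finset.card_le_card h3).trans ?_
    rw [Finset.card_map]
    exact hR.card
  · intro i hi
    obtain ⟨r, hr, rfl⟩ := Finset.mem_map.1 (h3 hi)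
    exact hR.ord r hr
  · refine r1.run hΦ hε ?_
    rintro (k | ⟨σ, h3, h4⟩)
    · exact hB.nonneg k
    · obtain ⟨p, -, rfl⟩ := mem_wS.1 h4
      exact le_rfl

/-- **A family which joins two components of the base.** -/
theorem BaseP.prgO_pair (hΦ : IsPotential Φ) (hε : 0 < ε) (hB : BaseP Φ ε T z x D Q)
    (hP : PairB ε T x D i₁ i₂ s₀) (hR : CovB z (Q ++ [(Ev.gh i₁ i₂, s₀)]) l (c₀ + 1) R₀)
    (hL : BLab T₀ l z) (hzw : ∀ i, z i ∉ wS w)
    (hxw : ∀ i ∉ D, x i ∉ wS w) (hF : Fam Φ ε T F G) (hN : NP (x i₁) (x i₂) s₀ F G)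
    (hG : GrOn x D w F G [])
    {i k : κ} (hi : i ∉ D) (hk : k ∉ D) (hik : ¬Jn (Q ++ [(Ev.gh i₁ i₂, s₀)]) i k)
    (hJ : FJ F G (x i) (x k))
    (h1 : Fintype.card κ + F.card ≤ N) (h2 : Q.length + F.card + G.length + 1 ≤ N) :
    PrgO Φ ε T c₀ N T₀ l w := by
  classical
  obtain ⟨M, Q₁, h⟩ := hB.graft_fam hΦ hε hF (V := (wS w : Set Src)) hG.mem fun i hi => hxw i hi
  obtain ⟨M', p1, p2, r1, w1⟩ := h.exists_insert hΦ hε hB hF hP hN
  have : Fintype (Frl F (wS w : Set Src)) := Fintype.ofFinite _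
  have hlen : M'.length ≤ N := by
    have e0 := p2.length_eq
    rw [List.length_cons] at e0
    have e1 := h.length_eq
    have e2 := h.len
    have e3 := card_nl_le F
    omega
  have hcov := h.cover_pair hB hF hG.mem (fun i hi => hxw i hi) p2 hG.con hR
  obtain ⟨a, ha, hia⟩ := hR.cov i
  obtain ⟨b, hb, hkb⟩ := hR.cov k
  have hab : a ≠ b := by
    rintro rfl
    exact hik (hia.trans hkb.symm)
  have hbase : ∀ {i k : κ}, Jn (Q ++ [(Ev.gh i₁ i₂, s₀)]) i k →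
      Jn M' (Sum.inl i) (Sum.inl k) := fun {i k} hJ => jn_left p1 (hJ.map Sum.inl)
  have hJM : Jn M' (Sum.inl a) (Sum.inl b) := by
    refine (hbase hia).symm.trans (Jn.trans ?_ (hbase hkb))
    exact jn_right p1 (h.jn _ _ (inl_notMem hi) (inl_notMem hk) hJ)
  obtain ⟨Rs, h3, h6, h4, h5⟩ := exists_trans_lt (jn_equivalence M') _ hcov
    (Finset.mem_map.2 ⟨a, ha, rfl⟩) (Finset.mem_map.2 ⟨b, hb, rfl⟩)
    (fun h' => hab (Sum.inl_injective h')) hJM
  refine PrgO.of_fintype (ι := κ ⊕ Frl F (wS w : Set Src)) (P := M'.map Prod.fst) ?_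
    (by rw [List.length_map]; exact hlen) (hL.labT hB.inj hzw F) (Rs := Rs)
    ⟨fun i => ?_, fun r hr r' hr' hJ => h5 r hr r' hr' ((jn_pl T M').1 hJ)⟩ ?_ ?_ ?_
  · rw [Fintype.card_sum]
    have := card_frl_le F (wS w : Set Src)
    omega
  · obtain ⟨r, hr, hJ⟩ := h4 i
    exact ⟨r, hr, (jn_pl T M').2 hJ⟩
  · have h7 := hR.card
    rw [Finset.card_map] at h6
    omega
  · intro i hi
    obtain ⟨r, hr, rfl⟩ := Finset.mem_map.1 (h3 hi)
    exact hR.ord r hr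
  · refine r1.run hΦ hε ?_
    rintro (k | ⟨σ, h3, h4⟩)
    · exact hB.nonneg k
    · obtain ⟨p, -, rfl⟩ := mem_wS.1 h4
      exact le_rfl

/-- **A family with an irregular final contact.** -/
theorem BaseP.irrO_pair (hΦ : IsPotential Φ) (hε : 0 < ε) (hB : BaseP Φ ε T z x D Q)
    (hP : PairB ε T x D i₁ i₂ s₀) (hR : CovB z (Q ++ [(Ev.gh i₁ i₂, s₀)]) l c₀ R₀)
    (hL : BLab T₀ l z) (hzw : ∀ i, z i ∉ wS w)
    (hxw : ∀ i ∉ D, x i ∉ wS w) {s : ℝ} (hs : s ≤ T) (hF : Fam Φ ε s F G)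
    (hN : NP (x i₁) (x i₂) s₀ F G) {es : List (Src × Src)} (hG : GrOn x D w F G es)
    (hb : ∀ k ∉ D, finB Φ ε Q (fun i => (z i).1) (fun i => (z i).2.1) k = (x k).1 ∨
      s ≠ (x k).1) {Lg : Bool → Gh → Prop} (hI : Irr Φ ε Lg F G s es)
    (hes : PairEs (x i₁) (x i₂) s₀ s es)
    (h1 : Fintype.card κ + F.card ≤ N) (h2 : Q.length + F.card + G.length + 1 ≤ N) :
    IrrO Φ ε T c₀ N T₀ l w := by
  classical
  have hFT := hF.mono_T hs
  obtain ⟨M, Q₁, h⟩ := hB.graft_fam hΦ hε hFT (V := (wS w : Set Src)) hG.mem fun i hi => hxw i hi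
  have : Fintype (Frl F (wS w : Set Src)) := Fintype.ofFinite _
  have hlen : M.length + 1 ≤ N := by
    have e1 := h.length_eq
    have e2 := h.len
    have e3 := card_nl_le F
    omega
  have hVx : ∀ i ∉ D, x i ∉ (wS w : Set Src) := fun i hi => hxw i hi
  obtain ⟨es', h3, hmap, hnd⟩ := h.irrP_map hΦ hε hB hFT hG.mem
    (fun g hg => (hF.gh g hg).2.2.2.2.2.1) (fun _ => hb) hI
  have h4 : ∀ p ∈ es, ∃ i k, i ∉ Sum.inl '' D ∧ k ∉ Sum.inl '' D ∧
      zAll x F (wS w : Set Src) i = p.1 ∧ zAll x F (wS w : Set Src) k = p.2 ∧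
      (i, k) ∈ es' := by
    intro p hp
    rw [hmap] at hp
    obtain ⟨⟨i, k⟩, hp', rfl⟩ := List.mem_map.1 hp
    exact ⟨i, k, (hnd _ hp').1, (hnd _ hp').2, rfl, rfl, hp'⟩
  have hlT := hL.labT hB.inj hzw F
  have hb0 : ∀ i, 0 ≤ (zAll z F (wS w : Set Src) i).1 := by
    rintro (k | ⟨σ, h5, h6⟩)
    · exact hB.nonneg k
    · obtain ⟨p, -, rfl⟩ := mem_wS.1 h6
      exact le_rfl
  have hcard : Fintype.card (κ ⊕ Frl F (wS w : Set Src)) ≤ N := by
    rw [Fintype.card_sum]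
    have := card_frl_le F (wS w : Set Src)
    omega
  have hRc : (R₀.map ⟨(Sum.inl : κ → κ ⊕ Frl F (wS w : Set Src)), Sum.inl_injective⟩).card ≤
      c₀ := by
    rw [Finset.card_map]
    exact hR.card
  have hRl : ∀ i ∈ R₀.map ⟨(Sum.inl : κ → κ ⊕ Frl F (wS w : Set Src)), Sum.inl_injective⟩,
      zAll z F (wS w : Set Src) i ∉ range l := by
    intro i hi
    obtain ⟨r, hr, rfl⟩ := Finset.mem_map.1 hi
    exact hR.ord r hr
  have hlb : ∀ {j : κ ⊕ Frl F (wS w : Set Src)} {i : κ}, j ∉ Sum.inl '' D → i ∉ D →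
      zAll x F (wS w : Set Src) j = x i → j = Sum.inl i := fun {j i} hj hi he =>
    zAll_injOn hB.xinj hVx hj (inl_notMem hi) he
  have hInj : (x i₁, x i₂) ∈ es ∨ (x i₂, x i₁) ∈ es → IrrO Φ ε T c₀ N T₀ l w := by
    intro hpe
    have hJ : Edg.Joined (edges M ++ es') (Sum.inl i₁) (Sum.inl i₂) := by
      rcases hpe with hpe | hpe
      · obtain ⟨i, k, hi, hk, e1, e2, h5⟩ := h4 _ hpe
        rw [hlb hi hP.d₁ e1, hlb hk hP.d₂ e2] at h5
        exact Edg.joined_of_mem (List.mem_append_right _ h5)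
      · obtain ⟨i, k, hi, hk, e1, e2, h5⟩ := h4 _ hpe
        rw [hlb hi hP.d₂ e1, hlb hk hP.d₁ e2] at h5
        exact (Edg.joined_of_mem (List.mem_append_right _ h5)).symm
    obtain ⟨A, B, hAB, hA, hB'⟩ := h.run.exists_split s
    subst hAB
    have h7 := h3.split hB'
    obtain ⟨j, hj⟩ := h7.exists_birth
    have h8 := (h.run.left).le_finB hΦ hε j
    obtain ⟨Rs, h9, h10, h11⟩ := exists_trans
      (Edg.joined_equivalence (edges (A ++ B) ++ es')) _
      (h.cover' hB hFT hG.mem hVx h4 (es₀ := [(i₁, i₂)]) (fun p hp => by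
        rw [List.mem_singleton.1 hp]
        exact hJ) hG.con hR.cov_pair)
    refine IrrO.of_fintype (ι := κ ⊕ Frl F (wS w : Set Src)) (A := A) (B := B) (s := s)
      (es := es') (Rs := Rs) hcard (by omega) hlT
      ⟨fun i => ?_, fun r hr r' hr' hJ => h11 r hr r' hr' (jn_evs.1 hJ)⟩
      ((Finset.card_le_card h9).trans hRc) (fun i hi => hRl i (h9 hi)) hb0 h.wf h.run
      ((hb0 j).trans (h8.trans hj)) hs hA (fun e he => (hB' e he).le) h7
    obtain ⟨r, hr, hJ⟩ := h10 i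
    exact ⟨r, hr, jn_evs.2 hJ⟩
  have hins := h.insOK hΦ hε hB hFT hP hN
  have hcov : ∀ {es'' : List ((κ ⊕ Frl F (wS w : Set Src)) × (κ ⊕ Frl F (wS w : Set Src)))},
      (∀ p ∈ es', p ∈ es'') → Edg.Joined (edges M ++ es'') (Sum.inl i₁) (Sum.inl i₂) →
      ∀ i, ∃ r ∈ R₀.map ⟨(Sum.inl : κ → κ ⊕ Frl F (wS w : Set Src)), Sum.inl_injective⟩,
        Edg.Joined (edges M ++ es'') i r := by
    intro es'' hsub hJ
    refine h.cover' hB hFT hG.mem hVx (es := es) (fun p hp => ?_) (es₀ := [(i₁, i₂)])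
      (fun p hp => by
        rw [List.mem_singleton.1 hp]
        exact hJ) hG.con hR.cov_pair
    obtain ⟨i, k, hi, hk, e1, e2, h5⟩ := h4 p hp
    exact ⟨i, k, hi, hk, e1, e2, hsub _ h5⟩
  rcases hes with hes | hes | hes | ⟨hss, a, b, c, he, ⟨ha1, ha2⟩, hb1, hb2⟩
  · exact hInj (Or.inl hes)
  · exact hInj (Or.inr hes)
  · refine IrrO.of_ins hΦ hε hcard hlen hlT hb0 h.wf h.run hins (hP.nonneg hΦ hε hB) hP.le hs h3
      (Or.inl fun p hp => ?_) (hcov (fun p hp => List.mem_append_left _ hp)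
        (Edg.joined_of_mem (by simp))) hRc hRl
    obtain ⟨⟨k1, k2⟩, k3, k4⟩ := hes (Prod.map (zAll x F (wS w : Set Src))
      (zAll x F (wS w : Set Src)) p) (by rw [hmap]; exact List.mem_map_of_mem hp)
    refine ⟨⟨?_, ?_⟩, ?_, ?_⟩
    · intro h'
      rw [Prod.map_fst, h'] at k1
      exact k1 rfl
    · intro h'
      rw [Prod.map_fst, h'] at k2
      exact k2 rfl
    · intro h'
      rw [Prod.map_snd, h'] at k3
      exact k3 rfl
    · intro h'
      rw [Prod.map_snd, h'] at k4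
      exact k4 rfl
  · -- the third particle
    obtain ⟨a', b', a'', c', hes', ea, eb, ea'⟩ := map_pair_eq (he.symm.trans hmap)
    have n1 : a' ≠ Sum.inl i₁ := by
      rintro rfl
      exact ha1 ea.symm
    have n2 : a' ≠ Sum.inl i₂ := by
      rintro rfl
      exact ha2 ea.symm
    have n3 : b' ≠ Sum.inl i₁ := by
      rintro rfl
      exact hb1 eb.symm
    have n4 : b' ≠ Sum.inl i₂ := by
      rintro rfl
      exact hb2 eb.symm
    have n5 : a'' ≠ Sum.inl i₁ := by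
      rintro rfl
      exact ha1 ea'.symm
    have n6 : a'' ≠ Sum.inl i₂ := by
      rintro rfl
      exact ha2 ea'.symm
    by_cases hc1 : c' = Sum.inl i₁
    · have hc2 : c' ≠ Sum.inl i₂ := by
        rw [hc1]
        exact fun h' => hP.ne (Sum.inl_injective h')
      refine IrrO.of_ins hΦ hε hcard hlen hlT hb0 h.wf h.run hins.symm (hP.nonneg hΦ hε hB) hP.le
        hs h3 (Or.inr ⟨hss, fun p hp => ?_, a', b', a'', c', hes', n1, n3⟩)
        (hcov (fun p hp => List.mem_append_left _ hp)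
        (Edg.joined_of_mem (by simp)).symm) hRc hRl
      rw [hes'] at hp
      simp only [List.mem_cons, List.not_mem_nil, or_false] at hp
      rcases hp with rfl | rfl
      · exact ⟨n2, n4⟩
      · exact ⟨n6, hc2⟩
    · refine IrrO.of_ins hΦ hε hcard hlen hlT hb0 h.wf h.run hins (hP.nonneg hΦ hε hB) hP.le
        hs h3 (Or.inr ⟨hss, fun p hp => ?_, a', b', a'', c', hes', n2, n4⟩)
        (hcov (fun p hp => List.mem_append_left _ hp)
        (Edg.joined_of_mem (by simp))) hRc hRl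
      rw [hes'] at hp
      simp only [List.mem_cons, List.not_mem_nil, or_false] at hp
      rcases hp with rfl | rfl
      · exact ⟨n1, n3⟩
      · exact ⟨n5, hc1⟩

/-- **The outputs of the deterministic analysis for a colliding pair**, over a base with `c₀ + 1`
components. -/
theorem BaseP.of_pairOut (hΦ : IsPotential Φ) (hε : 0 < ε) (hB : BaseP Φ ε T z x D Q)
    (hP : PairB ε T x D i₁ i₂ s₀) (hR : CovB z (Q ++ [(Ev.gh i₁ i₂, s₀)]) l (c₀ + 1) R₀)
    (hL : BLab T₀ l z) (hzw : ∀ i, z i ∉ wS w) (hxw : ∀ i ∉ D, x i ∉ wS w) {L J : ℕ}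
    {ins all : Set Src} {s : ℝ} (hs : s ≤ T)
    (hall : ∀ σ ∈ all, σ ∈ wS w ∨ ∃ i ∉ D, x i = σ) (hins : ∀ σ ∈ ins, σ ∈ all ∧ σ ∉ wS w)
    (hb : ∀ k ∉ D, finB Φ ε Q (fun i => (z i).1) (fun i => (z i).2.1) k = (x k).1 ∨
      s ≠ (x k).1)
    (h : PairOut hΦ hε L (wS w : Set Src) ins all (x i₁) (x i₂) s₀ T J N s) :
    LawC hΦ hε L T J c₀ (Fintype.card κ + Q.length + 2 * N + 1) T₀ l w ins := by
  have hfind : ∀ σ ∈ all, σ ∉ wS w → ∃ i ∉ D, x i = σ := fun σ h1 h2 =>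
    (hall σ h1).resolve_left h2
  cases h with
  | clean σ hσ h => exact Or.inl ⟨σ, hσ, h⟩
  | closed F G hBF hN₀ σ hσ hσF hJ hc =>
    right
    obtain ⟨i₀, hi₀, rfl⟩ := hfind σ (hins σ hσ).1 (hins σ hσ).2
    have hF := hBF.fam.mono_T hs
    have hG : GrOn x D w F G [] := by
      refine ⟨fun τ hτ => hall τ (hBF.sub τ hτ), fun τ hτ _ => ⟨i₀, hi₀, ?_⟩⟩
      exact FX.of_FJ (hJ τ hτ).symm
    have hN := hBF.cardF
    have hN' := hBF.lenG
    rcases hc with ⟨y, hy, hyV, hne⟩ | ⟨G₁, g, G₂, hG', hJ'⟩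
    · obtain ⟨k₀, hk₀, rfl⟩ := hfind y (hBF.sub y hy) hyV
      by_cases hjn : Jn (Q ++ [(Ev.gh i₁ i₂, s₀)]) k₀ i₀
      · exact Or.inl (hB.prgC_pair hΦ hε hP hR hL hzw hxw hF hN₀.np hG
          (Or.inr ⟨k₀, hk₀, i₀, hi₀, fun h => hne (h ▸ rfl), hjn, hJ _ hy⟩) (by omega) (by omega))
      · exact Or.inr (Or.inl (hB.prgO_pair hΦ hε hP hR hL hzw hxw hF hN₀.np hG hk₀ hi₀ hjn
          (hJ _ hy) (by omega) (by omega)))
    · exact Or.inl (hB.prgC_pair hΦ hε hP hR hL hzw hxw hF hN₀.np hG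
        (Or.inl (.ghost G₁ g G₂ hG' hJ')) (by omega) (by omega))
  | irr F G es hBF hN₀ σ hσ hσF hJ hI =>
    right; right; right
    obtain ⟨i₀, hi₀, rfl⟩ := hfind σ (hins σ hσ).1 (hins σ hσ).2
    have hG : GrOn x D w F G es :=
      ⟨fun τ hτ => hall τ (hBF.sub τ hτ), fun τ hτ _ => ⟨i₀, hi₀, (hJ τ hτ).symm⟩⟩
    have hN := hBF.cardF
    have hN' := hBF.lenG
    exact hB.irrO_pair hΦ hε hP hR hL hzw hxw hs hBF.fam hN₀.np hG hb hI.irr hI.pairEs (by omega)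
      (by omega)

end exits

/-! ### Base structures -/

variable {F₀ : Finset CTree} {G₀ : List Gh} {D₀ : Set Src} {X : Src → Src} {m q c₀ : ℕ}
  {T₀ : Fin m → CTree} {l : Fin q → Src} {R₀ : Finset Src} {x y : CTree}

/-- The base program; the contact of `x` and `y` is an additional edge. -/
theorem SBase.exists_base_pair (hΦ : IsPotential Φ) (hε : 0 < ε) (h : SBase Φ ε T F₀ G₀ D₀ X)
    (hx : IsLast F₀ x) (hy : IsLast F₀ y) {s₀ : ℝ}
    (hl : SLab T₀ l F₀ ((x, y, s₀) :: G₀) c₀ R₀) :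
    ∃ (κ : Type) (_ : Fintype κ) (_ : DecidableEq κ) (z xx : κ → Src) (D : Set κ)
      (Q : List (Ev κ × ℝ)) (R : Finset κ) (i₁ i₂ : κ), BaseP Φ ε T z xx D Q ∧
      z i₁ = x.root ∧ z i₂ = y.root ∧ CovB z (Q ++ [(Ev.gh i₁ i₂, s₀)]) l c₀ R ∧
      BLab T₀ l z ∧ Fintype.card κ + Q.length ≤ szB F₀ G₀ ∧
      (∀ k, z k ∈ lab F₀) ∧ (∀ k, k ∈ D ↔ z k ∈ D₀) ∧ (∀ k, xx k = X (z k)) ∧
      (∀ σ ∈ lab F₀, ∃ k, z k = σ) ∧
      ∀ k S, IsLast F₀ S → S.root = z k →
        finB Φ ε Q (fun i => (z i).1) (fun i => (z i).2.1) k = ext Φ ε S := by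
  classical
  set κ := {σ : Src // σ ∈ lab F₀} with hκ
  set z : κ → Src := fun k => k.1 with hz
  set xx : κ → Src := fun k => X k.1 with hxx
  set D : Set κ := {k | k.1 ∈ D₀} with hD
  have hzr : range z = (lab F₀ : Set Src) := by
    ext σ
    exact ⟨fun ⟨k, hk⟩ => hk ▸ k.2, fun hσ => ⟨⟨σ, hσ⟩, rfl⟩⟩
  obtain ⟨Q, h1, h2, h3, h4⟩ := BaseP.of_fam hΦ hε h.fam (z := z) (x := xx) (D := D)
    Subtype.val_injective hzr (fun k => h.nonneg _ k.2)
    (fun g hg i hi => by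
      change i.1 ∈ D₀
      rw [show i.1 = g.1.root from hi]
      exact h.drop g hg)
    (fun g hg k hk hkr => by
      have e : k.1 = g.2.1.root := hkr
      change g.2.2 ≤ (X k.1).1
      rw [e]
      exact h.tgt g hg fun h' => hk (by change k.1 ∈ D₀; rw [e]; exact h'))
    (fun k hk => h.lst k.1 k.2 hk)
    (fun k hk k' hk' hkk => Subtype.ext (h.inj ⟨k.2, hk⟩ ⟨k'.2, hk'⟩ hkk))
  have hxl : x.root ∈ lab F₀ := root_mem_lab hx.mem
  have hyl : y.root ∈ lab F₀ := root_mem_lab hy.mem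
  set i₁ : κ := ⟨x.root, hxl⟩ with hi₁
  set i₂ : κ := ⟨y.root, hyl⟩ with hi₂
  have hm : ∀ {i k : κ}, Jn Q i k → Jn (Q ++ [(Ev.gh i₁ i₂, s₀)]) i k := fun hJ =>
    hJ.mono fun e he => List.mem_append_left _ he
  have key : ∀ σ τ, FJ F₀ ((x, y, s₀) :: G₀) σ τ → σ = τ ∨ ∃ i k : κ, i.1 = σ ∧ k.1 = τ ∧
      Jn (Q ++ [(Ev.gh i₁ i₂, s₀)]) i k := by
    intro σ τ hJ
    induction hJ with
    | rel σ τ hr =>
      right
      rcases hr with ⟨a, b, hab, rfl, rfl⟩ | ⟨g, hg, rfl, rfl⟩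
      · have h5 := h.fam.sub a b hab
        exact ⟨⟨a.root, root_mem_lab h5.1⟩, ⟨b.root, root_mem_lab h5.2.1⟩, rfl, rfl,
          hm (h3 _ _ (FJ.node hab))⟩
      · rcases List.mem_cons.1 hg with rfl | hg
        · exact ⟨i₁, i₂, rfl, rfl,
            jn_of_mem (e := (Ev.gh i₁ i₂, s₀)) (List.mem_append_right _ (List.mem_singleton.2 rfl))⟩
        · have h5 := h.fam.gh g hg
          exact ⟨⟨g.1.root, root_mem_lab h5.1⟩, ⟨g.2.1.root, root_mem_lab h5.2.1⟩, rfl, rfl,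
            hm (h3 _ _ (FJ.ghost hg))⟩
    | refl σ => exact Or.inl rfl
    | symm σ τ _ ih =>
      rcases ih with h5 | ⟨i, k, h5, h6, h7⟩
      · exact Or.inl h5.symm
      · exact Or.inr ⟨k, i, h6, h5, h7.symm⟩
    | trans σ τ υ _ _ ih1 ih2 =>
      rcases ih1 with h5 | ⟨i, k, h5, h6, h7⟩
      · rw [h5]; exact ih2
      · rcases ih2 with h8 | ⟨i', k', h8, h9, h10⟩
        · rw [← h8]; exact Or.inr ⟨i, k, h5, h6, h7⟩
        · have h11 : k = i' := Subtype.ext (h6.trans h8.symm)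
          subst h11
          exact Or.inr ⟨i, k', h5, h9, h7.trans h10⟩
  refine ⟨κ, inferInstance, inferInstance, z, xx, D, Q, R₀.subtype (· ∈ lab F₀), i₁, i₂, h1, rfl,
    rfl, ⟨fun k => ?_, ?_, fun r hr => ?_⟩, ⟨fun k => hl.mem _ k.2, fun j => ?_, fun j => ?_⟩, ?_,
    fun k => k.2, fun k => Iff.rfl, fun k => rfl, fun σ hσ => ⟨⟨σ, hσ⟩, rfl⟩, h4⟩
  · obtain ⟨r, hr, hJ⟩ := hl.cov k.1 k.2
    refine ⟨⟨r, hl.sub r hr⟩, Finset.mem_subtype.2 hr, ?_⟩
    rcases key _ _ hJ with h5 | ⟨i, i', h5, h6, h7⟩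
    · have h6 : k = ⟨r, hl.sub r hr⟩ := Subtype.ext h5
      rw [← h6]
      exact Jn.refl _ _
    · have e1 : i = k := Subtype.ext h5
      have e2 : i' = ⟨r, hl.sub r hr⟩ := Subtype.ext h6
      rw [← e2, ← e1]
      exact h7
  · rw [Finset.card_subtype]
    exact (Finset.card_filter_le _ _).trans hl.card
  · exact hl.ord _ (Finset.mem_subtype.1 hr)
  · rw [hzr]; exact hl.trees j
  · rw [hzr]; exact hl.lines j
  · rw [Fintype.card_coe]
    unfold szB
    omega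

/-- **A base structure which contains a colliding pair**, the births being exact. -/
structure PPair (Φ : E3 → ℝ) (ε T : ℝ) (F₀ : Finset CTree) (D₀ : Set Src) (X : Src → Src)
    (x y : CTree) : Prop where
  fam : Fam Φ ε T F₀ [(x, y, sig Φ ε (node x y))]
  fam' : Fam Φ ε T F₀ [(y, x, sig Φ ε (node x y))]
  ok : CTree.ok Φ ε (node x y)
  dx : x.root ∉ D₀
  dy : y.root ∉ D₀
  /-- the line of a label is the line of its last history -/
  lst : ∀ σ ∈ lab F₀, σ ∉ D₀ → ∃ S, IsLast F₀ S ∧ S.root = σ ∧ (X σ).2.1 = ln Φ ε S ∧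
    (X σ).1 = ext Φ ε S

theorem FJ.swap_gh {F : Finset CTree} {s₀ : ℝ} {σ τ : Src} (h : FJ F [(x, y, s₀)] σ τ) :
    FJ F [(y, x, s₀)] σ τ :=
  h.rec_le ⟨FJ.refl _ _, FJ.symm, FJ.trans⟩ (fun _ _ hab => FJ.node hab) fun g hg => by
    rw [List.mem_singleton.1 hg]
    exact (FJ.ghost (g := (y, x, s₀)) (List.mem_singleton.2 rfl)).symm

theorem SLab.swap_gh {s₀ : ℝ} (hl : SLab T₀ l F₀ [(x, y, s₀)] c₀ R₀) :
    SLab T₀ l F₀ [(y, x, s₀)] c₀ R₀ :=
  ⟨hl.mem, hl.trees, hl.lines, hl.sub, fun σ hσ => by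
    obtain ⟨r, hr, hJ⟩ := hl.cov σ hσ
    exact ⟨r, hr, hJ.swap_gh⟩, hl.card, hl.ord⟩

namespace PPair

theorem lx (h : PPair Φ ε T F₀ D₀ X x y) : IsLast F₀ x :=
  ⟨(h.fam.gh _ (List.mem_singleton.2 rfl)).1, h.fam.last _ (List.mem_singleton.2 rfl)⟩

theorem ly (h : PPair Φ ε T F₀ D₀ X x y) : IsLast F₀ y :=
  ⟨(h.fam'.gh _ (List.mem_singleton.2 rfl)).1, h.fam'.last _ (List.mem_singleton.2 rfl)⟩

theorem root_ne (h : PPair Φ ε T F₀ D₀ X x y) : x.root ≠ y.root :=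
  (h.fam.gh _ (List.mem_singleton.2 rfl)).2.2.1

theorem ln_ne (h : PPair Φ ε T F₀ D₀ X x y) : ln Φ ε x ≠ ln Φ ε y := by
  intro he
  have h1 := h.ok.2.2.2.1
  rw [he] at h1
  exact not_meets_self h1

theorem exact (h : PPair Φ ε T F₀ D₀ X x y) {S : CTree} (hS : IsLast F₀ S) (hD : S.root ∉ D₀) :
    (X S.root).1 = ext Φ ε S ∧ (X S.root).2.1 = ln Φ ε S := by
  obtain ⟨S', h1, h2, h3, h4⟩ := h.lst S.root (root_mem_lab hS.mem) hD
  rw [h3, h4, h1.unique hS h2]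
  exact ⟨rfl, rfl⟩

theorem sbase (h : PPair Φ ε T F₀ D₀ X x y) (hi : InjOn X ((lab F₀ : Set Src) \ D₀)) :
    SBase Φ ε T F₀ [] D₀ X := by
  refine ⟨h.fam.sublist (List.nil_sublist _), fun g hg => absurd hg List.not_mem_nil,
    fun g hg => absurd hg List.not_mem_nil, fun σ hσ hD => ?_, hi⟩
  obtain ⟨S, h1, h2, h3, h4⟩ := h.lst σ hσ hD
  exact ⟨S, h1, h2, h3, h4.ge⟩

/-- Fewer lines. -/
theorem mono_D (h : PPair Φ ε T F₀ D₀ X x y) {D₁ : Set Src} (hD : D₀ ⊆ D₁) (hx : x.root ∉ D₁)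
    (hy : y.root ∉ D₁) : PPair Φ ε T F₀ D₁ X x y :=
  ⟨h.fam, h.fam', h.ok, hx, hy, fun σ hσ h1 => h.lst σ hσ fun h2 => h1 (hD h2)⟩

/-- **The lines of a base structure with a colliding pair are not different.** -/
theorem law_of_not_inj (hΦ : IsPotential Φ) (hε : 0 < ε) (hT : 0 ≤ T)
    (h : PPair Φ ε T F₀ D₀ X x y) (hl : SLab T₀ l F₀ [(x, y, sig Φ ε (node x y))] (c₀ + 1) R₀)
    (w : Finset Ph) (hi : ¬InjOn X ((lab F₀ : Set Src) \ D₀)) :
    PrgC Φ ε T (c₀ + 1) (szB F₀ [(x, y, sig Φ ε (node x y))] + 1) T₀ l w ∨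
      PrgO Φ ε T c₀ (szB F₀ [(x, y, sig Φ ε (node x y))] + 1) T₀ l w := by
  unfold InjOn at hi
  push Not at hi
  obtain ⟨σ, ⟨hσ, hσD⟩, τ, ⟨hτ, hτD⟩, he, hne⟩ := hi
  obtain ⟨A, hA, hAr, hAl, -⟩ := h.lst σ hσ hσD
  obtain ⟨B, hB, hBr, hBl, -⟩ := h.lst τ hτ hτD
  have hAB : A.root ≠ B.root := by rw [hAr, hBr]; exact hne
  have hln : ln Φ ε A = ln Φ ε B := by rw [← hAl, ← hBl, he]
  by_cases hx : A.root ≠ x.root ∧ B.root ≠ x.root
  · exact SLab.law_of_eq hΦ hε hT h.fam hl hA hB hAB hln fun g hg => by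
      rw [List.mem_singleton.1 hg]
      exact hx
  · have hy : A.root ≠ y.root ∧ B.root ≠ y.root := by
      by_contra hcon
      rw [not_and_or, not_not, not_not] at hx hcon
      rcases hx with hx | hx <;> rcases hcon with hc | hc
      · exact h.root_ne (hx.symm.trans hc)
      · have e1 := hA.unique h.lx hx
        have e2 := hB.unique h.ly hc
        exact h.ln_ne (by rw [← e1, ← e2, hln])
      · have e1 := hB.unique h.lx hx
        have e2 := hA.unique h.ly hc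
        exact h.ln_ne (by rw [← e1, ← e2, hln])
      · exact h.root_ne (hx.symm.trans hc)
    have hl' : SLab T₀ l F₀ [(y, x, sig Φ ε (node x y))] (c₀ + 1) R₀ := hl.swap_gh
    have h1 := SLab.law_of_eq (w := w) hΦ hε hT h.fam' hl' hA hB hAB hln fun g hg => by
      rw [List.mem_singleton.1 hg]
      exact hy
    exact h1

/-- **The outputs of the deterministic analysis for a colliding pair** (`PairOut` of `helper621`)
give the alternatives of the laws, over a base structure with `c₀ + 1` components, the collision of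
the pair being one of the edges. -/
theorem law (hΦ : IsPotential Φ) (hε : 0 < ε) (hT : 0 ≤ T) (h : PPair Φ ε T F₀ D₀ X x y)
    (hl : SLab T₀ l F₀ [(x, y, sig Φ ε (node x y))] (c₀ + 1) R₀) {w : Finset Ph}
    (hzw : ∀ σ ∈ lab F₀, σ ∉ wS w) (hxw : ∀ σ ∈ lab F₀, σ ∉ D₀ → X σ ∉ wS w) {L J N : ℕ}
    {ins all : Set Src} (ht : t ≤ T)
    (hall : ∀ σ ∈ all, σ ∈ wS w ∨ ∃ τ ∈ lab F₀, τ ∉ D₀ ∧ X τ = σ)
    (hins : ∀ σ ∈ ins, ∃ τ ∈ lab F₀, τ ∉ D₀ ∧ X τ = σ) (hia : ins ⊆ all)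
    (hO : InjOn X ((lab F₀ : Set Src) \ D₀) → ∃ s ≤ t, PairOut hΦ hε L (wS w : Set Src) ins all
      (X x.root) (X y.root) (sig Φ ε (node x y)) t J N s) :
    LawC hΦ hε L T J c₀ (szB F₀ [(x, y, sig Φ ε (node x y))] + 2 * N + 1) T₀ l w ins := by
  by_cases hi : InjOn X ((lab F₀ : Set Src) \ D₀)
  swap
  · rcases h.law_of_not_inj hΦ hε hT hl w hi with h1 | h1
    · exact Or.inr (Or.inl (h1.mono le_rfl (by omega)))
    · exact Or.inr (Or.inr (Or.inl (h1.mono le_rfl (by omega))))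
  obtain ⟨s, hs, hO⟩ := hO hi
  have hO' : PairOut hΦ hε L (wS w : Set Src) ins all (X x.root) (X y.root)
      (sig Φ ε (node x y)) T J N s := by
    cases hO with
    | clean σ hσ h' => exact .clean σ hσ (h'.mono' ht (by linarith))
    | closed F G hB hN σ hσ hσF hJ hc => exact .closed F G hB hN σ hσ hσF hJ hc
    | irr F G es hB hN σ hσ hσF hJ hI => exact .irr F G es hB hN σ hσ hσF hJ hI
  obtain ⟨κ, i1, i2, z, xx, D, Q, R, i₁, i₂, h1, e1, e2, h2, h3, h4, h5, h6, h7, h8, h9⟩ :=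
    (h.sbase hi).exists_base_pair hΦ hε h.lx h.ly hl
  have hfind : ∀ τ ∈ lab F₀, τ ∉ D₀ → ∃ k ∉ D, xx k = X τ := by
    intro τ hτ hτD
    obtain ⟨k, rfl⟩ := h8 τ hτ
    exact ⟨k, fun h' => hτD ((h6 k).1 h'), h7 k⟩
  obtain ⟨-, -, -, g4, g5, g6, g7⟩ := h.fam.gh _ (List.mem_singleton.2 rfl)
  have ex := h.exact h.lx h.dx
  have ey := h.exact h.ly h.dy
  have hPB : PairB ε T xx D i₁ i₂ (sig Φ ε (node x y)) := by
    refine ⟨fun h' => h.root_ne ?_, fun h' => h.dx ?_, fun h' => h.dy ?_, ?_, ?_, ?_, g6⟩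
    · rw [← e1, ← e2, h']
    · rw [← e1]; exact (h6 _).1 h'
    · rw [← e2]; exact (h6 _).1 h'
    · rw [h7, e1, ex.1]; exact g4
    · rw [h7, e2, ey.1]; exact g5
    · rw [h7, h7, e1, e2, ex.2, ey.2]; exact g7
  rw [← e1, ← h7, ← e2, ← h7] at hO'
  have h10 := h1.of_pairOut hΦ hε hPB h2 h3 (fun k => hzw _ (h5 k))
    (fun k hk => by
      rw [h7 k]
      exact hxw _ (h5 k) fun h' => hk ((h6 k).2 h')) (hs.trans ht)
    (fun σ hσ => by
      rcases hall σ hσ with h' | ⟨τ, hτ, hτD, rfl⟩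
      · exact Or.inl h'
      · exact Or.inr (hfind τ hτ hτD))
    (fun σ hσ => by
      refine ⟨hia hσ, ?_⟩
      obtain ⟨τ, hτ, hτD, rfl⟩ := hins σ hσ
      exact hxw τ hτ hτD)
    (fun k hk => by
      have hk' : z k ∉ D₀ := fun h' => hk ((h6 k).2 h')
      obtain ⟨S, hS, hr, -, h11⟩ := h.lst (z k) (h5 k) hk'
      rw [h7 k, h9 k S hS hr]
      exact Or.inl h11.symm) hO'
  have h12 : szB F₀ [(x, y, sig Φ ε (node x y))] = szB F₀ [] + 1 := rfl
  refine h10.imp id (Or.imp (PrgC.mono le_rfl ?_) (Or.imp (PrgO.mono le_rfl ?_)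
    (IrrO.mono le_rfl ?_))) <;> omega

/-- **One colliding pair.** -/
theorem of_pair [DecidableEq CTree] (hΦ : IsPotential Φ) (hε : 0 < ε)
    (hxy : CTree.ok Φ ε (node x y)) (hT : sig Φ ε (node x y) ≤ T) :
    PPair Φ ε T (partsF x ∪ partsF y) ∅ (XR Φ ε (XR Φ ε id y) x) x y := by
  obtain ⟨h1, -, h3⟩ := fam_pair hΦ hε hxy hT
  have hT' : sig Φ ε (node y x) ≤ T := by rw [sig_swap]; exact hT
  have h1' := (fam_pair hΦ hε (ok_swap hΦ hxy) hT').1
  rw [Finset.union_comm, sig_swap] at h1'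
  refine ⟨h1, h1', hxy, notMem_empty _, notMem_empty _, fun σ hσ _ => ?_⟩
  by_cases hx : σ ∈ x.leaves
  · obtain ⟨z, hz, rfl⟩ := TL.exists_out hx
    refine ⟨z, h3 z (Or.inl hz), rfl, ?_, ?_⟩
    · rw [XR_out hxy.1 hz]; rfl
    · rw [XR_out hxy.1 hz]; rfl
  · have hy : σ ∈ y.leaves := by
      rcases mem_lab_union.1 hσ with h | h
      · have h4 : σ ∈ (lab (partsF x) : Set Src) := Finset.mem_coe.2 h
        rw [lab_partsF] at h4
        exact absurd h4 hx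
      · have h4 : σ ∈ (lab (partsF y) : Set Src) := Finset.mem_coe.2 h
        rwa [lab_partsF] at h4
    obtain ⟨z, hz, rfl⟩ := TL.exists_out hy
    refine ⟨z, h3 z (Or.inr hz), rfl, ?_, ?_⟩
    · rw [XR_of_notMem hx, XR_out hxy.2.1 hz]; rfl
    · rw [XR_of_notMem hx, XR_out hxy.2.1 hz]; rfl

/-- The lines of one colliding pair. -/
theorem XR_pair (hxy : CTree.ok Φ ε (node x y)) {z : CTree} (hz : z ∈ outs x ∪ outs y) :
    XR Φ ε (XR Φ ε id y) x z.root = rsrc Φ ε z := by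
  rcases hz with hz | hz
  · exact XR_out hxy.1 hz
  · have h1 : z.root ∈ y.leaves := outs_leaves hz z.root_mem_leaves
    rw [XR_of_notMem fun h2 => Set.disjoint_left.1 hxy.2.2.1 h2 h1, XR_out hxy.2.1 hz]

/-- **One more tree.** -/
theorem add_tree [DecidableEq CTree] {R : CTree} (hΦ : IsPotential Φ) (hε : 0 < ε)
    (h : PPair Φ ε T F₀ D₀ X x y) (hR : CTree.ok Φ ε R) (he : ext Φ ε R ≤ T)
    (hd : ∀ σ ∈ lab F₀, σ ∉ R.leaves) :
    PPair Φ ε T (F₀ ∪ partsF R) (D₀ \ R.leaves) (XR Φ ε X R) x y := by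
  have hd' : ∀ σ ∈ lab F₀, σ ∉ lab (partsF R) := by
    intro σ hσ h1
    have h2 : σ ∈ (lab (partsF R) : Set Src) := Finset.mem_coe.2 h1
    rw [lab_partsF] at h2
    exact hd σ hσ h2
  refine ⟨h.fam.union (Fam.of_tree hΦ hε hR he) hd', h.fam'.union (Fam.of_tree hΦ hε hR he) hd',
    h.ok, fun h1 => h.dx h1.1, fun h1 => h.dy h1.1, fun σ hσ h1 => ?_⟩
  rcases mem_lab_union.1 hσ with h2 | h2
  · have h3 := hd σ h2
    obtain ⟨S, h4, h5, h6, h7⟩ := h.lst σ h2 fun h4 => h1 ⟨h4, h3⟩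
    refine ⟨S, h4.union_left hd', h5, ?_, ?_⟩
    · rw [XR_of_notMem h3, h6]
    · rw [XR_of_notMem h3, h7]
  · have h3 : σ ∈ (lab (partsF R) : Set Src) := Finset.mem_coe.2 h2
    rw [lab_partsF] at h3
    obtain ⟨z, hz, rfl⟩ := TL.exists_out h3
    refine ⟨z, (isLast_of_outs hR hz).union_right hd', rfl, ?_, ?_⟩
    · rw [XR_out hR hz]; rfl
    · rw [XR_out hR hz]; rfl

end PPair

end Vale.Agent.P119.IND
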