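import Vale.Agent.P119.IND.PairAlt
import Vale.Agent.P119.IND.DetLaw

/-!
# P119, block IND: the failures of the good event with a colliding pair of lines (`helper621`)

`PK`: packets `K` over a world `V`; the packet `k₀` contains the two lines `rx`, `ry` of a colliding
pair, and no third tree of the full world is in contact with one of them before their collision, as
long as the packets do not interact (`PK.free`).

**`PK.pairOut`**: a failure of `M.Good` up to a time before the end of the collision gives an output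
`PairOut`.
-/

open MeasureTheory Filter Topology Set
open scoped ENNReal NNReal

noncomputable section

namespace Vale.Agent.P119.IND

open KU M M.CTree TL RB

variable {Φ : E3 → ℝ} {ε : ℝ} {L : ℕ} {V₀ ins all : Set Src} {s t u : ℝ} {rx ry : Src}

theorem Irr.imp {Lg Lg' : Bool → Gh → Prop} (hL : ∀ b g, Lg b g → Lg' b g) {F : Finset CTree}
    {G : List Gh} {es : List (Src × Src)} (h : Irr Φ ε Lg F G s es) : Irr Φ ε Lg' F G s es := by
  cases h with
  | tri x y C hx hy hC hok h1 h2 eC hCx hCy hc nd tg lC =>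
    exact .tri x y C hx hy hC hok h1 h2 eC hCx hCy hc nd tg
      (lC.imp (hL _ _) fun h => ⟨hL _ _ h.1, hL _ _ h.2.1, h.2.2⟩)
  | quad x y u v hx hy hu hv hok h1 h2 hok' h1' h2' r1 r2 r3 r4 hc nd tg tg' q q' =>
    exact .quad x y u v hx hy hu hv hok h1 h2 hok' h1' h2' r1 r2 r3 r4 hc nd tg tg'
      (hL _ _ q) (hL _ _ q')
  | trip x y C hx hy hC ex ey eC hxy hCx hCy hm hh hc nd l₁ l₂ =>
    exact .trip x y C hx hy hC ex ey eC hxy hCx hCy hm hh hc nd (hL _ _ l₁) (hL _ _ l₂)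
  | born A B hA hB hr hs hc nd l => exact .born A B hA hB hr hs hc nd (hL _ _ l)
  | graze A B hA hB hr hg nd l => exact .graze A B hA hB hr hg nd (hL _ _ l)

theorem BFam.imp {N : ℕ} {Lv Lv' : CTree → Prop} {Lg Lg' : Bool → Gh → Prop}
    (hv : ∀ P, Lv P → Lv' P) (hL : ∀ b g, Lg b g → Lg' b g) {F : Finset CTree} {G : List Gh}
    (h : BFam Φ ε s N all Lv Lg F G) : BFam Φ ε s N all Lv' Lg' F G :=
  ⟨h.fam, h.cardF, h.lenG, h.sub, fun a b hab => ⟨(h.live a b hab).1, hv _ (h.live a b hab).2⟩,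
    fun g hg => ⟨hL _ _ (h.gal g hg).1, hL _ _ (h.gal g hg).2⟩⟩

theorem DetOut.imp {hΦ : IsPotential Φ} {hε : 0 < ε} {Lv Lv' : CTree → Prop}
    {Lg Lg' : Bool → Gh → Prop} (hv : ∀ P, Lv P → Lv' P) (hL : ∀ b g, Lg b g → Lg' b g)
    {t' : ℝ} {m N : ℕ} (ht : t ≤ t') (h : DetOut hΦ hε L V₀ ins all Lv Lg t m N s) :
    DetOut hΦ hε L V₀ ins all Lv' Lg' t' m N s := by
  cases h with
  | clean σ hσ h => exact .clean σ hσ (h.mono' ht (by linarith))
  | closed F G hB σ hσ hσF hJ hc => exact .closed F G (hB.imp hv hL) σ hσ hσF hJ hc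
  | irr F G es hB σ hσ hσF hJ h => exact .irr F G es (hB.imp hv hL) σ hσ hσF hJ (h.imp hL)

section of

variable {ι : Type*} {W : Finset ι → Set Src} {K : Finset ι} {J : Finset ι} {S : Set Src}

theorem lvC_of {P : CTree} (hJ : J ⊆ K) (e : S = W J) (h : lives Φ ε L S P (sig Φ ε P)) :
    LvC Φ ε L W K P := ⟨J, hJ, e ▸ h⟩

theorem lgC_of_false {g : Gh} (hJ : J ⊆ K) (e : S = W J) (h : alive Φ ε L S g.1 g.2.2)
    (h' : live Φ ε L S g.2.1 g.2.2) : LgC Φ ε L W K false g := ⟨J, hJ, e ▸ h, e ▸ h'⟩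

theorem lgC_of_true {g : Gh} (hJ : J ⊆ K) (e : S = W J)
    (h : ¬(live Φ ε L S g.1 g.2.2 ↔ live Φ ε L S g.2.1 g.2.2)) : LgC Φ ε L W K true g :=
  ⟨J, hJ, e ▸ h⟩

end of

/-- **Packets over a world, with a colliding pair of lines.** -/
structure PK (Φ : E3 → ℝ) (ε : ℝ) (L : ℕ) (V : Finset Src) (K : Finset (Finset Src))
    (k₀ : Finset Src) (rx ry : Src) : Prop where
  ok₀ : ok Φ ε (node (leaf rx) (leaf ry))
  mem : k₀ ∈ K
  hk₀ : ∀ a, a ∈ k₀ ↔ a = rx ∨ a = ry
  dV : ∀ k ∈ K, Disjoint V k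
  dK : ∀ i ∈ K, ∀ j ∈ K, i ≠ j → Disjoint i j
  bV : ∀ a ∈ V, 0 ≤ a.1 ∧ a.2.2 ≤ L
  bK : ∀ k ∈ K, ∀ a ∈ k, 0 ≤ a.1 ∧ a.2.2 ≤ L
  free : ∀ r ≤ s2 Φ ε rx ry,
    (∀ e ∈ allTimes Φ ε L (wF V id K : Set Src), e < r → M.Good Φ ε L V id K e) →
    ∀ B, Bg Φ ε B r → live Φ ε L (wF V id K : Set Src) B r → B.root ≠ rx → B.root ≠ ry →
      (rx.1 ≤ r → ¬Ctc ε (st Φ ε B r) (KU.free r rx.2.1)) ∧
        (ry.1 ≤ r → ¬Ctc ε (st Φ ε B r) (KU.free r ry.2.1))

variable {V : Finset Src} {K : Finset (Finset Src)} {k₀ : Finset Src}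

/-- The cube, up to the first failing time. -/
theorem PK.pl (h : PK Φ ε L V K k₀ rx ry)
    (hs : ∀ e ∈ allTimes Φ ε L (wF V id K : Set Src), e < s → M.Good Φ ε L V id K e) :
    PL Φ ε L (fun J => (wF V id J : Set Src)) K k₀ rx ry s := by
  classical
  have hx : rx ∈ k₀ := (h.hk₀ rx).2 (Or.inl rfl)
  have hy : ry ∈ k₀ := (h.hk₀ ry).2 (Or.inr rfl)
  have hm : ∀ a ∈ k₀, ∀ J, J ⊆ K → (a ∈ (wF V id J : Set Src) ↔ k₀ ∈ J) := by
    intro a ha J hJ
    rw [Finset.mem_coe, mem_wF]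
    constructor
    · rintro (h1 | ⟨j, hj, h1⟩)
      · exact absurd ha (Finset.disjoint_left.1 (h.dV k₀ h.mem) h1)
      · by_cases hjk : j = k₀
        · exact hjk ▸ hj
        · exact absurd ha (Finset.disjoint_left.1 (h.dK j (hJ hj) k₀ h.mem hjk) h1)
    · exact fun hk => Or.inr ⟨k₀, hk, ha⟩
  have hne : Nonempty (Finset Src) := ⟨∅⟩
  exact ⟨cubeW_wF h.dK, h.mem, hm rx hx, hm ry hy, h.ok₀, (h.bK k₀ h.mem rx hx).2,
    (h.bK k₀ h.mem ry hy).2, fun e he hes => ⟨(hs e he hes).ni, (hs e he hes).nib⟩,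
    fun r hr hr0 => h.free r hr0 fun e he her => hs e he (her.trans_le hr)⟩

/-- **The failures of the good event with a colliding pair of lines.** -/
theorem PK.pairOut (hΦ : IsPotential Φ) (hε : 0 < ε) (h : PK Φ ε L V K k₀ rx ry)
    (hV₀ : V₀ ⊆ (V : Set Src)) (hu : u < ext Φ ε (node (leaf rx) (leaf ry))) (hut : u ≤ t)
    (hg : ¬M.Good Φ ε L V id K u) (m : ℕ) :
    ∃ s ≤ u, PairOut hΦ hε L V₀ {σ | ∃ k ∈ K, σ ∈ k} (wF V id K : Set Src) rx ry
      (s2 Φ ε rx ry) t m (Nb0 L m) s := by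
  classical
  obtain ⟨s, hsu, hF, hmin⟩ := exists_first_fail (Φ := Φ) (ε := ε) (L := L)
    (Finset.finite_toSet (wF V id K)) (Fail := fun s => ¬M.Good Φ ε L V id K s) ⟨u, le_rfl, hg⟩
  have hgood : ∀ e ∈ allTimes Φ ε L (wF V id K : Set Src), e < s → M.Good Φ ε L V id K e :=
    fun e he hes => not_not.1 (hmin e he hes e le_rfl)
  have hP := h.pl hgood
  have hst : s ≤ t := hsu.trans hut
  have hsE : s < ext Φ ε (node (leaf rx) (leaf ry)) := hsu.trans_lt hu
  have e0 : (wF V id (∅ : Finset (Finset Src)) : Set Src) = (V : Set Src) := by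
    rw [wF_empty]
  have hins : ∀ σ ∈ (wF V id K : Set Src), σ ∉ (wF V id (∅ : Finset (Finset Src)) : Set Src) →
      σ ∈ {σ | ∃ k ∈ K, σ ∈ k} := by
    intro σ h1 h2
    rw [e0] at h2
    rcases mem_wF.1 (Finset.mem_coe.1 h1) with h3 | h3
    · exact absurd (Finset.mem_coe.2 h3) h2
    · exact h3
  by_cases hA : s ≤ s2 Φ ε rx ry ∧
      ¬NC Φ ε L (fun J => (wF V id J : Set Src)) K k₀ rx ry s
  · -- a contact of a third tree with one of the two lines
    obtain ⟨hs0, hnc⟩ := hA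
    unfold NC at hnc
    push Not at hnc
    obtain ⟨J, hJ, hk, B, hb, hl, h1, h2, h3⟩ := hnc
    by_cases hx : rx.1 ≤ s ∧ Ctc ε (st Φ ε B s) (KU.free s rx.2.1)
    · obtain ⟨s', h4, h5⟩ := hP.alt (hΦ := hΦ) (hε := hε) (V₀ := V₀)
        (ins := {σ | ∃ k ∈ K, σ ∈ k}) (all := (wF V id K : Set Src)) (t := t)
        (by rw [e0]; exact hV₀) hins (Subset.refl _) hs0 hst hJ hk hb hl h1 h2 hx.1 hx.2 m
      exact ⟨s', h4.trans hsu, h5⟩
    · obtain ⟨hy1, hy2⟩ := h3 fun g1 g2 => hx ⟨g1, g2⟩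
      obtain ⟨s', h4, h5⟩ := (hP.swap hΦ).alt (hΦ := hΦ) (hε := hε) (V₀ := V₀)
        (ins := {σ | ∃ k ∈ K, σ ∈ k}) (all := (wF V id K : Set Src)) (t := t)
        (by rw [e0]; exact hV₀) hins (Subset.refl _) (by rw [s2_swap]; exact hs0) hst hJ hk hb hl
        h2 h1 hy1 hy2 m
      rw [s2_swap] at h5
      exact ⟨s', h4.trans hsu, h5.swap⟩
  · -- no such contact
    have hPT : ∀ r ≤ s, PT Φ ε L (fun J => (wF V id J : Set Src)) K k₀ rx ry s r := by
      intro r hr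
      refine ⟨hP, hr, fun q hq hq0 => ?_, hr.trans_lt hsE⟩
      rcases (hq.trans hr).lt_or_eq with h1 | h1
      · exact hP.nc_lt hΦ hε h1 hq0
      · subst h1
        by_contra hcon
        exact hA ⟨hq0, hcon⟩
    have hV : ((V : Finset Src) : Set Src).Finite := V.finite_toSet
    rcases not_good_cases h.bV (fun i hi a ha => h.bK i hi a ha) hF with
      ⟨i, hi, h1⟩ | ⟨i, hi, j, hj, hij, h1⟩
    · obtain ⟨s', hs', h2⟩ := exists_detOut_one (V₀ := V₀) hΦ hε hV (i.finite_toSet)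
        (Finset.disjoint_coe.2 (h.dV i hi)) hV₀ h1 m
      have hw : ∀ c, ∃ J, J ⊆ K ∧ W₁ (V : Set Src) (i : Set Src) c = (wF V id J : Set Src) := by
        intro c
        cases c
        · exact ⟨∅, Finset.empty_subset _, by rw [W₁_false, e0]⟩
        · refine ⟨{i}, Finset.singleton_subset_iff.2 hi, ?_⟩
          rw [W₁_true]
          exact (coe_wF_singleton (V := V) (X := id) (i := i)).symm
      have h3 : DetOut hΦ hε L V₀ (i : Set Src) ((V : Set Src) ∪ i)
          (LvC Φ ε L (fun J => (wF V id J : Set Src)) K)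
          (LgC Φ ε L (fun J => (wF V id J : Set Src)) K) t m (Nb0 L m) s' := by
        refine h2.imp ?_ ?_ hst
        · rintro P ⟨c, hc⟩
          obtain ⟨J, hJ, hJe⟩ := hw c
          exact lvC_of hJ hJe hc
        · rintro (_ | _) g ⟨c, hc⟩
          · obtain ⟨J, hJ, hJe⟩ := hw c
            exact lgC_of_false hJ hJe hc.1 hc.2
          · obtain ⟨J, hJ, hJe⟩ := hw c
            exact lgC_of_true hJ hJe hc
      refine ⟨s', hs'.trans hsu, (hPT s' hs').pairOut ?_ ?_ h3⟩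
      · exact fun σ hσ => ⟨i, hi, hσ⟩
      · rintro σ (hσ | hσ)
        · exact Finset.mem_coe.2 (mem_wF.2 (Or.inl hσ))
        · exact Finset.mem_coe.2 (mem_wF.2 (Or.inr ⟨i, hi, hσ⟩))
    · obtain ⟨s', hs', h2⟩ := exists_detOut_two (V₀ := V₀) hΦ hε hV (i.finite_toSet)
        (j.finite_toSet) (Finset.disjoint_coe.2 (h.dK i hi j hj hij)) hV₀ h1 m
      have hw : ∀ c c', ∃ J, J ⊆ K ∧
          W₂ (V : Set Src) (i : Set Src) (j : Set Src) c c' = (wF V id J : Set Src) := by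
        intro c c'
        refine ⟨(if c then {i} else ∅) ∪ (if c' then {j} else ∅), ?_, ?_⟩
        · refine Finset.union_subset ?_ ?_
          · cases c
            · exact Finset.empty_subset _
            · exact Finset.singleton_subset_iff.2 hi
          · cases c'
            · exact Finset.empty_subset _
            · exact Finset.singleton_subset_iff.2 hj
        · ext σ
          simp only [mem_W₂, Finset.mem_coe, mem_wF]
          refine or_congr_right ?_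
          cases c <;> cases c' <;> simp
      have h3 : DetOut hΦ hε L V₀ ((i : Set Src) ∪ j) ((V : Set Src) ∪ i ∪ j)
          (LvC Φ ε L (fun J => (wF V id J : Set Src)) K)
          (LgC Φ ε L (fun J => (wF V id J : Set Src)) K) t m (Nb0 L m) s' := by
        refine h2.imp ?_ ?_ hst
        · rintro P ⟨c, c', hc⟩
          obtain ⟨J, hJ, hJe⟩ := hw c c'
          exact lvC_of hJ hJe hc
        · rintro (_ | _) g ⟨c, c', hc⟩
          · obtain ⟨J, hJ, hJe⟩ := hw c c'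
            exact lgC_of_false hJ hJe hc.1 hc.2
          · obtain ⟨J, hJ, hJe⟩ := hw c c'
            exact lgC_of_true hJ hJe hc
      refine ⟨s', hs'.trans hsu, (hPT s' hs').pairOut ?_ ?_ h3⟩
      · rintro σ (hσ | hσ)
        · exact ⟨i, hi, hσ⟩
        · exact ⟨j, hj, hσ⟩
      · rintro σ ((hσ | hσ) | hσ)
        · exact Finset.mem_coe.2 (mem_wF.2 (Or.inl hσ))
        · exact Finset.mem_coe.2 (mem_wF.2 (Or.inr ⟨i, hi, hσ⟩))
        · exact Finset.mem_coe.2 (mem_wF.2 (Or.inr ⟨j, hj, hσ⟩))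

end Vale.Agent.P119.IND
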