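import Vale.Agent.P119.IND.MLaw
import Vale.Agent.P119.KT.Link
import Vale.Agent.P119.IND.L2Norm
import Vale.Agent.P119.RM.Ex6
import Vale.Agent.P119.MM.CMeas

/-!
# P119, block IND: the exceptional terms of the iteration under the laws of the marked pairs
(`helper178`)

* `lintegral_append`: the integral over two families of lines;
* `ae_chx`, `measurableSet_chx`: almost all chains of hits are scattered;
* `MLaw.chain`: the laws of the marked pairs are closed under chains of hits by free lines;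
* **`x1J_of_x1`**: the sums of the iterates of the exceptional terms vanish.
-/

open MeasureTheory Filter Topology Set
open scoped ENNReal NNReal

set_option linter.unusedSectionVars false

noncomputable section

namespace Vale.Agent.P119.IND

open KU FL M M.CTree TL GC MM AU PB.CT

variable {Φ : E3 → ℝ} {ε T t u : ℝ}

/-! ### Two families of lines -/

/-- The first lines. -/
def zl {q j : ℕ} (z : Fin (q + j) → Ph) : Fin q → Ph := fun i => z (Fin.castAdd j i)

/-- The last lines. -/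
def zp {q j : ℕ} (z : Fin (q + j) → Ph) : Fin j → Ph := fun i => z (Fin.natAdd q i)

theorem measurable_zl {q j : ℕ} : Measurable (zl : (Fin (q + j) → Ph) → Fin q → Ph) :=
  measurable_pi_iff.2 fun _ => measurable_pi_apply _

theorem measurable_zp {q j : ℕ} : Measurable (zp : (Fin (q + j) → Ph) → Fin j → Ph) :=
  measurable_pi_iff.2 fun _ => measurable_pi_apply _

theorem zl_append {q j : ℕ} (l : Fin q → Ph) (p : Fin j → Ph) : zl (Fin.append l p) = l := by
  funext i
  exact Fin.append_left l p i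

theorem zp_append {q j : ℕ} (l : Fin q → Ph) (p : Fin j → Ph) : zp (Fin.append l p) = p := by
  funext i
  exact Fin.append_right l p i

theorem append_zl_zp {q j : ℕ} (z : Fin (q + j) → Ph) : Fin.append (zl z) (zp z) = z := by
  funext i
  refine Fin.addCases (fun i => ?_) (fun i => ?_) i
  · rw [Fin.append_left]; rfl
  · rw [Fin.append_right]; rfl

/-- The integral over the two families. -/
theorem lintegral_append {q j : ℕ} {F : (Fin (q + j) → Ph) → ℝ≥0∞} (hF : Measurable F) :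
    ∫⁻ z : Fin (q + j) → Ph, F z = ∫⁻ l : Fin q → Ph, ∫⁻ p : Fin j → Ph, F (Fin.append l p) := by
  have h1 := measurePreserving_piCongrLeft (α := fun _ : Fin (q + j) => Ph)
    (fun _ : Fin (q + j) => (volume : Measure Ph)) (finSumFinEquiv : Fin q ⊕ Fin j ≃ Fin (q + j))
  have h2 := measurePreserving_sumPiEquivProdPi_symm (X := fun _ : Fin q ⊕ Fin j => Ph)
    (fun _ : Fin q ⊕ Fin j => (volume : Measure Ph))
  have e : ∀ y : (Fin q → Ph) × (Fin j → Ph),
      (MeasurableEquiv.piCongrLeft (fun _ : Fin (q + j) => Ph)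
        (finSumFinEquiv : Fin q ⊕ Fin j ≃ Fin (q + j)))
        ((MeasurableEquiv.sumPiEquivProdPi fun _ : Fin q ⊕ Fin j => Ph).symm y) =
      Fin.append y.1 y.2 := by
    intro y
    funext i
    obtain ⟨k, rfl⟩ := (finSumFinEquiv : Fin q ⊕ Fin j ≃ Fin (q + j)).surjective i
    rw [MeasurableEquiv.coe_piCongrLeft]
    rw [Equiv.piCongrLeft_apply_apply (fun _ : Fin (q + j) => Ph)
      (finSumFinEquiv : Fin q ⊕ Fin j ≃ Fin (q + j))]
    rcases k with k | k
    · rw [finSumFinEquiv_apply_left, Fin.append_left]; rfl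
    · rw [finSumFinEquiv_apply_right, Fin.append_right]; rfl
  have h3 : ∫⁻ z : Fin (q + j) → Ph, F z = ∫⁻ y : (Fin q → Ph) × (Fin j → Ph),
      F (Fin.append y.1 y.2) ∂((Measure.pi fun _ : Fin q => (volume : Measure Ph)).prod
        (Measure.pi fun _ : Fin j => (volume : Measure Ph))) := by
    rw [volume_pi, ← h1.lintegral_comp_emb (MeasurableEquiv.measurableEmbedding _),
      ← h2.lintegral_comp_emb (MeasurableEquiv.measurableEmbedding _)]
    exact lintegral_congr fun y => congrArg F (e y)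
  have h4 : Measurable fun y : (Fin q → Ph) × (Fin j → Ph) => F (Fin.append y.1 y.2) := by
    refine hF.comp (measurable_pi_iff.2 fun i => ?_)
    refine Fin.addCases (fun i => ?_) (fun i => ?_) i
    · simp only [Fin.append_left]
      exact (measurable_pi_apply i).comp measurable_fst
    · simp only [Fin.append_right]
      exact (measurable_pi_apply i).comp measurable_snd
  rw [h3, lintegral_prod _ h4.aemeasurable]
  rfl

theorem lns_append {q j : ℕ} (s : Fin q → ℝ) (dl : Fin q → ℕ) (z : Fin (q + j) → Ph) :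
    lns (Fin.append s fun _ : Fin j => (0 : ℝ)) (Fin.append dl fun _ : Fin j => 0) z =
      Fin.append (lns s dl (zl z)) fun i => ((0 : ℝ), zp z i, (0 : ℕ)) := by
  funext i
  refine Fin.addCases (fun i => ?_) (fun i => ?_) i
  · rw [Fin.append_left]
    unfold lns
    rw [Fin.append_left, Fin.append_left]
    rfl
  · rw [Fin.append_right]
    unfold lns
    rw [Fin.append_right, Fin.append_right]
    rfl

theorem enB_split {m q j : ℕ} (T : Fin m → CTree) (z : Fin (q + j) → Ph) :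
    enB T z = enB T (zl z) + ∑ i, ‖(zp z i).2‖ ^ 2 := by
  unfold enB
  rw [Fin.sum_univ_add, add_assoc]
  rfl

/-! ### Scattered chains -/

theorem measurableSet_chx (hΦ : IsPotential Φ) (hε : ε ≠ 0) :
    ∀ {j : ℕ} (P : Fin j → Fin 3),
    MeasurableSet {q : (ℝ × Ph) × (Fin j → Ph) | chx Φ ε P q.1 q.2}
  | 0, P => by
    have e' : {q : (ℝ × Ph) × (Fin 0 → Ph) | chx Φ ε P q.1 q.2} = univ := by
      ext q
      exact ⟨fun _ => mem_univ _, fun _ => trivial⟩
    rw [e']
    exact MeasurableSet.univ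
  | j + 1, P => by
    have hq : Measurable fun q : (ℝ × Ph) × (Fin (j + 1) → Ph) =>
        ((q.1.2, q.2 0) : Ph × Ph) := by fun_prop
    have h1 : Measurable fun q : (ℝ × Ph) × (Fin (j + 1) → Ph) =>
        ((nwS Φ ε (P 0) (q.1.2, q.2 0), fun i : Fin j => q.2 i.succ) :
          (ℝ × Ph) × (Fin j → Ph)) :=
      ((measurable_nwS hΦ hε (P 0)).comp hq).prodMk
        (measurable_pi_iff.2 fun i => (measurable_pi_apply _).comp measurable_snd)
    have h2 : MeasurableSet {q : Ph × Ph | Exits Φ (rel ε q)} :=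
      (measurableSet_exits hΦ).preimage (continuous_rel.measurable)
    exact (hq h2).inter (h1 (measurableSet_chx hΦ hε fun i => P i.succ))

/-- Almost all chains are scattered. -/
theorem ae_chx (hΦ : IsPotential Φ) (hε : ε ≠ 0) : ∀ {j : ℕ} (P : Fin j → Fin 3) (x : ℝ × Ph),
    ∀ᵐ p : Fin j → Ph, chx Φ ε P x p
  | 0, _, _ => ae_of_all _ fun _ => trivial
  | j + 1, P, x => by
    have hm : MeasurableSet {p : Fin (j + 1) → Ph | chx Φ ε P x p} :=
      measurable_prodMk_left (x := x) (measurableSet_chx hΦ hε P)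
    have h0 : ∫⁻ p : Fin (j + 1) → Ph,
        {p : Fin (j + 1) → Ph | chx Φ ε P x p}ᶜ.indicator (fun _ => (1 : ℝ≥0∞)) p = 0 := by
      rw [FL.lintegral_cons (measurable_const.indicator hm.compl)]
      have h1 : (fun a : Ph => ∫⁻ q : Fin j → Ph,
          {p : Fin (j + 1) → Ph | chx Φ ε P x p}ᶜ.indicator (fun _ => (1 : ℝ≥0∞))
            (Fin.cons a q)) =ᵐ[volume] fun _ => 0 := by
        filter_upwards [PB.ae_exits_left hΦ hε x.2] with a ha
        have h2 : (fun q : Fin j → Ph =>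
            {p : Fin (j + 1) → Ph | chx Φ ε P x p}ᶜ.indicator (fun _ => (1 : ℝ≥0∞))
              (Fin.cons a q)) =ᵐ[volume] fun _ => 0 := by
          filter_upwards [ae_chx hΦ hε (fun i => P i.succ) (nwS Φ ε (P 0) (x.2, a))] with q hq
          have h3 : (Fin.cons a q : Fin (j + 1) → Ph) ∉
              {p : Fin (j + 1) → Ph | chx Φ ε P x p}ᶜ := fun h4 => h4 ⟨ha, hq⟩
          exact indicator_of_notMem h3 _
        rw [lintegral_congr_ae h2, lintegral_zero]
      rw [lintegral_congr_ae h1, lintegral_zero]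
    rw [lintegral_indicator hm.compl, lintegral_const, one_mul, Measure.restrict_apply_univ] at h0
    exact measure_eq_zero_iff_ae_notMem.1 h0 |>.mono fun p hp => not_not.1 hp

/-- The chain of hits takes place, it is scattered, and its lines are new. -/
def Gd (Φ : E3 → ℝ) (ε t : ℝ) {m q j : ℕ} (P : Fin j → Fin 3) (T : Fin m → CTree)
    (l : Fin q → Src) (x : ℝ × Ph) (p : Fin j → Ph) : Prop :=
  chn Φ ε t P x p ∧ chx Φ ε P x p ∧ Function.Injective p ∧
    ∀ i, (∀ j, ((0 : ℝ), p i, (0 : ℕ)) ∉ (T j).leaves) ∧ ((0 : ℝ), p i, (0 : ℕ)) ∉ range l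

/-- Almost all chains are good. -/
theorem ae_Gd (hΦ : IsPotential Φ) (hε : ε ≠ 0) {m q j : ℕ} (P : Fin j → Fin 3)
    (T : Fin m → CTree) (l : Fin q → Src) (x : ℝ × Ph) :
    ∀ᵐ p : Fin j → Ph, chn Φ ε t P x p → Gd Φ ε t P T l x p := by
  have h1 : ∀ᵐ p : Fin j → Ph, ∀ i, ∀ j, ((0 : ℝ), p i, (0 : ℕ)) ∉ (T j).leaves := by
    rw [ae_all_iff]; intro i
    rw [ae_all_iff]; intro j
    exact (Measure.quasiMeasurePreserving_eval (fun _ => (volume : Measure Ph)) i).ae
      (L2.ae_notMem 0 0 (T j))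
  have h2 : ∀ᵐ p : Fin j → Ph, ∀ i, ((0 : ℝ), p i, (0 : ℕ)) ∉ range l := by
    rw [ae_all_iff]; intro i
    refine (Measure.quasiMeasurePreserving_eval (fun _ => (volume : Measure Ph)) i).ae
      (p := fun z : Ph => ((0 : ℝ), z, (0 : ℕ)) ∉ range l) ?_
    have h3 : ∀ᵐ z : Ph, ∀ j, ((0 : ℝ), z, (0 : ℕ)) ∉ (leaf (l j)).leaves := by
      rw [ae_all_iff]; intro j
      exact L2.ae_notMem 0 0 (leaf (l j))
    filter_upwards [h3] with z hz
    rintro ⟨j, hj⟩
    exact hz j (by rw [hj]; exact rfl)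
  filter_upwards [ae_chx hΦ hε P x, KT.ae_injective_pi j, h1, h2] with p h3 h4 h5 h6 h7
  exact ⟨h7, h3, h4, fun i => ⟨h5 i, h6 i⟩⟩

/-! ### The laws of the chains -/

theorem measurableSet_Gd (hΦ : IsPotential Φ) (hε : ε ≠ 0) {X : Type} [MeasurableSpace X]
    {m q j : ℕ} (P : Fin j → Fin 3) {T : X → Fin m → CTree} {l : X → Fin q → Src}
    {x : X → ℝ × Ph} {p : X → Fin j → Ph} (hT : Measurable T) (hl : Measurable l)
    (hx : Measurable x) (hp : Measurable p) :
    MeasurableSet {w | Gd Φ ε t P (T w) (l w) (x w) (p w)} := by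
  have h0 : Measurable fun w => ((x w, p w) : (ℝ × Ph) × (Fin j → Ph)) := hx.prodMk hp
  have hpi : ∀ i, Measurable fun w => p w i := fun i => (measurable_pi_apply i).comp hp
  have hs : ∀ i, Measurable fun w => (((0 : ℝ), p w i, (0 : ℕ)) : Src) := fun i =>
    measurable_const.prodMk ((hpi i).prodMk measurable_const)
  have h1 : MeasurableSet {w | chn Φ ε t P (x w) (p w)} := h0 (measurableSet_chn hΦ hε t P)
  have h2 : MeasurableSet {w | chx Φ ε P (x w) (p w)} := h0 (measurableSet_chx hΦ hε P)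
  have h3 : MeasurableSet {w | Function.Injective (p w)} := by
    have e : {w | Function.Injective (p w)} = ⋂ i : Fin j, ⋂ i' : Fin j,
        {w | p w i = p w i' → i = i'} := by
      ext w
      simp only [mem_iInter]
      exact ⟨fun h i i' h' => h h', fun h i i' h' => h i i' h'⟩
    rw [e]
    refine MeasurableSet.iInter fun i => MeasurableSet.iInter fun i' => ?_
    by_cases hi : i = i'
    · have e2 : {w | p w i = p w i' → i = i'} = univ := by
        ext w
        exact ⟨fun _ => mem_univ _, fun _ _ => hi⟩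
      rw [e2]
      exact MeasurableSet.univ
    · have e2 : {w | p w i = p w i' → i = i'} = {w | p w i = p w i'}ᶜ := by
        ext w
        exact ⟨fun h h' => hi (h h'), fun h h' => absurd h' h⟩
      rw [e2]
      exact (measurableSet_eq_fun (hpi i) (hpi i')).compl
  have h4 : MeasurableSet {w | ∀ i, (∀ j, ((0 : ℝ), p w i, (0 : ℕ)) ∉ (T w j).leaves) ∧
      ((0 : ℝ), p w i, (0 : ℕ)) ∉ range (l w)} := by
    have e : {w | ∀ i, (∀ j, ((0 : ℝ), p w i, (0 : ℕ)) ∉ (T w j).leaves) ∧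
        ((0 : ℝ), p w i, (0 : ℕ)) ∉ range (l w)} =
        ⋂ i, ((⋂ j, {w | ((0 : ℝ), p w i, (0 : ℕ)) ∈ (T w j).leaves}ᶜ) ∩
          ⋂ j, {w | l w j = ((0 : ℝ), p w i, (0 : ℕ))}ᶜ) := by
      ext w
      simp only [mem_iInter, mem_inter_iff, mem_compl_iff]
      constructor
      · intro h i
        exact ⟨fun j => (h i).1 j, fun j hj => (h i).2 ⟨j, hj⟩⟩
      · intro h i
        refine ⟨fun j => (h i).1 j, ?_⟩
        rintro ⟨j, hj⟩
        exact (h i).2 j hj
    rw [e]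
    exact MeasurableSet.iInter fun i => (MeasurableSet.iInter fun j =>
      (measurableSet_tree_mem_leaves (hs i) ((measurable_pi_apply j).comp hT)).compl).inter
        (MeasurableSet.iInter fun j =>
          (measurableSet_eq_fun ((measurable_pi_apply j).comp hl) (hs i)).compl)
  exact h1.inter (h2.inter (h3.inter h4))

section chain

variable {m q j : ℕ} {c : ℝ} {L N n : ℕ} {s : Fin q → ℝ} {dl : Fin q → ℕ}
  {W : (Fin m → CTree) → (Fin q → Ph) → ℝ≥0∞} {e k : (Fin m → CTree) → (Fin q → Ph) → Src}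
  {CW : ℝ≥0∞}

variable (Φ ε t) in
/-- The weight of the chains. -/
def Wc (c : ℝ) (P : Fin j → Fin 3) (s : Fin q → ℝ) (dl : Fin q → ℕ)
    (W : (Fin m → CTree) → (Fin q → Ph) → ℝ≥0∞) (k : (Fin m → CTree) → (Fin q → Ph) → Src)
    (T : Fin m → CTree) (z : Fin (q + j) → Ph) : ℝ≥0∞ :=
  W T (zl z) * (PB.ind (Gd Φ ε t P T (lns s dl (zl z)) ((k T (zl z)).1, (k T (zl z)).2.1) (zp z)) *
    ∏ i, ENNReal.ofReal (Real.exp (c * ‖(zp z i).2‖ ^ 2)))

variable (Φ ε) in
/-- The source at the end of the chain. -/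
def kc (P : Fin j → Fin 3) (k : (Fin m → CTree) → (Fin q → Ph) → Src) (n : ℕ)
    (T : Fin m → CTree) (z : Fin (q + j) → Ph) : Src :=
  ((cst Φ ε P ((k T (zl z)).1, (k T (zl z)).2.1) (zp z)).1,
    (cst Φ ε P ((k T (zl z)).1, (k T (zl z)).2.1) (zp z)).2, n)

theorem prod_exp {j : ℕ} (f : Fin j → ℝ) (c : ℝ) :
    ∏ i, ENNReal.ofReal (Real.exp (c * f i)) = ENNReal.ofReal (Real.exp (c * ∑ i, f i)) := by
  rw [← ENNReal.ofReal_prod_of_nonneg fun _ _ => (Real.exp_pos _).le, ← Real.exp_sum,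
    Finset.mul_sum]

theorem measurable_kx (hk : Measurable fun p : (Fin m → CTree) × (Fin q → Ph) => k p.1 p.2) :
    Measurable fun w : (Fin m → CTree) × (Fin (q + j) → Ph) =>
      (((k w.1 (zl w.2)).1, (k w.1 (zl w.2)).2.1) : ℝ × Ph) := by
  have h1 : Measurable fun w : (Fin m → CTree) × (Fin (q + j) → Ph) => k w.1 (zl w.2) :=
    hk.comp (measurable_fst.prodMk (measurable_zl.comp measurable_snd))
  exact h1.fst.prodMk h1.snd.fst

theorem measurable_lns (s : Fin q → ℝ) (dl : Fin q → ℕ) :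
    Measurable fun l : Fin q → Ph => lns s dl l :=
  measurable_pi_iff.2 fun i => measurable_const.prodMk
    ((measurable_pi_apply i).prodMk measurable_const)

theorem measurable_Wc (hΦ : IsPotential Φ) (hε : ε ≠ 0) (P : Fin j → Fin 3)
    (hW : Measurable fun p : (Fin m → CTree) × (Fin q → Ph) => W p.1 p.2)
    (hk : Measurable fun p : (Fin m → CTree) × (Fin q → Ph) => k p.1 p.2) :
    Measurable fun w : (Fin m → CTree) × (Fin (q + j) → Ph) =>
      Wc Φ ε t c P s dl W k w.1 w.2 := by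
  have h1 : Measurable fun w : (Fin m → CTree) × (Fin (q + j) → Ph) => W w.1 (zl w.2) :=
    hW.comp (measurable_fst.prodMk (measurable_zl.comp measurable_snd))
  refine h1.mul ((PB.measurable_ind (measurableSet_Gd hΦ hε P measurable_fst
    ((measurable_lns s dl).comp (measurable_zl.comp measurable_snd)) (measurable_kx hk)
    (measurable_zp.comp measurable_snd))).mul (Finset.measurable_prod _ fun i _ => ?_))
  have h2 : Measurable fun w : (Fin m → CTree) × (Fin (q + j) → Ph) => (zp w.2 i).2 :=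
    ((measurable_pi_apply i).comp (measurable_zp.comp measurable_snd)).snd
  exact ENNReal.measurable_ofReal.comp
    (Real.measurable_exp.comp ((h2.norm.pow_const 2).const_mul c))

theorem measurable_kc (hΦ : IsPotential Φ) (hε : ε ≠ 0) (P : Fin j → Fin 3) (n : ℕ)
    (hk : Measurable fun p : (Fin m → CTree) × (Fin q → Ph) => k p.1 p.2) :
    Measurable fun w : (Fin m → CTree) × (Fin (q + j) → Ph) => kc Φ ε P k n w.1 w.2 := by
  have h1 : Measurable fun w : (Fin m → CTree) × (Fin (q + j) → Ph) =>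
      cst Φ ε P ((k w.1 (zl w.2)).1, (k w.1 (zl w.2)).2.1) (zp w.2) :=
    (measurable_cst hΦ hε P).comp ((measurable_kx hk).prodMk (measurable_zp.comp measurable_snd))
  exact h1.fst.prodMk (h1.snd.prodMk measurable_const)

theorem Base.append {l : Fin q → Src} {l' : Fin j → Src} {T : Fin m → CTree}
    (h : Base Φ ε T l) (hi : Function.Injective l')
    (hd : ∀ i, (∀ j, l' i ∉ (T j).leaves) ∧ l' i ∉ range l) : Base Φ ε T (Fin.append l l') := by
  refine ⟨h.ok, h.disj, ?_, fun i => ?_⟩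
  · intro a
    refine Fin.addCases (fun a => ?_) (fun a => ?_) a <;> intro b <;>
      refine Fin.addCases (fun b => ?_) (fun b => ?_) b
    · rw [Fin.append_left, Fin.append_left]
      intro h1
      rw [h.inj h1]
    · rw [Fin.append_left, Fin.append_right]
      intro h1
      exact absurd ⟨a, h1⟩ (hd b).2
    · rw [Fin.append_left, Fin.append_right]
      intro h1
      exact absurd ⟨b, h1.symm⟩ (hd a).2
    · rw [Fin.append_right, Fin.append_right]
      intro h1
      rw [hi h1]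
  · intro a
    refine Fin.addCases (fun a => ?_) (fun a => ?_) a
    · rw [Fin.append_left]
      exact h.notMem i a
    · rw [Fin.append_right]
      exact (hd a).1 i

/-- **The laws of the marked pairs are closed under chains of hits by free lines.** -/
theorem MLaw.chain (hΦ : IsPotential Φ) (hε : 0 < ε) (h : MLaw Φ ε t c L N s dl W e k CW)
    (P : Fin j → Fin 3) (hn : n ≤ L) :
    MLaw Φ ε t c L (N + 4 * j) (Fin.append s fun _ : Fin j => (0 : ℝ))
      (Fin.append dl fun _ : Fin j => 0) (Wc Φ ε t c P s dl W k) (fun T z => e T (zl z))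
      (kc Φ ε P k n) CW := by
  have hne : ∀ (T : Fin m → CTree) (z : Fin (q + j) → Ph), Wc Φ ε t c P s dl W k T z ≠ 0 →
      W T (zl z) ≠ 0 ∧
      Gd Φ ε t P T (lns s dl (zl z)) ((k T (zl z)).1, (k T (zl z)).2.1) (zp z) := by
    intro T z h1
    unfold Wc at h1
    refine ⟨left_ne_zero_of_mul h1, ?_⟩
    by_contra h2
    rw [PB.ind_of_not h2, zero_mul, mul_zero] at h1
    exact h1 rfl
  refine ⟨measurable_Wc hΦ hε.ne' P h.meas h.meas_k,
    h.meas_e.comp (measurable_fst.prodMk (measurable_zl.comp measurable_snd)),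
    measurable_kc hΦ hε.ne' P n h.meas_k, fun T z => ?_, fun i => ?_, fun T z h1 => ?_,
    fun T z h1 => ?_, fun T z h1 => ?_⟩
  · unfold Wc
    rw [prod_exp, enB_split, mul_add c, Real.exp_add, ENNReal.ofReal_mul (Real.exp_pos _).le,
      ← mul_assoc CW]
    exact mul_le_mul' (h.le T (zl z)) ((mul_le_mul' (PB.ind_le_one _) le_rfl).trans
      (one_mul _).le)
  · refine Fin.addCases (fun i => ?_) (fun i => ?_) i
    · rw [Fin.append_left]; exact h.nonneg i
    · rw [Fin.append_right]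
  · obtain ⟨h2, h3⟩ := hne T z h1
    rw [lns_append]
    exact (h.base T _ h2).append (fun a b hab => h3.2.2.1 (by
      have := congrArg (fun σ : Src => σ.2.1) hab
      exact this)) h3.2.2.2
  · exact ⟨(h.dep T _ (hne T z h1).1).1, hn⟩
  · obtain ⟨h2, h3⟩ := hne T z h1
    rw [lns_append]
    exact (h.mrk T _ h2).chain hΦ hε P (zp z) h3.1 h3.2.1 h3.2.2.1 h3.2.2.2 n

end chain

/-! ### The iterates of the exceptional terms -/

section iter

variable {hΦ : IsPotential Φ} {hε : 0 < ε} {f₀ : Ph → ℝ} {κ b b' c η θ : ℝ} {L N : ℕ}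

theorem hcI_sum {j : ℕ} (P : Fin j → Fin 3) (F : ℕ → ℝ × Ph → ℝ≥0∞) (A : Finset ℕ) (x : ℝ × Ph)
    (p : Fin j → Ph) : hcI Φ ε b t P (fun y => ∑ n ∈ A, F n y) x p =
      ∑ n ∈ A, hcI Φ ε b t P (F n) x p := by
  unfold hcI
  by_cases h : p ∈ {p | chn Φ ε t P x p}
  · simp only [indicator_of_mem h, Finset.mul_sum]
  · simp only [indicator_of_notMem h, Finset.sum_const_zero]

theorem measurable_exc6_p (h₀ : GoodDatum f₀ κ) :
    Measurable fun p : Src × Src => PB.exc6 L hΦ hε f₀ η θ t p.1 p.2 := by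
  have := GC.isProbability_PP (ε := ε) h₀
  exact RM.measurable_exc6

theorem meas_st (e : Src) (n : ℕ) :
    Measurable fun y : ℝ × Ph => ((e, ((y.1, y.2, n) : Src)) : Src × Src) :=
  measurable_const.prodMk (measurable_fst.prodMk (measurable_snd.prodMk measurable_const))

theorem measurable_exc6_st (h₀ : GoodDatum f₀ κ) (e : Src) (n : ℕ) :
    Measurable fun y : ℝ × Ph => PB.exc6 L hΦ hε f₀ η θ t e (y.1, y.2, n) :=
  Measurable.comp (g := fun p : Src × Src => PB.exc6 L hΦ hε f₀ η θ t p.1 p.2)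
    (f := fun y : ℝ × Ph => ((e, ((y.1, y.2, n) : Src)) : Src × Src)) (measurable_exc6_p h₀)
    (meas_st e n)

/-- **The iterates of the exceptional terms.** -/
theorem KIt_E6_le (h₀ : GoodDatum f₀ κ) {a : ℕ → ℝ≥0∞} (j : ℕ) (e σ : Src) :
    PB.KIt Φ ε b t a j (PB.E6 L hΦ hε f₀ η θ t e) σ ≤ (∑' n, a n) ^ j *
      ∑ P : Fin j → Fin 3, ∑ n ∈ Finset.range (L + 1), ∫⁻ p : Fin j → Ph,
        hcI Φ ε b t P (fun y => PB.exc6 L hΦ hε f₀ η θ t e (y.1, y.2, n)) (σ.1, σ.2.1) p := by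
  have hm : ∀ n, Measurable fun y : ℝ × Ph => PB.exc6 L hΦ hε f₀ η θ t e (y.1, y.2, n) :=
    fun n => measurable_exc6_st h₀ e n
  have hF : Measurable fun y : ℝ × Ph => ∑ n ∈ Finset.range (L + 1),
      PB.exc6 L hΦ hε f₀ η θ t e (y.1, y.2, n) := Finset.measurable_sum _ fun n _ => hm n
  have h1 := KIt_le_Hc (b := b) (t := t) (α := a) hΦ hε.ne' j (θ := PB.E6 L hΦ hε f₀ η θ t e)
    hF (fun σ => by
      unfold PB.E6
      split_ifs with h
      · exact Finset.single_le_sum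
          (f := fun n => PB.exc6 L hΦ hε f₀ η θ t e (σ.1, σ.2.1, n)) (fun _ _ => zero_le)
          (Finset.mem_range.2 (Nat.lt_succ_of_le h.2))
      · exact zero_le) σ
  refine h1.trans (mul_le_mul' le_rfl (le_of_eq ?_))
  rw [Hc_eq hΦ hε.ne' b t j hF]
  refine Finset.sum_congr rfl fun P _ => ?_
  have hmp : ∀ n ∈ Finset.range (L + 1), Measurable fun p : Fin j → Ph =>
      hcI Φ ε b t P (fun y => PB.exc6 L hΦ hε f₀ η θ t e (y.1, y.2, n)) (σ.1, σ.2.1) p :=
    fun n _ => (measurable_hcI hΦ hε.ne' b t P (hm n)).comp measurable_prodMk_left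
  rw [← lintegral_finsetSum _ hmp]
  refine lintegral_congr fun p => ?_
  exact hcI_sum P (fun n y => PB.exc6 L hΦ hε f₀ η θ t e (y.1, y.2, n)) _ _ _

theorem g1_le (hb : b ≤ b' + c) (v : E3) :
    g1 b' v ≤ g1 b v * ENNReal.ofReal (Real.exp (c * ‖v‖ ^ 2)) := by
  unfold g1
  rw [← ENNReal.ofReal_mul (Real.exp_pos _).le, ← Real.exp_add]
  refine ENNReal.ofReal_le_ofReal (Real.exp_le_exp.2 ?_)
  nlinarith [sq_nonneg ‖v‖]

variable {m q j : ℕ} {s : Fin q → ℝ} {dl : Fin q → ℕ}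
  {W : (Fin m → CTree) → (Fin q → Ph) → ℝ≥0∞} {e k : (Fin m → CTree) → (Fin q → Ph) → Src}
  {CW : ℝ≥0∞}

/-- The integral over the chains. -/
def HI (L : ℕ) (hΦ : IsPotential Φ) (hε : 0 < ε) (f₀ : Ph → ℝ) (b' η θ t : ℝ) {j : ℕ}
    (P : Fin j → Fin 3) (n : ℕ) (e k : Src) : ℝ≥0∞ :=
  ∫⁻ p : Fin j → Ph,
    hcI Φ ε b' t P (fun y => PB.exc6 L hΦ hε f₀ η θ t e (y.1, y.2, n)) (k.1, k.2.1) p

theorem measurable_HI (h₀ : GoodDatum f₀ κ) (P : Fin j → Fin 3) (n : ℕ) :
    Measurable fun w : Src × Src => HI L hΦ hε f₀ b' η θ t P n w.1 w.2 := by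
  have := GC.isProbability_PP (ε := ε) h₀
  unfold HI hcI
  refine Measurable.lintegral_prod_right' (f := fun w : (Src × Src) × (Fin j → Ph) =>
    {p | chn Φ ε t P (w.1.2.1, w.1.2.2.1) p}.indicator
      (fun p => (∏ i, (muE ε * g1 b' (p i).2)) * PB.exc6 L hΦ hε f₀ η θ t w.1.1
        ((cst Φ ε P (w.1.2.1, w.1.2.2.1) p).1, (cst Φ ε P (w.1.2.1, w.1.2.2.1) p).2, n)) w.2) ?_
  have hx : Measurable fun w : (Src × Src) × (Fin j → Ph) =>
      (((w.1.2.1, w.1.2.2.1), w.2) : (ℝ × Ph) × (Fin j → Ph)) :=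
    (measurable_fst.snd.fst.prodMk measurable_fst.snd.snd.fst).prodMk measurable_snd
  have hc : Measurable fun w : (Src × Src) × (Fin j → Ph) =>
      cst Φ ε P (w.1.2.1, w.1.2.2.1) w.2 := (measurable_cst hΦ hε.ne' P).comp hx
  have e1 : (fun w : (Src × Src) × (Fin j → Ph) =>
      {p | chn Φ ε t P (w.1.2.1, w.1.2.2.1) p}.indicator
      (fun p => (∏ i, (muE ε * g1 b' (p i).2)) * PB.exc6 L hΦ hε f₀ η θ t w.1.1
        ((cst Φ ε P (w.1.2.1, w.1.2.2.1) p).1, (cst Φ ε P (w.1.2.1, w.1.2.2.1) p).2, n)) w.2) =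
      {w : (Src × Src) × (Fin j → Ph) | chn Φ ε t P (w.1.2.1, w.1.2.2.1) w.2}.indicator
        fun w => (∏ i, (muE ε * g1 b' (w.2 i).2)) * PB.exc6 L hΦ hε f₀ η θ t w.1.1
        ((cst Φ ε P (w.1.2.1, w.1.2.2.1) w.2).1, (cst Φ ε P (w.1.2.1, w.1.2.2.1) w.2).2, n) := rfl
  rw [e1]
  refine Measurable.indicator (Measurable.mul ?_ ?_) (hx (measurableSet_chn hΦ hε.ne' t P))
  · exact Finset.measurable_prod _ fun i _ => ((measurable_g1 b').comp
      ((measurable_pi_apply i).comp measurable_snd)).const_mul _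
  · have h2 : Measurable fun p : Src × Src => PB.exc6 L hΦ hε f₀ η θ t p.1 p.2 :=
      measurable_exc6_p h₀
    have h3 : Measurable fun w : (Src × Src) × (Fin j → Ph) =>
        ((w.1.1, (((cst Φ ε P (w.1.2.1, w.1.2.2.1) w.2).1,
          (cst Φ ε P (w.1.2.1, w.1.2.2.1) w.2).2, n) : Src)) : Src × Src) :=
      measurable_fst.fst.prodMk (hc.fst.prodMk (hc.snd.prodMk measurable_const))
    exact h2.comp h3

/-- One chain. -/
theorem HI_le (h₀ : GoodDatum f₀ κ) (hb : b ≤ b' + c) (P : Fin j → Fin 3) (n : ℕ)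
    (T : Fin m → CTree) (l : Fin q → Ph) :
    (∏ i, g1 b (l i).2) * (W T l * HI L hΦ hε f₀ b' η θ t P n (e T l) (k T l)) ≤
      muE ε ^ j * ∫⁻ p : Fin j → Ph, (∏ i, g1 b ((Fin.append l p : Fin (q + j) → Ph) i).2) *
        (Wc Φ ε t c P s dl W k T (Fin.append l p) * PB.exc6 L hΦ hε f₀ η θ t
          (e T (zl (Fin.append l p : Fin (q + j) → Ph)))
          (kc Φ ε P k n T (Fin.append l p : Fin (q + j) → Ph))) := by
  have hm : Measurable fun p : Fin j → Ph => hcI Φ ε b' t P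
      (fun y => PB.exc6 L hΦ hε f₀ η θ t (e T l) (y.1, y.2, n)) ((k T l).1, (k T l).2.1) p :=
    (measurable_hcI hΦ hε.ne' b' t P (measurable_exc6_st h₀ _ n)).comp measurable_prodMk_left
  unfold HI
  rw [← lintegral_const_mul _ hm, ← lintegral_const_mul _ (hm.const_mul _),
    ← lintegral_const_mul' _ _ (ENNReal.pow_ne_top muE_ne_top)]
  refine lintegral_mono_ae ?_
  filter_upwards [ae_Gd (t := t) hΦ hε.ne' P T (lns s dl l) ((k T l).1, (k T l).2.1)] with p hp
  unfold hcI Wc kc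
  rw [zl_append, zp_append, Fin.prod_univ_add]
  simp only [Fin.append_left, Fin.append_right]
  by_cases h : p ∈ {p | chn Φ ε t P ((k T l).1, (k T l).2.1) p}
  · rw [indicator_of_mem h, PB.ind_of (hp h), one_mul]
    have h1 : ∏ i, (muE ε * g1 b' (p i).2) ≤ muE ε ^ j * ((∏ i, g1 b (p i).2) *
        ∏ i, ENNReal.ofReal (Real.exp (c * ‖(p i).2‖ ^ 2))) := by
      rw [← Finset.prod_mul_distrib, Finset.prod_mul_distrib, Finset.prod_const,
        Finset.card_univ, Fintype.card_fin]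
      exact mul_le_mul' le_rfl (Finset.prod_le_prod' fun i _ => g1_le hb _)
    calc _ ≤ (∏ i, g1 b (l i).2) * (W T l * ((muE ε ^ j * ((∏ i, g1 b (p i).2) *
        ∏ i, ENNReal.ofReal (Real.exp (c * ‖(p i).2‖ ^ 2)))) *
          PB.exc6 L hΦ hε f₀ η θ t (e T l) ((cst Φ ε P ((k T l).1, (k T l).2.1) p).1,
            (cst Φ ε P ((k T l).1, (k T l).2.1) p).2, n))) :=
          mul_le_mul' le_rfl (mul_le_mul' le_rfl (mul_le_mul' h1 le_rfl))
      _ = _ := by ring
  · rw [indicator_of_notMem h, mul_zero, mul_zero]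
    exact zero_le

/-- **One chain under the law.** -/
theorem MLaw.lintegral_HI_le (h₀ : GoodDatum f₀ κ) (hb : b ≤ b' + c)
    (h : MLaw Φ ε t c L N s dl W e k CW) (P : Fin j → Fin 3) (n : ℕ) {B : ℝ≥0∞}
    (hX : muE ε ^ (q + j) * ∫⁻ T, ∫⁻ z : Fin (q + j) → Ph, (∏ i, g1 b (z i).2) *
      (Wc Φ ε t c P s dl W k T z * PB.exc6 L hΦ hε f₀ η θ t (e T (zl z)) (kc Φ ε P k n T z))
        ∂volume ∂(Measure.pi fun _ : Fin m => tree (inten f₀ ε) L) ≤ B) :
    muE ε ^ q * ∫⁻ T, ∫⁻ l : Fin q → Ph, (∏ i, g1 b (l i).2) *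
      (W T l * HI L hΦ hε f₀ b' η θ t P n (e T l) (k T l))
        ∂volume ∂(Measure.pi fun _ : Fin m => tree (inten f₀ ε) L) ≤ B := by
  refine le_trans ?_ hX
  rw [pow_add, mul_assoc]
  refine mul_le_mul' le_rfl ?_
  rw [← lintegral_const_mul' _ _ (ENNReal.pow_ne_top muE_ne_top)]
  refine lintegral_mono fun T => ?_
  have hF : Measurable fun z : Fin (q + j) → Ph => (∏ i, g1 b (z i).2) *
      (Wc Φ ε t c P s dl W k T z *
        PB.exc6 L hΦ hε f₀ η θ t (e T (zl z)) (kc Φ ε P k n T z)) := by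
    have h1 : Measurable fun z : Fin (q + j) → Ph => ((T, z) :
      (Fin m → CTree) × (Fin (q + j) → Ph)) := measurable_prodMk_left
    have h2 : Measurable fun z : Fin (q + j) → Ph =>
        ((e T (zl z), kc Φ ε P k n T z) : Src × Src) :=
      (h.meas_e.comp ((measurable_const (a := T)).prodMk measurable_zl)).prodMk
        ((measurable_kc hΦ hε.ne' P n h.meas_k).comp h1)
    have h3 : Measurable fun z : Fin (q + j) → Ph =>
        PB.exc6 L hΦ hε f₀ η θ t (e T (zl z)) (kc Φ ε P k n T z) :=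
      Measurable.comp (g := fun p : Src × Src => PB.exc6 L hΦ hε f₀ η θ t p.1 p.2)
        (f := fun z : Fin (q + j) → Ph => ((e T (zl z), kc Φ ε P k n T z) : Src × Src))
        (measurable_exc6_p h₀) h2
    have h4 : Measurable fun z : Fin (q + j) → Ph => Wc Φ ε t c P s dl W k T z :=
      Measurable.comp (g := fun w : (Fin m → CTree) × (Fin (q + j) → Ph) =>
        Wc Φ ε t c P s dl W k w.1 w.2) (f := fun z : Fin (q + j) → Ph => ((T, z) :
          (Fin m → CTree) × (Fin (q + j) → Ph)))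
        (measurable_Wc hΦ hε.ne' P h.meas h.meas_k) h1
    have h5 : Measurable fun z : Fin (q + j) → Ph => ∏ i, g1 b (z i).2 :=
      Finset.measurable_prod _ fun i _ => (measurable_g1 b).comp (measurable_pi_apply i)
    exact h5.mul (h4.mul h3)
  rw [lintegral_append hF, ← lintegral_const_mul' _ _ (ENNReal.pow_ne_top muE_ne_top)]
  exact lintegral_mono fun l => HI_le h₀ hb P n T l

end iter

theorem lintegral₂_sum {ι X Y : Type*} [MeasurableSpace X] [MeasurableSpace Y] {μ : Measure X}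
    {ν : Measure Y} [SFinite ν] (A : Finset ι) {H : ι → X → Y → ℝ≥0∞}
    (hH : ∀ i ∈ A, Measurable fun w : X × Y => H i w.1 w.2) :
    ∫⁻ x, ∫⁻ y, ∑ i ∈ A, H i x y ∂ν ∂μ = ∑ i ∈ A, ∫⁻ x, ∫⁻ y, H i x y ∂ν ∂μ := by
  have h1 : ∀ x, ∫⁻ y, ∑ i ∈ A, H i x y ∂ν = ∑ i ∈ A, ∫⁻ y, H i x y ∂ν := fun x =>
    lintegral_finsetSum _ fun i hi => (hH i hi).comp measurable_prodMk_left
  simp only [h1]
  exact lintegral_finsetSum _ fun i hi => (hH i hi).lintegral_prod_right'

/-! ### The exceptional terms of the iteration -/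

/-- **The exceptional terms of the iteration vanish** under the laws of the marked pairs; the second
source has the state of `k` and any depth. -/
def X1J (hΦ : IsPotential Φ) (f₀ : Ph → ℝ) (b c b' : ℝ) : Prop :=
  ∀ (m q L N J : ℕ) (a : ℕ → ℝ≥0∞) (T₀ η θ : ℝ), 0 < m → 0 ≤ T₀ → 0 < η → 0 < θ →
    ∑' n, a n ≠ ∞ →
    ∃ Dl : ℝ → ℝ≥0∞, Tendsto Dl (𝓝[>] 0) (𝓝 0) ∧ ∀ (ε : ℝ) (hε : 0 < ε), ε ≤ 1 →
      ∀ t ∈ Icc 0 T₀, ∀ (s : Fin q → ℝ) (dl : Fin q → ℕ)
        (W : (Fin m → CTree) → (Fin q → Ph) → ℝ≥0∞)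
        (e k k' : (Fin m → CTree) → (Fin q → Ph) → Src)
        (CW : ℝ≥0∞), CW ≠ ∞ → MLaw Φ ε t c L N s dl W e k CW →
        (∀ T l, W T l ≠ 0 → (k' T l).1 = (k T l).1 ∧ (k' T l).2.1 = (k T l).2.1) →
        muE ε ^ q * ∫⁻ T, ∫⁻ l : Fin q → Ph, (∏ j, g1 b (l j).2) * (W T l *
          PB.XJ L hΦ hε f₀ b' a η θ t J (e T l) (k' T l)) ∂volume
          ∂(Measure.pi fun _ : Fin m => tree (inten f₀ ε) L) ≤ CW * (muE ε * Dl ε)

theorem x1J_of_x1 {hΦ : IsPotential Φ} {f₀ : Ph → ℝ} {κ b b' c : ℝ} (h₀ : GoodDatum f₀ κ)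
    (hb : b ≤ b' + c) (h : X1 hΦ f₀ b c) : X1J hΦ f₀ b c b' := by
  intro m q L N J a T₀ η θ hm hT₀ hη hθ ha
  choose Dl hDl hX using fun j : ℕ => h m (q + j) L (N + 4 * j) T₀ η θ hm hT₀ hη hθ
  refine ⟨fun ε => ∑ j ∈ Finset.range J, (∑' n, a n) ^ j *
    (∑ _P : Fin j → Fin 3, ∑ _n ∈ Finset.range (L + 1), Dl j ε), ?_, ?_⟩
  · have h1 : (0 : ℝ≥0∞) = ∑ j ∈ Finset.range J, (∑' n, a n) ^ j *
        (∑ _P : Fin j → Fin 3, ∑ _n ∈ Finset.range (L + 1), 0) := by
      simp
    rw [h1]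
    refine tendsto_finsetSum _ fun j _ => ENNReal.Tendsto.const_mul
      (tendsto_finsetSum _ fun P _ => tendsto_finsetSum _ fun n _ => hDl j)
      (Or.inr (ENNReal.pow_ne_top ha))
  intro ε hε hε1 t ht s dl W e k k' CW hCW hM hk
  have hsf := GC.isProbability_PP (ε := ε) h₀
  set ν : Measure (Fin m → CTree) := Measure.pi fun _ : Fin m => tree (inten f₀ ε) L with hν
  have hH : ∀ (j : ℕ) (P : Fin j → Fin 3) (n : ℕ), Measurable
      fun w : (Fin m → CTree) × (Fin q → Ph) => (∏ i, g1 b (w.2 i).2) *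
        (W w.1 w.2 * HI L hΦ hε f₀ b' η θ t P n (e w.1 w.2) (k w.1 w.2)) := by
    intro j P n
    have h1 : Measurable fun w : (Fin m → CTree) × (Fin q → Ph) =>
        HI L hΦ hε f₀ b' η θ t P n (e w.1 w.2) (k w.1 w.2) :=
      Measurable.comp (g := fun w : Src × Src => HI L hΦ hε f₀ b' η θ t P n w.1 w.2)
        (f := fun w : (Fin m → CTree) × (Fin q → Ph) => ((e w.1 w.2, k w.1 w.2) : Src × Src))
        (measurable_HI h₀ P n) (hM.meas_e.prodMk hM.meas_k)
    have h2 : Measurable fun w : (Fin m → CTree) × (Fin q → Ph) => ∏ i, g1 b (w.2 i).2 :=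
      Finset.measurable_prod _ fun i _ => (measurable_g1 b).comp
        ((measurable_pi_apply i).comp measurable_snd)
    exact h2.mul (hM.meas.mul h1)
  have h1 : ∫⁻ T, ∫⁻ l : Fin q → Ph, (∏ j, g1 b (l j).2) * (W T l *
      PB.XJ L hΦ hε f₀ b' a η θ t J (e T l) (k' T l)) ∂volume ∂ν ≤
      ∫⁻ T, ∫⁻ l : Fin q → Ph, ∑ j ∈ Finset.range J, (∑' n, a n) ^ j *
        (∑ P : Fin j → Fin 3, ∑ n ∈ Finset.range (L + 1), (∏ j, g1 b (l j).2) * (W T l *
          HI L hΦ hε f₀ b' η θ t P n (e T l) (k T l))) ∂volume ∂ν := by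
    refine lintegral_mono fun T => lintegral_mono fun l => ?_
    by_cases hW : W T l = 0
    · rw [hW, zero_mul, mul_zero]
      exact zero_le
    obtain ⟨h2, h3⟩ := hk T l hW
    have h4 : PB.XJ L hΦ hε f₀ b' a η θ t J (e T l) (k' T l) ≤
        ∑ j ∈ Finset.range J, (∑' n, a n) ^ j *
          (∑ P : Fin j → Fin 3, ∑ n ∈ Finset.range (L + 1),
            HI L hΦ hε f₀ b' η θ t P n (e T l) (k T l)) := by
      refine Finset.sum_le_sum fun j _ => ?_
      refine (KIt_E6_le h₀ j (e T l) (k' T l)).trans (le_of_eq ?_)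
      rw [h2, h3]
      rfl
    refine (mul_le_mul' le_rfl (mul_le_mul' le_rfl h4)).trans (le_of_eq ?_)
    rw [Finset.mul_sum, Finset.mul_sum]
    refine Finset.sum_congr rfl fun j _ => ?_
    rw [Finset.mul_sum, Finset.mul_sum, Finset.mul_sum, Finset.mul_sum]
    refine Finset.sum_congr rfl fun P _ => ?_
    rw [Finset.mul_sum, Finset.mul_sum, Finset.mul_sum, Finset.mul_sum]
    refine Finset.sum_congr rfl fun n _ => ?_
    ring
  have h5 : ∫⁻ T, ∫⁻ l : Fin q → Ph, ∑ j ∈ Finset.range J, (∑' n, a n) ^ j *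
        (∑ P : Fin j → Fin 3, ∑ n ∈ Finset.range (L + 1), (∏ j, g1 b (l j).2) * (W T l *
          HI L hΦ hε f₀ b' η θ t P n (e T l) (k T l))) ∂volume ∂ν =
      ∑ j ∈ Finset.range J, (∑' n, a n) ^ j *
        (∑ P : Fin j → Fin 3, ∑ n ∈ Finset.range (L + 1), ∫⁻ T, ∫⁻ l : Fin q → Ph,
          (∏ j, g1 b (l j).2) * (W T l *
          HI L hΦ hε f₀ b' η θ t P n (e T l) (k T l)) ∂volume ∂ν) := by
    rw [lintegral₂_sum (Finset.range J) (H := fun j T l => (∑' n, a n) ^ j *
        (∑ P : Fin j → Fin 3, ∑ n ∈ Finset.range (L + 1), (∏ j, g1 b (l j).2) * (W T l *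
          HI L hΦ hε f₀ b' η θ t P n (e T l) (k T l)))) fun j _ =>
        (Finset.measurable_sum _ fun P _ => Finset.measurable_sum _ fun n _ =>
          hH j P n).const_mul _]
    refine Finset.sum_congr rfl fun j _ => ?_
    have hpow : (∑' n, a n) ^ j ≠ ∞ := ENNReal.pow_ne_top ha
    calc _ = ∫⁻ T, (∑' n, a n) ^ j * ∫⁻ l : Fin q → Ph,
        (∑ P : Fin j → Fin 3, ∑ n ∈ Finset.range (L + 1), (∏ j, g1 b (l j).2) * (W T l *
          HI L hΦ hε f₀ b' η θ t P n (e T l) (k T l))) ∂volume ∂ν :=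
          lintegral_congr fun T => lintegral_const_mul' _ _ hpow
      _ = (∑' n, a n) ^ j * ∫⁻ T, ∫⁻ l : Fin q → Ph,
        (∑ P : Fin j → Fin 3, ∑ n ∈ Finset.range (L + 1), (∏ j, g1 b (l j).2) * (W T l *
          HI L hΦ hε f₀ b' η θ t P n (e T l) (k T l))) ∂volume ∂ν :=
          lintegral_const_mul' _ _ hpow
      _ = _ := by
        congr 1
        rw [lintegral₂_sum Finset.univ (H := fun P T l =>
          ∑ n ∈ Finset.range (L + 1), (∏ j, g1 b (l j).2) * (W T l *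
            HI L hΦ hε f₀ b' η θ t P n (e T l) (k T l))) fun P _ =>
              Finset.measurable_sum _ fun n _ => hH j P n]
        refine Finset.sum_congr rfl fun P _ => ?_
        exact lintegral₂_sum (Finset.range (L + 1)) (H := fun n T l =>
          (∏ j, g1 b (l j).2) * (W T l *
            HI L hΦ hε f₀ b' η θ t P n (e T l) (k T l))) fun n _ => hH j P n
  have h6 : ∀ (j : ℕ) (P : Fin j → Fin 3), ∀ n ∈ Finset.range (L + 1),
      muE ε ^ q * ∫⁻ T, ∫⁻ l : Fin q → Ph, (∏ i, g1 b (l i).2) *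
        (W T l * HI L hΦ hε f₀ b' η θ t P n (e T l) (k T l)) ∂volume ∂ν ≤
        CW * (muE ε * Dl j ε) := fun j P n hn =>
    hM.lintegral_HI_le h₀ hb P n (hX j ε hε hε1 t ht _ _ _ _ _ CW hCW
      (hM.chain hΦ hε P (Nat.lt_succ_iff.1 (Finset.mem_range.1 hn))))
  calc _ ≤ muE ε ^ q * ∑ j ∈ Finset.range J, (∑' n, a n) ^ j *
        (∑ P : Fin j → Fin 3, ∑ n ∈ Finset.range (L + 1), ∫⁻ T, ∫⁻ l : Fin q → Ph,
          (∏ j, g1 b (l j).2) * (W T l *
          HI L hΦ hε f₀ b' η θ t P n (e T l) (k T l)) ∂volume ∂ν) :=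
        mul_le_mul' le_rfl (h1.trans h5.le)
    _ = ∑ j ∈ Finset.range J, (∑' n, a n) ^ j *
        (∑ P : Fin j → Fin 3, ∑ n ∈ Finset.range (L + 1), muE ε ^ q *
          ∫⁻ T, ∫⁻ l : Fin q → Ph, (∏ j, g1 b (l j).2) * (W T l *
          HI L hΦ hε f₀ b' η θ t P n (e T l) (k T l)) ∂volume ∂ν) := by
        rw [Finset.mul_sum]
        refine Finset.sum_congr rfl fun j _ => ?_
        rw [mul_left_comm, Finset.mul_sum]
        congr 1
        refine Finset.sum_congr rfl fun P _ => ?_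
        rw [Finset.mul_sum]
    _ ≤ ∑ j ∈ Finset.range J, (∑' n, a n) ^ j *
        (∑ _P : Fin j → Fin 3, ∑ _n ∈ Finset.range (L + 1), CW * (muE ε * Dl j ε)) :=
        Finset.sum_le_sum fun j _ => mul_le_mul' le_rfl
          (Finset.sum_le_sum fun P _ => Finset.sum_le_sum fun n hn => h6 j P n hn)
    _ = _ := by
        rw [Finset.mul_sum, Finset.mul_sum]
        refine Finset.sum_congr rfl fun j _ => ?_
        simp only [← Finset.mul_sum]
        ring

end Vale.Agent.P119.IND
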