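import Vale.Agent.P119.IND.GraftKc
import Vale.Agent.P119.IND.DetLaw

/-!
# P119, block IND: base structures with lines which begin at a ghost contact (`helper810`)

* `SKc F₀ G₀ X s S`: the line `X S.root` of the last history `S` begins at the time `s` of a ghost
  contact of the base, which is the entrance of the two lines;
* `SBase.detOut_kc`, **`SBase.not_good_kc`**: as `SBase.detOut`, `SBase.not_good`, where every line
  `X σ` begins either at the end of the last history or at such a contact.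
-/

open Set
open scoped ENNReal

set_option linter.unusedSectionVars false

noncomputable section

namespace Vale.Agent.P119.IND

open KU M M.CTree TL GC AU

variable {Φ : E3 → ℝ} {ε T t : ℝ} {L : ℕ}

/-- **The base program of a family**, with the ghost events. -/
theorem BaseP.of_fam_kc (hΦ : IsPotential Φ) (hε : 0 < ε) {F : Finset CTree} {G : List Gh}
    (h : Fam Φ ε T F G) {κ : Type} [DecidableEq κ] {z x : κ → Src} {D : Set κ}
    (hz : Function.Injective z) (hzr : range z = (lab F : Set Src)) (hz0 : ∀ k, 0 ≤ (z k).1)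
    (hD : ∀ g ∈ G, ∀ i, z i = g.1.root → i ∈ D)
    (hG : ∀ g ∈ G, ∀ k ∉ D, z k = g.2.1.root → g.2.2 ≤ (x k).1)
    (hx : ∀ k ∉ D, ∃ S, IsLast F S ∧ S.root = z k ∧ (x k).2.1 = ln Φ ε S ∧ ext Φ ε S ≤ (x k).1)
    (hxi : InjOn x Dᶜ) :
    ∃ Q : List (Ev κ × ℝ), BaseP Φ ε T z x D Q ∧ 2 * Q.length = (nl F).card + 2 * G.length ∧
      (∀ i k, FJ F G (z i) (z k) → Jn Q i k) ∧
      (∀ k S, IsLast F S → S.root = z k →
        finZ Φ ε Q (fun i => (z i).2.1) k = ln Φ ε S ∧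
        finB Φ ε Q (fun i => (z i).1) (fun i => (z i).2.1) k = ext Φ ε S) ∧
      ∀ g ∈ G, ∀ i k, z i = g.1.root → z k = g.2.1.root → (Ev.gh i k, g.2.2) ∈ Q := by
  classical
  obtain ⟨Q, hQ⟩ := h.exists_timed hΦ hε
  obtain ⟨Q', h1, h2, h3, h4, h5, h6⟩ := hQ.relabel hz (by rw [rts_eq_lab, hzr])
  have hfin : ∀ k, ∀ S, IsLast F S → S.root = z k →
      finZ Φ ε Q' (fun i => (z i).2.1) k = ln Φ ε S ∧
      finB Φ ε Q' (fun i => (z i).1) (fun i => (z i).2.1) k = ext Φ ε S := by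
    intro k S hS hr
    have h7 := hQ.fin.map hz (P' := Q'.map Prod.fst) (by rw [← IND.mapP_fst, h1]) hS (i := k)
      hr.symm
    have e : (pl T (Q'.map Prod.fst)).map Prod.fst = Q'.map Prod.fst := pl_fst T Q'
    rw [finZ_fst e, finB_fst e] at h7
    exact h7
  refine ⟨Q', ⟨hz0, hz, h3, h4, ?_, ?_, ?_, hxi⟩, ?_, ?_, hfin, ?_⟩
  · intro e he i k hik
    have h7 : (e.1.map z, e.2) ∈ Q := by
      rw [← h1]
      exact List.mem_map.2 ⟨e, he, rfl⟩
    rcases hQ.mem _ h7 with ⟨a, b, -, h8⟩ | ⟨g, hg, h8⟩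
    · rw [hik] at h8
      simp only [Ev.map, Prod.mk.injEq] at h8
      exact absurd h8.1 (by simp)
    · rw [hik] at h8
      simp only [Ev.map, Prod.mk.injEq, Ev.gh.injEq] at h8
      refine ⟨hD g hg i h8.1.1, fun hk => ?_⟩
      rw [h8.2]
      exact hG g hg k hk h8.1.2
  · intro k hk
    obtain ⟨S, hS, hr, e1, -⟩ := hx k hk
    rw [(hfin k S hS hr).1, e1]
  · intro k hk
    obtain ⟨S, hS, hr, -, e2⟩ := hx k hk
    rw [(hfin k S hS hr).2]
    exact e2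
  · have h7 := hQ.prog.len
    rw [List.length_map] at h7
    rw [h2]
    exact h7
  · intro i k hJ
    have h7 := hJ.jn hQ.prog
    have h8 : Jn Q (z i) (z k) := (jn_fst (pl_fst T Q)).1 h7
    exact (h5 i k).2 h8
  · intro g hg i k hi hk
    obtain ⟨⟨e, s⟩, he1, he2⟩ := List.mem_map.1 (hQ.prog.ghost g hg)
    simp only at he2
    subst he2
    -- the time of the event
    have hs : s = g.2.2 := by
      rcases hQ.mem _ he1 with ⟨a, b, -, h8⟩ | ⟨g', hg', h8⟩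
      · simp only [Prod.mk.injEq] at h8
        exact absurd h8.1 (by simp)
      · simp only [Prod.mk.injEq, Ev.gh.injEq] at h8
        obtain ⟨⟨h9, h10⟩, h11⟩ := h8
        by_contra hne
        have hgg : g ≠ g' := fun h' => hne (h' ▸ h11)
        have hsrt : ∀ a ∈ G, ∀ b ∈ G, a ≠ b → a.1.root ≠ b.1.root := by
          intro a ha b hb hab
          have hsy : Std.Symm fun a b : Gh => a ≠ b → a.1.root ≠ b.1.root :=
            ⟨fun _ _ h' hn he => h' hn.symm he.symm⟩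
          exact List.Pairwise.forall_of_forall
            (R := fun a b : Gh => a ≠ b → a.1.root ≠ b.1.root)
            (fun x _ hx => absurd rfl hx) (h.srt.imp fun h' _ => h'.2.1)
            ha hb hab
        exact hsrt g hg g' hg' hgg h9
    subst hs
    rw [← h1] at he1
    obtain ⟨⟨e', s'⟩, h9, h10⟩ := List.mem_map.1 he1
    simp only [Prod.mk.injEq] at h10
    obtain ⟨h11, rfl⟩ := h10
    cases e' with
    | sc a b => exact absurd h11 (by simp [Ev.map])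
    | gh a b =>
      simp only [Ev.map, Ev.gh.injEq] at h11
      have e1 : a = i := hz (h11.1.trans hi.symm)
      have e2 : b = k := hz (h11.2.trans hk.symm)
      subst e1 e2
      exact h9

/-- The line `X S.root` of the last history `S` begins at the time `s` of a ghost contact of the base,
which is the entrance of the two lines. -/
def SKc (Φ : E3 → ℝ) (ε : ℝ) (G₀ : List Gh) (s : ℝ) (S : CTree) : Prop :=
  ∃ g ∈ G₀, g.2.1.root = S.root ∧ g.2.2 = s ∧ ext Φ ε g.1 < s ∧ ext Φ ε S < s ∧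
    Meets ε (ln Φ ε g.1, ln Φ ε S) ∧ hitT ε (ln Φ ε g.1, ln Φ ε S) = s

namespace SBase

variable {F₀ : Finset CTree} {G₀ : List Gh} {D₀ : Set Src} {X : Src → Src} {m q c₀ : ℕ}
  {T₀ : Fin m → CTree} {l : Fin q → Src} {R₀ : Finset Src}

/-- The base program. -/
theorem exists_base_kc (hΦ : IsPotential Φ) (hε : 0 < ε) (h : SBase Φ ε T F₀ G₀ D₀ X)
    (hl : SLab T₀ l F₀ G₀ c₀ R₀) :
    ∃ (κ : Type) (_ : Fintype κ) (_ : DecidableEq κ) (z x : κ → Src) (D : Set κ)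
      (Q : List (Ev κ × ℝ)) (R : Finset κ), BaseP Φ ε T z x D Q ∧ CovB z Q l c₀ R ∧
      BLab T₀ l z ∧ Fintype.card κ + Q.length ≤ szB F₀ G₀ ∧
      (∀ k, z k ∈ lab F₀) ∧ (∀ k, k ∈ D ↔ z k ∈ D₀) ∧ (∀ k, x k = X (z k)) ∧
      (∀ σ ∈ lab F₀, ∃ k, z k = σ) ∧
      (∀ k S, IsLast F₀ S → S.root = z k →
        finB Φ ε Q (fun i => (z i).1) (fun i => (z i).2.1) k = ext Φ ε S) ∧
      ∀ s k S, IsLast F₀ S → S.root = z k → SKc Φ ε G₀ s S → KcT Φ ε z Q s k := by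
  classical
  set κ := {σ : Src // σ ∈ lab F₀} with hκ
  set z : κ → Src := fun k => k.1 with hz
  set x : κ → Src := fun k => X k.1 with hx
  set D : Set κ := {k | k.1 ∈ D₀} with hD
  have hzr : range z = (lab F₀ : Set Src) := by
    ext σ
    exact ⟨fun ⟨k, hk⟩ => hk ▸ k.2, fun hσ => ⟨⟨σ, hσ⟩, rfl⟩⟩
  obtain ⟨Q, h1, h2, h3, h4, h5⟩ := BaseP.of_fam_kc hΦ hε h.fam (z := z) (x := x) (D := D)
    Subtype.val_injective hzr (fun k => h.nonneg _ k.2)
    (fun g hg i hi => by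
      change i.1 ∈ D₀
      rw [show i.1 = g.1.root from hi]
      exact h.drop g hg)
    (fun g hg k hk hkr => by
      have e : k.1 = g.2.1.root := hkr
      change g.2.2 ≤ (X k.1).1
      rw [e]
      exact h.tgt g hg fun h' => hk (by change k.1 ∈ D₀; rw [e]; exact h'))
    (fun k hk => h.lst k.1 k.2 hk)
    (fun k hk k' hk' hkk => Subtype.ext (h.inj ⟨k.2, hk⟩ ⟨k'.2, hk'⟩ hkk))
  refine ⟨κ, inferInstance, inferInstance, z, x, D, Q, R₀.subtype (· ∈ lab F₀), h1,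
    ⟨fun k => ?_, ?_, fun r hr => ?_⟩, ⟨fun k => hl.mem _ k.2, fun j => ?_, fun j => ?_⟩, ?_,
    fun k => k.2, fun k => Iff.rfl, fun k => rfl, fun σ hσ => ⟨⟨σ, hσ⟩, rfl⟩,
    fun k S hS hr => (h4 k S hS hr).2, ?_⟩
  · obtain ⟨r, hr, hJ⟩ := hl.cov k.1 k.2
    exact ⟨⟨r, hl.sub r hr⟩, Finset.mem_subtype.2 hr, h3 _ _ hJ⟩
  · rw [Finset.card_subtype]
    exact (Finset.card_filter_le _ _).trans hl.card
  · exact hl.ord _ (Finset.mem_subtype.1 hr)
  · rw [hzr]; exact hl.trees j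
  · rw [hzr]; exact hl.lines j
  · rw [Fintype.card_coe]
    unfold szB
    omega
  · rintro s k S hS hr ⟨g, hg, g1, g2, g3, g4, g5, g6⟩
    obtain ⟨g7, g8, -⟩ := h.fam.gh g hg
    have hlast : IsLast F₀ g.1 := ⟨g7, h.fam.last g hg⟩
    obtain ⟨e1, e2⟩ := h4 ⟨g.1.root, root_mem_lab g7⟩ g.1 hlast rfl
    obtain ⟨e3, e4⟩ := h4 k S hS hr
    refine ⟨⟨g.1.root, root_mem_lab g7⟩, ?_, ?_, ?_, ?_, ?_⟩
    · have := h5 g hg ⟨g.1.root, root_mem_lab g7⟩ k rfl (by rw [g1]; exact hr.symm)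
      rwa [g2] at this
    · rw [e2]; exact g3
    · rw [e4]; exact g4
    · rw [e1, e3]; exact g5
    · rw [e1, e3]; exact g6

/-- **The outputs of the deterministic analysis** over a base structure with `c₀ + 1` components,
some lines beginning at ghost contacts. -/
theorem detOut_kc (hΦ : IsPotential Φ) (hε : 0 < ε) (h : SBase Φ ε T F₀ G₀ D₀ X)
    (hl : SLab T₀ l F₀ G₀ (c₀ + 1) R₀) {w : Finset Ph} (hzw : ∀ σ ∈ lab F₀, σ ∉ wS w)
    (hxw : ∀ σ ∈ lab F₀, σ ∉ D₀ → X σ ∉ wS w) {J N : ℕ} {ins all : Set Src}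
    {Lv : CTree → Prop} {Lg : Bool → Gh → Prop} {s : ℝ} (ht : t ≤ T) (hs : s ≤ t)
    (hall : ∀ σ ∈ all, σ ∈ wS w ∨ ∃ τ ∈ lab F₀, τ ∉ D₀ ∧ X τ = σ)
    (hins : ∀ σ ∈ ins, ∃ τ ∈ lab F₀, τ ∉ D₀ ∧ X τ = σ) (hia : ins ⊆ all)
    (hb : ∀ S, IsLast F₀ S → S.root ∉ D₀ →
      ((X S.root).1 = ext Φ ε S ∨ s ≠ (X S.root).1) ∨ SKc Φ ε G₀ s S)
    (hO : DetOut hΦ hε L (wS w : Set Src) ins all Lv Lg t J N s) :
    LawC hΦ hε L T J c₀ (szB F₀ G₀ + 2 * N) T₀ l w ins := by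
  obtain ⟨κ, i1, i2, z, x, D, Q, R, h1, h2, h3, h4, h5, h6, h7, h8, h9, h10⟩ :=
    h.exists_base_kc hΦ hε hl
  have hfind : ∀ τ ∈ lab F₀, τ ∉ D₀ → ∃ k ∉ D, x k = X τ := by
    intro τ hτ hτD
    obtain ⟨k, rfl⟩ := h8 τ hτ
    exact ⟨k, fun h' => hτD ((h6 k).1 h'), h7 k⟩
  have hO' : DetOut hΦ hε L (wS w : Set Src) ins all Lv Lg T J N s := by
    cases hO with
    | clean σ hσ h' => exact .clean σ hσ (h'.mono' ht (by linarith))
    | closed F G hB σ hσ hσF hJ hc => exact .closed F G hB σ hσ hσF hJ hc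
    | irr F G es hB σ hσ hσF hJ hI => exact .irr F G es hB σ hσ hσF hJ hI
  have h11 := h1.of_detOut_kc hΦ hε h2 h3 (fun k => hzw _ (h5 k))
    (fun k hk => by
      rw [h7 k]
      exact hxw _ (h5 k) fun h' => hk ((h6 k).2 h')) (hs.trans ht)
    (fun σ hσ => by
      rcases hall σ hσ with h' | ⟨τ, hτ, hτD, rfl⟩
      · exact Or.inl h'
      · exact Or.inr (hfind τ hτ hτD))
    (fun σ hσ => by
      refine ⟨hia hσ, ?_⟩
      obtain ⟨τ, hτ, hτD, rfl⟩ := hins σ hσ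
      exact hxw τ hτ hτD)
    (fun k hk => by
      have hk' : z k ∉ D₀ := fun h' => hk ((h6 k).2 h')
      obtain ⟨S, hS, hr, -, -⟩ := h.lst (z k) (h5 k) hk'
      rcases hb S hS (by rw [hr]; exact hk') with h' | h'
      · rw [h7 k, h9 k S hS hr]
        rw [hr] at h'
        exact Or.inl (h'.imp Eq.symm id)
      · exact Or.inr (h10 s k S hS hr h')) hO'
  refine h11.imp id (Or.imp (PrgC.mono le_rfl ?_) (Or.imp (PrgO.mono le_rfl ?_)
    (IrrO.mono le_rfl ?_))) <;> omega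

/-- **The failures of the good event** over a base structure with `c₀ + 1` components: every line
begins at the end of the last history or at a ghost contact of the base. -/
theorem not_good_kc (hΦ : IsPotential Φ) (hε : 0 < ε) (h : SBase Φ ε T F₀ G₀ D₀ X)
    (hl : SLab T₀ l F₀ G₀ (c₀ + 1) R₀) {w : Finset Ph} (hzw : ∀ σ ∈ lab F₀, σ ∉ wS w)
    (hxw : ∀ σ ∈ lab F₀, σ ∉ D₀ → X σ ∉ wS w)
    (hb : ∀ S, IsLast F₀ S → S.root ∉ D₀ →
      (X S.root).1 = ext Φ ε S ∨ SKc Φ ε G₀ (X S.root).1 S) {K : Finset Src}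
    (hK : ∀ σ ∈ K, (0 ≤ σ.1 ∧ σ.2.2 ≤ L) ∧ ∃ τ ∈ lab F₀, τ ∉ D₀ ∧ X τ = σ) (ht : t ≤ T)
    (hg : ¬M.Good Φ ε L (wS w) PB.sgl K t) (J : ℕ) :
    LawC hΦ hε L T J c₀ (szB F₀ G₀ + 2 * Nb0 L J) T₀ l w K := by
  have hV : ((wS w : Finset Src) : Set Src).Finite := (wS w).finite_toSet
  have hnot : ∀ σ ∈ K, σ ∉ wS w := by
    intro σ hσ
    obtain ⟨-, τ, hτ, hτD, rfl⟩ := hK σ hσ
    exact hxw τ hτ hτD
  have hb' : ∀ s : ℝ, ∀ S, IsLast F₀ S → S.root ∉ D₀ →
      ((X S.root).1 = ext Φ ε S ∨ s ≠ (X S.root).1) ∨ SKc Φ ε G₀ s S := by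
    intro s S hS hD
    rcases hb S hS hD with h' | h'
    · exact Or.inl (Or.inl h')
    · by_cases hs : s = (X S.root).1
      · rw [← hs] at h'
        exact Or.inr h'
      · exact Or.inl (Or.inr hs)
  have hmono : ∀ {A : Set Src}, A ⊆ K → ∀ {N : ℕ}, LawC hΦ hε L T J c₀ N T₀ l w A →
      LawC hΦ hε L T J c₀ N T₀ l w K := by
    intro A hA N hh
    exact hh.imp (fun ⟨σ, hσ, h'⟩ => ⟨σ, hA hσ, h'⟩) id
  rcases not_good_cases (fun a ha => by
      obtain ⟨p, -, rfl⟩ := mem_wS.1 ha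
      exact ⟨le_rfl, Nat.zero_le _⟩)
    (fun i hi a ha => by
      rw [show a = i from Finset.mem_singleton.1 ha]
      exact (hK i hi).1) hg with ⟨i, hi, h1⟩ | ⟨i, hi, j, hj, hij, h1⟩
  · have hs1 : ((PB.sgl i : Finset Src) : Set Src) = {i} := Finset.coe_singleton i
    rw [hs1] at h1
    obtain ⟨s, hs, h2⟩ := exists_detOut_one hΦ hε hV (finite_singleton i)
      (Set.disjoint_singleton_right.2 fun h' => hnot i hi h') subset_rfl h1 J
    refine hmono (A := {i}) (by rwa [Set.singleton_subset_iff]) (h.detOut_kc hΦ hε hl hzw hxw ht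
      hs ?_ ?_ subset_union_right (hb' s) h2)
    · rintro σ (hσ | hσ)
      · exact Or.inl hσ
      · rw [mem_singleton_iff.1 hσ]
        exact Or.inr (hK i hi).2
    · intro σ hσ
      rw [mem_singleton_iff.1 hσ]
      exact (hK i hi).2
  · have hs1 : ((PB.sgl i : Finset Src) : Set Src) = {i} := Finset.coe_singleton i
    have hs2 : ((PB.sgl j : Finset Src) : Set Src) = {j} := Finset.coe_singleton j
    rw [hs1, hs2] at h1
    obtain ⟨s, hs, h2⟩ := exists_detOut_two hΦ hε hV (finite_singleton i) (finite_singleton j)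
      (Set.disjoint_singleton.2 hij) subset_rfl h1 J
    have hsub : ∀ σ ∈ ({i} ∪ {j} : Set Src), σ ∈ K := by
      rintro σ (hσ | hσ)
      · rw [mem_singleton_iff.1 hσ]; exact hi
      · rw [mem_singleton_iff.1 hσ]; exact hj
    refine hmono (A := {i} ∪ {j}) hsub (h.detOut_kc hΦ hε hl hzw hxw ht hs ?_
      (fun σ hσ => (hK σ (hsub σ hσ)).2) ?_ (hb' s) h2)
    · rintro σ ((hσ | hσ) | hσ)
      · exact Or.inl hσ
      · exact Or.inr (hK σ (hsub σ (Or.inl hσ))).2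
      · exact Or.inr (hK σ (hsub σ (Or.inr hσ))).2
    · rintro σ (hσ | hσ)
      · exact Or.inl (Or.inr hσ)
      · exact Or.inr hσ

end SBase

end Vale.Agent.P119.IND
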