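import Vale.Agent.P119.IND.PairBase
import Vale.Agent.P119.IND.DetKc

/-!
# P119, block IND: base structures with one more tree, lines which begin at a ghost (`helper256`)

`KBase`, `PBase.kbase`, `KBase.law_not_good`, `KBase.add_tree`, `KBase.law_not_goodK` are in
`IND/PairBase.lean` (`helper185`, the same statements).
-/

open Set
open scoped ENNReal

noncomputable section

namespace Vale.Agent.P119.IND

open KU M M.CTree TL GC AU PB

variable {Φ : E3 → ℝ} {ε T : ℝ}

namespace KBase

variable {F₀ : Finset CTree} {G₀ : List Gh} {D₀ : Set Src} {X : Src → Src}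

theorem births (h : KBase Φ ε T F₀ G₀ D₀ X) (S : CTree) (hS : IsLast F₀ S) (hD : S.root ∉ D₀) :
    (X S.root).1 = ext Φ ε S ∨ SKc Φ ε G₀ (X S.root).1 S := h.exact S hS hD

end KBase

end Vale.Agent.P119.IND
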