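import Vale.Agent.P119.IND.Mk
import Vale.Agent.P119.IND.AddTree
import Vale.Agent.P119.PB.Lam6d

/-!
# P119, block IND: laws of marked pairs (`helper228`)

* `szB_tree_le`, `szB_pair_le`: sizes;
* `MLaw`: the laws of the marked pairs over `m` trees and `q` free lines;
* `X1`: the exceptional terms of the second events vanish under the laws of the marked pairs;
* `Mk.energy`: the energies of the marked lines are bounded by the energy of the base structure.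
-/

open MeasureTheory Filter Topology Set
open scoped ENNReal NNReal

set_option linter.unusedSectionVars false

noncomputable section

namespace Vale.Agent.P119.IND

open KU FL M M.CTree TL GC MM AU PB.CT

variable {Φ : E3 → ℝ} {ε T t u : ℝ}

/-! ### Sizes -/

theorem szB_tree_le {L : ℕ} {R : CTree} (hR : R.depth ≤ L) : szB (partsF R) [] ≤ 2 * 2 ^ (L + 2) := by
  have h1 := card_partsF_le hR
  have h2 := card_lab_le (partsF R)
  have h3 := card_nl_le (partsF R)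
  unfold szB
  simp only [List.length_nil]
  omega

theorem szB_pair_le {L : ℕ} [DecidableEq CTree] {x y : CTree} (hx : x.depth ≤ L)
    (hy : y.depth ≤ L) (g : Gh) : szB (partsF x ∪ partsF y) [g] ≤ 4 * 2 ^ (L + 2) + 1 := by
  have h1 := card_partsF_le hx
  have h1' := card_partsF_le hy
  have h2 := card_lab_le (partsF x ∪ partsF y)
  have h3 := card_nl_le (partsF x ∪ partsF y)
  have h4 := Finset.card_union_le (partsF x) (partsF y)
  unfold szB
  simp only [List.length_singleton]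
  omega

/-! ### The laws -/

/-- **A law of marked pairs**: `m` trees and `q` free lines (births `s`, depths `dl`), a weight `W`, and
the two sources `e`, `k`. -/
structure MLaw (Φ : E3 → ℝ) (ε t c : ℝ) (L N : ℕ) {m q : ℕ} (s : Fin q → ℝ) (dl : Fin q → ℕ)
    (W : (Fin m → CTree) → (Fin q → Ph) → ℝ≥0∞) (e k : (Fin m → CTree) → (Fin q → Ph) → Src)
    (CW : ℝ≥0∞) : Prop where
  meas : Measurable fun p : (Fin m → CTree) × (Fin q → Ph) => W p.1 p.2
  meas_e : Measurable fun p : (Fin m → CTree) × (Fin q → Ph) => e p.1 p.2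
  meas_k : Measurable fun p : (Fin m → CTree) × (Fin q → Ph) => k p.1 p.2
  le : ∀ T l, W T l ≤ CW * ENNReal.ofReal (Real.exp (c * enB T l))
  nonneg : ∀ j, 0 ≤ s j
  base : ∀ T l, W T l ≠ 0 → Base Φ ε T (lns s dl l)
  dep : ∀ T l, W T l ≠ 0 → (e T l).2.2 ≤ L ∧ (k T l).2.2 ≤ L
  mrk : ∀ T l, W T l ≠ 0 → Mk Φ ε t N T (lns s dl l) (e T l) (k T l)

/-- **The exceptional terms of the second events vanish** under the laws of the marked pairs. -/
def X1 (hΦ : IsPotential Φ) (f₀ : Ph → ℝ) (b c : ℝ) : Prop :=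
  ∀ (m q L N : ℕ) (T₀ η θ : ℝ), 0 < m → 0 ≤ T₀ → 0 < η → 0 < θ →
    ∃ Dl : ℝ → ℝ≥0∞, Tendsto Dl (𝓝[>] 0) (𝓝 0) ∧ ∀ (ε : ℝ) (hε : 0 < ε), ε ≤ 1 →
      ∀ t ∈ Icc 0 T₀, ∀ (s : Fin q → ℝ) (dl : Fin q → ℕ)
        (W : (Fin m → CTree) → (Fin q → Ph) → ℝ≥0∞) (e k : (Fin m → CTree) → (Fin q → Ph) → Src)
        (CW : ℝ≥0∞), CW ≠ ∞ → MLaw Φ ε t c L N s dl W e k CW →
        muE ε ^ q * ∫⁻ T, ∫⁻ l : Fin q → Ph, (∏ j, g1 b (l j).2) * (W T l *
          PB.exc6 L hΦ hε f₀ η θ t (e T l) (k T l)) ∂volume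
          ∂(Measure.pi fun _ : Fin m => tree (inten f₀ ε) L) ≤ CW * (muE ε * Dl ε)

/-! ### Energies -/

/-- The leaves as a finset. -/
def lvF (T : CTree) : Finset Src := T.leaves_finite.toFinset

theorem mem_lvF {T : CTree} {σ : Src} : σ ∈ lvF T ↔ σ ∈ T.leaves := Set.Finite.mem_toFinset _

theorem enT_eq {R : CTree} (hR : CTree.ok Φ ε R) : enT R = ∑ σ ∈ lvF R, ‖σ.2.1.2‖ ^ 2 := by
  classical
  induction R with
  | leaf σ =>
    have e : lvF (leaf σ) = {σ} := by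
      ext τ
      rw [mem_lvF, Finset.mem_singleton]
      exact Iff.rfl
    rw [e, Finset.sum_singleton]
    rfl
  | node a b iha ihb =>
    have e : lvF (node a b) = lvF a ∪ lvF b := by
      ext τ
      rw [mem_lvF, Finset.mem_union, mem_lvF, mem_lvF]
      exact Iff.rfl
    have hd : Disjoint (lvF a) (lvF b) := by
      rw [Finset.disjoint_left]
      intro σ h1 h2
      exact Set.disjoint_left.1 hR.2.2.1 (mem_lvF.1 h1) (mem_lvF.1 h2)
    rw [e, Finset.sum_union hd, ← iha hR.1, ← ihb hR.2.1]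
    rfl

/-- The energy of the labels is bounded by the energy of the base structure. -/
theorem MLab.energy {m q : ℕ} {T₀ : Fin m → CTree} {s : Fin q → ℝ} {dl : Fin q → ℕ}
    {l : Fin q → Ph} {F : Finset CTree} (hB : Base Φ ε T₀ (lns s dl l))
    (h : MLab T₀ (lns s dl l) F) {A : Finset Src} (hA : A ⊆ lab F) :
    ∑ σ ∈ A, ‖σ.2.1.2‖ ^ 2 ≤ enB T₀ l := by
  classical
  have h1 : A ⊆ (Finset.univ.biUnion fun j => lvF (T₀ j)) ∪ Finset.univ.image (lns s dl l) := by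
    intro σ hσ
    rcases h.mem σ (hA hσ) with ⟨j, h2⟩ | ⟨j, h2⟩
    · exact Finset.mem_union_left _ (Finset.mem_biUnion.2 ⟨j, Finset.mem_univ _, mem_lvF.2 h2⟩)
    · exact Finset.mem_union_right _ (Finset.mem_image.2 ⟨j, Finset.mem_univ _, h2⟩)
  have h2 : ∑ σ ∈ A, ‖σ.2.1.2‖ ^ 2 ≤ ∑ σ ∈ (Finset.univ.biUnion fun j => lvF (T₀ j)) ∪
      Finset.univ.image (lns s dl l), ‖σ.2.1.2‖ ^ 2 :=
    Finset.sum_le_sum_of_subset_of_nonneg h1 fun _ _ _ => sq_nonneg _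
  have h3 : Disjoint (Finset.univ.biUnion fun j => lvF (T₀ j))
      (Finset.univ.image (lns s dl l)) := by
    rw [Finset.disjoint_left]
    intro σ h4 h5
    obtain ⟨i, -, h6⟩ := Finset.mem_biUnion.1 h4
    obtain ⟨j, -, h7⟩ := Finset.mem_image.1 h5
    exact hB.notMem i j (by rw [h7]; exact mem_lvF.1 h6)
  have h4 : ∑ σ ∈ Finset.univ.biUnion fun j => lvF (T₀ j), ‖σ.2.1.2‖ ^ 2 =
      ∑ j, ∑ σ ∈ lvF (T₀ j), ‖σ.2.1.2‖ ^ 2 := by
    refine Finset.sum_biUnion fun i _ j _ hij => ?_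
    rw [Function.onFun, Finset.disjoint_left]
    intro σ h5 h6
    exact Set.disjoint_left.1 (hB.disj i j hij) (mem_lvF.1 h5) (mem_lvF.1 h6)
  have h5 : ∑ σ ∈ Finset.univ.image (lns s dl l), ‖σ.2.1.2‖ ^ 2 =
      ∑ j, ‖(lns s dl l j).2.1.2‖ ^ 2 := Finset.sum_image fun i _ j _ hij => hB.inj hij
  rw [Finset.sum_union h3, h4, h5] at h2
  refine h2.trans (le_of_eq ?_)
  unfold enB
  congr 1
  exact Finset.sum_congr rfl fun j _ => (enT_eq (hB.ok j)).symm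

/-- **The energies of the marked lines.** -/
theorem Mk.energy {m q N : ℕ} (hΦ : IsPotential Φ) (hε : 0 < ε) {T₀ : Fin m → CTree}
    {s : Fin q → ℝ} {dl : Fin q → ℕ} {l : Fin q → Ph} {e k : Src}
    (hB : Base Φ ε T₀ (lns s dl l)) (h : Mk Φ ε t N T₀ (lns s dl l) e k) :
    ‖e.2.1.2‖ ^ 2 ≤ enB T₀ l ∧ ‖k.2.1.2‖ ^ 2 ≤ enB T₀ l := by
  obtain ⟨F, G, E, S, h1, h2, -, -, h5, h6⟩ := h
  have key : ∀ P ∈ F, ‖(ln Φ ε P).2‖ ^ 2 ≤ enB T₀ l := by
    intro P hP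
    refine (ln_sq_le_enT hΦ hε.ne' P).trans ?_
    rw [enT_eq (h1.fam.ok P hP)]
    refine h2.energy hB fun σ hσ => ?_
    exact Finset.mem_coe.1 (h1.fam.leaves_lab hP (mem_lvF.1 hσ))
  rw [h5, h6]
  exact ⟨key E h1.lastE.mem, key S h1.lastS.mem⟩

/-- The births of the marked lines. -/
theorem Mk.births {m q N : ℕ} (hΦ : IsPotential Φ) (hε : 0 < ε) {T₀ : Fin m → CTree}
    {l : Fin q → Src} {e k : Src} (h : Mk Φ ε t N T₀ l e k) :
    (0 ≤ e.1 ∧ e.1 ≤ t) ∧ (0 ≤ k.1 ∧ k.1 ≤ t) := by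
  obtain ⟨F, G, E, S, h1, h2, -, h4, h5, h6⟩ := h
  refine ⟨⟨?_, ?_⟩, h1.nonneg hΦ hε, h1.le⟩
  · rw [h4]; exact ext_nonneg hΦ hε (h1.fam.ok _ h1.lastE.mem)
  · rw [h4]; exact h1.fam.ext_le _ h1.lastE.mem

end Vale.Agent.P119.IND
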