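import Vale.Agent.P119.IND.MBaseK
import Vale.Agent.P119.IND.MLaw
import Vale.Agent.P119.PB.HitLaw2
import Vale.Agent.P119.PB.RealLim

/-!
# P119, block IND: a marked line hits a tree, base structure with all the lines of the tree (`helper384`)

* `XK Φ ε R ρ e`: the lines: the root of `R` is reborn at the time `ρ`, the other labels are seen
  as `e`;
* **`MBase.hitK`**: a marked base `E`, `S` whose second line hits a tree `R`: the base structure
  (`KBase` of `helper185`) where the gas sees the first line and all the lines of `R`;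
* **`Mk.hasBaseK`**: the same for a marked pair of lines (`HasBaseK` of `helper256`).
-/

open Set
open scoped ENNReal

set_option linter.unusedSectionVars false

noncomputable section

namespace Vale.Agent.P119.IND

open KU M M.CTree TL GC AU PB

variable {Φ : E3 → ℝ} {ε T t ρ : ℝ} {F : Finset CTree} {G : List Gh} {E S R : CTree} {e k : Src}

/-- The lines seen by the gas: the root of `R` is reborn at the time `ρ`. -/
def XK (Φ : E3 → ℝ) (ε : ℝ) (R : CTree) (ρ : ℝ) (e : Src) (σ : Src) : Src := by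
  classical
  exact if h : ∃ x ∈ outs R, x.root = σ then msrc Φ ε (rho Φ ε R ρ) h.choose else e

theorem XK_out (hR : CTree.ok Φ ε R) {x : CTree} (hx : x ∈ outs R) :
    XK Φ ε R ρ e x.root = msrc Φ ε (rho Φ ε R ρ) x := by
  have h : ∃ x' ∈ outs R, x'.root = x.root := ⟨x, hx, rfl⟩
  unfold XK
  rw [dif_pos h, outs_root_inj hR h.choose_spec.1 hx h.choose_spec.2]

theorem XK_of_notMem {σ : Src} (h : σ ∉ R.leaves) : XK Φ ε R ρ e σ = e := by
  unfold XK
  rw [dif_neg]
  rintro ⟨x, hx, rfl⟩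
  exact h (outs_leaves hx x.root_mem_leaves)

theorem XK_root (hR : CTree.ok Φ ε R) : XK Φ ε R ρ e R.root = (ρ, ln Φ ε R, R.depth) := by
  rw [XK_out hR (Or.inl rfl), msrc_rho_self]

/-- **A marked line hits a tree**: the base structure where the gas sees the first marked line and all
the lines of the tree, the root of which is reborn at the time of the hit. -/
theorem MBase.hitK [DecidableEq CTree] (hΦ : IsPotential Φ) (hε : 0 < ε)
    (h : MBase Φ ε T F G E S k.1) (he : e.1 = ext Φ ε E) (heL : e.2.1 = ln Φ ε E)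
    (hkL : k.2.1 = ln Φ ε S) (hR : CTree.ok Φ ε R) (hd : ∀ σ ∈ R.leaves, σ ∉ lab F)
    (hm : Meets ε (k.2.1, ln Φ ε R)) (hu : k.1 < hitT ε (k.2.1, ln Φ ε R))
    (hRu : ext Φ ε R < hitT ε (k.2.1, ln Φ ε R)) (hT : hitT ε (k.2.1, ln Φ ε R) ≤ T) :
    ∃ G', G'.Perm ((S, R, hitT ε (k.2.1, ln Φ ε R)) :: G) ∧
      MBase Φ ε T (F ∪ partsF R) G' E R (hitT ε (k.2.1, ln Φ ε R)) ∧
      KBase Φ ε T (F ∪ partsF R) G' {σ | σ ∉ R.leaves ∧ σ ≠ E.root}
        (XK Φ ε R (hitT ε (k.2.1, ln Φ ε R)) e) := by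
  rw [hkL] at hm hu hRu hT ⊢
  obtain ⟨G', p1, p2⟩ := h.ghost hΦ hε hR hd hm hu hRu hT
  refine ⟨G', p1, p2, p2.fam, fun g hg => ?_, fun g hg hgD => ?_, fun σ hσ hσD => ?_⟩
  · rcases List.mem_cons.1 (p1.subset hg) with rfl | h4
    · exact ⟨fun h5 => hd _ h5 h.root_mem_S, h.ne.symm⟩
    · exact ⟨fun h5 => hd _ h5 (root_mem_lab (h.fam.gh g h4).1), (h.gE g h4).1⟩
  · rcases List.mem_cons.1 (p1.subset hg) with rfl | h4
    · change _ ≤ (XK Φ ε R (hitT ε (ln Φ ε S, ln Φ ε R)) e R.root).1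
      rw [XK_root hR]
    · exact absurd ⟨fun h5 => hd _ h5 (root_mem_lab (h.fam.gh g h4).2.1), (h.gE g h4).2⟩ hgD
  · by_cases h5 : σ ∈ R.leaves
    · obtain ⟨x, hx, rfl⟩ := TL.exists_out h5
      refine ⟨x, (isLast_of_outs hR hx).union_right (MBase.not_mem_lab hd), rfl, ?_, ?_⟩
      · rw [XK_out hR hx]; rfl
      · rcases hx with rfl | hx
        · right
          rw [XK_root hR]
          exact ⟨_, p1.symm.subset List.mem_cons_self, rfl, rfl, h.ext_le.trans_lt hu, hRu, hm, rfl⟩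
        · left
          rw [XK_out hR (Or.inr hx), msrc_rho_exs hR hx]
          rfl
    · have h6 : σ = E.root := by
        by_contra h7
        exact hσD ⟨h5, h7⟩
      subst h6
      refine ⟨E, p2.lastE, rfl, ?_, Or.inl ?_⟩
      · rw [XK_of_notMem h5, heL]
      · rw [XK_of_notMem h5, he]

/-- The labels, with one more tree. -/
theorem MLab.snoc {m q : ℕ} [DecidableEq CTree] {T₀ : Fin m → CTree} {l : Fin q → Src}
    (h : MLab T₀ l F) (R : CTree) :
    MLab (Fin.snoc T₀ R : Fin (m + 1) → CTree) l (F ∪ partsF R) := by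
  refine ⟨fun σ hσ => ?_, fun j σ hσ => ?_, fun j => ?_⟩
  · rcases (MBase.mem_lab_union' σ).1 hσ with h1 | h1
    · rcases h.mem σ h1 with ⟨j, h2⟩ | h2
      · refine Or.inl ⟨j.castSucc, ?_⟩
        rw [Fin.snoc_castSucc]
        exact h2
      · exact Or.inr h2
    · refine Or.inl ⟨Fin.last m, ?_⟩
      rw [Fin.snoc_last]
      exact h1
  · refine Finset.mem_coe.2 ((MBase.mem_lab_union' σ).2 ?_)
    induction j using Fin.lastCases with
    | last =>
      rw [Fin.snoc_last] at hσ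
      exact Or.inr hσ
    | cast j =>
      rw [Fin.snoc_castSucc] at hσ
      exact Or.inl (Finset.mem_coe.1 (h.trees j hσ))
  · exact (MBase.mem_lab_union' _).2 (Or.inl (h.lines j))

/-- **A marked pair of lines, the second of which hits a tree**: base structure with one class, the
lines of which are the first line and all the lines of the tree. -/
theorem Mk.hasBaseK {L m q N : ℕ} {T₀ : Fin m → CTree} {l : Fin q → Src} (hΦ : IsPotential Φ)
    (hε : 0 < ε) (h : Mk Φ ε t N T₀ l e k)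
    (hB : Base Φ ε (Fin.snoc T₀ R : Fin (m + 1) → CTree) l) (hed : e.2.2 ≤ L) (hRd : R.depth ≤ L)
    (hm : Meets ε (k.2.1, ln Φ ε R)) (hu : k.1 < hitT ε (k.2.1, ln Φ ε R))
    (hRu : ext Φ ε R < hitT ε (k.2.1, ln Φ ε R)) (hT : hitT ε (k.2.1, ln Φ ε R) ≤ t)
    (htT : t ≤ T) :
    HasBaseK Φ ε T L 1 (N + 2 * 2 ^ (L + 2) + 2) (Fin.snoc T₀ R : Fin (m + 1) → CTree) l
      (insert e (krs Φ ε R (hitT ε (k.2.1, ln Φ ε R)))) (outs R) := by
  classical
  obtain ⟨F, G, E, S, h1, h2, h3, h4, h5, h6⟩ := h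
  have hR : CTree.ok Φ ε R := by
    have := hB.ok (Fin.last m)
    rwa [Fin.snoc_last] at this
  have hd : ∀ σ ∈ R.leaves, σ ∉ lab F := by
    intro σ hσ hσF
    rcases h2.mem σ hσF with ⟨j, hj⟩ | ⟨j, rfl⟩
    · have h7 := hB.disj j.castSucc (Fin.last m) (Fin.castSucc_lt_last j).ne
      rw [Fin.snoc_castSucc, Fin.snoc_last] at h7
      exact Set.disjoint_left.1 h7 hj hσ
    · have h7 := hB.notMem (Fin.last m) j
      rw [Fin.snoc_last] at h7
      exact h7 hσ
  obtain ⟨G', p1, p2, p3⟩ := (h1.mono_T htT).hitK hΦ hε h4 h5 h6 hR hd hm hu hRu (hT.trans htT)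
  obtain ⟨R₀, h7⟩ := (h2.snoc R).slab (Nat.succ_pos m) hB p2.jn
  refine ⟨_, G', _, _, R₀, p3, h7, ?_, fun σ hσ => ?_, fun x hx => ⟨outs_ok hΦ hR hx,
    fun σ hσ => ?_⟩⟩
  · have h8 := MBase.card_perm (F := F) (R := R) p1
    have h9 := XT.card_partsF_le hRd
    omega
  · rcases Finset.mem_insert.1 hσ with rfl | hσ
    · refine ⟨⟨?_, hed⟩, E.root, p2.root_mem_E, fun h8 => h8.2 rfl, ?_⟩
      · rw [h4]
        exact M.ext_nonneg hΦ hε (h1.fam.ok _ h1.lastE.mem)
      · exact XK_of_notMem fun h8 => hd _ h8 h1.root_mem_E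
    · obtain ⟨x, hx, rfl⟩ := (mem_krs hR).1 hσ
      have h8 : x.root ∈ R.leaves := outs_leaves hx x.root_mem_leaves
      refine ⟨⟨?_, (outs_depth hx).trans hRd⟩, x.root, (MBase.mem_lab_union' _).2 (Or.inr h8),
        fun h9 => h9.1 h8, XK_out hR hx⟩
      rcases hx with rfl | hx
      · change 0 ≤ rho Φ ε x _ x
        rw [rho_self]
        exact (h1.nonneg hΦ hε).trans hu.le
      · change 0 ≤ rho Φ ε R _ x
        rw [rho_exs hR hx]
        exact M.ext_nonneg hΦ hε (outs_ok hΦ hR (Or.inr hx))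
  · have h8 : σ ∈ lab (F ∪ partsF R) := (MBase.mem_lab_union' _).2 (Or.inr (outs_leaves hx hσ))
    exact ⟨h8, p2.jn σ h8 _ ((MBase.mem_lab_union' _).2 (Or.inr
      (outs_leaves hx x.root_mem_leaves)))⟩

end Vale.Agent.P119.IND
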