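import Vale.Agent.P119.IND.Mk
import Vale.Agent.P119.IND.PairBase

/-!
# P119, block IND: marked pairs and base structures (`helper228`)

* `mX`, **`MBase.kbase`**: a base with two marked last histories is a base structure (`KBase` of
  `helper185`) where only the two marked lines are seen;
* **`Mk.kbase`**: the same for a marked pair of lines, with the labels `SLab`.
-/

open Set
open scoped ENNReal

set_option linter.unusedSectionVars false

noncomputable section

namespace Vale.Agent.P119.IND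

open KU M M.CTree TL GC AU PB

variable {Φ : E3 → ℝ} {ε T t : ℝ} {F : Finset CTree} {G : List Gh} {E S : CTree} {e k : Src}

/-- The two lines seen by the gas. -/
def mX (τ : Src) (e k : Src) (σ : Src) : Src := by
  classical
  exact if σ = τ then e else k

theorem mX_self {τ : Src} : mX τ e k τ = e := by
  unfold mX
  rw [if_pos rfl]

theorem mX_of_ne {τ σ : Src} (h : σ ≠ τ) : mX τ e k σ = k := by
  unfold mX
  rw [if_neg h]

/-- **A base with two marked last histories** is a base structure which sees the two marked lines. -/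
theorem MBase.kbase (h : MBase Φ ε T F G E S k.1) (he : e.1 = ext Φ ε E)
    (heL : e.2.1 = ln Φ ε E) (hkL : k.2.1 = ln Φ ε S) :
    KBase Φ ε T F G {σ | σ ≠ E.root ∧ σ ≠ S.root} (mX E.root e k) := by
  refine ⟨h.fam, fun g hg => ⟨(h.gE g hg).1, h.gS g hg⟩, fun g hg h1 => ?_, fun σ hσ h1 => ?_⟩
  · by_cases h2 : g.2.1.root = E.root
    · exact absurd h2 (h.gE g hg).2
    · by_cases h3 : g.2.1.root = S.root
      · rw [h3, mX_of_ne (Ne.symm h.ne)]
        exact h.tS g hg h3
      · exact absurd ⟨h2, h3⟩ h1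
  · by_cases h2 : σ = E.root
    · subst h2
      rw [mX_self]
      exact ⟨E, h.lastE, rfl, heL, Or.inl he⟩
    · by_cases h3 : σ = S.root
      · subst h3
        rw [mX_of_ne h2]
        exact ⟨S, h.lastS, rfl, hkL, h.bir⟩
      · exact absurd ⟨h2, h3⟩ h1

/-- **A marked pair of lines** gives a base structure with one component. -/
theorem Mk.kbase {m q N : ℕ} {T₀ : Fin m → CTree} {l : Fin q → Src} (hm : 0 < m)
    (hB : Base Φ ε T₀ l) (h : Mk Φ ε t N T₀ l e k) :
    ∃ (F : Finset CTree) (G : List Gh) (D₀ : Set Src) (X : Src → Src) (τe τk : Src)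
      (R₀ : Finset Src), KBase Φ ε t F G D₀ X ∧ SLab T₀ l F G 1 R₀ ∧ szB F G ≤ N ∧
      τe ∈ lab F ∧ τe ∉ D₀ ∧ X τe = e ∧ τk ∈ lab F ∧ τk ∉ D₀ ∧ X τk = k ∧ τe ≠ τk ∧
      (∀ σ ∈ lab F, σ ∉ D₀ → σ = τe ∨ σ = τk) ∧ (∀ g ∈ G, g.1.root ≠ τe ∧ g.2.1.root ≠ τe) := by
  obtain ⟨F, G, E, S, h1, h2, h3, h4, h5, h6⟩ := h
  obtain ⟨R₀, h7⟩ := h2.slab hm hB h1.jn
  refine ⟨F, G, _, _, E.root, S.root, R₀, h1.kbase h4 h5 h6, h7, h3, h1.root_mem_E,
    fun h8 => h8.1 rfl, mX_self, h1.root_mem_S, fun h8 => h8.2 rfl, mX_of_ne (Ne.symm h1.ne),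
    h1.ne, fun σ _ h8 => ?_, h1.gE⟩
  by_contra h9
  rw [not_or] at h9
  exact h8 h9

end Vale.Agent.P119.IND
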