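import Vale.Agent.P119.IND.HitNoExc
import Vale.Agent.P119.IND.MBaseK

/-!
# P119, block IND: the exceptional event `¬NoExc` for a marked pair (`helper810`)

* **`Mk.law_noExc`**: the line `k` of a marked pair `(e, k)` hits the tree `R`, over the world which
  consists of ordinary particles and of the line `e`: a failure of `NoExc` gives the alternatives of the
  laws for the structure with the tree `R`.
-/

open Set
open scoped ENNReal

set_option linter.unusedSectionVars false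

noncomputable section

namespace Vale.Agent.P119.IND

open KU M M.CTree TL GC AU PB RB _root_.Vale.Agent.P119.FB

variable {Φ : E3 → ℝ} {ε T t : ℝ} {L m q N : ℕ} {T₀ : Fin m → CTree} {l : Fin q → Src}
  {e k : Src} {R : CTree} {w : Finset Ph}

/-- The particles of the tree `R` are new. -/
theorem MLab.disj_snoc {F : Finset CTree} (h : MLab T₀ l F)
    (hB : Base Φ ε (Fin.snoc T₀ R : Fin (m + 1) → CTree) l) : ∀ σ ∈ lab F, σ ∉ R.leaves := by
  intro σ hσ hR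
  rcases h.mem σ hσ with ⟨j, h1⟩ | ⟨j, rfl⟩
  · have h2 := hB.disj j.castSucc (Fin.last m) (Fin.castSucc_lt_last j).ne
    rw [Fin.snoc_castSucc, Fin.snoc_last] at h2
    exact Set.disjoint_left.1 h2 h1 hR
  · have h2 := hB.notMem (Fin.last m) j
    rw [Fin.snoc_last] at h2
    exact h2 hR

/-- The base without the last tree. -/
theorem Base.of_snoc (hB : Base Φ ε (Fin.snoc T₀ R : Fin (m + 1) → CTree) l) :
    Base Φ ε T₀ l := by
  refine ⟨fun j => ?_, fun i j hij => ?_, hB.inj, fun i j => ?_⟩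
  · have h1 := hB.ok j.castSucc
    rwa [Fin.snoc_castSucc] at h1
  · have h1 := hB.disj i.castSucc j.castSucc fun h => hij (Fin.castSucc_injective m h)
    rwa [Fin.snoc_castSucc, Fin.snoc_castSucc] at h1
  · have h1 := hB.notMem i.castSucc j
    rwa [Fin.snoc_castSucc] at h1

/-- **A marked line hits a tree.** -/
structure HM (Φ : E3 → ℝ) (ε T : ℝ) (k : Src) (R : CTree) : Prop where
  meets : Meets ε (k.2.1, ln Φ ε R)
  exits : Exits Φ (rel ε (ln Φ ε R, k.2.1))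
  birth : k.1 < hitT ε (k.2.1, ln Φ ε R)
  extR : ext Φ ε R < hitT ε (k.2.1, ln Φ ε R)
  le : hitT ε (k.2.1, ln Φ ε R) ≤ T

theorem HM.sig_eq (k : Src) (R : CTree) :
    sig Φ ε (node R (leaf k)) = hitT ε (k.2.1, ln Φ ε R) := hitT_swap (k.2.1, ln Φ ε R)

/-- The marked base structure, hit by the tree. -/
theorem Mk.hb (hm : 0 < m) (hB : Base Φ ε (Fin.snoc T₀ R : Fin (m + 1) → CTree) l)
    (h : Mk Φ ε T N T₀ l e k) (hk : HM Φ ε T k R) :
    ∃ (F : Finset CTree) (G : List Gh) (D : Set Src) (X : Src → Src) (E S : CTree)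
      (R₀ : Finset Src), HB Φ ε T F G D X S R ∧ SLab T₀ l F G 1 R₀ ∧ MLab T₀ l F ∧
      szB F G ≤ N ∧ E.root ∈ lab F ∧ E.root ∉ D ∧ E.root ≠ S.root ∧ X E.root = e ∧
      X S.root = k ∧ ∀ σ ∈ lab F, σ ∉ D → X σ = e ∨ X σ = k := by
  obtain ⟨F, G, E, S, h1, h2, h3, h4, h5, h6⟩ := h
  obtain ⟨R₀, h7⟩ := h2.slab hm hB.of_snoc h1.jn
  have hok : CTree.ok Φ ε R := by
    have h8 := hB.ok (Fin.last m)
    rwa [Fin.snoc_last] at h8
  have hX : mX E.root e k S.root = k := mX_of_ne (Ne.symm h1.ne)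
  refine ⟨F, G, _, _, E, S, R₀, ⟨h1.kbase h4 h5 h6, h1.lastS, fun h8 => h8.2 rfl, hok,
    h2.disj_snoc hB, ?_, ?_, ?_, ?_, ?_⟩, h7, h2, h3, h1.root_mem_E, fun h8 => h8.1 rfl, h1.ne,
    mX_self, hX, fun σ _ h8 => ?_⟩
  · rw [hX]
    exact (meets_swap (k.2.1, ln Φ ε R)).2 hk.meets
  · rw [hX]
    exact hk.exits
  · rw [hX, HM.sig_eq]
    exact hk.birth
  · rw [hX, HM.sig_eq]
    exact hk.extR
  · rw [hX, HM.sig_eq]
    exact hk.le
  · by_cases h9 : σ = E.root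
    · subst h9
      exact Or.inl mX_self
    · exact Or.inr (mX_of_ne h9)

open Classical in
/-- **A failure of `NoExc`** over a marked pair. -/
theorem Mk.law_noExc (hΦ : IsPotential Φ) (hε : 0 < ε) (hT : 0 ≤ T) (hm : 0 < m)
    (hB : Base Φ ε (Fin.snoc T₀ R : Fin (m + 1) → CTree) l) (h : Mk Φ ε T N T₀ l e k)
    (hk : HM Φ ε T k R) (hRd : R.depth ≤ L) (hed : e.2.2 ≤ L) (hkd : k.2.2 ≤ L)
    (heR : e ∉ R.leaves) (hkR : k ∉ R.leaves)
    (hTw : ∀ j, ∀ σ ∈ (T₀ j).leaves, σ ∉ wS w) (hlw : ∀ j, l j ∉ wS w)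
    (hRw : ∀ σ ∈ R.leaves, σ ∉ wS w) (hew : e ∉ wS w) (hkw : k ∉ wS w)
    (hkA : ∀ σ ∈ kA Φ ε R k, σ ∉ wS w) (hkB : ∀ σ ∈ kB Φ ε R k, σ ∉ wS w)
    (hal : alive Φ ε L (addT (insert e (wS w)) R : Set Src) R (hitT ε (k.2.1, ln Φ ε R)))
    (ht : t ≤ T) (hno : ¬NoExc Φ ε L t k (insert e (wS w)) R) (J : ℕ) :
    LawC hΦ hε L T J 0 (N + 4 * 2 ^ (L + 2) + 3 + 2 * Nb0 L J)
      (Fin.snoc T₀ R : Fin (m + 1) → CTree) l w
      {σ | (σ = e ∨ σ ∈ kA Φ ε R k ∨ σ ∈ kB Φ ε R k) ∧ σ.1 ≤ t} := by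
  have hb : 0 ≤ e.1 := by
    obtain ⟨F, G, E, S, h1, -, -, h4, -⟩ := h
    rw [h4]
    exact M.ext_nonneg hΦ hε (h1.fam.ok _ h1.lastE.mem)
  obtain ⟨F, G, D, X, E, S, R₀, h1, h2, h3, h4, h5, h6, h7, rfl, rfl, h8⟩ := h.hb hm hB hk
  have h9 := h1.law_noExc (A := {X E.root}) (V := insert (X E.root) (wS w)) hΦ hε hT h2 hB hRd hkd
    (fun σ hσ => ?_) hRw (fun σ hσ hσD => ?_) hkA hkB (fun σ hσ => ?_) (fun a => ?_)
    (fun σ hσ hσD => ?_) (by rw [HM.sig_eq]; exact hal) ht hno J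
  · refine h9.imp (fun ⟨σ, hσ, h10⟩ => ⟨σ, ?_, h10⟩) (Or.imp (PrgC.mono le_rfl (by omega))
      (Or.imp (PrgO.mono le_rfl (by omega)) (IrrO.mono le_rfl (by omega))))
    exact ⟨hσ.1.imp_left Finset.mem_singleton.1, hσ.2⟩
  · rcases h3.mem σ hσ with ⟨j, h10⟩ | ⟨j, rfl⟩
    · exact hTw j σ h10
    · exact hlw j
  · rcases h8 σ hσ hσD with h10 | h10 <;> rw [h10]
    · exact hew
    · exact hkw
  · rw [Finset.mem_singleton] at hσ
    subst hσ
    exact ⟨⟨hb, hed⟩, E.root, h5, h6, h7, rfl⟩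
  · rw [Finset.mem_insert, Finset.mem_singleton]
    exact or_comm
  · rcases h8 σ hσ hσD with h10 | h10 <;> rw [h10]
    · exact heR
    · exact hkR

end Vale.Agent.P119.IND
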