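import Vale.Agent.P119.IND.Det

/-!
# P119, block IND: the family of an altered history (`helper498`)

`exists_open`: if the history `y` has different statuses at the time `s` in the two worlds `w false`,
`w true`, then there is an output `DetOut` before `s`, or a connected family (`OpenOut`) which contains
an inserted source and in which `y` (or the colliding pair of `y`) is last and not dropped.  The
consumer adds the contact of `y` at the time `s`.
-/

open MeasureTheory Filter Topology Set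
open scoped ENNReal NNReal

noncomputable section

namespace Vale.Agent.P119.IND

open KU M M.CTree TL

variable {Φ : E3 → ℝ} {ε : ℝ} {L : ℕ} {V₀ ins all : Set Src} {Lv : CTree → Prop}
  {Lg : Bool → Gh → Prop} {s t : ℝ} {m : ℕ}

/-- The family of an altered history `y` at the time `s`. -/
inductive OpenOut (Φ : E3 → ℝ) (ε : ℝ) (L : ℕ) (V₀ ins all : Set Src) (Lv : CTree → Prop)
    (Lg : Bool → Gh → Prop) (m : ℕ) (y : CTree) (s : ℝ) : Prop
  /-- `y` is flying -/
  | fly (F : Finset CTree) (G : List Gh) (σ : Src) (hB : BFam Φ ε s (Nb0 L m) all Lv Lg F G)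
      (hσ : σ ∈ ins) (hσF : σ ∈ lab F) (e : ext Φ ε y ≤ s) (hy : IsLast F y)
      (nd : ∀ g ∈ G, g.1.root ≠ y.root) (hJ : ∀ a ∈ lab F, FJ F G a σ)
      (only : ∀ a ∈ lab F, a ∉ V₀ → a = σ)
  /-- `y` is colliding -/
  | col (F : Finset CTree) (G : List Gh) (σ : Src) (hB : BFam Φ ε s (Nb0 L m) all Lv Lg F G)
      (hσ : σ ∈ ins) (hσF : σ ∈ lab F) (a b : CTree) (hy : y = node a b)
      (hok : ok Φ ε (node a b)) (h1 : sig Φ ε (node a b) ≤ s) (h2 : s < ext Φ ε (node a b))
      (ha : IsLast F a) (hb : IsLast F b)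
      (nd : ∀ g ∈ G, g.1.root ≠ a.root ∧ g.1.root ≠ b.root)
      (tg : ∀ g ∈ G, g.2.1.root = a.root ∨ g.2.1.root = b.root →
        g.2.2 ≤ sig Φ ε (node a b))
      (hJ : ∀ x ∈ lab F, FX F G [(a.root, b.root)] x σ)

section hd

variable {ι : Type*} [DecidableEq ι] {W : Finset ι → Set Src} {K : Finset ι} {s₀ : ℝ} {i : ι}
  {b : Bool} {T : CTree} {l : List (CTree × ℝ × CTree)} {σ : Src}

/-- The family of a head. -/
theorem Hd.openOut (hE : Env Φ ε L W K V₀ ins all Lv Lg s₀ t)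
    (h : Hd Φ ε L W K V₀ s₀ i m b T s l σ) :
    OpenOut Φ ε L V₀ ins all Lv Lg m T s ∨ Outp hE m := by
  have hF : ∀ P ∈ ([] : List CTree), Fu Φ ε L W K P s := fun P hP => absurd hP List.not_mem_nil
  have hr : ([] : List CTree).Pairwise fun P Q => P.root ≠ Q.root := List.Pairwise.nil
  obtain ⟨G, hG, hB⟩ := h.bfam hE hF hr (by simp)
  have hsc := h.sc hE hF hr
  have hW := wd_finite (W := W) hE.cube
  have mT : rc1 K i b T s ∈ hrc K i b T s l [] := List.mem_append_left _ List.mem_cons_self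
  have hsub : ∀ a b', node a b' ∈ famT Φ ε s (hrc K i b T s l []) →
      a ∈ famT Φ ε s (hrc K i b T s l []) ∧ b' ∈ famT Φ ε s (hrc K i b T s l []) :=
    fun a b hab => ⟨(hB.fam.sub a b hab).1, (hB.fam.sub a b hab).2.1⟩
  have hgt : ∀ g ∈ G, g ∈ lgs (lks K i b l) := fun g hg => hG.mem_iff.1 hg
  rcases le_or_gt (ext Φ ε T) s with eT | eT
  · -- flying
    rcases h.check hE eT with ⟨-, -, h3⟩ | h0
    swap
    · exact Or.inr h0
    left
    have lT : IsLast (famT Φ ε s (hrc K i b T s l [])) T := hsc.isLast hE.pot hE.pos hW mT rfl eT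
    obtain ⟨hJ, hσ⟩ := h.joined hE (es := []) hB.fam
      (fun g hg => hG.mem_iff.2 hg) (FX.root hsub lT.mem) fun P hP => absurd hP List.not_mem_nil
    refine OpenOut.fly _ G σ hB (h.hins hE) hσ eT lT
      (fun g hg => hsc.nd hE.pot hE.pos hW mT rfl (self_mem_parts _) (Or.inl rfl) g (hgt g hg))
      (fun a ha => (hJ a ha).to_FJ) fun a ha ha0 => ?_
    obtain ⟨x, hx, ha'⟩ := lab_famT ha
    rcases List.mem_append.1 hx with hx | hx
    · rcases List.mem_cons.1 (exists_rc.2 ⟨x, hx, rfl⟩) with h4 | h4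
      · exact h3 a (h4 ▸ ha') ha0
      · exact h.pc.only x.R h4 a ha' ha0
    · exact absurd hx List.not_mem_nil
  · -- colliding
    left
    have hlive : M.live Φ ε L (wb W i b) T s := h.pc.rt.live
    obtain ⟨x, y, hT⟩ := exists_node_of_lt_ext hlive.sig_le eT
    have eT' : s < ext Φ ε (node x y) := hT ▸ eT
    have lx := hsc.last_fst hE.pot hE.pos hW mT rfl hT eT'
    have ly := hsc.last_snd hE.pot hE.pos hW mT hT eT'
    have hTr : T.root = x.root := by rw [hT]; rfl
    have hTl : ∀ a ∈ T.leaves, a ∈ (node x y).leaves := fun a ha => hT ▸ ha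
    have e1 : (x.root, y.root) ∈ [(x.root, y.root)] := by simp
    obtain ⟨hJ, hσ⟩ := h.joined hE (es := [(x.root, y.root)]) hB.fam
      (fun g hg => hG.mem_iff.2 hg)
      (fun a ha => by
        rw [hTr]
        exact FX.pair hsub lx.mem ly.mem e1 a (hTl a ha))
      (fun P hP => absurd hP List.not_mem_nil)
    have hTp : node x y ∈ parts (rc1 K i b T s).R := hT ▸ self_mem_parts _
    refine OpenOut.col _ G σ hB (h.hins hE) hσ x y hT (hT ▸ hlive.ok) (hT ▸ hlive.sig_le) eT' lx ly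
      (fun g hg => ⟨?_, ?_⟩) ?_ hJ
    · exact hsc.nd hE.pot hE.pos hW mT rfl hTp (Or.inr eT') g (hgt g hg)
    · exact hsc.nd hE.pot hE.pos hW mT rfl (Q := node y x) (swap_mem_parts hTp)
        (Or.inr (by rw [ext_swap hE.pot x y]; exact eT')) g (hgt g hg)
    · exact fun g hg => hsc.tg hE.pot hE.pos hW mT hT lx ly g (hgt g hg)

end hd

/-- **The family of an altered history.** -/
theorem exists_open (hΦ : IsPotential Φ) (hε : 0 < ε) {w : Bool → Set Src}
    (hw : ∀ c, (w c).Finite) (hs : w false ⊆ w true) (h₀ : V₀ ⊆ w false)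
    (hins : ∀ σ ∈ w true, σ ∉ w false → σ ∈ ins) (hall : w true ⊆ all)
    (hLv : ∀ c P, lives Φ ε L (w c) P (sig Φ ε P) → Lv P)
    (hLg : ∀ c A B r, r ≤ s → alive Φ ε L (w c) A r → live Φ ε L (w c) B r →
      Lg false (A, B, r))
    (hLd : ∀ c A B r, r ≤ s → ¬(live Φ ε L (w c) A r ↔ live Φ ε L (w c) B r) →
      Lg true (A, B, r))
    (hst : s ≤ t) (m : ℕ) {y : CTree} (hb : Bg Φ ε y s)
    (h : ¬(live Φ ε L (w false) y s ↔ live Φ ε L (w true) y s)) :
    OpenOut Φ ε L V₀ ins all Lv Lg m y s ∨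
      ∃ s' ≤ s, DetOut hΦ hε L V₀ ins all Lv Lg t m (Nb0 L m) s' := by
  have hbb : ∃ b, live Φ ε L (w b) y s ∧ ¬live Φ ε L (w !b) y s := by
    by_cases h1 : live Φ ε L (w false) y s
    · exact ⟨false, h1, fun h2 => h ⟨fun _ => h2, fun _ => h1⟩⟩
    · refine ⟨true, ?_, h1⟩
      by_contra h2
      exact h ⟨fun h => absurd h h1, fun h => absurd h h2⟩
  obtain ⟨b, hl, hn⟩ := hbb
  have hE := env_WU hΦ hε hw hs h₀ hins hall hLv hLg hLd hst
  obtain ⟨l', hl'⟩ := exists_trail hΦ hε hw hl hn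
  have e := wb_WU w
  rw [← e] at hl' hl hn
  rcases exists_pc hE m (Finset.mem_singleton_self ()) hl' le_rfl hb hn with ⟨l, σ, hpc⟩ | h0
  swap
  · exact Or.inr h0
  have hd : Hd Φ ε L (WU w) {()} V₀ s () m b y s l σ :=
    ⟨hpc, Finset.mem_singleton_self _, le_rfl, hb, hn⟩
  exact hd.openOut hE

end Vale.Agent.P119.IND
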