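import Vale.Agent.P119.IND.NearR
import Vale.Agent.P119.IND.DetOpen
import Vale.Agent.P119.IND.DetLaw

/-!
# P119, block IND: an altered history near a tree of the base (`helper498`)

* `exists_lfn`: the position of the root of a tree at a time after the beginning of its last
  collision is within `ε/2` of a line function of its labels;
* `Fam.add_pair`: a family with the additional ghost of a colliding pair of last histories;
* `OpenOut.exists_fam`: the connected family of an altered history, with a near line;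
* `SBase.prgN`, `SBase.of_open`: an altered history in contact with a tree of the base.
-/

open MeasureTheory Filter Topology Set
open scoped ENNReal NNReal

set_option linter.unusedSectionVars false

noncomputable section

namespace Vale.Agent.P119.IND

open KU M M.CTree TL GC AU

variable {Φ : E3 → ℝ} {ε T s t : ℝ} {L : ℕ}

/-! ### The line function of a tree -/

/-- The position during the collision is within `ε/2` of the centre of mass. -/
theorem st_near (hΦ : IsPotential Φ) (hε : 0 < ε) {a b : CTree} (hok : ok Φ ε (node a b))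
    (h1 : sig Φ ε (node a b) ≤ s) (h2 : s < ext Φ ε (node a b)) :
    ‖(st Φ ε (node a b) s).1 - (KU.free s (com (ln Φ ε a, ln Φ ε b))).1‖ ≤ ε / 2 := by
  set q : Ph × Ph := (ln Φ ε a, ln Φ ε b) with hq
  have hM : Meets ε q := hok.2.2.2.1
  have hE : Exits Φ (rel ε q) := hok.2.2.2.2.1
  have hd : ‖(pairLine Φ ε q s).1.1 - (pairLine Φ ε q s).2.1‖ ≤ ε := by
    rcases h1.lt_or_eq with h3 | h3
    · exact ((dist_pairLine_lt_iff hΦ hε hE hM.2 s).2 ⟨h3, h2⟩).le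
    · have h4 : hitT ε q = s := h3
      rw [← h4, pairLine_before hΦ hε hM.1 hM.2.le le_rfl]
      exact (ctc_hitT hε hM).1
  have h3 := com_pairLine (Φ := Φ) (ε := ε) q s
  rw [← h3]
  change ‖(pairLine Φ ε q s).1.1 - (com (pairLine Φ ε q s)).1‖ ≤ ε / 2
  have e1 : (pairLine Φ ε q s).1.1 - (com (pairLine Φ ε q s)).1 =
      (2 : ℝ)⁻¹ • ((pairLine Φ ε q s).1.1 - (pairLine Φ ε q s).2.1) := by
    unfold com
    simp only
    module
  rw [e1, norm_smul]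
  have e2 : ‖(2 : ℝ)⁻¹‖ = 2⁻¹ := by norm_num
  rw [e2]
  linarith

section prog

variable {κ : Type} [DecidableEq κ]

/-- Programs on disjoint labels: the lines of the first labels. -/
theorem finZ_app_left {z : κ → Src} {c d : Set Src} (hcd : Disjoint c d) (T : ℝ)
    {Pa Pb : List (Ev κ)} (hP : ∀ e ∈ Pb, z e.fst ∈ d ∧ z e.snd ∈ d) (Z : κ → Ph) {j : κ}
    (hj : z j ∈ c) : finZ Φ ε (pl T (Pa ++ Pb)) Z j = finZ Φ ε (pl T Pa) Z j := by
  have e1 : pl T (Pa ++ Pb) = pl T Pa ++ pl T Pb := by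
    unfold pl
    rw [List.map_append]
  rw [e1, finZ_append]
  refine finZ_of_avoid (S := {j | z j ∈ c}) (fun e he => ?_) hj
  obtain ⟨e', he', rfl⟩ := List.mem_map.1 he
  obtain ⟨h1, h2⟩ := hP e' he'
  exact ⟨fun h => disjoint_left.1 hcd h h1, fun h => disjoint_left.1 hcd h h2⟩

/-- Programs on the labels `d`: they depend on the lines of `d` only. -/
theorem finZ_dep {z : κ → Src} {d : Set Src} (T : ℝ) :
    ∀ P : List (Ev κ), (∀ e ∈ P, z e.fst ∈ d ∧ z e.snd ∈ d) → ∀ Z Z' : κ → Ph,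
      (∀ j, z j ∈ d → Z j = Z' j) → ∀ j, z j ∈ d →
        finZ Φ ε (pl T P) Z j = finZ Φ ε (pl T P) Z' j
  | [], _, _, _, h, j, hj => h j hj
  | e :: P, hP, Z, Z', h, j, hj => by
    obtain ⟨h1, h2⟩ := hP e List.mem_cons_self
    refine finZ_dep T P (fun e he => hP e (List.mem_cons_of_mem _ he)) _ _ (fun k hk => ?_) j hj
    cases e with
    | gh i' k' => exact h k hk
    | sc i' k' =>
      have h1' : z i' ∈ d := h1
      have h2' : z k' ∈ d := h2
      change Function.update (Function.update Z i' _) k' _ k =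
        Function.update (Function.update Z' i' _) k' _ k
      rw [h i' h1', h k' h2']
      by_cases e1 : k = k'
      · subst e1; rw [Function.update_self, Function.update_self]
      · rw [Function.update_of_ne e1, Function.update_of_ne e1]
        by_cases e2 : k = i'
        · subst e2; rw [Function.update_self, Function.update_self]
        · rw [Function.update_of_ne e2, Function.update_of_ne e2]
          exact h k hk

theorem finZ_app_right {z : κ → Src} {c d : Set Src} (hcd : Disjoint c d) (T : ℝ)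
    {Pa Pb : List (Ev κ)} (hPa : ∀ e ∈ Pa, z e.fst ∈ c ∧ z e.snd ∈ c)
    (hPb : ∀ e ∈ Pb, z e.fst ∈ d ∧ z e.snd ∈ d) (Z : κ → Ph) {j : κ}
    (hj : z j ∈ d) : finZ Φ ε (pl T (Pa ++ Pb)) Z j = finZ Φ ε (pl T Pb) Z j := by
  have e1 : pl T (Pa ++ Pb) = pl T Pa ++ pl T Pb := by
    unfold pl
    rw [List.map_append]
  rw [e1, finZ_append]
  refine finZ_dep T Pb hPb _ _ (fun k hk => ?_) j hj
  refine finZ_of_avoid (S := {j | z j ∈ d}) (fun e he => ?_) hk
  obtain ⟨e', he', rfl⟩ := List.mem_map.1 he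
  obtain ⟨h1, h2⟩ := hPa e' he'
  exact ⟨fun h => disjoint_left.1 hcd h1 h, fun h => disjoint_left.1 hcd h2 h⟩

/-- The program of a tree, with the line of its root. -/
def TrP (Φ : E3 → ℝ) (ε T : ℝ) (z : κ → Src) (X : CTree) (P : List (Ev κ)) : Prop :=
  P.length + 1 ≤ X.card ∧
    (∀ e ∈ P, e.fst ≠ e.snd ∧ z e.fst ∈ X.leaves ∧ z e.snd ∈ X.leaves) ∧
    ∀ i, z i = X.root → finZ Φ ε (pl T P) (fun i => (z i).2.1) i = ln Φ ε X

/-- The two lines before the last collision. -/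
theorem TrP.pair {z : κ → Src} {a b : CTree} (hok : ok Φ ε (node a b)) {Pa Pb : List (Ev κ)}
    (ha : TrP Φ ε T z a Pa) (hb : TrP Φ ε T z b Pb) {ia ib : κ} (hia : z ia = a.root)
    (hib : z ib = b.root) :
    finZ Φ ε (pl T (Pa ++ Pb)) (fun i => (z i).2.1) ia = ln Φ ε a ∧
      finZ Φ ε (pl T (Pa ++ Pb)) (fun i => (z i).2.1) ib = ln Φ ε b := by
  refine ⟨?_, ?_⟩
  · rw [finZ_app_left hok.2.2.1 T (fun e he => (hb.2.1 e he).2) _ (hia ▸ a.root_mem_leaves)]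
    exact ha.2.2 ia hia
  · rw [finZ_app_right hok.2.2.1 T (fun e he => (ha.2.1 e he).2) (fun e he => (hb.2.1 e he).2) _
      (hib ▸ b.root_mem_leaves)]
    exact hb.2.2 ib hib

/-- The program of a tree: the final lines. -/
theorem exists_trP {z : κ → Src} (hz : Function.Injective z) (T : ℝ) : ∀ X : CTree,
    ok Φ ε X → (∀ σ ∈ X.leaves, σ ∈ range z) → ∃ P : List (Ev κ), TrP Φ ε T z X P
  | leaf σ, _, _ => ⟨[], le_rfl, fun e he => absurd he List.not_mem_nil, fun i hi => by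
      change (z i).2.1 = σ.2.1
      rw [show z i = σ from hi]⟩
  | node a b, hok, hr => by
    obtain ⟨Pa, ha⟩ := exists_trP hz T a hok.1 fun σ hσ => hr σ (Or.inl hσ)
    obtain ⟨Pb, hb⟩ := exists_trP hz T b hok.2.1 fun σ hσ => hr σ (Or.inr hσ)
    obtain ⟨ia, hia⟩ := hr a.root (Or.inl a.root_mem_leaves)
    obtain ⟨ib, hib⟩ := hr b.root (Or.inr b.root_mem_leaves)
    have hdis := disjoint_left.1 hok.2.2.1
    have hne : ia ≠ ib := by
      rintro rfl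
      exact hdis a.root_mem_leaves (hia ▸ hib ▸ b.root_mem_leaves)
    refine ⟨(Pa ++ Pb) ++ [Ev.sc ia ib], ?_, fun e he => ?_, fun i hi => ?_⟩
    · have h1 := ha.1
      have h2 := hb.1
      simp only [List.length_append, List.length_cons, List.length_nil, CTree.card]
      omega
    · rcases List.mem_append.1 he with he | he
      · rcases List.mem_append.1 he with he | he
        · obtain ⟨h1, h2, h3⟩ := ha.2.1 e he
          exact ⟨h1, Or.inl h2, Or.inl h3⟩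
        · obtain ⟨h1, h2, h3⟩ := hb.2.1 e he
          exact ⟨h1, Or.inr h2, Or.inr h3⟩
      · rw [List.mem_singleton.1 he]
        exact ⟨hne, Or.inl (hia ▸ a.root_mem_leaves), Or.inr (hib ▸ b.root_mem_leaves)⟩
    · have hi' : i = ia := hz (hi.trans hia.symm)
      subst hi'
      have e1 : pl T ((Pa ++ Pb) ++ [Ev.sc i ib]) = pl T (Pa ++ Pb) ++ [(Ev.sc i ib, T)] := by
        unfold pl
        rw [List.map_append]
        rfl
      rw [e1, finZ_append]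
      obtain ⟨f1, f2⟩ := ha.pair (T := T) hok hb hia hib
      set Z₂ : κ → Ph := finZ Φ ε (pl T (Pa ++ Pb)) (fun i => (z i).2.1) with hZ₂
      change Function.update (Function.update Z₂ i _) ib _ i = _
      rw [Function.update_of_ne hne, Function.update_self, f1, f2]
      rfl

/-- **The line function of a tree**: the position of the root is within `ε/2` of the line. -/
theorem exists_lfn (hΦ : IsPotential Φ) (hε : 0 < ε) {z : κ → Src} (hz : Function.Injective z)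
    (T : ℝ) {X : CTree} (hok : ok Φ ε X) (hr : ∀ σ ∈ X.leaves, σ ∈ range z)
    (hs : sig Φ ε X ≤ s) :
    ∃ g : Lfn κ, g.P.length ≤ X.card ∧
      (∀ e ∈ g.P, e.fst ≠ e.snd ∧ z e.fst ∈ X.leaves ∧ z e.snd ∈ X.leaves) ∧
      z g.i ∈ X.leaves ∧ z g.k ∈ X.leaves ∧
      ‖(st Φ ε X s).1 - (KU.free s (g.val Φ ε T fun i => (z i).2.1)).1‖ ≤ ε / 2 := by
  rcases le_or_gt (ext Φ ε X) s with h1 | h1
  · obtain ⟨P, hP⟩ := exists_trP (Φ := Φ) (ε := ε) hz T X hok hr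
    obtain ⟨i, hi⟩ := hr X.root X.root_mem_leaves
    refine ⟨⟨P, i, i⟩, by have := hP.1; change P.length ≤ _; omega, hP.2.1,
      hi ▸ X.root_mem_leaves, hi ▸ X.root_mem_leaves, ?_⟩
    rw [Lfn.val_self, hP.2.2 i hi, st_after hΦ hε hok h1, sub_self, norm_zero]
    positivity
  · obtain ⟨a, b, rfl⟩ := exists_node_of_lt_ext hs h1
    obtain ⟨Pa, ha⟩ := exists_trP (Φ := Φ) (ε := ε) hz T a hok.1
      fun σ hσ => hr σ (Or.inl hσ)
    obtain ⟨Pb, hb⟩ := exists_trP (Φ := Φ) (ε := ε) hz T b hok.2.1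
      fun σ hσ => hr σ (Or.inr hσ)
    obtain ⟨ia, hia⟩ := hr a.root (Or.inl a.root_mem_leaves)
    obtain ⟨ib, hib⟩ := hr b.root (Or.inr b.root_mem_leaves)
    obtain ⟨f1, f2⟩ := ha.pair (T := T) hok hb hia hib
    refine ⟨⟨Pa ++ Pb, ia, ib⟩, ?_, fun e he => ?_, Or.inl (hia ▸ a.root_mem_leaves),
      Or.inr (hib ▸ b.root_mem_leaves), ?_⟩
    · have h1 := ha.1
      have h2 := hb.1
      change (Pa ++ Pb).length ≤ a.card + b.card
      rw [List.length_append]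
      omega
    · rcases List.mem_append.1 he with he | he
      · obtain ⟨h1, h2, h3⟩ := ha.2.1 e he
        exact ⟨h1, Or.inl h2, Or.inl h3⟩
      · obtain ⟨h1, h2, h3⟩ := hb.2.1 e he
        exact ⟨h1, Or.inr h2, Or.inr h3⟩
    · have e1 : (⟨Pa ++ Pb, ia, ib⟩ : Lfn κ).val Φ ε T (fun i => (z i).2.1) =
          com (ln Φ ε a, ln Φ ε b) := by
        unfold Lfn.val qq
        rw [← f1, ← f2]
      rw [e1]
      exact st_near hΦ hε hok hs h1

end prog

/-! ### The ghost of a colliding pair -/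

theorem exists_split_time {G : List Gh} (h : G.Pairwise fun g g' => g.2.2 ≤ g'.2.2) (r : ℝ) :
    ∃ G₁ G₂, G = G₁ ++ G₂ ∧ (∀ g ∈ G₁, g.2.2 ≤ r) ∧ ∀ g ∈ G₂, r < g.2.2 := by
  induction G with
  | nil => exact ⟨[], [], rfl, fun g hg => absurd hg List.not_mem_nil,
      fun g hg => absurd hg List.not_mem_nil⟩
  | cons g G ih =>
    rw [List.pairwise_cons] at h
    rcases le_or_gt g.2.2 r with h1 | h1
    · obtain ⟨G₁, G₂, rfl, h2, h3⟩ := ih h.2
      refine ⟨g :: G₁, G₂, rfl, fun g' hg' => ?_, h3⟩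
      rcases List.mem_cons.1 hg' with rfl | hg'
      · exact h1
      · exact h2 g' hg'
    · refine ⟨[], g :: G, rfl, fun g hg => absurd hg List.not_mem_nil, fun g' hg' => ?_⟩
      rcases List.mem_cons.1 hg' with rfl | hg'
      · exact h1
      · exact h1.trans_le (h.1 g' hg')

/-- **A family with the ghost of a colliding pair of last histories.** -/
theorem Fam.add_pair (hε : 0 < ε) {F : Finset CTree} {G : List Gh}
    (h : Fam Φ ε s F G) {a b : CTree} (hok : CTree.ok Φ ε (node a b)) (h1 : sig Φ ε (node a b) ≤ s)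
    (ha : IsLast F a) (hb : IsLast F b)
    (nd : ∀ g ∈ G, g.1.root ≠ a.root ∧ g.1.root ≠ b.root)
    (tg : ∀ g ∈ G, g.2.1.root = a.root ∨ g.2.1.root = b.root → g.2.2 ≤ sig Φ ε (node a b)) :
    ∃ G', Fam Φ ε s F G' ∧ G'.length = G.length + 1 ∧
      (∀ g ∈ G, g ∈ G') ∧ (a, b, sig Φ ε (node a b)) ∈ G' := by
  obtain ⟨G₁, G₂, rfl, h2, h3⟩ := exists_split_time (h.srt.imp fun h => h.1) (sig Φ ε (node a b))
  set g₀ : Gh := (a, b, sig Φ ε (node a b)) with hg₀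
  have hM : Meets ε (ln Φ ε a, ln Φ ε b) := hok.2.2.2.1
  have hne : a.root ≠ b.root := fun h' =>
    Set.disjoint_left.1 hok.2.2.1 a.root_mem_leaves (h' ▸ b.root_mem_leaves)
  have hmem : ∀ g, g ∈ G₁ ++ g₀ :: G₂ ↔ g = g₀ ∨ g ∈ G₁ ++ G₂ := by
    intro g
    simp only [List.mem_append, List.mem_cons]
    tauto
  refine ⟨G₁ ++ g₀ :: G₂, ⟨h.ok, h.ext_le, h.sub, h.cmp, fun g hg => ?_, fun g hg P hP hr => ?_,
    fun g hg y hy => ?_, ?_⟩, ?_, fun g hg => (hmem g).2 (Or.inr hg), (hmem _).2 (Or.inl rfl)⟩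
  · rcases (hmem g).1 hg with rfl | hg
    · exact ⟨ha.mem, hb.mem, hne, hok.2.2.2.2.2.1.le, hok.2.2.2.2.2.2.le, h1, ctc_hitT hε hM⟩
    · exact h.gh g hg
  · rcases (hmem g).1 hg with rfl | hg
    · exact ha.last P hP hr
    · exact h.last g hg P hP hr
  · rcases (hmem g).1 hg with rfl | hg
    · exfalso
      have h4 : Spine (node b y) b := hb.last _ hy rfl
      have h5 := h4.card_le
      have h6 := y.card_pos
      change b.card + y.card ≤ b.card at h5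
      omega
    · exact h.cur g hg y hy
  · have hs := h.srt
    rw [List.pairwise_append] at hs ⊢
    obtain ⟨s1, s2, s3⟩ := hs
    refine ⟨s1, List.pairwise_cons.2 ⟨fun g' hg' => ?_, s2⟩, fun g hg g' hg' => ?_⟩
    · have h4 := List.mem_append_right G₁ hg'
      refine ⟨(h3 g' hg').le, (nd g' h4).1.symm, fun h5 => ?_⟩
      exact absurd (tg g' h4 (Or.inl h5.symm)) (not_le.2 (h3 g' hg'))
    · rcases List.mem_cons.1 hg' with rfl | hg'
      · have h4 := nd g (List.mem_append_left G₂ hg)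
        exact ⟨h2 g hg, h4.1, h4.2⟩
      · exact s3 g hg g' hg'
  · simp only [List.length_append, List.length_cons]
    omega

theorem FX.fj {F : Finset CTree} {G G' : List Gh} {es : List (Src × Src)}
    (hG : ∀ g ∈ G, g ∈ G') (hes : ∀ p ∈ es, FJ F G' p.1 p.2) {x y : Src} (h : FX F G es x y) :
    FJ F G' x y := by
  induction h with
  | rel x y h =>
    rcases h with (⟨c, d, hcd, rfl, rfl⟩ | ⟨g, hg, rfl, rfl⟩) | h
    · exact FJ.node hcd
    · exact FJ.ghost (hG g hg)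
    · exact hes _ h
  | refl x => exact FJ.refl _ _ _
  | symm _ _ _ ih => exact ih.symm
  | trans _ _ _ _ _ ih1 ih2 => exact ih1.trans ih2

/-- **The connected family of an altered history**, with a near line. -/
theorem OpenOut.exists_fam (hΦ : IsPotential Φ) (hε : 0 < ε) {V₀ ins all : Set Src}
    {Lv : CTree → Prop} {Lg : Bool → Gh → Prop} {m : ℕ} {y : CTree}
    (h : OpenOut Φ ε L V₀ ins all Lv Lg m y s) :
    ∃ (F : Finset CTree) (G : List Gh) (σ : Src) (P₁ P₂ : CTree), Fam Φ ε s F G ∧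
      F.card ≤ Nb0 L m ∧ G.length ≤ Nb0 L m + 1 ∧ (∀ a ∈ lab F, a ∈ all) ∧ σ ∈ ins ∧
      σ ∈ lab F ∧ (∀ a ∈ lab F, FJ F G a σ) ∧ IsLast F P₁ ∧ IsLast F P₂ ∧
      ‖(st Φ ε y s).1 - (KU.free s (com (ln Φ ε P₁, ln Φ ε P₂))).1‖ ≤ ε / 2 := by
  cases h with
  | fly F G σ hB hσ hσF e hy nd hJ only =>
    refine ⟨F, G, σ, y, y, hB.fam, hB.cardF, hB.lenG.trans (Nat.le_succ _), hB.sub, hσ, hσF, hJ,
      hy, hy, ?_⟩
    rw [com_self, st_after hΦ hε (hB.fam.ok y hy.mem) e, sub_self, norm_zero]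
    positivity
  | col F G σ hB hσ hσF a b hy hok h1 h2 ha hb nd tg hJ =>
    obtain ⟨G', f1, f2, f3, f4⟩ := hB.fam.add_pair hε hok h1 ha hb nd tg
    refine ⟨F, G', σ, a, b, f1, hB.cardF, ?_, hB.sub, hσ, hσF, fun x hx => ?_, ha, hb, ?_⟩
    · have := hB.lenG
      omega
    · refine (hJ x hx).fj f3 fun p hp => ?_
      rw [List.mem_singleton] at hp
      rw [hp]
      exact FJ.ghost f4
    · rw [hy]
      exact st_near hΦ hε hok h1 h2

/-! ### The base structures -/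

theorem ncard_leaves : ∀ {X : CTree}, ok Φ ε X → X.leaves.ncard = X.card
  | leaf σ, _ => ncard_singleton σ
  | node a b, h => by
    change (a.leaves ∪ b.leaves).ncard = a.card + b.card
    rw [ncard_union_eq h.2.2.1 a.leaves_finite b.leaves_finite, ncard_leaves h.1,
      ncard_leaves h.2.1]

theorem card_le_of_leaves {X : CTree} (h : ok Φ ε X) {S : Finset Src} (hS : X.leaves ⊆ S) :
    X.card ≤ S.card := by
  rw [← ncard_leaves h, ← ncard_coe_finset]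
  exact ncard_le_ncard hS S.finite_toSet

/-- The two labels of an event are different. -/
theorem RunT.fst_ne {ι : Type} [DecidableEq ι] {Q : List (Ev ι × ℝ)} {r : ℝ} {β : ι → ℝ}
    {Z : ι → Ph} (h : RunT Φ ε T r Q β Z) : ∀ e ∈ Q, e.1.fst ≠ e.1.snd := by
  induction Q generalizing r β Z with
  | nil => exact fun e he => absurd he List.not_mem_nil
  | cons e Q ih =>
    obtain ⟨-, -, ⟨d, h1⟩, h2⟩ := h
    intro e' he'
    rcases List.mem_cons.1 he' with rfl | he'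
    · obtain ⟨ev, s⟩ := e'
      cases ev with
      | sc i k => exact h1.1
      | gh i k => exact h1.1
    · exact ih h2 e' he'

theorem Jn.app {ι : Type} [DecidableEq ι] {P : List (Ev ι × ℝ)} (e : Ev ι × ℝ) {i k : ι}
    (h : Jn P i k) : Jn (P ++ [e]) i k :=
  h.mono fun _ he => List.mem_append_left _ he

namespace SBase

variable {F₀ : Finset CTree} {G₀ : List Gh} {D₀ : Set Src} {X : Src → Src} {m q c₀ : ℕ}
  {T₀ : Fin m → CTree} {l : Fin q → Src} {R₀ : Finset Src}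

/-- The base program, with the joined labels. -/
theorem exists_base₂ (hΦ : IsPotential Φ) (hε : 0 < ε) (h : SBase Φ ε T F₀ G₀ D₀ X)
    (hl : SLab T₀ l F₀ G₀ c₀ R₀) :
    ∃ (κ : Type) (_ : Fintype κ) (_ : DecidableEq κ) (z x : κ → Src) (D : Set κ)
      (Q : List (Ev κ × ℝ)) (R : Finset κ), BaseP Φ ε T z x D Q ∧ CovB z Q l c₀ R ∧
      BLab T₀ l z ∧ Fintype.card κ + Q.length ≤ szB F₀ G₀ ∧
      (∀ k, k ∈ D ↔ z k ∈ D₀) ∧ (∀ k, x k = X (z k)) ∧
      range z = (lab F₀ : Set Src) ∧ (∀ k, k ∈ R ↔ z k ∈ R₀) ∧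
      ∀ i k, FJ F₀ G₀ (z i) (z k) → Jn Q i k := by
  classical
  set κ := {σ : Src // σ ∈ lab F₀} with hκ
  set z : κ → Src := fun k => k.1 with hz
  set x : κ → Src := fun k => X k.1 with hx
  set D : Set κ := {k | k.1 ∈ D₀} with hD
  have hzr : range z = (lab F₀ : Set Src) := by
    ext σ
    exact ⟨fun ⟨k, hk⟩ => hk ▸ k.2, fun hσ => ⟨⟨σ, hσ⟩, rfl⟩⟩
  obtain ⟨Q, h1, h2, h3, h4⟩ := BaseP.of_fam hΦ hε h.fam (z := z) (x := x) (D := D)
    Subtype.val_injective hzr (fun k => h.nonneg _ k.2)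
    (fun g hg i hi => by
      change i.1 ∈ D₀
      rw [show i.1 = g.1.root from hi]
      exact h.drop g hg)
    (fun g hg k hk hkr => by
      have e : k.1 = g.2.1.root := hkr
      change g.2.2 ≤ (X k.1).1
      rw [e]
      exact h.tgt g hg fun h' => hk (by change k.1 ∈ D₀; rw [e]; exact h'))
    (fun k hk => h.lst k.1 k.2 hk)
    (fun k hk k' hk' hkk => Subtype.ext (h.inj ⟨k.2, hk⟩ ⟨k'.2, hk'⟩ hkk))
  refine ⟨κ, inferInstance, inferInstance, z, x, D, Q, R₀.subtype (· ∈ lab F₀), h1,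
    ⟨fun k => ?_, ?_, fun r hr => ?_⟩, ⟨fun k => hl.mem _ k.2, fun j => ?_, fun j => ?_⟩, ?_,
    fun k => Iff.rfl, fun k => rfl, hzr, fun k => Finset.mem_subtype, h3⟩
  · obtain ⟨r, hr, hJ⟩ := hl.cov k.1 k.2
    exact ⟨⟨r, hl.sub r hr⟩, Finset.mem_subtype.2 hr, h3 _ _ hJ⟩
  · rw [Finset.card_subtype]
    exact (Finset.card_filter_le _ _).trans hl.card
  · exact hl.ord _ (Finset.mem_subtype.1 hr)
  · rw [hzr]; exact hl.trees j
  · rw [hzr]; exact hl.lines j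
  · rw [Fintype.card_coe]
    unfold szB
    omega

/-- **A family on one component of the base, near a tree of another component.** -/
theorem prgN (hΦ : IsPotential Φ) (hε : 0 < ε) (h : SBase Φ ε T F₀ G₀ D₀ X)
    (hl : SLab T₀ l F₀ G₀ (c₀ + 1) R₀) {w : Finset Ph} (hzw : ∀ σ ∈ lab F₀, σ ∉ wS w)
    (hxw : ∀ σ ∈ lab F₀, σ ∉ D₀ → X σ ∉ wS w) {F : Finset CTree} {G : List Gh}
    (hF : Fam Φ ε T F G) (hV : ∀ σ ∈ lab F, σ ∈ wS w ∨ ∃ τ ∈ lab F₀, τ ∉ D₀ ∧ X τ = σ)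
    {τ₀ : Src} (hτ : τ₀ ∈ lab F₀) (hτD : τ₀ ∉ D₀) (hJ : ∀ a ∈ lab F, FJ F G a (X τ₀))
    {P₁ P₂ : CTree} (hP₁ : IsLast F P₁) (hP₂ : IsLast F P₂) {Y : CTree}
    (hY : CTree.ok Φ ε Y) (hYl : ∀ a ∈ Y.leaves, a ∈ lab F₀ ∧ FJ F₀ G₀ a Y.root)
    {r₁ r₂ : Src} (hr₁ : r₁ ∈ R₀) (hr₂ : r₂ ∈ R₀) (hne : r₁ ≠ r₂) (hj₁ : FJ F₀ G₀ τ₀ r₁)
    (hj₂ : FJ F₀ G₀ Y.root r₂) (hsT : s ≤ T) (hsig : sig Φ ε Y ≤ s) {p : E3}
    (hp₁ : ‖p - (KU.free s (com (ln Φ ε P₁, ln Φ ε P₂))).1‖ ≤ ε / 2)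
    (hp₂ : ‖p - (st Φ ε Y s).1‖ ≤ ε) {N : ℕ} (hN : szB F₀ G₀ + F.card + G.length ≤ N) :
    PrgN Φ ε T c₀ N T₀ l w := by
  classical
  obtain ⟨κ, i1, i2, z, x, D, Q, R, hB, hR, hL, e1, eD, eX, eZ, eR, eJ⟩ :=
    h.exists_base₂ hΦ hε hl
  have hzm : ∀ k, z k ∈ lab F₀ := fun k => by
    rw [← Finset.mem_coe, ← eZ]
    exact ⟨k, rfl⟩
  have hzs : ∀ σ ∈ lab F₀, ∃ k, z k = σ := fun σ hσ => by
    have h1 : σ ∈ (lab F₀ : Set Src) := hσ
    rwa [← eZ] at h1
  have hzw' : ∀ k, z k ∉ wS w := fun k => hzw _ (hzm k)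
  have hxw' : ∀ k ∉ D, x k ∉ (wS w : Set Src) := fun k hk => by
    rw [eX k]
    exact hxw _ (hzm k) fun h' => hk ((eD k).2 h')
  have hV' : ∀ σ ∈ lab F, σ ∈ (wS w : Set Src) ∨ ∃ i ∉ D, x i = σ := by
    intro σ hσ
    rcases hV σ hσ with h1 | ⟨τ, h1, h2, rfl⟩
    · exact Or.inl h1
    · obtain ⟨k, rfl⟩ := hzs τ h1
      exact Or.inr ⟨k, fun h' => h2 ((eD k).1 h'), eX k⟩
  obtain ⟨k₀, hk₀⟩ := hzs τ₀ hτ
  have hk₀D : k₀ ∉ D := fun h' => hτD (hk₀ ▸ (eD k₀).1 h')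
  have hxk₀ : x k₀ = X τ₀ := by rw [eX, hk₀]
  obtain ⟨M, Q₁, hg⟩ := hB.graft_fam hΦ hε hF (V := (wS w : Set Src)) hV' hxw'
  have : Fintype (Frl F (wS w : Set Src)) := Fintype.ofFinite _
  have hlenM : M.length ≤ N := by
    have e2 := hg.length_eq
    have e3 := hg.len
    have e4 := card_nl_le F
    omega
  obtain ⟨i₁, d₁, x₁⟩ := exists_lbl hV' hP₁.root_mem
  obtain ⟨i₂, d₂, x₂⟩ := exists_lbl hV' hP₂.root_mem
  obtain ⟨g, g1, g2, g3, g4, g5⟩ := exists_lfn hΦ hε hB.inj T hY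
    (fun σ hσ => hzs σ (hYl σ hσ).1) hsig
  -- joined labels
  have hbase : ∀ {i k : κ}, Jn Q i k → Jn M (Sum.inl i) (Sum.inl k) := by
    intro i k hJ
    have := hg.joined_base (es₀ := []) (es' := []) (fun p hp => absurd hp List.not_mem_nil)
      (i := i) (k := k) (by rw [List.append_nil]; exact jn_iff_joined.1 hJ)
    rw [List.append_nil] at this
    exact jn_iff_joined.2 this
  have hYj : ∀ i k : κ, z i ∈ Y.leaves → z k ∈ Y.leaves → Jn M (Sum.inl i) (Sum.inl k) :=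
    fun i k hi hk => hbase (eJ i k ((hYl _ hi).2.trans (hYl _ hk).2.symm))
  have hFj : ∀ i : κ ⊕ Frl F (wS w : Set Src), i ∉ Sum.inl '' D →
      zAll x F (wS w : Set Src) i ∈ lab F → Jn M (Sum.inl k₀) i := by
    intro i hi hiF
    refine jn_right hg.perm (hg.jn _ _ (inl_notMem hk₀D) hi ?_)
    change FJ F G (x k₀) _
    rw [hxk₀]
    exact (hJ _ hiF).symm
  have j₁ : Jn M (Sum.inl k₀) i₁ := hFj i₁ d₁ (x₁ ▸ hP₁.root_mem)
  have j₂ : Jn M (Sum.inl k₀) i₂ := hFj i₂ d₂ (x₂ ▸ hP₂.root_mem)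
  set e : Ev (κ ⊕ Frl F (wS w : Set Src)) × ℝ := (Ev.gh i₁ (Sum.inl g.i), T) with he
  have hcov : ∀ i : κ ⊕ Frl F (wS w : Set Src), ∃ r ∈ R.map ⟨Sum.inl, Sum.inl_injective⟩,
      Jn (M ++ [e]) i r := by
    intro i
    obtain ⟨r, hr, hJ'⟩ := hg.cover hB hF hV' hxw' (es := []) (es' := [])
      (fun p hp => absurd hp List.not_mem_nil)
      (fun σ hσ _ => ⟨k₀, hk₀D, by rw [hxk₀]; exact FX.of_FJ (hJ σ hσ).symm⟩) hR.cov i
    rw [List.append_nil] at hJ'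
    exact ⟨r, hr, (jn_iff_joined.2 hJ').app e⟩
  obtain ⟨a, ha⟩ := hzs r₁ (hl.sub r₁ hr₁)
  obtain ⟨b, hb⟩ := hzs r₂ (hl.sub r₂ hr₂)
  have hab : a ≠ b := by
    rintro rfl
    exact hne (ha.symm.trans hb)
  obtain ⟨y, hy⟩ := hzs Y.root (hYl _ Y.root_mem_leaves).1
  have hJM : Jn (M ++ [e]) (Sum.inl a) (Sum.inl b) := by
    have f1 : Jn M (Sum.inl a) (Sum.inl k₀) := by
      refine hbase (eJ a k₀ ?_)
      rw [ha, hk₀]
      exact hj₁.symm
    have f2 : Jn (M ++ [e]) i₁ (Sum.inl g.i) :=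
      jn_of_mem (e := e) (List.mem_append_right _ (List.mem_singleton.2 rfl))
    have f3 : Jn M (Sum.inl g.i) (Sum.inl y) := hYj g.i y g3 (hy ▸ Y.root_mem_leaves)
    have f4 : Jn M (Sum.inl y) (Sum.inl b) := by
      refine hbase (eJ y b ?_)
      rw [hy, hb]
      exact hj₂
    exact ((f1.trans j₁).app e).trans (f2.trans ((f3.trans f4).app e))
  obtain ⟨Rs, h3, h6, h4, h5⟩ := exists_trans_lt (jn_equivalence (M ++ [e])) _ hcov
    (Finset.mem_map.2 ⟨a, (eR a).2 (ha ▸ hr₁), rfl⟩) (Finset.mem_map.2 ⟨b, (eR b).2 (hb ▸ hr₂), rfl⟩)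
    (fun h' => hab (Sum.inl_injective h')) hJM
  have ePl : ∀ i k : κ ⊕ Frl F (wS w : Set Src),
      Jn (pl T (M.map Prod.fst) ++ [e]) i k ↔ Jn (M ++ [e]) i k := by
    intro i k
    have f1 : pl T (M.map Prod.fst) ++ [e] = pl T ((M ++ [e]).map Prod.fst) := by
      unfold pl
      rw [List.map_append, List.map_append]
      rfl
    rw [f1]
    exact jn_pl T (M ++ [e])
  have hev : ∀ ev ∈ M, ev.1.fst ≠ ev.1.snd := hg.run.fst_ne
  refine PrgN.of_fintype (ι := κ ⊕ Frl F (wS w : Set Src)) (P := M.map Prod.fst)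
    (g₁ := ⟨M.map Prod.fst, i₁, i₂⟩) (g₂ := g.map Sum.inl) ?_
    ⟨by rw [List.length_map]; exact hlenM, by change (M.map Prod.fst).length ≤ N; rw [List.length_map]; exact hlenM, ?_, ⟨fun ev hev' => ?_, ?_⟩, ⟨fun ev hev' => ?_, ?_⟩,
      ⟨fun i => ?_, fun r hr r' hr' hJ => h5 r hr r' hr' ((ePl r r').1 hJ)⟩, ?_⟩
    (hL.labT hB.inj hzw' F) (Rs := Rs) ?_ ?_ ?_
  · rw [Fintype.card_sum]
    have := card_frl_le F (wS w : Set Src)
    omega
  · change (g.P.map _).length ≤ N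
    rw [List.length_map]
    have := card_le_of_leaves hY (S := lab F₀) fun σ hσ => (hYl σ hσ).1
    unfold szB at hN
    omega
  · obtain ⟨ev', hev'', rfl⟩ := List.mem_map.1 hev'
    exact ⟨hev ev' hev'', (jn_pl T M).2 (jn_of_mem hev'')⟩
  · exact (jn_pl T M).2 (j₁.symm.trans j₂)
  · obtain ⟨ev', hev'', rfl⟩ := List.mem_map.1 hev'
    obtain ⟨f1, f2, f3⟩ := g2 ev' hev''
    rw [Ev.map_fst, Ev.map_snd]
    exact ⟨fun h' => f1 (Sum.inl_injective h'), (jn_pl T M).2 (hYj _ _ f2 f3)⟩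
  · exact (jn_pl T M).2 (hYj _ _ g3 g4)
  · obtain ⟨r, hr, hJ⟩ := h4 i
    exact ⟨r, hr, (ePl i r).2 hJ⟩
  · have h7 := hR.card
    rw [Finset.card_map] at h6
    omega
  · intro i hi
    obtain ⟨r, hr, rfl⟩ := Finset.mem_map.1 (h3 hi)
    exact hR.ord r hr
  · refine hg.run.run hΦ hε ?_
    rintro (k | ⟨σ, h3, h4⟩)
    · exact hB.nonneg k
    · obtain ⟨p, -, rfl⟩ := mem_wS.1 h4
      exact le_rfl
  · refine ⟨s, (sig_nonneg hΦ hε hY).trans hsig, by linarith, ?_⟩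
    have f1 : (⟨M.map Prod.fst, i₁, i₂⟩ : Lfn (κ ⊕ Frl F (wS w : Set Src))).val Φ ε T
        (fun i => (zAll z F (wS w : Set Src) i).2.1) = com (ln Φ ε P₁, ln Φ ε P₂) := by
      unfold Lfn.val qq
      simp only
      rw [finZ_plM, hg.linS P₁ hP₁ i₁ d₁ x₁, hg.linS P₂ hP₂ i₂ d₂ x₂]
    rw [f1, Lfn.val_map Sum.inl_injective]
    have f2 : ((fun i => (zAll z F (wS w : Set Src) i).2.1) ∘ Sum.inl : κ → Ph) =
        fun i => (z i).2.1 := rfl
    rw [f2]
    set A := (KU.free s (com (ln Φ ε P₁, ln Φ ε P₂))).1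
    set B := (KU.free s (g.val Φ ε T fun i => (z i).2.1)).1
    calc ‖A - B‖ = ‖-(p - A) + (p - (st Φ ε Y s).1) + ((st Φ ε Y s).1 - B)‖ := by
          congr 1
          abel
      _ ≤ ‖-(p - A)‖ + ‖p - (st Φ ε Y s).1‖ + ‖(st Φ ε Y s).1 - B‖ :=
          norm_add₃_le
      _ ≤ 2 * ε := by
          rw [norm_neg]
          linarith

/-- More labels are dropped. -/
theorem drop_more (h : SBase Φ ε T F₀ G₀ D₀ X) {D₁ : Set Src} (hD : D₀ ⊆ D₁) :
    SBase Φ ε T F₀ G₀ D₁ X :=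
  ⟨h.fam, fun g hg => hD (h.drop g hg), fun g hg h' => h.tgt g hg fun h'' => h' (hD h''),
    fun σ hσ h' => h.lst σ hσ fun h'' => h' (hD h''), h.inj.mono (sdiff_subset_sdiff_right hD)⟩

/-- **An altered history in contact with a tree of another component of the base.** -/
theorem of_open (hΦ : IsPotential Φ) (hε : 0 < ε) (h : SBase Φ ε T F₀ G₀ D₀ X)
    (hl : SLab T₀ l F₀ G₀ (c₀ + 1) R₀) {w : Finset Ph} (hzw : ∀ σ ∈ lab F₀, σ ∉ wS w)
    {τ₀ : Src} (hτ : τ₀ ∈ lab F₀) (hτD : τ₀ ∉ D₀) (hxw : X τ₀ ∉ wS w)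
    (hb : ∀ S, IsLast F₀ S → S.root = τ₀ → (X τ₀).1 = ext Φ ε S) (hsT : s ≤ T) {y : CTree}
    (hy : Bg Φ ε y s)
    (hal : ¬(live Φ ε L (wS w : Set Src) y s ↔
      live Φ ε L (insert (X τ₀) (wS w : Set Src)) y s))
    {Y : CTree} (hY : CTree.ok Φ ε Y) (hYl : ∀ a ∈ Y.leaves, a ∈ lab F₀ ∧ FJ F₀ G₀ a Y.root)
    {r₁ r₂ : Src} (hr₁ : r₁ ∈ R₀) (hr₂ : r₂ ∈ R₀) (hne : r₁ ≠ r₂) (hj₁ : FJ F₀ G₀ τ₀ r₁)
    (hj₂ : FJ F₀ G₀ Y.root r₂) (hsig : sig Φ ε Y ≤ s)
    (hc : ‖(st Φ ε y s).1 - (st Φ ε Y s).1‖ ≤ ε) (J : ℕ) :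
    LawC hΦ hε L T J c₀ (szB F₀ G₀ + 2 * Nb0 L J) T₀ l w {X τ₀} ∨
      PrgN Φ ε T c₀ (szB F₀ G₀ + 2 * Nb0 L J + 1) T₀ l w := by
  have h' : SBase Φ ε T F₀ G₀ {τ | τ ≠ τ₀} X := h.drop_more fun a ha ha' => hτD (ha' ▸ ha)
  have e1 : ∀ {τ : Src}, τ ∉ {τ | τ ≠ τ₀} → τ = τ₀ := fun h1 => not_not.1 h1
  have hτ' : τ₀ ∉ {τ | τ ≠ τ₀} := fun h1 => h1 rfl
  have hV : (wS w : Set Src).Finite := (wS w).finite_toSet
  set W : Bool → Set Src := fun c => if c then insert (X τ₀) (wS w : Set Src) else wS w with hW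
  have W0 : W false = wS w := rfl
  have W1 : W true = insert (X τ₀) (wS w : Set Src) := rfl
  have hmem : ∀ σ ∈ insert (X τ₀) (wS w : Set Src), σ ∈ wS w ∨
      ∃ τ ∈ lab F₀, τ ∉ {τ | τ ≠ τ₀} ∧ X τ = σ := by
    rintro σ (rfl | h1)
    · exact Or.inr ⟨τ₀, hτ, hτ', rfl⟩
    · exact Or.inl h1
  have hbirth : ∀ S, IsLast F₀ S → S.root ∉ {τ | τ ≠ τ₀} → (X S.root).1 = ext Φ ε S := by
    intro S hS h1
    rw [e1 h1]
    exact hb S hS (e1 h1)
  rcases exists_open hΦ hε (w := W) (V₀ := (wS w : Set Src)) (ins := {X τ₀})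
    (all := insert (X τ₀) (wS w : Set Src)) (Lv := fun _ => True) (Lg := fun _ _ => True)
    (s := s) (t := T)
    (fun c => by cases c; exact hV; exact hV.insert _) (subset_insert _ _) subset_rfl
    (fun σ h1 h2 => h1.resolve_right h2) subset_rfl (fun _ _ _ => trivial)
    (fun _ _ _ _ _ _ _ => trivial) (fun _ _ _ _ _ _ => trivial) hsT J hy hal with h1 | ⟨s', hs', h1⟩
  · right
    obtain ⟨F, G, σ, P₁, P₂, f1, f2, f3, f4, f5, f6, f7, f8, f9, f10⟩ := h1.exists_fam hΦ hε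
    rw [mem_singleton_iff] at f5
    subst f5
    exact h'.prgN hΦ hε hl hzw (fun σ _ h2 => by rw [e1 h2]; exact hxw) (f1.mono_T hsT)
      (fun σ hσ => hmem σ (f4 σ hσ)) hτ hτ' f7 f8 f9 hY hYl hr₁ hr₂ hne hj₁ hj₂ hsT hsig f10 hc
      (by omega)
  · left
    exact h'.detOut hΦ hε hl hzw (fun σ _ h2 => by rw [e1 h2]; exact hxw) le_rfl (hs'.trans hsT)
      hmem (fun σ hσ => ⟨τ₀, hτ, hτ', (mem_singleton_iff.1 hσ).symm⟩)
      (singleton_subset_iff.2 (mem_insert _ _))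
      (fun S hS h2 => Or.inl (hbirth S hS h2)) h1

end SBase

end Vale.Agent.P119.IND
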