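import Vale.Agent.P119.IND.MLaw
import Vale.Agent.P119.IND.MassProg0
import Vale.Agent.P119.PB.ExcPair

/-!
# P119, block IND: the mass of the laws of marked pairs (`helper350`)

* `pw_le_expd`: powers of the speed and exponentials;
* `MLaw.prgO`: the base structures of the marked pairs run a program with one class;
* **`mlaw_mass`**: the laws of the marked pairs have mass at most `C μ`, with powers of the speeds of
  the two marked lines;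
* **`mlaw_lim`**, `mlaw_lim_snd`: a functional of the marked pair which is uniformly small against powers of the speeds
  vanishes under the laws of the marked pairs (X6b).
-/

open MeasureTheory Filter Topology Set
open scoped ENNReal NNReal

set_option linter.unusedSectionVars false

noncomputable section

namespace Vale.Agent.P119.IND

open KU FL M M.CTree TL GC MM AU PB.CT

variable {Φ : E3 → ℝ} {f₀ : Ph → ℝ} {κ₀ b c M₀ M₁ ε t T₀ : ℝ}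

/-- Powers of the speed and exponentials. -/
theorem pw_le_expd (k : ℕ) {d : ℝ} (hd : 0 < d) : ∃ C : ℝ≥0∞, C ≠ ∞ ∧ ∀ v : E3,
    ML.pw k v ≤ C * ENNReal.ofReal (Real.exp (d * ‖v‖ ^ 2)) := by
  refine ⟨ENNReal.ofReal (k.factorial / d ^ k * Real.exp d), ENNReal.ofReal_ne_top, fun v => ?_⟩
  unfold ML.pw
  rw [← ENNReal.ofReal_mul (by positivity)]
  refine ENNReal.ofReal_le_ofReal ?_
  have h1 := Real.pow_div_factorial_le_exp (d * (1 + ‖v‖ ^ 2)) (by positivity) k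
  have h2 : Real.exp (d * (1 + ‖v‖ ^ 2)) = Real.exp d * Real.exp (d * ‖v‖ ^ 2) := by
    rw [← Real.exp_add]
    congr 1
    ring
  rw [h2, mul_pow] at h1
  have h3 : (0 : ℝ) < k.factorial := by exact_mod_cast Nat.factorial_pos k
  have h4 : 0 < d ^ k := by positivity
  have h5 : d ^ k * (1 + ‖v‖ ^ 2) ^ k ≤
      k.factorial * (Real.exp d * Real.exp (d * ‖v‖ ^ 2)) := by
    rw [div_le_iff₀ h3] at h1
    linarith
  calc (1 + ‖v‖ ^ 2) ^ k = d ^ k * (1 + ‖v‖ ^ 2) ^ k / d ^ k := by field_simp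
    _ ≤ k.factorial * (Real.exp d * Real.exp (d * ‖v‖ ^ 2)) / d ^ k :=
        div_le_div_of_nonneg_right h5 h4.le
    _ = _ := by ring

section

variable {m q L N : ℕ} {s : Fin q → ℝ} {dl : Fin q → ℕ}
  {W : (Fin m → CTree) → (Fin q → Ph) → ℝ≥0∞} {e k : (Fin m → CTree) → (Fin q → Ph) → Src}
  {CW : ℝ≥0∞}

/-- The base structures of the marked pairs run a program with one class. -/
theorem Mk.prgO (hΦ : IsPotential Φ) (hε : 0 < ε) (hm : 0 < m) (ht : t ≤ T₀)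
    {T : Fin m → CTree} {l : Fin q → Src} {e k : Src} (hB : Base Φ ε T l)
    (h : Mk Φ ε t N T l e k) (w : Finset Ph) : PrgO Φ ε T₀ 1 N T l w := by
  obtain ⟨F, G, E, S, h1, h2, h3, -⟩ := h.mono_T ht
  obtain ⟨R₀, h4⟩ := h2.slab hm hB h1.jn
  exact (PB.XT.prgO_of_slab hΦ hε h1.fam h4 w).mono le_rfl h3

theorem MLaw.prgO (hΦ : IsPotential Φ) (hε : 0 < ε) (hm : 0 < m) (ht : t ≤ T₀)
    (h : MLaw Φ ε t c L N s dl W e k CW) {T : Fin m → CTree} {l : Fin q → Ph}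
    (hW : W T l ≠ 0) : PrgO Φ ε T₀ 1 N T (lns s dl l) ∅ :=
  (h.mrk T l hW).prgO hΦ hε hm ht (h.base T l hW) ∅

end

/-- **The mass of the laws of marked pairs**, with powers of the speeds. -/
theorem mlaw_mass (h : GoodDatum f₀ κ₀) (hΦ : IsPotential Φ) (hc : 0 ≤ c) (hcb : c < b)
    (hM₀ : 0 ≤ M₀) (hf : ∀ z, f₀ z ≤ M₀ * Real.exp (-b * ‖z.2‖ ^ 2)) (hM₁ : 0 ≤ M₁)
    (hmarg : ∀ v, ∫⁻ x, ENNReal.ofReal (f₀ (x, v)) ≤ ENNReal.ofReal (M₁ * Real.exp (-b * ‖v‖ ^ 2)))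
    {m : ℕ} (hm : 0 < m) (q L N κ : ℕ) (hT₀ : 0 ≤ T₀) :
    ∃ C : ℝ≥0∞, C ≠ ∞ ∧ ∀ ε : ℝ, 0 < ε → ε ≤ 1 → ∀ t ≤ T₀, ∀ (s : Fin q → ℝ) (dl : Fin q → ℕ)
      (W : (Fin m → CTree) → (Fin q → Ph) → ℝ≥0∞) (e k : (Fin m → CTree) → (Fin q → Ph) → Src)
      (CW : ℝ≥0∞), MLaw Φ ε t c L N s dl W e k CW →
      muE ε ^ q * ∫⁻ T, ∫⁻ l : Fin q → Ph, (∏ j, g1 b (l j).2) * (W T l *
        (ML.pw κ (e T l).2.1.2 * ML.pw κ (k T l).2.1.2)) ∂volume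
        ∂(Measure.pi fun _ : Fin m => tree (inten f₀ ε) L) ≤ CW * (muE ε * C) := by
  have hd : 0 < (b - c) / 4 := by linarith
  obtain ⟨K, hK, hpw⟩ := pw_le_expd κ hd
  obtain ⟨C, hC, h1⟩ := mass_prog (c := c + 2 * ((b - c) / 4)) h hΦ (by linarith) (by linarith)
    hM₀ hf hM₁ hmarg m q L 1 N hT₀
  refine ⟨K * K * C, ENNReal.mul_ne_top (ENNReal.mul_ne_top hK hK) hC, ?_⟩
  intro ε hε hε1 t ht s dl W e k CW hL
  have hWne : ∀ T l, W T l * (ML.pw κ (e T l).2.1.2 * ML.pw κ (k T l).2.1.2) ≠ 0 → W T l ≠ 0 :=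
    fun T l h2 h3 => h2 (by rw [h3, zero_mul])
  have h2 := h1 ε hε hε1 s hL.nonneg dl
    (fun T l => W T l * (ML.pw κ (e T l).2.1.2 * ML.pw κ (k T l).2.1.2))
    (hL.meas.mul (((ML.measurable_pw κ).comp hL.meas_e.snd.fst.snd).mul
      ((ML.measurable_pw κ).comp hL.meas_k.snd.fst.snd))) (CW * (K * K)) ?_
    (fun T l h3 => hL.base T l (hWne T l h3))
    (fun T l h3 => hL.prgO hΦ hε hm ht (hWne T l h3))
  · rw [pow_one] at h2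
    refine h2.trans (le_of_eq ?_)
    ring
  · intro T l
    by_cases hW : W T l = 0
    · rw [hW, zero_mul]; exact zero_le
    have h3 := (hL.mrk T l hW).energy hΦ hε (hL.base T l hW)
    have h4 : ∀ v : E3, ‖v‖ ^ 2 ≤ enB T l →
        ML.pw κ v ≤ K * ENNReal.ofReal (Real.exp ((b - c) / 4 * enB T l)) := fun v hv =>
      (hpw v).trans (mul_le_mul' le_rfl (ENNReal.ofReal_le_ofReal (Real.exp_le_exp.2
        (mul_le_mul_of_nonneg_left hv hd.le))))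
    have e1 : ENNReal.ofReal (Real.exp ((c + 2 * ((b - c) / 4)) * enB T l)) =
        ENNReal.ofReal (Real.exp (c * enB T l)) *
          (ENNReal.ofReal (Real.exp ((b - c) / 4 * enB T l)) *
            ENNReal.ofReal (Real.exp ((b - c) / 4 * enB T l))) := by
      rw [← ENNReal.ofReal_mul (Real.exp_pos _).le, ← ENNReal.ofReal_mul (Real.exp_pos _).le,
        ← Real.exp_add, ← Real.exp_add]
      congr 2
      ring
    rw [e1]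
    refine (mul_le_mul' (hL.le T l) (mul_le_mul' (h4 _ h3.1) (h4 _ h3.2))).trans (le_of_eq ?_)
    ring

/-- Constants in the structure laws. -/
theorem lint_const {m q : ℕ} {ν : Measure (Fin m → CTree)} {a : ℝ≥0∞}
    {V I : (Fin m → CTree) → (Fin q → Ph) → ℝ≥0∞}
    (hV : Measurable fun p : (Fin m → CTree) × (Fin q → Ph) => V p.1 p.2)
    (hI : ∀ T l, I T l ≤ a * V T l) :
    ∫⁻ T, ∫⁻ l : Fin q → Ph, (∏ j, g1 b (l j).2) * I T l ∂volume ∂ν ≤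
      a * ∫⁻ T, ∫⁻ l : Fin q → Ph, (∏ j, g1 b (l j).2) * V T l ∂volume ∂ν := by
  have hg : Measurable fun z : Ph => g1 b z.2 := measurable_g1 b
  have hmg : Measurable fun l : Fin q → Ph => ∏ j, g1 b (l j).2 :=
    Finset.measurable_prod _ fun j _ => hg.comp (measurable_pi_apply j)
  have hm2 : Measurable fun p : (Fin m → CTree) × (Fin q → Ph) =>
      (∏ j, g1 b (p.2 j).2) * V p.1 p.2 := (hmg.comp measurable_snd).mul hV
  have hm4 : ∀ T, Measurable fun l : Fin q → Ph => V T l := fun T =>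
    hV.comp measurable_prodMk_left
  have hm5 : ∀ T, Measurable fun l : Fin q → Ph => (∏ j, g1 b (l j).2) * V T l := fun T =>
    hmg.mul (hm4 T)
  have hm3 : Measurable fun T : Fin m → CTree => ∫⁻ l : Fin q → Ph,
      (∏ j, g1 b (l j).2) * V T l := hm2.lintegral_prod_right'
  calc ∫⁻ T, ∫⁻ l : Fin q → Ph, (∏ j, g1 b (l j).2) * I T l ∂volume ∂ν
      ≤ ∫⁻ T, ∫⁻ l : Fin q → Ph, a * ((∏ j, g1 b (l j).2) * V T l) ∂volume ∂ν := by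
        refine lintegral_mono fun T => lintegral_mono fun l => ?_
        rw [mul_left_comm]
        exact mul_le_mul' le_rfl (hI T l)
    _ = ∫⁻ T, a * (∫⁻ l : Fin q → Ph, (∏ j, g1 b (l j).2) * V T l ∂volume) ∂ν :=
        lintegral_congr fun T => lintegral_const_mul a (hm5 T)
    _ = _ := lintegral_const_mul a hm3

/-- The best constant of a family of estimates. -/
theorem exists_best {X : Type*} {f g : ℝ → X → ℝ≥0∞} (hg0 : ∀ ε x, g ε x ≠ 0)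
    (hgt : ∀ ε x, g ε x ≠ ∞)
    (h : ∀ ρ : ℝ, 0 < ρ → ∀ᶠ ε : ℝ in 𝓝[>] 0, ∀ x, f ε x ≤ ENNReal.ofReal ρ * g ε x) :
    ∃ D : ℝ → ℝ≥0∞, Tendsto D (𝓝[>] 0) (𝓝 0) ∧ ∀ ε x, f ε x ≤ D ε * g ε x := by
  refine ⟨fun ε => ⨆ x, f ε x / g ε x, ?_, fun ε x => ?_⟩
  · rw [ENNReal.tendsto_nhds_zero]
    intro a ha
    by_cases hat : a = ∞
    · exact Eventually.of_forall fun _ => by rw [hat]; exact le_top
    filter_upwards [h a.toReal (ENNReal.toReal_pos ha.ne' hat)] with ε h1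
    refine iSup_le fun x => ?_
    rw [ENNReal.div_le_iff (hg0 ε x) (hgt ε x)]
    have h2 := h1 x
    rwa [ENNReal.ofReal_toReal hat] at h2
  · rw [← ENNReal.div_le_iff (hg0 ε x) (hgt ε x)]
    exact le_iSup (fun x => f ε x / g ε x) x

/-- **A uniformly small functional of the marked pair vanishes** under the laws of the marked
pairs. -/
theorem mlaw_lim (h : GoodDatum f₀ κ₀) (hΦ : IsPotential Φ) (hc : 0 ≤ c) (hcb : c < b)
    (hM₀ : 0 ≤ M₀) (hf : ∀ z, f₀ z ≤ M₀ * Real.exp (-b * ‖z.2‖ ^ 2)) (hM₁ : 0 ≤ M₁)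
    (hmarg : ∀ v, ∫⁻ x, ENNReal.ofReal (f₀ (x, v)) ≤ ENNReal.ofReal (M₁ * Real.exp (-b * ‖v‖ ^ 2)))
    {m : ℕ} (hm : 0 < m) (q L N κ : ℕ) (hT₀ : 0 ≤ T₀) {I : ℝ → ℝ → Src → Src → ℝ≥0∞}
    (hI : ∀ ρ : ℝ, 0 < ρ → ∀ᶠ ε : ℝ in 𝓝[>] 0, ∀ t ∈ Icc 0 T₀, ∀ σ τ : Src,
      (0 ≤ σ.1 ∧ σ.1 ≤ t ∧ σ.2.2 ≤ L) → (0 ≤ τ.1 ∧ τ.1 ≤ t ∧ τ.2.2 ≤ L) →
      I ε t σ τ ≤ ENNReal.ofReal ρ * (ML.pw κ σ.2.1.2 * ML.pw κ τ.2.1.2)) :
    ∃ Dl : ℝ → ℝ≥0∞, Tendsto Dl (𝓝[>] 0) (𝓝 0) ∧ ∀ ε : ℝ, 0 < ε → ε ≤ 1 → ∀ t ∈ Icc 0 T₀,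
      ∀ (s : Fin q → ℝ) (dl : Fin q → ℕ) (W : (Fin m → CTree) → (Fin q → Ph) → ℝ≥0∞)
      (e k : (Fin m → CTree) → (Fin q → Ph) → Src) (CW : ℝ≥0∞),
      MLaw Φ ε t c L N s dl W e k CW →
      muE ε ^ q * ∫⁻ T, ∫⁻ l : Fin q → Ph, (∏ j, g1 b (l j).2) *
        (W T l * I ε t (e T l) (k T l)) ∂volume
        ∂(Measure.pi fun _ : Fin m => tree (inten f₀ ε) L) ≤ CW * (muE ε * Dl ε) := by
  obtain ⟨C, hC, hmass⟩ := mlaw_mass h hΦ hc hcb hM₀ hf hM₁ hmarg hm q L N κ hT₀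
  have hpw0 : ∀ v : E3, ML.pw κ v ≠ 0 := fun v h1 =>
    absurd (ML.one_le_pw κ v) (by rw [h1]; simp)
  obtain ⟨D, hD, hID⟩ := exists_best (X := {x : ℝ × Src × Src // x.1 ∈ Icc 0 T₀ ∧
      (0 ≤ x.2.1.1 ∧ x.2.1.1 ≤ x.1 ∧ x.2.1.2.2 ≤ L) ∧
      (0 ≤ x.2.2.1 ∧ x.2.2.1 ≤ x.1 ∧ x.2.2.2.2 ≤ L)})
    (f := fun ε x => I ε x.1.1 x.1.2.1 x.1.2.2)
    (g := fun _ x => ML.pw κ x.1.2.1.2.1.2 * ML.pw κ x.1.2.2.2.1.2)
    (fun _ _ => mul_ne_zero (hpw0 _) (hpw0 _))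
    (fun _ _ => ENNReal.mul_ne_top ML.pw_ne_top ML.pw_ne_top) (fun ρ hρ => by
      filter_upwards [hI ρ hρ] with ε h1 x
      exact h1 x.1.1 x.2.1 x.1.2.1 x.1.2.2 x.2.2.1 x.2.2.2)
  refine ⟨fun ε => C * D ε, ?_, ?_⟩
  · have h1 := ENNReal.Tendsto.const_mul hD (Or.inr hC) (a := C)
    rwa [mul_zero] at h1
  intro ε hε hε1 t ht s dl W e k CW hL
  have h1 := hmass ε hε hε1 t ht.2 s dl W e k CW hL
  have hmW : Measurable fun p : (Fin m → CTree) × (Fin q → Ph) => W p.1 p.2 *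
      (ML.pw κ (e p.1 p.2).2.1.2 * ML.pw κ (k p.1 p.2).2.1.2) :=
    hL.meas.mul (((ML.measurable_pw κ).comp hL.meas_e.snd.fst.snd).mul
      ((ML.measurable_pw κ).comp hL.meas_k.snd.fst.snd))
  have hpt : ∀ T l, W T l * I ε t (e T l) (k T l) ≤
      D ε * (W T l * (ML.pw κ (e T l).2.1.2 * ML.pw κ (k T l).2.1.2)) := by
    intro T l
    by_cases hW : W T l = 0
    · rw [hW, zero_mul]; exact zero_le
    have hb := (hL.mrk T l hW).births hΦ hε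
    have hdp := hL.dep T l hW
    have h2 := hID ε ⟨(t, e T l, k T l), ht, ⟨hb.1.1, hb.1.2, hdp.1⟩, hb.2.1, hb.2.2, hdp.2⟩
    refine (mul_le_mul' le_rfl h2).trans (le_of_eq ?_)
    ring
  have h3 := lint_const (b := b) (ν := Measure.pi fun _ : Fin m => tree (inten f₀ ε) L) hmW hpt
  calc muE ε ^ q * ∫⁻ T, ∫⁻ l : Fin q → Ph, (∏ j, g1 b (l j).2) *
        (W T l * I ε t (e T l) (k T l)) ∂volume
        ∂(Measure.pi fun _ : Fin m => tree (inten f₀ ε) L)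
      ≤ muE ε ^ q * (D ε * ∫⁻ T, ∫⁻ l : Fin q → Ph, (∏ j, g1 b (l j).2) * (W T l *
        (ML.pw κ (e T l).2.1.2 * ML.pw κ (k T l).2.1.2)) ∂volume
        ∂(Measure.pi fun _ : Fin m => tree (inten f₀ ε) L)) := mul_le_mul' le_rfl h3
    _ = D ε * (muE ε ^ q * ∫⁻ T, ∫⁻ l : Fin q → Ph, (∏ j, g1 b (l j).2) * (W T l *
        (ML.pw κ (e T l).2.1.2 * ML.pw κ (k T l).2.1.2)) ∂volume
        ∂(Measure.pi fun _ : Fin m => tree (inten f₀ ε) L)) := by ring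
    _ ≤ D ε * (CW * (muE ε * C)) := mul_le_mul' le_rfl h1
    _ = CW * (muE ε * (C * D ε)) := by ring

/-- The same for a functional of the second line. -/
theorem mlaw_lim_snd (h : GoodDatum f₀ κ₀) (hΦ : IsPotential Φ) (hc : 0 ≤ c) (hcb : c < b)
    (hM₀ : 0 ≤ M₀) (hf : ∀ z, f₀ z ≤ M₀ * Real.exp (-b * ‖z.2‖ ^ 2)) (hM₁ : 0 ≤ M₁)
    (hmarg : ∀ v, ∫⁻ x, ENNReal.ofReal (f₀ (x, v)) ≤ ENNReal.ofReal (M₁ * Real.exp (-b * ‖v‖ ^ 2)))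
    {m : ℕ} (hm : 0 < m) (q L N κ : ℕ) (hT₀ : 0 ≤ T₀) {I : ℝ → ℝ → Src → ℝ≥0∞}
    (hI : ∀ ρ : ℝ, 0 < ρ → ∀ᶠ ε : ℝ in 𝓝[>] 0, ∀ t ∈ Icc 0 T₀, ∀ τ : Src,
      0 ≤ τ.1 → τ.1 ≤ t → τ.2.2 ≤ L → I ε t τ ≤ ENNReal.ofReal ρ * ML.pw κ τ.2.1.2) :
    ∃ Dl : ℝ → ℝ≥0∞, Tendsto Dl (𝓝[>] 0) (𝓝 0) ∧ ∀ ε : ℝ, 0 < ε → ε ≤ 1 → ∀ t ∈ Icc 0 T₀,
      ∀ (s : Fin q → ℝ) (dl : Fin q → ℕ) (W : (Fin m → CTree) → (Fin q → Ph) → ℝ≥0∞)
      (e k : (Fin m → CTree) → (Fin q → Ph) → Src) (CW : ℝ≥0∞),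
      MLaw Φ ε t c L N s dl W e k CW →
      muE ε ^ q * ∫⁻ T, ∫⁻ l : Fin q → Ph, (∏ j, g1 b (l j).2) *
        (W T l * I ε t (k T l)) ∂volume
        ∂(Measure.pi fun _ : Fin m => tree (inten f₀ ε) L) ≤ CW * (muE ε * Dl ε) :=
  mlaw_lim (I := fun ε t _ τ => I ε t τ) h hΦ hc hcb hM₀ hf hM₁ hmarg hm q L N κ hT₀ fun ρ hρ => by
    filter_upwards [hI ρ hρ] with ε h1 t ht σ τ _ hτ
    refine (h1 t ht τ hτ.1 hτ.2.1 hτ.2.2).trans (mul_le_mul' le_rfl ?_)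
    exact le_mul_of_one_le_left' (ML.one_le_pw κ _)

end Vale.Agent.P119.IND
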