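import Vale.Agent.P119.IND.TriDet
import Vale.Agent.P119.PB.X

/-!
# P119, block IND: a third body at the first collision of a line, over a base (`helper939`)

* `Grf.triP`: the irregular contacts `TriI` of a family are those of the grafted program;
* `BaseP.irrBad_tri`: the exit to `IrrBad`; the labels of the base are joined by the base program and
  by the family together;
* `BaseP.triW`: **the event `TriW` over a base structure**;
* `BaseP.addRaw`: a base with further particles (sources which are seen by the gas as they are);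
* `triW_irrBad`: the event `TriW` for one tree and one line.
-/

open Set
open scoped ENNReal

set_option linter.unusedSectionVars false

noncomputable section

namespace Vale.Agent.P119.IND

open KU M M.CTree TL RB GC AU _root_.Vale.Agent.P119.FB

variable {Φ : E3 → ℝ} {ε T t s : ℝ} {L : ℕ} {κ : Type} [DecidableEq κ]

namespace Grf

variable {z x : κ → Src} {D : Set κ} {Q : List (Ev κ × ℝ)} {F : Finset CTree} {G : List Gh}
  {V : Set Src} [DecidableEq (κ ⊕ Frl F V)] {M Q₁ : List (Ev (κ ⊕ Frl F V) × ℝ)}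

/-- **The irregular contacts of the grafted program.** -/
theorem triP (hΦ : IsPotential Φ) (hε : 0 < ε) (hB : BaseP Φ ε T z x D Q)
    (h : Grf Φ ε T z x D Q F G V M Q₁) (hF : Fam Φ ε T F G)
    (hV : ∀ σ ∈ lab F, σ ∈ V ∨ ∃ i ∉ D, x i = σ) (hGs : ∀ g ∈ G, g.2.2 ≤ s)
    {es : List (Src × Src)} (hI : TriI Φ ε F G s es) :
    ∃ es' : List ((κ ⊕ Frl F V) × (κ ⊕ Frl F V)),
      IrrP Φ ε M (fun i => (zAll z F V i).1) (fun i => (zAll z F V i).2.1) s es' ∧
      ∀ p ∈ es, ∃ i k, i ∉ Sum.inl '' D ∧ k ∉ Sum.inl '' D ∧ zAll x F V i = p.1 ∧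
        zAll x F V k = p.2 ∧ (i, k) ∈ es' := by
  set β : κ ⊕ Frl F V → ℝ := fun i => (zAll z F V i).1 with hβ
  set Z : κ ⊕ Frl F V → Ph := fun i => (zAll z F V i).2.1 with hZ
  have hlbl : ∀ S, IsLast F S → ∃ i : κ ⊕ Frl F V, i ∉ Sum.inl '' D ∧ zAll x F V i = S.root :=
    fun S hS => exists_lbl hV hS.root_mem
  have hne : ∀ {i k : κ ⊕ Frl F V} {S S' : CTree}, zAll x F V i = S.root →
      zAll x F V k = S'.root → S.root ≠ S'.root → i ≠ k := by
    rintro i k S S' h1 h2 h3 rfl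
    exact h3 (h1.symm.trans h2)
  cases hI with
  | tri X Y C hX hY hC hok h1 h2 eC hCx hCy hc nd tg =>
    obtain ⟨iX, dX, xX⟩ := hlbl X hX
    obtain ⟨iY, dY, xY⟩ := hlbl Y hY
    obtain ⟨iC, dC, xC⟩ := hlbl C hC
    have sX := h.lst hX dX xX
    have sY := h.lst hY dY xY
    have sC := h.lst hC dC xC
    rw [← hβ, ← hZ] at sX sY sC
    have hXY : X.root ≠ Y.root := by
      intro hr
      exact Set.disjoint_left.1 hok.2.2.1 X.root_mem_leaves (hr ▸ Y.root_mem_leaves)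
    refine ⟨[(iX, iY), (iX, iC)], .tri iX iY iC (hne xX xY hXY) (hne xC xX hCx)
      (hne xC xY hCy) ?_ ?_ ?_ ?_ ?_ ?_ ?_ ?_ ?_ ?_ ?_ ?_ ?_ ?_, ?_⟩
    · rw [sX.lin, sY.lin]; exact hok.2.2.2.1
    · rw [sX.lin, sY.lin]; exact hok.2.2.2.2.1
    · rw [sX.lin, sY.lin]; exact sX.bir.trans_lt hok.2.2.2.2.2.1
    · rw [sX.lin, sY.lin]; exact sY.bir.trans_lt hok.2.2.2.2.2.2
    · rw [sX.lin, sY.lin]; exact h1
    · rw [sX.lin, sY.lin]; exact h2
    · exact sC.bir.trans eC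
    · rw [sX.lin, sY.lin, sC.lin]
      rw [st_swap hΦ X Y s] at hc
      exact hc
    · exact h.notDr hB dX xX fun g hg => (nd g hg).1
    · exact h.notDr hB dY xY fun g hg => (nd g hg).2.1
    · exact h.notDr hB dC xC fun g hg => (nd g hg).2.2
    · rw [sX.lin, sY.lin]
      exact h.useLe hΦ hε hB hF hX dX xX hok.2.2.2.2.2.1.le (fun g hg => (nd g hg).1)
        fun g hg hr => tg g hg (Or.inl hr)
    · rw [sX.lin, sY.lin]
      exact h.useLe hΦ hε hB hF hY dY xY hok.2.2.2.2.2.2.le (fun g hg => (nd g hg).2.1)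
        fun g hg hr => tg g hg (Or.inr hr)
    · exact h.useLe hΦ hε hB hF hC dC xC eC (fun g hg => (nd g hg).2.2) fun g hg _ => hGs g hg
    · intro p hp
      simp only [List.mem_cons, List.not_mem_nil, or_false] at hp
      rcases hp with rfl | rfl
      · exact ⟨iX, iY, dX, dY, xX, xY, by simp⟩
      · exact ⟨iX, iC, dX, dC, xX, xC, by simp⟩
  | quad X Y U W hX hY hU hW hok h1 h2 hok' h1' h2' r1 r2 r3 r4 hc nd tg tg' =>
    obtain ⟨iX, dX, xX⟩ := hlbl X hX
    obtain ⟨iY, dY, xY⟩ := hlbl Y hY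
    obtain ⟨iU, dU, xU⟩ := hlbl U hU
    obtain ⟨iW, dW, xW⟩ := hlbl W hW
    have sX := h.lst hX dX xX
    have sY := h.lst hY dY xY
    have sU := h.lst hU dU xU
    have sW := h.lst hW dW xW
    rw [← hβ, ← hZ] at sX sY sU sW
    have hXY : X.root ≠ Y.root := by
      intro hr
      exact Set.disjoint_left.1 hok.2.2.1 X.root_mem_leaves (hr ▸ Y.root_mem_leaves)
    have hUW : U.root ≠ W.root := by
      intro hr
      exact Set.disjoint_left.1 hok'.2.2.1 U.root_mem_leaves (hr ▸ W.root_mem_leaves)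
    refine ⟨[(iX, iY), (iU, iW), (iX, iU)], .quad iX iY iU iW (hne xX xY hXY) (hne xU xW hUW)
      (hne xX xU r1) (hne xX xW r2) (hne xY xU r3) (hne xY xW r4) ?_ ?_ ?_ ?_ ?_ ?_ ?_ ?_ ?_ ?_ ?_
      ?_ ?_ ?_ ?_ ?_ ?_ ?_ ?_ ?_ ?_, ?_⟩
    · rw [sX.lin, sY.lin]; exact hok.2.2.2.1
    · rw [sX.lin, sY.lin]; exact hok.2.2.2.2.1
    · rw [sX.lin, sY.lin]; exact sX.bir.trans_lt hok.2.2.2.2.2.1
    · rw [sX.lin, sY.lin]; exact sY.bir.trans_lt hok.2.2.2.2.2.2
    · rw [sX.lin, sY.lin]; exact h1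
    · rw [sX.lin, sY.lin]; exact h2
    · rw [sU.lin, sW.lin]; exact hok'.2.2.2.1
    · rw [sU.lin, sW.lin]; exact hok'.2.2.2.2.1
    · rw [sU.lin, sW.lin]; exact sU.bir.trans_lt hok'.2.2.2.2.2.1
    · rw [sU.lin, sW.lin]; exact sW.bir.trans_lt hok'.2.2.2.2.2.2
    · rw [sU.lin, sW.lin]; exact h1'
    · rw [sU.lin, sW.lin]; exact h2'
    · rw [sX.lin, sY.lin, sU.lin, sW.lin]
      exact hc
    · exact h.notDr hB dX xX fun g hg => (nd g hg).1
    · exact h.notDr hB dY xY fun g hg => (nd g hg).2.1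
    · exact h.notDr hB dU xU fun g hg => (nd g hg).2.2.1
    · exact h.notDr hB dW xW fun g hg => (nd g hg).2.2.2
    · rw [sX.lin, sY.lin]
      exact h.useLe hΦ hε hB hF hX dX xX hok.2.2.2.2.2.1.le (fun g hg => (nd g hg).1)
        fun g hg hr => tg g hg (Or.inl hr)
    · rw [sX.lin, sY.lin]
      exact h.useLe hΦ hε hB hF hY dY xY hok.2.2.2.2.2.2.le (fun g hg => (nd g hg).2.1)
        fun g hg hr => tg g hg (Or.inr hr)
    · rw [sU.lin, sW.lin]
      exact h.useLe hΦ hε hB hF hU dU xU hok'.2.2.2.2.2.1.le (fun g hg => (nd g hg).2.2.1)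
        fun g hg hr => tg' g hg (Or.inl hr)
    · rw [sU.lin, sW.lin]
      exact h.useLe hΦ hε hB hF hW dW xW hok'.2.2.2.2.2.2.le (fun g hg => (nd g hg).2.2.2)
        fun g hg hr => tg' g hg (Or.inr hr)
    · intro p hp
      simp only [List.mem_cons, List.not_mem_nil, or_false] at hp
      rcases hp with rfl | rfl | rfl
      · exact ⟨iX, iY, dX, dY, xX, xY, by simp⟩
      · exact ⟨iU, iW, dU, dW, xU, xW, by simp⟩
      · exact ⟨iX, iU, dX, dU, xX, xU, by simp⟩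

end Grf

section exits

variable [Fintype κ] {z x : κ → Src} {D : Set κ} {Q : List (Ev κ × ℝ)} {m q N : ℕ}
  {T₀ : Fin m → CTree} {l₀ : Fin q → Src} {w : Finset Ph} {F : Finset CTree} {G : List Gh}

/-- **The exit to `IrrBad`**: the labels are joined by the base program and by the family together
(all the sources of `F` are joined to `σ₀`, every label of the base is joined by the base program to a
label whose final source is in `F`). -/
theorem BaseP.irrBad_tri (hΦ : IsPotential Φ) (hε : 0 < ε) (hB : BaseP Φ ε T z x D Q)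
    (hL : BLab T₀ l₀ z) (hzw : ∀ i, z i ∉ wS w) (hxw : ∀ i ∉ D, x i ∉ wS w) (hs : s ≤ T)
    (hF : Fam Φ ε s F G) {es : List (Src × Src)}
    (hmem : ∀ σ ∈ lab F, σ ∈ wS w ∨ ∃ i ∉ D, x i = σ) {σ₀ : Src}
    (hcon : ∀ σ ∈ lab F, FX F G es σ σ₀)
    (hbase : ∀ i : κ, ∃ k, Jn Q i k ∧ k ∉ D ∧ x k ∈ lab F) (i₀ : κ) (hI : TriI Φ ε F G s es)
    (h1 : Fintype.card κ + F.card ≤ N) (h2 : Q.length + F.card + G.length ≤ N) :
    IrrBad Φ ε T N T₀ l₀ w := by
  classical
  have hFT := hF.mono_T hs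
  obtain ⟨M, Q₁, h⟩ := hB.graft_fam hΦ hε hFT (V := (wS w : Set Src)) hmem fun i hi => hxw i hi
  have : Fintype (Frl F (wS w : Set Src)) := Fintype.ofFinite _
  have hlen : M.length ≤ N := by
    have e1 := h.length_eq
    have e2 := h.len
    have e3 := card_nl_le F
    omega
  obtain ⟨es', h3, h4⟩ := h.triP hΦ hε hB hFT hmem (fun g hg => (hF.gh g hg).2.2.2.2.2.1) hI
  have hb : ∀ {i k : κ}, Jn Q i k → Edg.Joined (edges M ++ es') (Sum.inl i) (Sum.inl k) := by
    intro i k hJ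
    refine h.joined_base (es₀ := []) (fun p hp => absurd hp List.not_mem_nil) ?_
    rw [List.append_nil]
    exact jn_iff_joined.1 hJ
  obtain ⟨k₀, -, hk₀, hk₀F⟩ := hbase i₀
  refine IrrBad.of_fintype (ι := κ ⊕ Frl F (wS w : Set Src)) (M := M) (s := s) (es := es') ?_
    hlen (hL.labT hB.inj hzw F) ⟨h.wf, h.run, hs, h3, fun i k => ?_⟩
  · rw [Fintype.card_sum]
    have := card_frl_le F (wS w : Set Src)
    omega
  · refine h.joined_all hB hFT hmem (fun i hi => hxw i hi) h4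
      (fun σ hσ _ => ⟨k₀, hk₀, (hcon _ hk₀F).trans (hcon σ hσ).symm⟩) (fun a b => ?_) i k
    obtain ⟨a', ha1, ha2, ha3⟩ := hbase a
    obtain ⟨b', hb1, hb2, hb3⟩ := hbase b
    exact (hb ha1).trans ((h.joined_trail hB hFT hmem (fun i hi => hxw i hi) h4
      (inl_notMem ha2) (inl_notMem hb2) ((hcon _ ha3).trans (hcon _ hb3).symm)).trans (hb hb1).symm)

/-- **The event `TriW` over a base structure**: the world `W` consists of ordinary particles and of
final sources of the base, the line `l` is a final source of the base. -/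
theorem BaseP.triW (hΦ : IsPotential Φ) (hε : 0 < ε) (hB : BaseP Φ ε T z x D Q)
    (hL : BLab T₀ l₀ z) (hzw : ∀ i, z i ∉ wS w) (hxw : ∀ i ∉ D, x i ∉ wS w)
    {W : Finset Src} (hW : ∀ σ ∈ W, σ ∈ wS w ∨ ∃ i ∉ D, x i = σ) {R : CTree} {l : Src}
    (hl : l ∉ W) {i₀ : κ} (hi₀ : i₀ ∉ D) (hlx : x i₀ = l) (hok : CTree.ok Φ ε (node R (leaf l)))
    (hR : alive Φ ε L (W : Set Src) R (sig Φ ε (node R (leaf l)))) (ht : t ≤ T)
    (hbase : ∀ i : κ, ∃ k, Jn Q i k ∧ k ∉ D ∧ (x k ∈ R.leaves ∨ x k = l))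
    (h : TriW Φ ε L W R l t) (h1 : Fintype.card κ + (2 * 2 ^ (L + 2) + 1) ≤ N)
    (h2 : Q.length + (2 * 2 ^ (L + 2) + 2) ≤ N) : IrrBad Φ ε T N T₀ l₀ w := by
  obtain ⟨r, hrt, S, hN⟩ := TriW_normal hΦ hε hR h
  obtain ⟨F, G, es, hF, hI, hc, hG, hlab, hRF, hlF, hcon⟩ := hN.exists_fam hΦ hε hl hok
  refine hB.irrBad_tri hΦ hε hL hzw hxw (hrt.trans ht) hF (fun σ hσ => ?_) hcon (fun i => ?_) i₀ hI
    (by omega) (by omega)
  · rcases hlab σ hσ with h3 | h3
    · exact hW σ h3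
    · exact Or.inr ⟨i₀, hi₀, hlx.trans h3.symm⟩
  · obtain ⟨k, h3, h4, h5⟩ := hbase i
    refine ⟨k, h3, h4, ?_⟩
    rcases h5 with h5 | h5
    · exact hRF _ h5
    · rw [h5]; exact hlF

end exits

/-! ### Bases with particles which are seen by the gas -/

/-- The base which consists of particles seen by the gas. -/
theorem BaseP.raw (U : Finset Src) [DecidableEq {σ // σ ∈ U}] (h0 : ∀ σ ∈ U, 0 ≤ σ.1) :
    BaseP Φ ε T (Subtype.val : {σ // σ ∈ U} → Src) Subtype.val ∅ [] where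
  nonneg i := h0 _ i.2
  inj := Subtype.val_injective
  run := trivial
  wf := trivial
  ghost _ he := absurd he List.not_mem_nil
  lin _ _ := rfl
  bir _ _ := le_rfl
  xinj := Subtype.val_injective.injOn

/-- **A base with further particles**, which are seen by the gas. -/
theorem BaseP.addRaw {z x : κ → Src} {D : Set κ} {Q : List (Ev κ × ℝ)}
    (hB : BaseP Φ ε T z x D Q) (U : Finset Src) [DecidableEq (κ ⊕ {σ // σ ∈ U})]
    (h0 : ∀ σ ∈ U, 0 ≤ σ.1) (hz : ∀ i, z i ∉ U) (hx : ∀ i ∉ D, x i ∉ U) :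
    BaseP Φ ε T (Sum.elim z Subtype.val : κ ⊕ {σ // σ ∈ U} → Src) (Sum.elim x Subtype.val)
      (Sum.inl '' D) (mapP Sum.inl Q) := by
  set z' : κ ⊕ {σ // σ ∈ U} → Src := Sum.elim z Subtype.val with hz'
  have hinl : Function.Injective (Sum.inl : κ → κ ⊕ {σ // σ ∈ U}) := Sum.inl_injective
  have hmem : ∀ e ∈ mapP (Sum.inl : κ → κ ⊕ {σ // σ ∈ U}) Q, ∃ e₀ ∈ Q,
      e = (e₀.1.map Sum.inl, e₀.2) := by
    intro e he
    obtain ⟨e₀, h1, h2⟩ := List.mem_map.1 he
    exact ⟨e₀, h1, h2.symm⟩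
  have hno : ∀ σ : {σ // σ ∈ U}, ∀ e ∈ mapP (Sum.inl : κ → κ ⊕ {σ // σ ∈ U}) Q,
      e.1.fst ≠ Sum.inr σ ∧ e.1.snd ≠ Sum.inr σ := by
    intro σ e he
    obtain ⟨e₀, -, rfl⟩ := hmem e he
    simp only [Ev.map_fst, Ev.map_snd]
    exact ⟨Sum.inl_ne_inr, Sum.inl_ne_inr⟩
  refine ⟨?_, ?_, ?_, ?_, ?_, ?_, ?_, ?_⟩
  · rintro (i | σ)
    · exact hB.nonneg i
    · exact h0 _ σ.2
  · rintro (i | σ) (k | τ) h
    · exact congrArg Sum.inl (hB.inj h)
    · exact absurd τ.2 (by rw [← show z i = τ.1 from h]; exact hz i)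
    · exact absurd σ.2 (by rw [show σ.1 = z k from h]; exact hz k)
    · exact congrArg Sum.inr (Subtype.ext h)
  · exact (runT_map hinl Q 0 _ _).2 hB.run
  · exact (wf_map hinl Q).2 hB.wf
  · intro e he i k hik
    obtain ⟨e₀, h1, rfl⟩ := hmem e he
    cases hev : e₀.1 with
    | sc c d => rw [hev] at hik; exact absurd hik (by simp [Ev.map])
    | gh c d =>
      rw [hev] at hik
      simp only [Ev.map, Ev.gh.injEq] at hik
      obtain ⟨rfl, rfl⟩ := hik
      have h2 := hB.ghost e₀ h1 c d hev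
      exact ⟨⟨c, h2.1, rfl⟩, fun hd => h2.2 fun h' => hd ⟨d, h', rfl⟩⟩
  · rintro (i | σ) hi
    · have h1 : i ∉ D := fun h => hi ⟨i, h, rfl⟩
      have h2 := congrFun (finZ_map (Φ := Φ) (ε := ε) hinl Q (fun i => (z' i).2.1)) i
      simp only [Function.comp_apply] at h2
      rw [h2]
      exact hB.lin i h1
    · exact finZ_left (Q₁ := []) (hno σ)
  · rintro (i | σ) hi
    · have h1 : i ∉ D := fun h => hi ⟨i, h, rfl⟩
      have h2 := congrFun (finB_map (Φ := Φ) (ε := ε) hinl Q (fun i => (z' i).1)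
        (fun i => (z' i).2.1)) i
      simp only [Function.comp_apply] at h2
      rw [h2]
      exact hB.bir i h1
    · exact (finB_left (Q₁ := []) (hno σ)).le
  · rintro (i | σ) hi (k | τ) hk h
    · have h1 : i ∉ D := fun h => hi ⟨i, h, rfl⟩
      have h2 : k ∉ D := fun h => hk ⟨k, h, rfl⟩
      exact congrArg Sum.inl (hB.xinj h1 h2 h)
    · have h1 : i ∉ D := fun h => hi ⟨i, h, rfl⟩
      exact absurd τ.2 (by rw [← show x i = τ.1 from h]; exact hx i h1)
    · have h2 : k ∉ D := fun h => hk ⟨k, h, rfl⟩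
      exact absurd σ.2 (by rw [show σ.1 = x k from h]; exact hx k h2)
    · exact congrArg Sum.inr (Subtype.ext h)

/-- The number of the leaves. -/
theorem card_leaves_le {R : CTree} (hd : R.depth ≤ L) :
    R.leaves_finite.toFinset.card ≤ 2 ^ (L + 2) := by
  classical
  have h1 : R.leaves_finite.toFinset ⊆ (pf R).image CTree.root := by
    intro σ hσ
    have h2 : leaf σ ∈ parts R := leaf_mem_parts (R.leaves_finite.mem_toFinset.1 hσ)
    exact Finset.mem_image.2 ⟨leaf σ, Finset.mem_coe.1 (parts_subset_pf R h2), rfl⟩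
  refine (Finset.card_le_card h1).trans (Finset.card_image_le.trans ?_)
  have h3 := pf_card_le R
  have h4 : 2 ^ (R.depth + 2) ≤ 2 ^ (L + 2) := Nat.pow_le_pow_right (by norm_num) (by omega)
  omega

/-- The births of the leaves are nonnegative. -/
theorem leaf_nonneg {R : CTree} (hR : CTree.ok Φ ε R) {σ : Src} (hσ : σ ∈ R.leaves) : 0 ≤ σ.1 := by
  induction R with
  | leaf τ => rw [mem_singleton_iff.1 hσ]; exact hR
  | node a b iha ihb =>
    rcases hσ with h | h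
    · exact iha hR.1 h
    · exact ihb hR.2.1 h

/-- **The event `TriW` for one tree and one line.** -/
theorem triW_irrBad (hΦ : IsPotential Φ) (hε : 0 < ε) {w : Finset Ph} {R : CTree} {l : Src}
    (hlw : l ∉ wS w) (hRw : ∀ σ ∈ R.leaves, σ ∉ wS w) (hok : CTree.ok Φ ε (node R (leaf l)))
    (hR : alive Φ ε L (PB.addT (wS w) R : Set Src) R (sig Φ ε (node R (leaf l))))
    (ht : t ≤ T) (h : TriW Φ ε L (PB.addT (wS w) R) R l t) :
    IrrBad Φ ε T (4 * 2 ^ (L + 2) + 2) (fun _ : Fin 1 => R) (fun _ : Fin 1 => l) w := by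
  classical
  set U : Finset Src := insert l R.leaves_finite.toFinset with hU
  have hmU : ∀ σ, σ ∈ U ↔ σ = l ∨ σ ∈ R.leaves := by
    intro σ
    rw [hU, Finset.mem_insert, Finite.mem_toFinset]
  have hlR : l ∉ R.leaves := fun h' => Set.disjoint_left.1 hok.2.2.1 h' (mem_singleton l)
  have hadd : ∀ σ, σ ∈ PB.addT (wS w) R ↔ σ ∈ wS w ∨ σ ∈ R.leaves := by
    intro σ
    rw [← Finset.mem_coe, PB.coe_addT]
    exact Iff.rfl
  have h0 : ∀ σ ∈ U, 0 ≤ σ.1 := by
    intro σ hσ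
    rcases (hmU σ).1 hσ with h1 | h1
    · rw [h1]; exact hok.2.1
    · exact leaf_nonneg hok.1 h1
  have hUw : ∀ i : {σ // σ ∈ U}, i.1 ∉ wS w := by
    intro i
    rcases (hmU i.1).1 i.2 with h1 | h1
    · rw [h1]; exact hlw
    · exact hRw _ h1
  have hcard : Fintype.card {σ // σ ∈ U} ≤ 2 ^ (L + 2) + 1 := by
    rw [Fintype.card_coe]
    have h1 := card_leaves_le (alive_pre hR).depth
    have h2 := Finset.card_insert_le l R.leaves_finite.toFinset
    rw [← hU] at h2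
    omega
  refine (BaseP.raw (Φ := Φ) (ε := ε) (T := T) U h0).triW hΦ hε (L := L) (W := PB.addT (wS w) R)
    (R := R) (l := l) (i₀ := ⟨l, (hmU l).2 (Or.inl rfl)⟩) ?_ hUw (fun i _ => hUw i) ?_ ?_
    (notMem_empty _) rfl hok hR ht ?_ h ?_ ?_
  · refine ⟨fun i => ?_, fun _ σ hσ => ⟨⟨σ, (hmU σ).2 (Or.inr hσ)⟩, rfl⟩,
      fun _ => ⟨⟨l, (hmU l).2 (Or.inl rfl)⟩, rfl⟩⟩
    rcases (hmU i.1).1 i.2 with h1 | h1
    · exact Or.inr ⟨0, h1.symm⟩
    · exact Or.inl ⟨0, h1⟩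
  · intro σ hσ
    rcases (hadd σ).1 hσ with h1 | h1
    · exact Or.inl h1
    · exact Or.inr ⟨⟨σ, (hmU σ).2 (Or.inr h1)⟩, notMem_empty _, rfl⟩
  · intro h1
    rcases (hadd l).1 h1 with h2 | h2
    · exact hlw h2
    · exact hlR h2
  · intro i
    refine ⟨i, Jn.refl _ _, notMem_empty _, ?_⟩
    exact ((hmU i.1).1 i.2).symm
  · omega
  · simp only [List.length_nil]
    omega

end Vale.Agent.P119.IND
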