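import Vale.Agent.P119.IND.FamLaw

/-!
# P119, block IND: programs with a final contact over the structure laws (`helper350`)

* `relQ Q P i a b`: the program `P` runs and the final states (birth, line) of the labels `i`, `a`, `b`
  satisfy `Q` (e.g. a third body `i` at the colliding pair `a`, `b`);
* `FinOK P i a b`: well formed, all the labels are joined by the events and by `a ~ b`, `i ~ b`;
* `FinBad Q`: the particles of the base structure and at most `N` particles in all run such a program;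
* `fin_law_le`: integrated over the structure law, the probability is `≤ C δ` if all these relations
  have mass `≤ δ`.
-/

open MeasureTheory Filter Topology Set
open scoped ENNReal NNReal

set_option linter.unusedSectionVars false

noncomputable section

namespace Vale.Agent.P119.IND

open KU FL M M.CTree GC MM AU PB.CT TL

variable {Φ : E3 → ℝ} {ε t : ℝ} {m q : ℕ} {Q : ℝ × Ph → ℝ × Ph → ℝ × Ph → Prop}

/-- The final state of a label. -/
def finS (Φ : E3 → ℝ) (ε : ℝ) {ι : Type} [DecidableEq ι] (P : List (Ev ι × ℝ)) (y : ι → ℝ × Ph)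
    (i : ι) : ℝ × Ph :=
  (finB Φ ε P (fun i => (y i).1) (fun i => (y i).2) i, finZ Φ ε P (fun i => (y i).2) i)

/-- The relation: the program runs and the final states of three labels satisfy `Q`. -/
def relQ (Φ : E3 → ℝ) (ε T : ℝ) (Q : ℝ × Ph → ℝ × Ph → ℝ × Ph → Prop) {n : ℕ}
    (P : List (Ev (Fin n))) (i a b : Fin n) : Set (Fin n → ℝ × Ph) :=
  {y | Run Φ ε T 0 (pl T P) (fun i => (y i).1) (fun i => (y i).2) ∧
    Q (finS Φ ε (pl T P) y i) (finS Φ ε (pl T P) y a) (finS Φ ε (pl T P) y b)}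

theorem measurable_finS (hΦ : IsPotential Φ) (hε : ε ≠ 0) {ι : Type} [DecidableEq ι] [Fintype ι]
    (P : List (Ev ι × ℝ)) (i : ι) : Measurable fun y : ι → ℝ × Ph => finS Φ ε P y i := by
  have h1 : Measurable fun y : ι → ℝ × Ph => fun i => (y i).1 :=
    measurable_pi_iff.2 fun i => measurable_fst.comp (measurable_pi_apply i)
  have h2 : Measurable fun y : ι → ℝ × Ph => fun i => (y i).2 :=
    measurable_pi_iff.2 fun i => measurable_snd.comp (measurable_pi_apply i)
  exact ((measurable_pi_apply i).comp (measurable_finB hΦ hε P h1 h2)).prodMk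
    ((measurable_pi_apply i).comp (measurable_finZ hΦ hε P h2))

theorem measurableSet_relQ (hΦ : IsPotential Φ) (hε : ε ≠ 0)
    (hQ : MeasurableSet {p : (ℝ × Ph) × (ℝ × Ph) × (ℝ × Ph) | Q p.1 p.2.1 p.2.2}) {T : ℝ} {n : ℕ}
    (P : List (Ev (Fin n))) (i a b : Fin n) : MeasurableSet (relQ Φ ε T Q P i a b) := by
  refine (measurableSet_relP hΦ hε (T := T) P).inter ?_
  exact ((measurable_finS hΦ hε (pl T P) i).prodMk ((measurable_finS hΦ hε (pl T P) a).prodMk
    (measurable_finS hΦ hε (pl T P) b))) hQ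

/-- Well formed programs with a final contact; all the labels are joined by the events of the program
and by the final contact. -/
structure FinOK {ι : Type} [DecidableEq ι] (T : ℝ) (P : List (Ev ι)) (i a b : ι) : Prop where
  wf : Wf (pl T P)
  jn : ∀ j k, Jn (pl T (P ++ [Ev.gh a b, Ev.gh i b])) j k
  ab : a ≠ b
  ia : i ≠ a
  ib : i ≠ b

/-- The programs with at most `N` labels and at most `N` events and a final contact. -/
def Fpr (T : ℝ) (N : ℕ) : Type :=
  Σ n : Fin (N + 1), {P : List (Ev (Fin n)) × Fin n × Fin n × Fin n //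
    P.1.length ≤ N ∧ FinOK T P.1 P.2.1 P.2.2.1 P.2.2.2}

instance finite_fpr (T : ℝ) (N : ℕ) : Finite (Fpr T N) := by
  have h : ∀ n : Fin (N + 1), Finite {P : List (Ev (Fin n)) × Fin n × Fin n × Fin n //
      P.1.length ≤ N ∧ FinOK T P.1 P.2.1 P.2.2.1 P.2.2.2} := by
    intro n
    have h1 : ({P : List (Ev (Fin n)) | P.length ≤ N} ×ˢ
        (Set.univ : Set (Fin n × Fin n × Fin n))).Finite :=
      (List.finite_length_le (Ev (Fin n)) N).prod Set.finite_univ
    exact h1.subset fun P hP => ⟨hP.1, Set.mem_univ _⟩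
  unfold Fpr
  infer_instance

noncomputable instance fintype_fpr (T : ℝ) (N : ℕ) : Fintype (Fpr T N) := Fintype.ofFinite _

/-- The particles of the base structure and at most `N` particles in all, the others in the world
`w`, run a connected program with a final contact. -/
def FinBad (Φ : E3 → ℝ) (ε t : ℝ) (Q : ℝ × Ph → ℝ × Ph → ℝ × Ph → Prop) (N : ℕ)
    (T : Fin m → CTree) (l : Fin q → Src) (w : Finset Ph) : Prop :=
  ∃ n ≤ N, ∃ (z : Fin n → Src) (P : List (Ev (Fin n))) (i a b : Fin n), P.length ≤ N ∧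
    LabT T l w z ∧ FinOK t P i a b ∧ (fun i => sta (z i)) ∈ relQ Φ ε t Q P i a b

theorem FinBad.mono {N N' : ℕ} (hN : N ≤ N') {T : Fin m → CTree} {l : Fin q → Src} {w : Finset Ph}
    (h : FinBad Φ ε t Q N T l w) : FinBad Φ ε t Q N' T l w := by
  obtain ⟨n, hn, z, P, i, a, b, h1, h2⟩ := h
  exact ⟨n, hn.trans hN, z, P, i, a, b, h1.trans hN, h2⟩

/-- Any finite set of labels. -/
theorem FinBad.of_fintype {N : ℕ} {T : Fin m → CTree} {l : Fin q → Src} {w : Finset Ph}
    {ι : Type} [Fintype ι] [DecidableEq ι] (hι : Fintype.card ι ≤ N) {z : ι → Src}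
    {P : List (Ev ι)} (hP : P.length ≤ N) (hz : LabT T l w z) {i a b : ι} (hF : FinOK t P i a b)
    (hr : Run Φ ε t 0 (pl t P) (fun i => (z i).1) fun i => (z i).2.1)
    (hQ : Q (finS Φ ε (pl t P) (fun i => sta (z i)) i) (finS Φ ε (pl t P) (fun i => sta (z i)) a)
      (finS Φ ε (pl t P) (fun i => sta (z i)) b)) :
    FinBad Φ ε t Q N T l w := by
  set e := (Fintype.equivFin ι).symm with he
  obtain ⟨P', hP'⟩ := exists_map_list (f := e) P fun ev _ =>
    ⟨⟨e.symm ev.fst, by simp⟩, ⟨e.symm ev.snd, by simp⟩⟩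
  have e1 : pl t P = mapP e (pl t P') := by rw [mapP_pl, hP']
  have hinj : Function.Injective e := e.injective
  have hfin : ∀ j, finS Φ ε (pl t P') (fun i => sta ((z ∘ e) i)) (e.symm j) =
      finS Φ ε (pl t P) (fun i => sta (z i)) j := by
    intro j
    have h2 := congrFun (finZ_map (Φ := Φ) (ε := ε) hinj (pl t P') (fun i => (sta (z i)).2))
      (e.symm j)
    have h3 := congrFun (finB_map (Φ := Φ) (ε := ε) hinj (pl t P') (fun i => (sta (z i)).1)
      (fun i => (sta (z i)).2)) (e.symm j)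
    simp only [Function.comp_apply, Equiv.apply_symm_apply] at h2 h3
    unfold finS
    rw [e1, h2, h3]
    rfl
  refine ⟨Fintype.card ι, hι, z ∘ e, P', e.symm i, e.symm a, e.symm b, ?_,
    ⟨hz.inj.comp hinj, fun i => hz.mem (e i), fun j => ?_, fun j => ?_⟩,
    ⟨?_, fun j k => ?_, ?_, ?_, ?_⟩, ?_, ?_⟩
  · rw [← hP', List.length_map] at hP
    exact hP
  · rw [e.surjective.range_comp]; exact hz.trees j
  · rw [e.surjective.range_comp]; exact hz.lines j
  · have h1 := hF.wf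
    rw [e1, wf_map hinj] at h1; exact h1
  · have h1 := hF.jn (e j) (e k)
    have h2 : P ++ [Ev.gh a b, Ev.gh i b] =
        (P' ++ [Ev.gh (e.symm a) (e.symm b), Ev.gh (e.symm i) (e.symm b)]).map (Ev.map e) := by
      rw [List.map_append, hP']
      simp [Ev.map]
    rw [h2, ← mapP_pl, jn_map hinj] at h1
    exact h1
  · exact fun h => hF.ab (e.symm.injective h)
  · exact fun h => hF.ia (e.symm.injective h)
  · exact fun h => hF.ib (e.symm.injective h)
  · rw [e1, run_map hinj] at hr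
    exact hr
  · rw [hfin, hfin, hfin]
    exact hQ

/-- The number of labels. -/
def Fpr.n {T : ℝ} {N : ℕ} (d : Fpr T N) : ℕ := d.1

theorem Fpr.n_le {T : ℝ} {N : ℕ} (d : Fpr T N) : d.n ≤ N := Nat.lt_succ_iff.1 d.1.2

/-- The relation. -/
def Fpr.R (Φ : E3 → ℝ) (ε : ℝ) (Q : ℝ × Ph → ℝ × Ph → ℝ × Ph → Prop) {T : ℝ} {N : ℕ}
    (d : Fpr T N) : Set (Fin d.n → ℝ × Ph) :=
  relQ Φ ε T Q d.2.1.1 d.2.1.2.1 d.2.1.2.2.1 d.2.1.2.2.2

theorem FinBad.exists_fpr {N : ℕ} {T : Fin m → CTree} {l : Fin q → Src} {w : Finset Ph}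
    (h : FinBad Φ ε t Q N T l w) :
    ∃ d : Fpr t N, ∃ z : Fin d.n → Src, LabT T l w z ∧ (fun i => sta (z i)) ∈ d.R Φ ε Q := by
  obtain ⟨n, hn, z, P, i, a, b, h1, h2, h3, h4⟩ := h
  exact ⟨⟨⟨n, Nat.lt_succ_iff.2 hn⟩, ⟨(P, i, a, b), h1, h3⟩⟩, z, h2, h4⟩

variable {f₀ : Ph → ℝ} {κ₀ b c M₀ : ℝ}

/-- **Programs with a final contact over the structure laws.** -/
theorem fin_law_le (h : GoodDatum f₀ κ₀) (hΦ : IsPotential Φ) (hε : 0 < ε) (hc : 0 ≤ c)
    (hf : ∀ z, f₀ z ≤ M₀ * Real.exp (-b * ‖z.2‖ ^ 2)) (hm : 0 < m) (L N : ℕ) {δ : ℝ≥0∞}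
    (hQ : MeasurableSet {p : (ℝ × Ph) × (ℝ × Ph) × (ℝ × Ph) | Q p.1 p.2.1 p.2.2})
    (hmass : ∀ n ≤ N, ∀ (P : List (Ev (Fin n))) (i a b' : Fin n), P.length ≤ N →
      FinOK t P i a b' → MassLe f₀ ε b c (relQ Φ ε t Q P i a b') δ)
    {s : Fin q → ℝ} (hs : ∀ j, 0 ≤ s j) (dl : Fin q → ℕ)
    {W : (Fin m → CTree) → (Fin q → Ph) → ℝ≥0∞}
    (hW : Measurable fun p : (Fin m → CTree) × (Fin q → Ph) => W p.1 p.2) {CW : ℝ≥0∞}
    (hWb : ∀ T l, W T l ≤
      CW * ENNReal.ofReal (Real.exp (c * (∑ j, enT (T j) + ∑ j, ‖(l j).2‖ ^ 2))))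
    (hbase : ∀ T l, W T l ≠ 0 → Base Φ ε T (lns s dl l))
    {bad : (Fin m → CTree) → (Fin q → Ph) → Conf Ph → Prop}
    (hbad : ∀ T l, W T l ≠ 0 → ∀ᵐ w ∂(PP f₀ ε), bad T l w →
      FinBad Φ ε t Q N T (lns s dl l) (pts w)) :
    muE ε ^ q * ∫⁻ T, ∫⁻ l : Fin q → Ph, (∏ j, g1 b (l j).2) * (W T l *
      (PP f₀ ε) {w | bad T l w}) ∂volume ∂(Measure.pi fun _ : Fin m => tree (inten f₀ ε) L) ≤
      CW * muE ε * (((shapes L).card ^ m : ℕ) *
        (Fintype.card (Fpr t N) * (N.factorial * (ENNReal.ofReal (max 1 M₀) ^ N * δ)))) := by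
  refine (law_le h hε.le hc hf hm L (D := Fpr t N) (n := fun d => d.n) (R := fun d => d.R Φ ε Q)
    (fun d => measurableSet_relQ hΦ hε.ne' hQ d.2.1.1 _ _ _) (δ := fun _ => δ)
    (fun d => hmass d.n d.n_le d.2.1.1 _ _ _ d.2.2.1 d.2.2.2) hs dl hW hWb hbase (bad := bad)
    (fun T l hTl => ?_)).trans ?_
  · filter_upwards [hbad T l hTl] with w hw hb
    exact (hw hb).exists_fpr
  · have h1 : ∑ d : Fpr t N, ((d.n).factorial * (ENNReal.ofReal (max 1 M₀) ^ d.n * δ)) ≤
        Fintype.card (Fpr t N) * (N.factorial * (ENNReal.ofReal (max 1 M₀) ^ N * δ)) := by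
      rw [← nsmul_eq_mul, ← Finset.card_univ, ← Finset.sum_const]
      refine Finset.sum_le_sum fun d _ => ?_
      have h2 : (1 : ℝ≥0∞) ≤ ENNReal.ofReal (max 1 M₀) := by
        rw [← ENNReal.ofReal_one]
        exact ENNReal.ofReal_le_ofReal (le_max_left _ _)
      have h3 : ENNReal.ofReal (max 1 M₀) ^ d.n ≤ ENNReal.ofReal (max 1 M₀) ^ N :=
        pow_le_pow_right₀ h2 d.n_le
      have h4 : ((d.n).factorial : ℝ≥0∞) ≤ (N.factorial : ℝ≥0∞) := by
        exact_mod_cast Nat.factorial_le d.n_le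
      exact mul_le_mul' h4 (mul_le_mul_left h3 _)
    exact mul_le_mul_right (mul_le_mul_right h1 _) _

end Vale.Agent.P119.IND
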