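import Vale.Agent.P119.IND.ExcLim
import Vale.Agent.P119.IND.FamLaw2

/-!
# P119, block IND: the finite sets of relations of the programs (`helper228`)

* `progs Φ T N c₀`: the programs with at most `N` labels, `N` events and `c₀` classes; `progs_bdd`:
  bounded mass; `progs_small`: small mass compared with `μ^{c₀'}`, `c₀ < c₀'`;
* `cprogs Φ T N c₀`: the closed programs; `cprogs_small`: small mass;
* `massS Φ T N Rln`: relations with `MassLe`;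
* `PrgO`, `PrgC`: the events, in terms of labelled programs (`of_fintype`: any finite type of labels;
  `mono_t`: larger horizons);
* `exc_lim1`: **the limit for one component** in terms of `PrgBad` and `FinBad` (350), `PrgO`.
-/

open MeasureTheory Filter Topology Set
open scoped ENNReal NNReal

set_option linter.unusedSectionVars false

noncomputable section

namespace Vale.Agent.P119.IND

open KU FL M CTree GC MM AU PB.CT

variable {Φ : E3 → ℝ} {ε T T' t : ℝ} {m q : ℕ}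

/-! ### The horizon -/

section Hor

variable {ι : Type} [DecidableEq ι] {P : List (Ev ι)}

theorem jn_hor {i k : ι} (h : Jn (pl T P) i k) : Jn (pl T' P) i k := by
  induction h with
  | rel i k hr =>
    obtain ⟨e, he, h1, h2⟩ := hr
    obtain ⟨e', he', rfl⟩ := List.mem_map.1 he
    exact Relation.EqvGen.rel _ _ ⟨(e', T'), List.mem_map.2 ⟨e', he', rfl⟩, h1, h2⟩
  | refl i => exact Jn.refl _ i
  | symm i k _ ih => exact ih.symm
  | trans i k l _ _ ih1 ih2 => exact ih1.trans ih2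

theorem trv_hor {R : Finset ι} (h : Trv (pl T P) R) : Trv (pl T' P) R :=
  h.congr fun _ _ => ⟨jn_hor, jn_hor⟩

theorem wf_hor (h : Wf (pl T P)) : Wf (pl T' P) := by
  induction P with
  | nil => trivial
  | cons e P ih =>
    refine ⟨fun i k hik e' he' => ?_, ih h.2⟩
    obtain ⟨e'', he'', rfl⟩ := List.mem_map.1 he'
    exact h.1 i k hik (e'', T) (List.mem_map.2 ⟨e'', he'', rfl⟩)

theorem closed_hor (h : Closed (pl T P)) : Closed (pl T' P) := by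
  obtain ⟨P₁, e, P₂, h1, h2⟩ := h
  unfold pl at h1
  obtain ⟨Q₁, Q₂', h3, h4, h5⟩ := List.map_eq_append_iff.1 h1
  obtain ⟨e', Q₂, h6, h7, h8⟩ := List.map_eq_cons_iff.1 h5
  refine ⟨pl T' Q₁, (e', T'), pl T' Q₂, ?_, ?_⟩
  · rw [h3, h6]
    simp [pl]
  · rw [← h4, ← h7] at h2
    exact jn_hor (T := T) h2

end Hor

/-! ### Labelled programs -/

/-- The particles of the base structure and at most `N` particles in all, the others in the world `w`,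
run a program with at most `c₀` classes, every class containing a particle which is not a free line. -/
def PrgO (Φ : E3 → ℝ) (ε t : ℝ) (c₀ N : ℕ) (T : Fin m → CTree) (l : Fin q → Src)
    (w : Finset Ph) : Prop :=
  ∃ n ≤ N, ∃ (z : Fin n → Src) (P : List (Ev (Fin n))) (Rs : Finset (Fin n)), P.length ≤ N ∧
    LabT T l w z ∧ Trv (pl t P) Rs ∧ Rs.card ≤ c₀ ∧ (∀ i ∈ Rs, z i ∉ range l) ∧
    (fun i => sta (z i)) ∈ relP Φ ε t P

/-- The same with a closed well-formed program. -/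
def PrgC (Φ : E3 → ℝ) (ε t : ℝ) (c₀ N : ℕ) (T : Fin m → CTree) (l : Fin q → Src)
    (w : Finset Ph) : Prop :=
  ∃ n ≤ N, ∃ (z : Fin n → Src) (P : List (Ev (Fin n))) (Rs : Finset (Fin n)), P.length ≤ N ∧
    LabT T l w z ∧ Trv (pl t P) Rs ∧ Rs.card ≤ c₀ ∧ (∀ i ∈ Rs, z i ∉ range l) ∧
    Wf (pl t P) ∧ Closed (pl t P) ∧ (fun i => sta (z i)) ∈ relP Φ ε t P

section Ev

variable {c₀ c₁ N N' : ℕ} {S : Fin m → CTree} {l : Fin q → Src} {w : Finset Ph}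

theorem PrgO.mono (hc : c₀ ≤ c₁) (hN : N ≤ N') (h : PrgO Φ ε t c₀ N S l w) :
    PrgO Φ ε t c₁ N' S l w := by
  obtain ⟨n, hn, z, P, Rs, h1, h2, h3, h4, h5⟩ := h
  exact ⟨n, hn.trans hN, z, P, Rs, h1.trans hN, h2, h3, h4.trans hc, h5⟩

theorem PrgC.mono (hc : c₀ ≤ c₁) (hN : N ≤ N') (h : PrgC Φ ε t c₀ N S l w) :
    PrgC Φ ε t c₁ N' S l w := by
  obtain ⟨n, hn, z, P, Rs, h1, h2, h3, h4, h5⟩ := h
  exact ⟨n, hn.trans hN, z, P, Rs, h1.trans hN, h2, h3, h4.trans hc, h5⟩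

/-- The births of the labels are nonnegative. -/
theorem LabT.birth {ι : Type*} {z : ι → Src} (hz : LabT S l w z)
    (hS : ∀ j, ∀ σ ∈ (S j).leaves, 0 ≤ σ.1) (hl : ∀ j, 0 ≤ (l j).1) (i : ι) : 0 ≤ (sta (z i)).1 := by
  rcases hz.mem i with ⟨j, h⟩ | ⟨j, h⟩ | h
  · exact hS j _ h
  · rw [← h]; exact hl j
  · unfold wS at h
    obtain ⟨p, -, h⟩ := Finset.mem_map.1 h
    rw [← h]
    exact le_rfl

/-- A larger horizon. -/
theorem PrgO.mono_t (hΦ : IsPotential Φ) (hε : 0 < ε) (ht : t ≤ T)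
    (hS : ∀ j, ∀ σ ∈ (S j).leaves, 0 ≤ σ.1) (hl : ∀ j, 0 ≤ (l j).1)
    (h : PrgO Φ ε t c₀ N S l w) : PrgO Φ ε T c₀ N S l w := by
  obtain ⟨n, hn, z, P, Rs, h1, h2, h3, h4, h5, h6⟩ := h
  exact ⟨n, hn, z, P, Rs, h1, h2, trv_hor h3, h4, h5,
    relP_horizon hΦ hε ht (fun i => h2.birth hS hl i) h6⟩

/-- A larger horizon. -/
theorem PrgC.mono_t (hΦ : IsPotential Φ) (hε : 0 < ε) (ht : t ≤ T)
    (hS : ∀ j, ∀ σ ∈ (S j).leaves, 0 ≤ σ.1) (hl : ∀ j, 0 ≤ (l j).1)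
    (h : PrgC Φ ε t c₀ N S l w) : PrgC Φ ε T c₀ N S l w := by
  obtain ⟨n, hn, z, P, Rs, h1, h2, h3, h4, h5, h6, h7, h8⟩ := h
  exact ⟨n, hn, z, P, Rs, h1, h2, trv_hor h3, h4, h5, wf_hor h6, closed_hor h7,
    relP_horizon hΦ hε ht (fun i => h2.birth hS hl i) h8⟩

/-- A leaf of a tree is a label which is not a free line. -/
theorem exists_not_line (hm : 0 < m) (hB : Base Φ ε S l) {ι : Type*} {z : ι → Src}
    (hz : LabT S l w z) : ∃ i, z i ∉ range l := by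
  obtain ⟨σ, hσ⟩ := (S ⟨0, hm⟩).leaves_nonempty
  obtain ⟨i, hi⟩ := hz.trees ⟨0, hm⟩ hσ
  refine ⟨i, ?_⟩
  rintro ⟨j, hj⟩
  exact hB.notMem ⟨0, hm⟩ j (by rw [hj, hi]; exact hσ)

/-- Connected closed programs. -/
theorem PrgBad.prgC (hm : 0 < m) (hB : Base Φ ε S l) (h : PrgBad Φ ε t N S l w) :
    PrgC Φ ε t 1 N S l w := by
  obtain ⟨n, hn, z, P, h1, h2, h3, h4⟩ := h
  obtain ⟨i, hi⟩ := exists_not_line hm hB h2
  refine ⟨n, hn, z, P, {i}, h1, h2, trv_single h3.jn i, le_of_eq (Finset.card_singleton i), ?_,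
    h3.wf, h3.cl, h4⟩
  intro j hj
  rw [Finset.mem_singleton.1 hj]
  exact hi

/-- Connected programs, any finite type of labels. -/
theorem PrgO.of_connected (hm : 0 < m) (hB : Base Φ ε S l) {ι : Type} [Fintype ι] [DecidableEq ι]
    (hι : Fintype.card ι ≤ N) {z : ι → Src} {P : List (Ev ι)} (hP : P.length ≤ N)
    (hz : LabT S l w z) (hj : ∀ i k, Jn (pl t P) i k)
    (hr : Run Φ ε t 0 (pl t P) (fun i => (z i).1) fun i => (z i).2.1) :
    PrgO Φ ε t 1 N S l w := by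
  set e := (Fintype.equivFin ι).symm with he
  obtain ⟨P', hP'⟩ := exists_map_list (f := e) P fun ev _ =>
    ⟨⟨e.symm ev.fst, by simp⟩, ⟨e.symm ev.snd, by simp⟩⟩
  have e1 : pl t P = mapP e (pl t P') := by rw [mapP_pl, hP']
  have hinj : Function.Injective e := e.injective
  have hz' : LabT S l w (z ∘ e) := by
    refine ⟨hz.inj.comp hinj, fun i => hz.mem (e i), fun j => ?_, fun j => ?_⟩
    · rw [e.surjective.range_comp]; exact hz.trees j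
    · rw [e.surjective.range_comp]; exact hz.lines j
  obtain ⟨i, hi⟩ := exists_not_line hm hB hz'
  refine ⟨Fintype.card ι, hι, z ∘ e, P', {i}, ?_, hz', trv_single (fun j k => ?_) i,
    le_of_eq (Finset.card_singleton i), ?_, ?_⟩
  · rw [← hP', List.length_map] at hP
    exact hP
  · have h1 := hj (e j) (e k)
    rw [e1, jn_map hinj] at h1
    exact h1
  · intro j hj
    rw [Finset.mem_singleton.1 hj]
    exact hi
  · rw [e1, run_map hinj] at hr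
    exact hr

/-- Any finite type of labels, any transversal set. -/
theorem PrgO.of_fintype {ι : Type} [Fintype ι] [DecidableEq ι]
    (hι : Fintype.card ι ≤ N) {z : ι → Src} {P : List (Ev ι)} (hP : P.length ≤ N)
    (hz : LabT S l w z) {Rs : Finset ι} (hR : Trv (pl t P) Rs) (hRc : Rs.card ≤ c₀)
    (hRl : ∀ i ∈ Rs, z i ∉ range l)
    (hr : Run Φ ε t 0 (pl t P) (fun i => (z i).1) fun i => (z i).2.1) :
    PrgO Φ ε t c₀ N S l w := by
  set e := (Fintype.equivFin ι).symm with he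
  obtain ⟨P', hP'⟩ := exists_map_list (f := e) P fun ev _ =>
    ⟨⟨e.symm ev.fst, by simp⟩, ⟨e.symm ev.snd, by simp⟩⟩
  have e1 : pl t P = mapP e (pl t P') := by rw [mapP_pl, hP']
  have hinj : Function.Injective e := e.injective
  refine ⟨Fintype.card ι, hι, z ∘ e, P', Rs.map e.symm.toEmbedding, ?_,
    ⟨hz.inj.comp hinj, fun i => hz.mem (e i), fun j => ?_, fun j => ?_⟩, ⟨fun i => ?_, ?_⟩, ?_,
    ?_, ?_⟩
  · rw [← hP', List.length_map] at hP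
    exact hP
  · rw [e.surjective.range_comp]; exact hz.trees j
  · rw [e.surjective.range_comp]; exact hz.lines j
  · obtain ⟨r, hr1, hr2⟩ := hR.cov (e i)
    refine ⟨e.symm r, Finset.mem_map.2 ⟨r, hr1, rfl⟩, ?_⟩
    rw [e1] at hr2
    have h3 : Jn (mapP e (pl t P')) (e i) (e (e.symm r)) := by simpa using hr2
    rwa [jn_map hinj] at h3
  · intro r₁ h1 r₂ h2 h3
    obtain ⟨r₁, h5, rfl⟩ := Finset.mem_map.1 h1
    obtain ⟨r₂, h6, rfl⟩ := Finset.mem_map.1 h2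
    rw [← jn_map hinj, ← e1] at h3
    have h4 : Jn (pl t P) r₁ r₂ := by simpa using h3
    rw [hR.uni r₁ h5 r₂ h6 h4]
  · rw [Finset.card_map]; exact hRc
  · intro j hj
    obtain ⟨r, h1, rfl⟩ := Finset.mem_map.1 hj
    have := hRl r h1
    simpa using this
  · rw [e1, run_map hinj] at hr
    exact hr

/-- Any finite type of labels, any transversal set. -/
theorem PrgC.of_fintype {ι : Type} [Fintype ι] [DecidableEq ι]
    (hι : Fintype.card ι ≤ N) {z : ι → Src} {P : List (Ev ι)} (hP : P.length ≤ N)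
    (hz : LabT S l w z) {Rs : Finset ι} (hR : Trv (pl t P) Rs) (hRc : Rs.card ≤ c₀)
    (hRl : ∀ i ∈ Rs, z i ∉ range l) (hw : Wf (pl t P)) (hc : Closed (pl t P))
    (hr : Run Φ ε t 0 (pl t P) (fun i => (z i).1) fun i => (z i).2.1) :
    PrgC Φ ε t c₀ N S l w := by
  set e := (Fintype.equivFin ι).symm with he
  obtain ⟨P', hP'⟩ := exists_map_list (f := e) P fun ev _ =>
    ⟨⟨e.symm ev.fst, by simp⟩, ⟨e.symm ev.snd, by simp⟩⟩
  have e1 : pl t P = mapP e (pl t P') := by rw [mapP_pl, hP']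
  have hinj : Function.Injective e := e.injective
  refine ⟨Fintype.card ι, hι, z ∘ e, P', Rs.map e.symm.toEmbedding, ?_,
    ⟨hz.inj.comp hinj, fun i => hz.mem (e i), fun j => ?_, fun j => ?_⟩, ⟨fun i => ?_, ?_⟩, ?_,
    ?_, ?_, ?_, ?_⟩
  · rw [← hP', List.length_map] at hP
    exact hP
  · rw [e.surjective.range_comp]; exact hz.trees j
  · rw [e.surjective.range_comp]; exact hz.lines j
  · obtain ⟨r, hr1, hr2⟩ := hR.cov (e i)
    refine ⟨e.symm r, Finset.mem_map.2 ⟨r, hr1, rfl⟩, ?_⟩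
    rw [e1] at hr2
    have h3 : Jn (mapP e (pl t P')) (e i) (e (e.symm r)) := by simpa using hr2
    rwa [jn_map hinj] at h3
  · intro r₁ h1 r₂ h2 h3
    obtain ⟨r₁, h5, rfl⟩ := Finset.mem_map.1 h1
    obtain ⟨r₂, h6, rfl⟩ := Finset.mem_map.1 h2
    rw [← jn_map hinj, ← e1] at h3
    have h4 : Jn (pl t P) r₁ r₂ := by simpa using h3
    rw [hR.uni r₁ h5 r₂ h6 h4]
  · rw [Finset.card_map]; exact hRc
  · intro j hj
    obtain ⟨r, h1, rfl⟩ := Finset.mem_map.1 hj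
    have := hRl r h1
    simpa using this
  · rw [e1, wf_map hinj] at hw; exact hw
  · rw [e1, closed_map hinj] at hc; exact hc
  · rw [e1, run_map hinj] at hr
    exact hr

end Ev

/-! ### The finite sets of relations -/

/-- The relations of the programs. -/
def progs (Φ : E3 → ℝ) (T : ℝ) (N c₀ : ℕ) : Set Rln :=
  {r | ∃ n ≤ N, ∃ (P : List (Ev (Fin n))) (Rs : Finset (Fin n)), P.length ≤ N ∧
    Trv (pl T P) Rs ∧ Rs.card ≤ c₀ ∧ r = ⟨n, fun ε => relP Φ ε T P, Rs⟩}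

/-- The relations of the closed programs. -/
def cprogs (Φ : E3 → ℝ) (T : ℝ) (N c₀ : ℕ) : Set Rln :=
  {r | ∃ n ≤ N, ∃ (P : List (Ev (Fin n))) (Rs : Finset (Fin n)), P.length ≤ N ∧
    Trv (pl T P) Rs ∧ Rs.card ≤ c₀ ∧ Wf (pl T P) ∧ Closed (pl T P) ∧
    r = ⟨n, fun ε => relP Φ ε T P, Rs⟩}

theorem progs_finite (Φ : E3 → ℝ) (T : ℝ) (N c₀ : ℕ) : (progs Φ T N c₀).Finite := by
  have h1 : ∀ n : Fin (N + 1), ({P : List (Ev (Fin n)) | P.length ≤ N} ×ˢ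
      (Set.univ : Set (Finset (Fin n)))).Finite := fun n =>
    (List.finite_length_le (Ev (Fin n)) N).prod Set.finite_univ
  have h2 : (⋃ n : Fin (N + 1), (fun x : List (Ev (Fin n)) × Finset (Fin n) =>
      (⟨n, fun ε => relP Φ ε T x.1, x.2⟩ : Rln)) '' ({P : List (Ev (Fin n)) | P.length ≤ N} ×ˢ
      (Set.univ : Set (Finset (Fin n))))).Finite := Set.finite_iUnion fun n => (h1 n).image _
  refine h2.subset ?_
  rintro r ⟨n, hn, P, Rs, h3, -, -, rfl⟩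
  exact mem_iUnion.2 ⟨⟨n, Nat.lt_succ_of_le hn⟩, (P, Rs), ⟨h3, mem_univ _⟩, rfl⟩

theorem cprogs_subset (Φ : E3 → ℝ) (T : ℝ) (N c₀ : ℕ) : cprogs Φ T N c₀ ⊆ progs Φ T N c₀ := by
  rintro r ⟨n, hn, P, Rs, h1, h2, h3, -, -, h4⟩
  exact ⟨n, hn, P, Rs, h1, h2, h3, h4⟩

theorem cprogs_finite (Φ : E3 → ℝ) (T : ℝ) (N c₀ : ℕ) : (cprogs Φ T N c₀).Finite :=
  (progs_finite Φ T N c₀).subset (cprogs_subset Φ T N c₀)

theorem PrgO.sbad {c₀ N : ℕ} {S : Fin m → CTree} {l : Fin q → Src} {w : Finset Ph}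
    (h : PrgO Φ ε t c₀ N S l w) : SBad (progs Φ t N c₀) ε S l w := by
  obtain ⟨n, hn, z, P, Rs, h1, h2, h3, h4, h5, h6⟩ := h
  exact ⟨_, ⟨n, hn, P, Rs, h1, h3, h4, rfl⟩, z, h2, h6, h5⟩

theorem PrgC.sbad {c₀ N : ℕ} {S : Fin m → CTree} {l : Fin q → Src} {w : Finset Ph}
    (h : PrgC Φ ε t c₀ N S l w) : SBad (cprogs Φ t N c₀) ε S l w := by
  obtain ⟨n, hn, z, P, Rs, h1, h2, h3, h4, h5, h6, h7, h8⟩ := h
  exact ⟨_, ⟨n, hn, P, Rs, h1, h3, h4, h6, h7, rfl⟩, z, h2, h8, h5⟩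

section Mass

variable {f₀ : Ph → ℝ} {b c M₁ : ℝ}

theorem progs_bdd (hΦ : IsPotential Φ) (hf : Measurable f₀) (hM₁ : 0 ≤ M₁)
    (hmarg : ∀ v, ∫⁻ x, ENNReal.ofReal (f₀ (x, v)) ≤ ENNReal.ofReal (M₁ * Real.exp (-b * ‖v‖ ^ 2)))
    (hbc : c < b) (hT : 0 ≤ T) {N c₀ : ℕ} {r : Rln} (hr : r ∈ progs Φ T N c₀) :
    r.Bdd f₀ b c c₀ := by
  obtain ⟨C, hC, h1⟩ := massR_open hΦ hf hM₁ hmarg hbc hT N
  obtain ⟨n, hn, P, Rs, h2, h3, h4, rfl⟩ := hr
  refine ⟨fun ε hε => measurableSet_relP hΦ hε.ne' P, C, hC, fun ε hε hε1 =>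
    ⟨C, h1 ε hε hε1 n hn P h2 Rs h3, mul_le_mul_left ?_ _⟩⟩
  exact pow_le_pow_right₀ (one_le_muE hε hε1) h4

theorem progs_small (hΦ : IsPotential Φ) (hf : Measurable f₀) (hM₁ : 0 ≤ M₁)
    (hmarg : ∀ v, ∫⁻ x, ENNReal.ofReal (f₀ (x, v)) ≤ ENNReal.ofReal (M₁ * Real.exp (-b * ‖v‖ ^ 2)))
    (hbc : c < b) (hT : 0 ≤ T) {N c₀ c₁ : ℕ} (hc : c₁ < c₀) {r : Rln} (hr : r ∈ progs Φ T N c₁) :
    r.Small f₀ b c c₀ := by
  obtain ⟨C, hC, h1⟩ := massR_open hΦ hf hM₁ hmarg hbc hT N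
  obtain ⟨n, hn, P, Rs, h2, h3, h4, rfl⟩ := hr
  refine ⟨fun ε hε => measurableSet_relP hΦ hε.ne' P, fun ε => ENNReal.ofReal (ε ^ 2) * C, ?_,
    fun ε hε hε1 => ⟨C, h1 ε hε hε1 n hn P h2 Rs h3, ?_⟩⟩
  · have h5 : Tendsto (fun ε : ℝ => ENNReal.ofReal (ε ^ 2)) (𝓝[>] 0) (𝓝 0) := by
      have h6 : Tendsto (fun ε : ℝ => ε ^ 2) (𝓝[>] 0) (𝓝 (0 ^ 2)) :=
        ((continuous_pow 2).tendsto 0).mono_left nhdsWithin_le_nhds
      have h7 := ENNReal.tendsto_ofReal h6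
      simpa using h7
    have h6 := ENNReal.Tendsto.mul_const (b := C) h5 (Or.inr hC)
    rwa [zero_mul] at h6
  · have h5 : muE ε ^ Rs.card ≤ muE ε ^ (c₀ - 1) :=
      pow_le_pow_right₀ (one_le_muE hε hε1) (by omega)
    have h6 : muE ε ^ c₀ * (ENNReal.ofReal (ε ^ 2) * C) = muE ε ^ (c₀ - 1) * C := by
      obtain ⟨k, rfl⟩ : ∃ k, c₀ = k + 1 := ⟨c₀ - 1, by omega⟩
      rw [Nat.add_sub_cancel, pow_succ]
      calc muE ε ^ k * muE ε * (ENNReal.ofReal (ε ^ 2) * C) =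
            muE ε ^ k * (muE ε * ENNReal.ofReal (ε ^ 2)) * C := by ring
        _ = _ := by rw [muE_mul hε, mul_one]
    rw [h6]
    exact mul_le_mul_left h5 _

theorem tendsto_sqrt_zero (C : ℝ≥0∞) (hC : C ≠ ∞) :
    Tendsto (fun ε : ℝ => C * ENNReal.ofReal (√ε)) (𝓝[>] 0) (𝓝 0) := by
  have h5 : Tendsto (fun ε : ℝ => ENNReal.ofReal (√ε)) (𝓝[>] 0) (𝓝 0) := by
    have h6 : Tendsto (fun ε : ℝ => √ε) (𝓝[>] 0) (𝓝 (√0)) :=
      (Real.continuous_sqrt.tendsto 0).mono_left nhdsWithin_le_nhds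
    have h7 := ENNReal.tendsto_ofReal h6
    simpa using h7
  have h6 := ENNReal.Tendsto.const_mul (a := C) h5 (Or.inr hC)
  rwa [mul_zero] at h6

theorem cprogs_small (hΦ : IsPotential Φ) (hf : Measurable f₀) (hM₁ : 0 ≤ M₁)
    (hmarg : ∀ v, ∫⁻ x, ENNReal.ofReal (f₀ (x, v)) ≤ ENNReal.ofReal (M₁ * Real.exp (-b * ‖v‖ ^ 2)))
    (hbc : c < b) (hT : 0 ≤ T) {N c₀ : ℕ} {r : Rln} (hr : r ∈ cprogs Φ T N c₀) :
    r.Small f₀ b c c₀ := by
  obtain ⟨C, hC, h1⟩ := massR_closed hΦ hf hM₁ hmarg hbc hT N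
  obtain ⟨n, hn, P, Rs, h2, h3, h4, h5, h6, rfl⟩ := hr
  refine ⟨fun ε hε => measurableSet_relP hΦ hε.ne' P, fun ε => C * ENNReal.ofReal (√ε),
    tendsto_sqrt_zero C hC, fun ε hε hε1 => ⟨C * ENNReal.ofReal (√ε),
      h1 ε hε hε1 n hn P h2 h5 h6 Rs h3, mul_le_mul_left ?_ _⟩⟩
  exact pow_le_pow_right₀ (one_le_muE hε hε1) h4

/-- From masses tending to zero to `Small`. -/
theorem Rln.small_of {c₀ : ℕ} {r : Rln} (hm : ∀ ε : ℝ, 0 < ε → MeasurableSet (r.R ε))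
    (hc : r.Rs.card ≤ c₀) {δ : ℝ → ℝ≥0∞} (hδ : Tendsto δ (𝓝[>] 0) (𝓝 0))
    (h : ∀ ε : ℝ, 0 < ε → ε ≤ 1 → MassR f₀ ε b c (r.R ε) r.Rs (δ ε)) : r.Small f₀ b c c₀ :=
  ⟨hm, δ, hδ, fun ε hε hε1 => ⟨δ ε, h ε hε hε1,
    mul_le_mul_left (pow_le_pow_right₀ (one_le_muE hε hε1) hc) _⟩⟩

end Mass

/-- **The limit of the exceptional events**, in terms of labelled programs: `m` trees, `q` free lines,
`c₀` components.  `W` is the weight; the base structure runs a program with at most `c₀` classes.  For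
every `J`, the bad event implies a clean chain of `J` trees from one of the lines of `A`, a closed
program with at most `c₀` classes, a program with at most `c₀ - 1` classes, or one of the relations of
a finite set `X J` of relations of small mass. -/
theorem exc_lim_prog {f₀ : Ph → ℝ} {κ₀ b c M₀ M₁ : ℝ} (h : GoodDatum f₀ κ₀) (hΦ : IsPotential Φ)
    (hb : 0 < b) (hc : 0 ≤ c) (hcb : c + b / 4 < b)
    (hM₀ : 0 ≤ M₀) (hf : ∀ z, f₀ z ≤ M₀ * Real.exp (-b * ‖z.2‖ ^ 2)) (hM₁ : 0 ≤ M₁)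
    (hmarg : ∀ v, ∫⁻ x, ENNReal.ofReal (f₀ (x, v)) ≤ ENNReal.ofReal (M₁ * Real.exp (-b * ‖v‖ ^ 2)))
    (m q L nA c₀ N₀ : ℕ) (hc₀ : 0 < c₀) (N : ℕ → ℕ) {T₀ : ℝ} (hT₀ : 0 ≤ T₀) {X : ℕ → Set Rln}
    (hX : ∀ J, (X J).Finite) (hXs : ∀ J, ∀ r ∈ X J, r.Small f₀ b c c₀) :
    ∃ Dl : ℝ → ℝ≥0∞, Tendsto Dl (𝓝[>] 0) (𝓝 0) ∧ ∀ (ε : ℝ) (hε : 0 < ε), ε ≤ 1 →
      ∀ t₁ t₂ : ℝ, t₁ ≤ T₀ → t₂ ≤ T₀ + 1 → ∀ s : Fin q → ℝ, (∀ j, 0 ≤ s j) → ∀ (dl : Fin q → ℕ)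
      (W : (Fin m → CTree) → (Fin q → Ph) → ℝ≥0∞),
      (Measurable fun p : (Fin m → CTree) × (Fin q → Ph) => W p.1 p.2) → ∀ CW : ℝ≥0∞, CW ≠ ∞ →
      (∀ T l, W T l ≤ CW * ENNReal.ofReal (Real.exp (c * enB T l))) →
      (∀ T l, W T l ≠ 0 → Base Φ ε T (lns s dl l)) →
      (∀ T l, W T l ≠ 0 → PrgO Φ ε T₀ c₀ N₀ T (lns s dl l) ∅) →
      ∀ A : (Fin m → CTree) → (Fin q → Ph) → Finset (ℝ × Ph),
      (∀ T l, W T l ≠ 0 → (A T l).card ≤ nA ∧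
        ∀ σ ∈ A T l, 0 ≤ σ.1 ∧ σ.1 ≤ t₂ ∧ ‖σ.2.2‖ ^ 2 ≤ enB T l) →
      ∀ bad : (Fin m → CTree) → (Fin q → Ph) → Conf Ph → Prop,
      (∀ J, ∀ T l, W T l ≠ 0 → ∀ᵐ w ∂(PP f₀ ε), bad T l w →
        (∃ σ ∈ A T l, HasClean hΦ hε.ne' L t₁ t₂ J (world (pts w : Set Ph)) σ.1 σ.2) ∨
          PrgC Φ ε T₀ c₀ (N J) T (lns s dl l) (pts w) ∨
          PrgO Φ ε T₀ (c₀ - 1) (N J) T (lns s dl l) (pts w) ∨
          SBad (X J) ε T (lns s dl l) (pts w)) →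
      muE ε ^ q * ∫⁻ T, ∫⁻ l : Fin q → Ph, (∏ j, g1 b (l j).2) * (W T l *
        (PP f₀ ε) {w | bad T l w}) ∂volume ∂(Measure.pi fun _ : Fin m => tree (inten f₀ ε) L) ≤
      CW * (muE ε ^ c₀ * Dl ε) := by
  have hbc : c < b := by linarith
  obtain ⟨Dl, hDl, h1⟩ := exc_lim h hΦ hb hc hM₀ hf m q L nA c₀ hT₀
    (progs_finite Φ T₀ N₀ c₀)
    (fun r hr => progs_bdd hΦ h.meas hM₁ hmarg hcb hT₀ hr)
    (S := fun J => cprogs Φ T₀ (N J) c₀ ∪ (progs Φ T₀ (N J) (c₀ - 1) ∪ X J))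
    (fun J => (cprogs_finite Φ T₀ (N J) c₀).union ((progs_finite Φ T₀ (N J) (c₀ - 1)).union (hX J)))
    (fun J r hr => by
      rcases hr with hr | hr | hr
      · exact cprogs_small hΦ h.meas hM₁ hmarg hbc hT₀ hr
      · exact progs_small hΦ h.meas hM₁ hmarg hbc hT₀ (Nat.sub_lt hc₀ Nat.one_pos) hr
      · exact hXs J r hr)
  refine ⟨Dl, hDl, fun ε hε hε1 t₁ t₂ ht₁ ht₂ s hs dl W hW CW hCW hWb hbase hbase' A hA bad hbad =>
    h1 ε hε hε1 t₁ t₂ ht₁ ht₂ s hs dl W hW CW hCW hWb hbase (fun T l hTl => (hbase' T l hTl).sbad)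
      A hA bad fun J T l hTl => ?_⟩
  filter_upwards [hbad J T l hTl] with w hw hb'
  rcases hw hb' with h6 | h6 | h6 | h6
  · exact Or.inl h6
  · exact Or.inr (h6.sbad.mono subset_union_left)
  · exact Or.inr (h6.sbad.mono (subset_union_left.trans subset_union_right))
  · exact Or.inr (h6.mono (subset_union_right.trans subset_union_right))

end Vale.Agent.P119.IND
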