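import Vale.Agent.P119.IND.FluxWin

/-!
# P119: a rigid piece attached at one event (`helper76`)

`ι → Ph` is the space of the points of a piece (all leaves of all its trees, all its free lines).
The group `Ph` acts by `shift c p = fun i => boost c (p i)`; lines are covariant functions, weights
are invariant functions times Gaussians.

* `lintegral_cov`: disintegration of Lebesgue measure along a covariant line.
* `Att`: the two ways to attach a line to a given line `e` (hit, or outgoing pair of a node).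
* `attach_flux`: the mass of the pieces attached to `e` at some time `σ ∈ [0, t]` such that a path
  of the piece is within `R` of a given path `Y` at some time `τ` with `|τ - σ| ≥ δ`, is
  `O(ε² δ⁻³)` times the mass of the pieces per unit volume.
-/

open MeasureTheory Set Filter Topology Metric ProbabilityTheory
open scoped ENNReal

namespace Vale.Agent.P119.RA

open KU FL

variable {ι : Type*} [Fintype ι]

/-- The rigid boost of a piece. -/
def shift (c : Ph) (p : ι → Ph) : ι → Ph := fun i => KU.boost c (p i)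

omit [Fintype ι] in
theorem shift_apply (c : Ph) (p : ι → Ph) (i : ι) : shift c p i = KU.boost c (p i) := rfl

omit [Fintype ι] in
theorem shift_eq (c : Ph) (p : ι → Ph) : shift c p = p + fun _ => c := by
  funext i; exact boost_eq_add c (p i)

omit [Fintype ι] in
theorem shift_snd (c : Ph) (p : ι → Ph) (i : ι) : (shift c p i).2 = (p i).2 + c.2 := rfl

omit [Fintype ι] in
theorem shift_shift (c d : Ph) (p : ι → Ph) : shift c (shift d p) = shift (d + c) p := by
  rw [shift_eq, shift_eq, shift_eq, add_assoc]; rfl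

omit [Fintype ι] in
theorem shift_zero (p : ι → Ph) : shift 0 p = p := by
  rw [shift_eq]; funext i; simp

omit [Fintype ι] in
theorem measurable_shift : Measurable fun q : Ph × (ι → Ph) => shift q.1 q.2 := by
  simp only [shift_eq]
  refine measurable_pi_iff.2 fun i => ?_
  exact ((measurable_pi_apply i).comp measurable_snd).add measurable_fst

theorem lintegral_shift' (F : (ι → Ph) → ℝ≥0∞) (c : Ph) :
    ∫⁻ p : ι → Ph, F (shift c p) = ∫⁻ p : ι → Ph, F p := by
  have h0 := haar_Ph
  have h1 : (volume : Measure Ph).IsAddLeftInvariant := inferInstance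
  have h2 : ∀ _ : ι, (volume : Measure Ph).IsAddLeftInvariant := fun _ => h1
  have : (volume : Measure (ι → Ph)).IsAddLeftInvariant :=
    Measure.pi.isAddLeftInvariant (μ := fun _ : ι => (volume : Measure Ph))
  simp only [shift_eq]
  exact lintegral_add_right_eq_self (μ := (volume : Measure (ι → Ph))) F (fun _ => c)

/-- `l` is a covariant line of the piece. -/
def Cov (l : (ι → Ph) → Ph) : Prop := ∀ (c : Ph) (p : ι → Ph), l (shift c p) = KU.boost c (l p)

theorem lintegral_add_Ph (F : Ph → ℝ≥0∞) (c : Ph) : ∫⁻ x, F (x + c) = ∫⁻ x, F x := by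
  have h0 := haar_Ph
  exact lintegral_add_right_eq_self (μ := (volume : Measure Ph)) F c

theorem sigmaFinite_Ph : SigmaFinite (volume : Measure Ph) := by
  rw [Measure.volume_eq_prod]; infer_instance

theorem lintegral_neg_Ph (F : Ph → ℝ≥0∞) : ∫⁻ x, F (-x) = ∫⁻ x, F x := by
  have h1 : MeasurePreserving (fun x : E3 => -x) volume volume :=
    Measure.measurePreserving_neg (volume : Measure E3)
  have h2 : MeasurePreserving (fun x : Ph => -x) (volume : Measure Ph) volume := by
    rw [Measure.volume_eq_prod]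
    exact h1.prod h1
  exact h2.lintegral_comp_emb (MeasurableEquiv.neg Ph).measurableEmbedding F

/-- **Disintegration along a covariant line.** -/
theorem lintegral_cov {l : (ι → Ph) → Ph} (hl : Measurable l) (hc : Cov l)
    {φ : Ph → ℝ≥0∞} (hφ : Measurable φ) (h1 : ∫⁻ c, φ c = 1)
    {F : (ι → Ph) → ℝ≥0∞} (hF : Measurable F) :
    ∫⁻ p, F p = ∫⁻ p, φ (l p) * ∫⁻ c, F (shift c p) := by
  have hsf := sigmaFinite_Ph
  have hsf2 : SigmaFinite (volume : Measure (ι → Ph)) :=
    Measure.pi.sigmaFinite (μ := fun _ : ι => (volume : Measure Ph))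
  have hsm : Measurable fun q : (ι → Ph) × Ph => shift q.2 q.1 := by
    exact measurable_shift.comp measurable_swap
  have hm1 : Measurable fun q : (ι → Ph) × Ph => φ (l q.1) * F (shift q.2 q.1) :=
    (hφ.comp (hl.comp measurable_fst)).mul (hF.comp hsm)
  have e1 : ∫⁻ p, φ (l p) * ∫⁻ c, F (shift c p) =
      ∫⁻ p : ι → Ph, ∫⁻ c : Ph, φ (l p) * F (shift c p) := by
    refine lintegral_congr fun p => ?_
    rw [lintegral_const_mul]
    exact hF.comp (measurable_shift.comp (measurable_id.prodMk measurable_const))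
  rw [e1, lintegral_lintegral_swap hm1.aemeasurable]
  have e2 : ∀ c : Ph, ∫⁻ p : ι → Ph, φ (l p) * F (shift c p) =
      ∫⁻ p : ι → Ph, φ (l p + -c) * F p := by
    intro c
    rw [← lintegral_shift' (fun p => φ (l p + -c) * F p) c]
    refine lintegral_congr fun p => ?_
    rw [hc, boost_eq_add, add_neg_cancel_right]
  simp_rw [e2]
  have hm2 : Measurable fun q : Ph × (ι → Ph) => φ (l q.2 + -q.1) * F q.2 := by
    refine Measurable.mul (hφ.comp ?_) (hF.comp measurable_snd)
    exact (hl.comp measurable_snd).add measurable_fst.neg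
  rw [lintegral_lintegral_swap hm2.aemeasurable]
  refine lintegral_congr fun p => ?_
  have hm3 : Measurable fun c : Ph => φ (l p + -c) :=
    hφ.comp (measurable_const.add measurable_id.neg)
  rw [lintegral_mul_const _ hm3]
  have e3 : ∫⁻ c : Ph, φ (l p + -c) = ∫⁻ c, φ c := by
    rw [lintegral_neg_Ph (fun c => φ (l p + c))]
    have h3 := lintegral_add_Ph φ (l p)
    simpa only [add_comm] using h3
  rw [e3, h1, one_mul]

/-- The same, in terms of the line itself. -/
theorem lintegral_cov' {l : (ι → Ph) → Ph} (hl : Measurable l) (hc : Cov l)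
    {φ : Ph → ℝ≥0∞} (hφ : Measurable φ) (h1 : ∫⁻ c, φ c = 1)
    {F : (ι → Ph) → ℝ≥0∞} (hF : Measurable F) :
    ∫⁻ p, F p = ∫⁻ p, φ (l p) * ∫⁻ c, F (shift (c + -l p) p) := by
  rw [lintegral_cov hl hc hφ h1 hF]
  refine lintegral_congr fun p => ?_
  congr 1
  exact (lintegral_add_Ph (fun c => F (shift c p)) (-l p)).symm

omit [Fintype ι] in
theorem line_shift_sub {l : (ι → Ph) → Ph} (hc : Cov l) (c : Ph) (p : ι → Ph) :
    l (shift (c + -l p) p) = c := by
  rw [hc, boost_eq_add]; abel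

/-! ### Attachments -/

/-- A way of attaching a line to the given line `e`: the attached line, of velocity `u`, is at the
time `σ` within `ε` of `e`. -/
structure Att (ε : ℝ) (e : Ph) where
  T : Ph → ℝ
  L : E3 → ℝ → E3 → Ph
  mT : Measurable T
  mL : Measurable fun q : E3 × ℝ × E3 => L q.1 q.2.1 q.2.2
  snd : ∀ u σ ξ, (L u σ ξ).2 = u
  pos : ∀ u σ, ∀ ξ ∈ K1.disc K1.e0, ‖((L u σ ξ).1 + σ • u) - (e.1 + σ • e.2)‖ ≤ ε
  time : ∀ u, e.2 - u ≠ 0 → ∀ σ, ∀ ξ ∈ K1.disc K1.e0, T (L u σ ξ) = σ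
  lint : ∀ F : ℝ → Ph → ℝ≥0∞, (Measurable fun q : ℝ × Ph => F q.1 q.2) →
    ∫⁻ c in {c : Ph | Meets ε (e, c)}, F (T c) c =
      ENNReal.ofReal (ε ^ 2) * ∫⁻ u : E3, ‖e.2 - u‖ₑ * ∫⁻ σ : ℝ, ∫⁻ ξ, F σ (L u σ ξ) ∂K1.sig

/-- The outgoing pair of a node: the attachment time is the exit time. -/
noncomputable def attOut {ε : ℝ} (hε : 0 < ε) (e : Ph) : Att ε e where
  T c := exT ε (e, c)
  L := sis ε e
  mT := measurable_exT.comp (measurable_const.prodMk measurable_id)
  mL := measurable_sis e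
  snd _ _ _ := rfl
  pos u σ ξ hξ := by
    have := sis_pos hε.le e u σ hξ
    rwa [one_mul] at this
  time _ hu σ _ hξ := exT_sis hε.ne' e hu σ hξ
  lint _ hF := lintegral_sister hε e hF

/-- The line with velocity `u` which hits `e` at the time `σ`. -/
noncomputable def inc (ε : ℝ) (e : Ph) (u : E3) (σ : ℝ) (ξ : E3) : Ph :=
  partner ε e u (σ + ε * half (K1.refl (e.2 - u) ξ, e.2 - u)) (K1.refl (e.2 - u) ξ)

theorem measurable_inc_time {ε : ℝ} (e : Ph) : Measurable fun q : E3 × ℝ × E3 =>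
    q.2.1 + ε * half (K1.refl (e.2 - q.1) q.2.2, e.2 - q.1) := by
  have h1 : Measurable fun q : E3 × ℝ × E3 => e.2 - q.1 := measurable_const.sub measurable_fst
  have h0 : Measurable fun q : E3 × ℝ × E3 => half (K1.refl (e.2 - q.1) q.2.2, e.2 - q.1) :=
    measurable_half.comp ((measurable_sis_refl e).prodMk h1)
  fun_prop

theorem measurable_inc {ε : ℝ} (e : Ph) :
    Measurable fun q : E3 × ℝ × E3 => inc ε e q.1 q.2.1 q.2.2 := by
  have h4 : Measurable fun q : E3 × ℝ × E3 => ((q.1,
      (q.2.1 + ε * half (K1.refl (e.2 - q.1) q.2.2, e.2 - q.1),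
        K1.refl (e.2 - q.1) q.2.2)) : E3 × ℝ × E3) :=
    measurable_fst.prodMk ((measurable_inc_time e).prodMk (measurable_sis_refl e))
  have h5 := (measurable_partner (ε := ε) e).comp h4
  exact h5

theorem inc_pos {ε : ℝ} (hε : 0 ≤ ε) (e : Ph) (u : E3) (σ : ℝ) {ξ : E3} (hξ : ξ ∈ K1.disc K1.e0) :
    ‖((inc ε e u σ ξ).1 + σ • u) - (e.1 + σ • e.2)‖ ≤ ε := by
  set V := e.2 - u with hV
  set ρ := K1.refl V ξ with hρ
  have h1 : ((inc ε e u σ ξ).1 + σ • u) - (e.1 + σ • e.2) = ε • (half (ρ, V) • V - ρ) := by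
    unfold inc partner
    simp only [← hV, ← hρ]
    rw [hV]
    module
  rw [h1, norm_smul, Real.norm_eq_abs, abs_of_nonneg hε]
  have h2 : ‖ρ‖ < 1 := by rw [hρ, norm_refl]; exact hξ.1
  have h3 : ‖half (ρ, V) • V - ρ‖ ≤ 1 := by
    rcases eq_or_ne V 0 with h0 | h0
    · rw [h0, smul_zero, zero_sub, norm_neg]; exact h2.le
    · have h4 : ρ ∈ K1.disc V := by
        have : ξ ∈ K1.refl V ⁻¹' K1.disc V := by rw [K1.refl_preimage_disc h0]; exact hξ
        exact this
      have h5 : perp (ρ, V) = ρ := perp_of_inner (p := (ρ, V)) h4.2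
      have h6 := half_sq (p := (ρ, V)) h0 (by rw [h5]; exact h2.le)
      rw [h5] at h6
      have h4' : (inner ℝ V ρ : ℝ) = 0 := by rw [real_inner_comm]; exact h4.2
      have h7 : ‖half (ρ, V) • V - ρ‖ ^ 2 = 1 := by
        rw [norm_sub_sq_real, inner_smul_left, h4', norm_smul, mul_pow, Real.norm_eq_abs, sq_abs]
        simp only at h6
        simp only [RCLike.conj_to_real, mul_zero, sub_zero]
        linarith
      nlinarith [norm_nonneg (half (ρ, V) • V - ρ)]
  nlinarith

theorem hitT_inc {ε : ℝ} (hε : ε ≠ 0) (e : Ph) {u : E3} (hV : e.2 - u ≠ 0) (σ : ℝ) {ξ : E3}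
    (hξ : ξ ∈ K1.disc K1.e0) : hitT ε (e, inc ε e u σ ξ) = σ := by
  have hρ : (inner ℝ (K1.refl (e.2 - u) ξ) (e.2 - u) : ℝ) = 0 := by
    have : ξ ∈ K1.refl (e.2 - u) ⁻¹' K1.disc (e.2 - u) := by
      rw [K1.refl_preimage_disc hV]; exact hξ
    exact this.2
  unfold inc
  rw [hitT_partner hε e hV _ hρ]
  ring

theorem shift_time_in {ε : ℝ} (e : Ph) (u : E3) {F : ℝ → Ph → ℝ≥0∞}
    (hF : Measurable fun q : ℝ × Ph => F q.1 q.2) (κ : Measure E3) [SFinite κ] :
    ∫⁻ s : ℝ, ∫⁻ ρ, F (s - ε * half (ρ, e.2 - u)) (partner ε e u s ρ) ∂κ =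
      ∫⁻ σ : ℝ, ∫⁻ ρ, F σ (partner ε e u (σ + ε * half (ρ, e.2 - u)) ρ) ∂κ := by
  have hpm := measurable_partner2 (ε := ε) e u
  have hhm := measurable_half2 (ε := ε) (e.2 - u)
  have a1 : Measurable fun q : ℝ × E3 => ((q.1 - ε * half (q.2, e.2 - u),
      partner ε e u q.1 q.2) : ℝ × Ph) := (measurable_fst.sub hhm).prodMk hpm
  have hm2 : Measurable fun q : ℝ × E3 => F (q.1 - ε * half (q.2, e.2 - u))
      (partner ε e u q.1 q.2) := hF.comp a1
  have a2 : Measurable fun q : ℝ × E3 => ((q.1 + ε * half (q.2, e.2 - u), q.2) : ℝ × E3) :=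
    (measurable_fst.add hhm).prodMk measurable_snd
  have a4 : Measurable fun q : ℝ × E3 => partner ε e u (q.1 + ε * half (q.2, e.2 - u)) q.2 := by
    have h := hpm.comp a2
    simp only [Function.comp_def] at h
    exact h
  have a3 : Measurable fun q : ℝ × E3 => ((q.1,
      partner ε e u (q.1 + ε * half (q.2, e.2 - u)) q.2) : ℝ × Ph) := measurable_fst.prodMk a4
  have hm3 : Measurable fun q : ℝ × E3 => F q.1
      (partner ε e u (q.1 + ε * half (q.2, e.2 - u)) q.2) := hF.comp a3
  rw [lintegral_lintegral_swap hm2.aemeasurable]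
  refine Eq.trans ?_ (lintegral_lintegral_swap (μ := (volume : Measure ℝ)) (ν := κ)
    (f := fun σ ρ => F σ (partner ε e u (σ + ε * half (ρ, e.2 - u)) ρ)) hm3.aemeasurable).symm
  refine lintegral_congr fun ρ => ?_
  rw [← lintegral_add_right_eq_self (fun s => F (s - ε * half (ρ, e.2 - u)) (partner ε e u s ρ))
    (ε * half (ρ, e.2 - u))]
  refine lintegral_congr fun s => ?_
  rw [add_sub_cancel_right]

/-- **The lines which hit a given line.** -/
theorem lintegral_inc {ε : ℝ} (hε : 0 < ε) (e : Ph) {F : ℝ → Ph → ℝ≥0∞}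
    (hF : Measurable fun q : ℝ × Ph => F q.1 q.2) :
    ∫⁻ c in {c : Ph | Meets ε (e, c)}, F (hitT ε (e, c)) c =
      ENNReal.ofReal (ε ^ 2) * ∫⁻ u : E3, ‖e.2 - u‖ₑ * ∫⁻ σ : ℝ, ∫⁻ ξ,
        F σ (inc ε e u σ ξ) ∂K1.sig := by
  have a0 : Measurable fun c : Ph => ((hitT ε (e, c), c) : ℝ × Ph) :=
    (measurable_hitT.comp (measurable_const.prodMk measurable_id)).prodMk measurable_id
  have hm : Measurable fun c : Ph => F (hitT ε (e, c)) c := hF.comp a0
  rw [lintegral_partner hε e hm]
  congr 1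
  refine lintegral_congr fun u => ?_
  rcases eq_or_ne (e.2 - u) 0 with h0 | h0
  · rw [h0]; simp
  congr 1
  have h1 : ∀ s : ℝ, ∫⁻ ρ, F (hitT ε (e, partner ε e u s ρ)) (partner ε e u s ρ)
      ∂(kappa (e.2 - u)) = ∫⁻ ρ, F (s - ε * half (ρ, e.2 - u)) (partner ε e u s ρ)
      ∂(kappa (e.2 - u)) := by
    intro s
    refine lintegral_congr_ae ?_
    filter_upwards [ae_kappa h0] with ρ hρ
    rw [hitT_partner hε.ne' e h0 s hρ.2]
  rw [lintegral_congr h1, shift_time_in e u hF]
  refine lintegral_congr fun σ => ?_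
  rw [lintegral_kappa_refl h0]
  rfl

/-- A hit: the attachment time is the hitting time. -/
noncomputable def attIn {ε : ℝ} (hε : 0 < ε) (e : Ph) : Att ε e where
  T c := hitT ε (e, c)
  L := inc ε e
  mT := measurable_hitT.comp (measurable_const.prodMk measurable_id)
  mL := measurable_inc e
  snd _ _ _ := rfl
  pos u σ _ hξ := inc_pos hε.le e u σ hξ
  time _ hu σ _ hξ := hitT_inc hε.ne' e hu σ hξ
  lint _ hF := lintegral_inc hε e hF

end Vale.Agent.P119.RA
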