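import Vale.Agent.P119.IND.Attach

/-!
# P119: the flux of a rigid piece attached at one event (`helper76`)

`attach_flux`: the mass of the pieces attached to the line `e` at a time `σ ∈ [0, t]` such that a
path `X` of the piece is within `R` of the given path `Y` at some time `τ` of a window `[lo, hi]`
with `|τ - σ| ≥ δ` is `≤ C ε² δ⁻³ (..)` times the mass of the pieces per unit volume.
-/

open MeasureTheory Set Filter Topology Metric ProbabilityTheory
open scoped ENNReal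

namespace Vale.Agent.P119.RA

open KU FL

variable {ι : Type*} [Fintype ι]

/-- Twice the kinetic energy of a piece. -/
noncomputable def EE (p : ι → Ph) : ℝ := ∑ i, ‖(p i).2‖ ^ 2

theorem EE_nonneg (p : ι → Ph) : 0 ≤ EE p := by unfold EE; positivity

theorem EE_shift (c : Ph) (p : ι → Ph) : EE (shift c p) = ∑ i, ‖(p i).2 + c.2‖ ^ 2 := rfl

theorem measurable_EE : Measurable (EE (ι := ι)) := by
  unfold EE
  exact Finset.measurable_sum _ fun i _ => ((measurable_pi_apply i).snd.norm.pow_const 2)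

theorem EE_shift_le (p : ι → Ph) (c c' : Ph) :
    EE (shift c' p) ≤ 2 * EE (shift c p) + 2 * (Fintype.card ι + 1) * ‖c.2 - c'.2‖ ^ 2 := by
  rw [EE_shift, EE_shift]
  have h1 : ∀ i, ‖(p i).2 + c'.2‖ ^ 2 ≤ 2 * ‖(p i).2 + c.2‖ ^ 2 + 2 * ‖c.2 - c'.2‖ ^ 2 := by
    intro i
    have := norm_sq_le_two ((p i).2 + c'.2) ((p i).2 + c.2)
    rw [add_sub_add_left_eq_sub, norm_sub_rev c'.2 c.2] at this
    exact this
  have h3 : ∑ i, ‖(p i).2 + c'.2‖ ^ 2 ≤
      ∑ i : ι, (2 * ‖(p i).2 + c.2‖ ^ 2 + 2 * ‖c.2 - c'.2‖ ^ 2) :=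
    Finset.sum_le_sum fun i _ => h1 i
  rw [Finset.sum_add_distrib, ← Finset.mul_sum, Finset.sum_const, Finset.card_univ,
    nsmul_eq_mul] at h3
  nlinarith [sq_nonneg ‖c.2 - c'.2‖]

/-- The constant `(1 + |e|)(1 + 1/√b)`. -/
noncomputable def Kp (b : ℝ) (e : Ph) : ℝ := (1 + ‖e.2‖) * (1 + 1 / √b)

theorem Kp_pos (b : ℝ) (e : Ph) : 0 < Kp b e := by
  unfold Kp
  have h2 : 0 ≤ 1 / √b := by positivity
  have h3 := norm_nonneg e.2
  positivity

theorem vel_gauss' {b : ℝ} (hb : 0 < b) (v u : E3) {E : ℝ} (hE : ‖u‖ ^ 2 ≤ E) :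
    ‖v - u‖ * Real.exp (-b * E) ≤ ((1 + ‖v‖) * (1 + 1 / √b)) * Real.exp (-(b / 2) * E) := by
  have hE0 : 0 ≤ E := (sq_nonneg _).trans hE
  have h1 : ‖v - u‖ ≤ (1 + ‖v‖) * (1 + √E) := by
    have h2 := norm_sub_le v u
    have h3 : ‖u‖ ≤ √E := Real.le_sqrt_of_sq_le hE
    nlinarith [mul_nonneg (norm_nonneg v) (Real.sqrt_nonneg E), norm_nonneg v, Real.sqrt_nonneg E]
  have h8 := one_add_le (b := b) (x := √E) (M := 1) hb le_rfl
  rw [Real.sqrt_one, one_mul, mul_one, Real.sq_sqrt hE0] at h8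
  calc ‖v - u‖ * Real.exp (-b * E)
      ≤ ((1 + ‖v‖) * ((1 + 1 / √b) * Real.exp (b / 2 * E))) * Real.exp (-b * E) := by
        gcongr
        exact h1.trans (by gcongr)
    _ = ((1 + ‖v‖) * (1 + 1 / √b)) * Real.exp (-(b / 2) * E) := by
        have : Real.exp (-(b / 2) * E) = Real.exp (b / 2 * E) * Real.exp (-b * E) := by
          rw [← Real.exp_add]; congr 1; ring
        rw [this]; ring

/-- A path of a piece, on its window, for the pieces of `G`. -/
structure PPath (ι : Type*) [Fintype ι] (G : Set (ι → Ph)) (c₁ : ℝ) where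
  X : (ι → Ph) → ℝ → E3
  lo : (ι → Ph) → ℝ
  hi : (ι → Ph) → ℝ
  boost : ∀ (c : Ph) (p : ι → Ph) (τ : ℝ), X (shift c p) τ = X p τ + (c.1 + τ • c.2)
  lo_boost : ∀ (c : Ph) (p : ι → Ph), lo (shift c p) = lo p
  hi_boost : ∀ (c : Ph) (p : ι → Ph), hi (shift c p) = hi p
  cont : ∀ p ∈ G, ContinuousOn (X p) (Icc (lo p) (hi p))
  speed : ∀ p ∈ G, SpeedOn (X p) (fun _ => ENNReal.ofReal (c₁ * (1 + √(EE p)))) (lo p) (hi p)

/-- The mass of the pieces per unit volume. -/
noncomputable def mass (b : ℝ) (A : (ι → Ph) → ℝ≥0∞) (l : (ι → Ph) → Ph) (B : Set E3) : ℝ≥0∞ :=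
  (volume B)⁻¹ * ∫⁻ p : ι → Ph, B.indicator (fun _ => A p * ENNReal.ofReal (Real.exp (-b * EE p)))
    (l p).1

/-- The mass, in relative coordinates. -/
theorem mass_eq {b : ℝ} {A : (ι → Ph) → ℝ≥0∞} (hA : Measurable A)
    (hAb : ∀ c p, A (shift c p) = A p) {l : (ι → Ph) → Ph} (hl : Measurable l) (hc : Cov l)
    {B : Set E3} (hB : MeasurableSet B) (hB0 : volume B ≠ 0) (hBt : volume B ≠ ∞)
    {l' : (ι → Ph) → Ph} (hl' : Measurable l') (hc' : Cov l')
    {φ : Ph → ℝ≥0∞} (hφ : Measurable φ) (h1 : ∫⁻ c, φ c = 1) :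
    ∫⁻ p, φ (l' p) * (A p * ∫⁻ u : E3,
      ENNReal.ofReal (Real.exp (-b * EE (shift ((0, u) : Ph) p)))) = mass b A l B := by
  have hsm : Measurable fun q : (ι → Ph) × Ph => shift q.2 q.1 := measurable_shift.comp measurable_swap
  have hG : Measurable fun p : ι → Ph => ENNReal.ofReal (Real.exp (-b * EE p)) :=
    (measurable_EE.const_mul (-b)).exp.ennreal_ofReal
  have hFm : Measurable fun p : ι → Ph => B.indicator (fun _ => A p *
      ENNReal.ofReal (Real.exp (-b * EE p))) (l p).1 := by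
    have : (fun p : ι → Ph => B.indicator (fun _ => A p *
      ENNReal.ofReal (Real.exp (-b * EE p))) (l p).1) =
      ((fun p => (l p).1) ⁻¹' B).indicator fun p => A p * ENNReal.ofReal (Real.exp (-b * EE p)) := by
      funext p; rfl
    rw [this]
    exact (hA.mul hG).indicator (hl.fst hB)
  unfold mass
  rw [lintegral_cov hl' hc' hφ h1 hFm, ← lintegral_const_mul' _ _ (ENNReal.inv_ne_top.2 hB0)]
  refine lintegral_congr fun p => ?_
  have hc0 : ∀ c : Ph, B.indicator (fun _ => A (shift c p) *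
      ENNReal.ofReal (Real.exp (-b * EE (shift c p)))) (l (shift c p)).1 =
      B.indicator (fun _ => (1 : ℝ≥0∞)) ((l p).1 + c.1) *
        (A p * ENNReal.ofReal (Real.exp (-b * EE (shift ((0, c.2) : Ph) p)))) := by
    intro c
    rw [hc]
    have h2 : (KU.boost c (l p)).1 = (l p).1 + c.1 := rfl
    rw [h2, hAb]
    by_cases hm : (l p).1 + c.1 ∈ B
    · rw [indicator_of_mem hm, indicator_of_mem hm, one_mul]; rfl
    · rw [indicator_of_notMem hm, indicator_of_notMem hm, zero_mul]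
  simp_rw [hc0]
  have hsf : SFinite (volume : Measure E3) := inferInstance
  have hm1 : Measurable fun x : E3 => B.indicator (fun _ => (1 : ℝ≥0∞)) ((l p).1 + x) :=
    (measurable_const.indicator hB).comp (measurable_const.add measurable_id)
  have hm2 : Measurable fun u : E3 =>
      A p * ENNReal.ofReal (Real.exp (-b * EE (shift ((0, u) : Ph) p))) := by
    refine Measurable.const_mul ?_ _
    have : Measurable fun u : E3 => shift ((0, u) : Ph) p :=
      hsm.comp (measurable_const.prodMk (measurable_const.prodMk measurable_id))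
    exact hG.comp this
  have e1 : ∫⁻ c : Ph, B.indicator (fun _ => (1 : ℝ≥0∞)) ((l p).1 + c.1) *
      (A p * ENNReal.ofReal (Real.exp (-b * EE (shift ((0, c.2) : Ph) p)))) =
      (∫⁻ x : E3, B.indicator (fun _ => (1 : ℝ≥0∞)) ((l p).1 + x)) *
        ∫⁻ u : E3, A p * ENNReal.ofReal (Real.exp (-b * EE (shift ((0, u) : Ph) p))) := by
    rw [Measure.volume_eq_prod]
    exact lintegral_prod_mul hm1.aemeasurable hm2.aemeasurable
  have e2 : ∫⁻ x : E3, B.indicator (fun _ => (1 : ℝ≥0∞)) ((l p).1 + x) = volume B := by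
    rw [lintegral_add_left_eq_self (fun x => B.indicator (fun _ => (1 : ℝ≥0∞)) x),
      lintegral_indicator_const hB, one_mul]
  rw [e1, e2, lintegral_const_mul]
  · set I := ∫⁻ u : E3, ENNReal.ofReal (Real.exp (-b * EE (shift ((0, u) : Ph) p))) with hI
    calc φ (l' p) * (A p * I) = ((volume B)⁻¹ * volume B) * (φ (l' p) * (A p * I)) := by
          rw [ENNReal.inv_mul_cancel hB0 hBt, one_mul]
      _ = _ := by ring
  · have : Measurable fun u : E3 => shift ((0, u) : Ph) p :=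
      hsm.comp (measurable_const.prodMk (measurable_const.prodMk measurable_id))
    exact hG.comp this

theorem _root_.Vale.Agent.P119.FL.SpeedOn.add_const' {Z : ℝ → E3} {g : ℝ → ℝ≥0∞} {a t : ℝ}
    (h : SpeedOn Z g a t) (y : E3) : SpeedOn (fun τ => Z τ + y) g a t := by
  intro s hs s' hs' hss
  have : Z s' + y - (Z s + y) = Z s' - Z s := by abel
  simp only [this]
  exact h s hs s' hs' hss

/-- The flux factor. -/
noncomputable def FX (n : ℕ) (ε R δ c₁ b a t : ℝ) (y' : ℝ → ℝ≥0∞) : ℝ≥0∞ :=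
  ENNReal.ofReal ((2 * (R + ε) * √((n : ℝ) + 1) / δ) ^ 3) *
    (1 + (ENNReal.ofReal (R + ε))⁻¹ * ∫⁻ τ in Icc a t,
      (ENNReal.ofReal (c₁ * (1 + 1 / √b)) + y' τ))

/-- Flux for a fixed relative position of the piece, a fixed attachment time and a fixed impact
parameter. -/
theorem attach_aux {ε b t δ R c₁ a : ℝ} (hε : 0 < ε) (hb : 0 < b) (hδ : 0 < δ) (hR : 0 ≤ R)
    (hc₁ : 0 ≤ c₁) {G : Set (ι → Ph)} (P : PPath ι G c₁)
    (hGs : ∀ (c : Ph) (p : ι → Ph), p ∈ G → shift c p ∈ G)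
    {A : (ι → Ph) → ℝ≥0∞} (hAs : ∀ (c : Ph) (p : ι → Ph), A (shift c p) = A p)
    {l : (ι → Ph) → Ph} (hc : Cov l) (hE : ∀ p, ‖(l p).2‖ ^ 2 ≤ EE p)
    {e : Ph} (α : Att ε e) {wl wr : ℝ → ℝ} (hw : ∀ σ τ, wl σ ≤ τ → τ ≤ wr σ → δ ≤ |τ - σ|)
    {Y : ℝ → E3} {y' : ℝ → ℝ≥0∞} (hYc : ContinuousOn Y (Icc a t)) (hYs : SpeedOn Y y' a t)
    (hy' : AEMeasurable y' (volume.restrict (Icc a t)))
    {Ψ : (ι → Ph) → ℝ≥0∞}
    (hΨ : ∀ p, Ψ p ≠ 0 → (∃ τ ∈ Icc (max (max a (P.lo p)) (wl (α.T (l p))))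
        (min (min t (P.hi p)) (wr (α.T (l p)))), ‖P.X p τ - Y τ‖ ≤ R) ∧
      Ψ p ≤ muE ε * (A p * ENNReal.ofReal (Real.exp (-b * EE p))))
    {σ : ℝ} {ξ : E3} (hξ : ξ ∈ K1.disc K1.e0) {p : ι → Ph} (hp : p ∈ G) :
    ∫⁻ u : E3, (ENNReal.ofReal (ε ^ 2) * ‖e.2 - u‖ₑ) * Ψ (shift (α.L u σ ξ + -l p) p) ≤
      (FX (Fintype.card ι) ε R δ c₁ (b / 2) a t y') *
        (ENNReal.ofReal (Kp b e) * A p * ∫⁻ u : E3, ENNReal.ofReal (Real.exp (b / 4) *
          Real.exp (-(b / 8) * EE (shift ((0, u + -(l p).2) : Ph) p)))) := by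
  set n : ℕ := Fintype.card ι with hn
  set cu : E3 → Ph := fun u => α.L u σ ξ + -l p with hcu
  set Eu : E3 → ℝ := fun u => EE (shift ((0, u + -(l p).2) : Ph) p) with hEu
  have hcu2 : ∀ u, (cu u).2 = u + -(l p).2 := by
    intro u
    rw [hcu]
    simp only [Prod.snd_add, Prod.snd_neg]
    rw [α.snd]
  have hEE : ∀ u, EE (shift (cu u) p) = Eu u := by
    intro u
    rw [hEu, EE_shift, hcu2 u]
    rfl
  have hE0 : ∀ u, 0 ≤ Eu u := fun u => EE_nonneg _
  have hEle : ∀ u u', Eu u' ≤ 2 * Eu u + 2 * ((n : ℝ) + 1) * ‖u - u'‖ ^ 2 := by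
    intro u u'
    have := EE_shift_le p ((0, u + -(l p).2) : Ph) ((0, u' + -(l p).2) : Ph)
    simpa only [add_sub_add_right_eq_sub] using this
  have hlin : ∀ u, l (shift (cu u) p) = α.L u σ ξ := fun u => line_shift_sub hc _ _
  set wα : ℝ := max (max a (P.lo p)) (wl σ) with hwα
  set wω : ℝ := min (min t (P.hi p)) (wr σ) with hwω
  have hsubY : Icc wα wω ⊆ Icc a t := Icc_subset_Icc
    ((le_max_left _ _).trans (le_max_left _ _)) ((min_le_left _ _).trans (min_le_left _ _))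
  have hlo : P.lo p ≤ wα := (le_max_right a _).trans (le_max_left _ _)
  have hhi : wω ≤ P.hi p := (min_le_left _ _).trans (min_le_right t _)
  have ha : a ≤ wα := (le_max_left _ _).trans (le_max_left _ _)
  have ht : wω ≤ t := (min_le_left _ _).trans (min_le_left _ _)
  set y₀ : E3 := e.1 + σ • e.2 with hy₀
  set b' : ℝ := b / 2 with hb'
  have hb'0 : 0 < b' := by positivity
  set K0 : ℝ≥0∞ := ENNReal.ofReal (Kp b e) * A p with hK0
  have hsn : 0 < √((n : ℝ) + 1) := Real.sqrt_pos.2 (by positivity)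
  have hr : 0 < 1 / √((n : ℝ) + 1) := by positivity
  have hr2 : ∀ x : ℝ, 0 ≤ x → x ≤ 1 / √((n : ℝ) + 1) → 2 * (n + 1) * x ^ 2 ≤ 2 := by
    intro x hx0 hx
    have h1 : x ^ 2 ≤ (1 / √((n : ℝ) + 1)) ^ 2 := by gcongr
    rw [div_pow, Real.sq_sqrt (by positivity), one_pow] at h1
    calc 2 * ((n : ℝ) + 1) * x ^ 2 ≤ 2 * (n + 1) * (1 / (n + 1)) := by gcongr
      _ = 2 := by field_simp
  have hpath : ∀ (u : E3) (τ : ℝ), (τ - σ) • u +
      (P.X p τ - ((l p).1 + τ • (l p).2) + y₀ - Y τ) =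
      P.X (shift (cu u) p) τ + -Y τ + -(((α.L u σ ξ).1 + σ • u) - y₀) := by
    intro u τ
    rw [P.boost, hcu2 u]
    have h1 : (cu u).1 = (α.L u σ ξ).1 + -(l p).1 := rfl
    rw [h1]
    module
  have hexp : ∀ u u' : E3, ‖u - u'‖ ≤ 1 / √((n : ℝ) + 1) →
      Real.exp (-(b' / 2) * Eu u) ≤ Real.exp (b / 4) * Real.exp (-(b / 8) * Eu u') := by
    intro u u' huu
    rw [← Real.exp_add]
    apply Real.exp_le_exp.2
    have h1 := hEle u u'
    have h2 := hr2 _ (norm_nonneg _) huu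
    have h4 : Eu u' ≤ 2 * Eu u + 2 := by linarith
    have h5 : b / 8 * Eu u' ≤ b / 8 * (2 * Eu u + 2) := by gcongr
    rw [hb']
    linarith
  have hmain := flux_win (ζ := fun τ => P.X p τ - ((l p).1 + τ • (l p).2) + y₀ - Y τ)
    (g := fun u τ => ENNReal.ofReal (c₁ * (1 + √(Eu u))) + y' τ)
    (h := fun τ => ENNReal.ofReal (c₁ * (1 + 1 / √b')) + y' τ) (s := σ) (δ := δ)
    (α := wα) (ω := wω) (ε := R + ε) (r := 1 / √((n : ℝ) + 1))
    (W := fun u => K0 * ENNReal.ofReal (Real.exp (-b' * Eu u)))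
    (V := fun u => K0 * ENNReal.ofReal (Real.exp (b / 4) * Real.exp (-(b / 8) * Eu u)))
    (by positivity) hδ hr
    (by
      refine Measurable.const_mul ?_ _
      refine Measurable.ennreal_ofReal ?_
      refine Measurable.const_mul ?_ _
      refine Measurable.exp ?_
      refine Measurable.const_mul ?_ _
      have h1 : Measurable fun u : E3 => shift ((0, u + -(l p).2) : Ph) p :=
        measurable_shift.comp ((measurable_const.prodMk (measurable_id.add_const _)).prodMk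
          measurable_const)
      exact measurable_EE.comp h1)
    (fun τ hτ => hw σ τ ((le_max_right _ _).trans hτ.1) (hτ.2.trans (min_le_right _ _)))
    (by
      refine ContinuousOn.sub (ContinuousOn.add (ContinuousOn.sub ?_ ?_) continuousOn_const)
        (hYc.mono hsubY)
      · exact (P.cont p hp).mono (Icc_subset_Icc hlo hhi)
      · exact (continuous_const.add (continuous_id.smul continuous_const)).continuousOn)
    (by
      intro u _
      simp only [hpath]
      refine SpeedOn.add ?_ ?_ aemeasurable_const |>.add_const' _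
      · have h1 := P.speed _ (hGs (cu u) p hp)
        rw [P.lo_boost, P.hi_boost, hEE u] at h1
        exact h1.mono hlo hhi fun _ _ => le_rfl
      · exact hYs.neg.mono ha ht fun _ _ => le_rfl)
    (aemeasurable_const.add (hy'.mono_measure (Measure.restrict_mono hsubY le_rfl)))
    (by
      intro u u' huu
      refine mul_le_mul' le_rfl (ENNReal.ofReal_le_ofReal ?_)
      refine le_trans ?_ (hexp u u' huu)
      apply Real.exp_le_exp.2
      nlinarith [hE0 u])
    (by
      intro τ _ u u' huu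
      have h3 := hE0 u
      have h5 := hexp u u' huu
      have h6 : Real.exp (-b' * Eu u) ≤ Real.exp (-(b' / 2) * Eu u) := by
        apply Real.exp_le_exp.2
        nlinarith
      have h7 : Real.exp (-b' * Eu u) * (c₁ * (1 + √(Eu u))) ≤
          c₁ * (1 + 1 / √b') * (Real.exp (b / 4) * Real.exp (-(b / 8) * Eu u')) := by
        have h8 := one_add_le (b := b') (x := √(Eu u)) (M := 1) hb'0 le_rfl
        rw [Real.sqrt_one, one_mul, mul_one, Real.sq_sqrt h3] at h8
        calc Real.exp (-b' * Eu u) * (c₁ * (1 + √(Eu u)))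
            ≤ Real.exp (-b' * Eu u) * (c₁ * ((1 + 1 / √b') * Real.exp (b' / 2 * Eu u))) := by
              gcongr
          _ = c₁ * (1 + 1 / √b') * Real.exp (-(b' / 2) * Eu u) := by
              have : Real.exp (-(b' / 2) * Eu u) =
                  Real.exp (-b' * Eu u) * Real.exp (b' / 2 * Eu u) := by
                rw [← Real.exp_add]; congr 1; ring
              rw [this]; ring
          _ ≤ _ := by gcongr
      rw [mul_add, add_mul]
      refine add_le_add ?_ ?_
      · calc K0 * ENNReal.ofReal (Real.exp (-b' * Eu u)) * ENNReal.ofReal (c₁ * (1 + √(Eu u)))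
            = K0 * ENNReal.ofReal (Real.exp (-b' * Eu u) * (c₁ * (1 + √(Eu u)))) := by
              rw [mul_assoc, ← ENNReal.ofReal_mul (Real.exp_nonneg _)]
          _ ≤ K0 * ENNReal.ofReal (c₁ * (1 + 1 / √b') *
              (Real.exp (b / 4) * Real.exp (-(b / 8) * Eu u'))) := by gcongr
          _ = _ := by
              rw [ENNReal.ofReal_mul (by positivity : (0:ℝ) ≤ c₁ * (1 + 1 / √b'))]
              ring
      · rw [mul_comm]
        gcongr
        exact h6.trans h5)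
    (Ψ := fun u => (ENNReal.ofReal (ε ^ 2) * ‖e.2 - u‖ₑ) * Ψ (shift (cu u) p))
    (by
      intro u hne
      have hΨ0 : Ψ (shift (cu u) p) ≠ 0 := fun h => hne (by simp only [h, mul_zero])
      have hV : e.2 - u ≠ 0 := by
        intro h
        apply hne
        simp [h]
      obtain ⟨⟨τ, hτ, hh⟩, h3⟩ := hΨ _ hΨ0
      rw [hlin u, α.time u hV σ ξ hξ, P.lo_boost, P.hi_boost] at hτ
      refine ⟨⟨τ, hτ, ?_⟩, ?_⟩
      · rw [hpath]
        calc _ ≤ ‖P.X (shift (cu u) p) τ + -Y τ‖ + ‖-(((α.L u σ ξ).1 + σ • u) - y₀)‖ :=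
              norm_add_le _ _
          _ ≤ R + ε := by
              refine add_le_add ?_ ?_
              · rw [← sub_eq_add_neg]; exact hh
              · rw [norm_neg]; exact α.pos u σ ξ hξ
      · have hlu : ‖u‖ ^ 2 ≤ Eu u := by
          have := hE (shift (cu u) p)
          rw [hlin u, α.snd, hEE u] at this
          exact this
        rw [hAs, hEE u] at h3
        calc (ENNReal.ofReal (ε ^ 2) * ‖e.2 - u‖ₑ) * Ψ (shift (cu u) p)
            ≤ (ENNReal.ofReal (ε ^ 2) * ‖e.2 - u‖ₑ) *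
              (muE ε * (A p * ENNReal.ofReal (Real.exp (-b * Eu u)))) := by gcongr
          _ = (muE ε * ENNReal.ofReal (ε ^ 2)) * (A p *
              (‖e.2 - u‖ₑ * ENNReal.ofReal (Real.exp (-b * Eu u)))) := by ring
          _ = A p * ENNReal.ofReal (‖e.2 - u‖ * Real.exp (-b * Eu u)) := by
              rw [muE_mul hε, one_mul, ← ofReal_norm, ← ENNReal.ofReal_mul (norm_nonneg _)]
          _ ≤ A p * ENNReal.ofReal (Kp b e * Real.exp (-b' * Eu u)) :=
              mul_le_mul' le_rfl (ENNReal.ofReal_le_ofReal (vel_gauss' hb e.2 u hlu))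
          _ = _ := by
              rw [ENNReal.ofReal_mul (Kp_pos b e).le, hK0]
              ring)
  refine hmain.trans ?_
  have hle : 2 * (R + ε) / (δ * (1 / √((n : ℝ) + 1))) = 2 * (R + ε) * √((n : ℝ) + 1) / δ := by
    field_simp
  rw [hle]
  have hVint : ∫⁻ u : E3, K0 * ENNReal.ofReal (Real.exp (b / 4) * Real.exp (-(b / 8) * Eu u)) =
      K0 * ∫⁻ u : E3, ENNReal.ofReal (Real.exp (b / 4) * Real.exp (-(b / 8) * Eu u)) := by
    refine lintegral_const_mul _ ?_
    refine Measurable.ennreal_ofReal ?_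
    refine Measurable.const_mul ?_ _
    refine Measurable.exp ?_
    refine Measurable.const_mul ?_ _
    have h1 : Measurable fun u : E3 => shift ((0, u + -(l p).2) : Ph) p :=
      measurable_shift.comp ((measurable_const.prodMk (measurable_id.add_const _)).prodMk
        measurable_const)
    exact measurable_EE.comp h1
  rw [hVint]
  refine mul_le_mul' ?_ le_rfl
  unfold FX
  exact mul_le_mul' le_rfl (add_le_add le_rfl (mul_le_mul' le_rfl (lintegral_mono_set hsubY)))

/-- **Flux of a rigid piece attached at one event.**  The pieces `p` are attached to the line `e`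
through their line `l p` (`attIn`: hit, `attOut`: outgoing pair of a node) at the time
`σ = α.T (l p) ∈ [0, t]`; a path `P.X p` of the piece is within `R` of the given path `Y` at a time
`τ` of the window `[wl σ, wr σ]`, which has lag `≥ δ` from `σ`. -/
theorem attach_flux {ε b t δ R c₁ a : ℝ} (hε : 0 < ε) (hb : 0 < b) (hδ : 0 < δ) (hR : 0 ≤ R)
    (hc₁ : 0 ≤ c₁) {G : Set (ι → Ph)} (P : PPath ι G c₁)
    (hGs : ∀ (c : Ph) (p : ι → Ph), p ∈ G → shift c p ∈ G)
    {A : (ι → Ph) → ℝ≥0∞} (hA : Measurable A) (hAs : ∀ (c : Ph) (p : ι → Ph), A (shift c p) = A p)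
    (hAG : ∀ p, A p ≠ 0 → p ∈ G)
    {l : (ι → Ph) → Ph} (hl : Measurable l) (hc : Cov l) (hE : ∀ p, ‖(l p).2‖ ^ 2 ≤ EE p)
    {e : Ph} (α : Att ε e) {wl wr : ℝ → ℝ} (hw : ∀ σ τ, wl σ ≤ τ → τ ≤ wr σ → δ ≤ |τ - σ|)
    {Y : ℝ → E3} {y' : ℝ → ℝ≥0∞} (hYc : ContinuousOn Y (Icc a t)) (hYs : SpeedOn Y y' a t)
    (hy' : AEMeasurable y' (volume.restrict (Icc a t)))
    {Ψ : (ι → Ph) → ℝ≥0∞} (hΨm : Measurable Ψ)
    (hΨ : ∀ p, Ψ p ≠ 0 → Meets ε (e, l p) ∧ α.T (l p) ∈ Icc 0 t ∧
      (∃ τ ∈ Icc (max (max a (P.lo p)) (wl (α.T (l p))))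
        (min (min t (P.hi p)) (wr (α.T (l p)))), ‖P.X p τ - Y τ‖ ≤ R) ∧
      Ψ p ≤ muE ε * (A p * ENNReal.ofReal (Real.exp (-b * EE p))))
    {l' : (ι → Ph) → Ph} (hl' : Measurable l') (hc' : Cov l')
    {B : Set E3} (hB : MeasurableSet B) (hB0 : volume B ≠ 0) (hBt : volume B ≠ ∞) :
    ∫⁻ p, Ψ p ≤ ENNReal.ofReal t * (K1.sig univ * (FX (Fintype.card ι) ε R δ c₁ (b / 2) a t y' *
      (ENNReal.ofReal (Kp b e) * (ENNReal.ofReal (Real.exp (b / 4)) * mass (b / 8) A l' B)))) := by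
  -- a probability density on `Ph`
  obtain ⟨φ, hφ, hφ1⟩ : ∃ φ : Ph → ℝ≥0∞, Measurable φ ∧ ∫⁻ c, φ c = 1 := by
    set S : Set Ph := (ball (0 : E3) 1) ×ˢ (ball (0 : E3) 1) with hS
    have hSm : MeasurableSet S := measurableSet_ball.prod measurableSet_ball
    have hv : volume S = bv * bv := by
      rw [Measure.volume_eq_prod, Measure.prod_prod]; rfl
    have h0 : volume S ≠ 0 := by rw [hv]; exact mul_ne_zero bv_ne_zero bv_ne_zero
    have ht' : volume S ≠ ∞ := by rw [hv]; exact ENNReal.mul_ne_top bv_ne_top bv_ne_top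
    refine ⟨S.indicator fun _ => (volume S)⁻¹, measurable_const.indicator hSm, ?_⟩
    rw [lintegral_indicator_const hSm, ENNReal.inv_mul_cancel h0 ht']
  set CC : ℝ≥0∞ := FX (Fintype.card ι) ε R δ c₁ (b / 2) a t y' with hCC
  have hsm : Measurable fun q : Ph × (ι → Ph) => shift q.1 q.2 := measurable_shift
  have hMm : MeasurableSet {c : Ph | Meets ε (e, c)} := measurable_prodMk_left measurableSet_meets
  have hΨA : ∀ p, A p = 0 → Ψ p = 0 := by
    intro p h0
    by_contra hne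
    have h1 := (hΨ p hne).2.2.2
    rw [h0, zero_mul, mul_zero] at h1
    exact hne (le_antisymm h1 zero_le)
  -- the inner integral
  have key : ∀ p : ι → Ph, ∫⁻ c : Ph, Ψ (shift (c + -l p) p) ≤
      ENNReal.ofReal t * (K1.sig univ * (CC * (ENNReal.ofReal (Kp b e) * A p *
        ∫⁻ u : E3, ENNReal.ofReal (Real.exp (b / 4) *
          Real.exp (-(b / 8) * EE (shift ((0, u) : Ph) p)))))) := by
    intro p
    by_cases hAp : A p = 0
    · have h0 : ∀ c : Ph, Ψ (shift (c + -l p) p) = 0 := by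
        intro c
        apply hΨA
        rw [hAs, hAp]
      simp only [h0, lintegral_zero]
      exact zero_le
    have hpG : p ∈ G := hAG p hAp
    have htr : ∫⁻ u : E3, ENNReal.ofReal (Real.exp (b / 4) *
          Real.exp (-(b / 8) * EE (shift ((0, u) : Ph) p))) =
        ∫⁻ u : E3, ENNReal.ofReal (Real.exp (b / 4) *
          Real.exp (-(b / 8) * EE (shift ((0, u + -(l p).2) : Ph) p))) :=
      (lintegral_add_right_eq_self (fun u : E3 => ENNReal.ofReal (Real.exp (b / 4) *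
          Real.exp (-(b / 8) * EE (shift ((0, u) : Ph) p)))) (-(l p).2)).symm
    rw [htr]
    have hJ0 : Measurable fun c : Ph => Ψ (shift (c + -l p) p) :=
      hΨm.comp (hsm.comp ((measurable_id.add_const _).prodMk measurable_const))
    set F : ℝ → Ph → ℝ≥0∞ := fun σ c =>
      (Icc (0 : ℝ) t).indicator (fun _ => Ψ (shift (c + -l p) p)) σ with hF
    have hFm : Measurable fun q : ℝ × Ph => F q.1 q.2 := by
      have : (fun q : ℝ × Ph => F q.1 q.2) = (Prod.fst ⁻¹' Icc (0 : ℝ) t).indicator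
          (fun q : ℝ × Ph => Ψ (shift (q.2 + -l p) p)) := by
        funext q
        rfl
      rw [this]
      exact (hJ0.comp measurable_snd).indicator (measurable_fst measurableSet_Icc)
    have e1 : ∫⁻ c : Ph, Ψ (shift (c + -l p) p) =
        ∫⁻ c in {c : Ph | Meets ε (e, c)}, F (α.T c) c := by
      rw [← lintegral_indicator hMm]
      refine lintegral_congr fun c => ?_
      by_cases h0 : Ψ (shift (c + -l p) p) = 0
      · by_cases hcm : c ∈ {c : Ph | Meets ε (e, c)}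
        · rw [indicator_of_mem hcm, hF]
          simp only [h0, indicator_zero]
        · rw [indicator_of_notMem hcm]
          exact h0
      · obtain ⟨a1, a2, -⟩ := hΨ _ h0
        rw [line_shift_sub hc] at a1 a2
        rw [indicator_of_mem (show c ∈ {c : Ph | Meets ε (e, c)} from a1), hF]
        simp only
        rw [indicator_of_mem a2]
    rw [e1, α.lint F hFm]
    set ν : Measure (ℝ × E3) := (volume.restrict (Icc (0 : ℝ) t)).prod K1.sig with hν
    have hJm : Measurable fun q : E3 × (ℝ × E3) => Ψ (shift (α.L q.1 q.2.1 q.2.2 + -l p) p) :=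
      hJ0.comp α.mL
    have e3 : ENNReal.ofReal (ε ^ 2) * ∫⁻ u : E3, ‖e.2 - u‖ₑ * ∫⁻ σ : ℝ, ∫⁻ ξ,
        F σ (α.L u σ ξ) ∂K1.sig = ∫⁻ q, (∫⁻ u : E3, (ENNReal.ofReal (ε ^ 2) *
          ‖e.2 - u‖ₑ) * Ψ (shift (α.L u q.1 q.2 + -l p) p)) ∂ν := by
      rw [swap3 (by fun_prop : Measurable fun u : E3 => ‖e.2 - u‖ₑ) hJm t,
        ← lintegral_const_mul' _ _ ENNReal.ofReal_ne_top]
      refine lintegral_congr fun q => ?_
      rw [← lintegral_const_mul' _ _ ENNReal.ofReal_ne_top]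
      refine lintegral_congr fun u => ?_
      rw [mul_assoc]
    rw [e3]
    have hae : ∀ᵐ q ∂ν, q.2 ∈ K1.disc K1.e0 := by
      have h2 : ∀ᵐ ξ ∂K1.sig, ξ ∈ K1.disc K1.e0 := ae_restrict_mem (K1.measurableSet_disc _)
      exact Measure.quasiMeasurePreserving_snd.ae h2
    calc ∫⁻ q, (∫⁻ u : E3, (ENNReal.ofReal (ε ^ 2) *
          ‖e.2 - u‖ₑ) * Ψ (shift (α.L u q.1 q.2 + -l p) p)) ∂ν
        ≤ ∫⁻ _, CC * (ENNReal.ofReal (Kp b e) * A p * ∫⁻ u : E3, ENNReal.ofReal (Real.exp (b / 4) *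
          Real.exp (-(b / 8) * EE (shift ((0, u + -(l p).2) : Ph) p)))) ∂ν := by
          refine lintegral_mono_ae ?_
          filter_upwards [hae] with q hq
          exact attach_aux hε hb hδ hR hc₁ P hGs hAs hc hE α hw hYc hYs hy'
            (fun p hp => ⟨(hΨ p hp).2.2.1, (hΨ p hp).2.2.2⟩) hq hpG
      _ = _ := by
          rw [lintegral_const, hν, ← univ_prod_univ, Measure.prod_prod, Measure.restrict_apply_univ,
            Real.volume_Icc, sub_zero]
          ring
  rw [lintegral_cov' hl hc hφ hφ1 hΨm]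
  refine (lintegral_mono fun p => mul_le_mul' le_rfl (key p)).trans (le_of_eq ?_)
  have hm := mass_eq (b := b / 8) hA hAs hl' hc' hB hB0 hBt hl hc hφ hφ1
  rw [← hm]
  have hIm : ∀ p : ι → Ph, ∫⁻ u : E3, ENNReal.ofReal (Real.exp (b / 4) *
      Real.exp (-(b / 8) * EE (shift ((0, u) : Ph) p))) = ENNReal.ofReal (Real.exp (b / 4)) *
      ∫⁻ u : E3, ENNReal.ofReal (Real.exp (-(b / 8) * EE (shift ((0, u) : Ph) p))) := by
    intro p
    rw [← lintegral_const_mul' _ _ ENNReal.ofReal_ne_top]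
    refine lintegral_congr fun u => ?_
    rw [ENNReal.ofReal_mul (Real.exp_nonneg _)]
  simp_rw [hIm]
  have hfin : ∀ p : ι → Ph, φ (l p) * (ENNReal.ofReal t * (K1.sig univ *
      (CC * (ENNReal.ofReal (Kp b e) * A p * (ENNReal.ofReal (Real.exp (b / 4)) *
      ∫⁻ u : E3, ENNReal.ofReal (Real.exp (-(b / 8) * EE (shift ((0, u) : Ph) p)))))))) =
      (ENNReal.ofReal t * (K1.sig univ * (CC * (ENNReal.ofReal (Kp b e) *
        ENNReal.ofReal (Real.exp (b / 4)))))) * (φ (l p) * (A p *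
      ∫⁻ u : E3, ENNReal.ofReal (Real.exp (-(b / 8) * EE (shift ((0, u) : Ph) p))))) := by
    intro p; ring
  simp_rw [hfin]
  have hmeas : Measurable fun p : ι → Ph => φ (l p) * (A p *
      ∫⁻ u : E3, ENNReal.ofReal (Real.exp (-(b / 8) * EE (shift ((0, u) : Ph) p)))) := by
    refine (hφ.comp hl).mul (hA.mul ?_)
    have h1 : Measurable fun q : (ι → Ph) × E3 =>
        ENNReal.ofReal (Real.exp (-(b / 8) * EE (shift ((0, q.2) : Ph) q.1))) := by
      refine Measurable.ennreal_ofReal (Measurable.exp (Measurable.const_mul ?_ _))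
      exact measurable_EE.comp (hsm.comp ((measurable_const.prodMk measurable_snd).prodMk
        measurable_fst))
    exact h1.lintegral_prod_right'
  rw [lintegral_const_mul _ hmeas]
  ring

end Vale.Agent.P119.RA
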