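import Vale.Agent.P119.IND.AttachFlux

/-!
# P119: rigid pieces attached at one event, general form (`helper76`)

`attach_gen`: the integral over the pieces attached to `e` is reduced to an integral over the
velocity `u` of the attached line, for a fixed relative position of the piece.  Corollaries:

* `attach_win`: attachment time in a window `[α, β]`: the mass is `O(β - α)`;
* `attach_fix`: the path of the piece is within `R` of a given point at a given time `s`,
  `|s - σ| ≥ δ`: the mass is `O((R + ε)³ δ⁻³)`;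
* `attach_chi`: the relative velocity and the impact parameter are in a small set.
-/

open MeasureTheory Set Filter Topology Metric ProbabilityTheory
open scoped ENNReal

namespace Vale.Agent.P119.RA

open KU FL

variable {ι : Type*} [Fintype ι]

theorem exists_density : ∃ φ : Ph → ℝ≥0∞, Measurable φ ∧ ∫⁻ c, φ c = 1 := by
  set S : Set Ph := (ball (0 : E3) 1) ×ˢ (ball (0 : E3) 1) with hS
  have hSm : MeasurableSet S := measurableSet_ball.prod measurableSet_ball
  have hv : volume S = bv * bv := by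
    rw [Measure.volume_eq_prod, Measure.prod_prod]; rfl
  have h0 : volume S ≠ 0 := by rw [hv]; exact mul_ne_zero bv_ne_zero bv_ne_zero
  have ht' : volume S ≠ ∞ := by rw [hv]; exact ENNReal.mul_ne_top bv_ne_top bv_ne_top
  refine ⟨S.indicator fun _ => (volume S)⁻¹, measurable_const.indicator hSm, ?_⟩
  rw [lintegral_indicator_const hSm, ENNReal.inv_mul_cancel h0 ht']

/-- **Pieces attached at one event, general form.**  `K σ ξ` bounds the integral over the velocity of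
the attached line. -/
theorem attach_gen {ε b α β : ℝ}
    {A : (ι → Ph) → ℝ≥0∞} (hA : Measurable A) (hAs : ∀ (c : Ph) (p : ι → Ph), A (shift c p) = A p)
    {l : (ι → Ph) → Ph} (hl : Measurable l) (hc : Cov l)
    {e : Ph} (a : Att ε e) {Ψ : (ι → Ph) → ℝ≥0∞} (hΨm : Measurable Ψ)
    (hΨ : ∀ p, Ψ p ≠ 0 → A p ≠ 0 ∧ Meets ε (e, l p) ∧ a.T (l p) ∈ Icc α β)
    {K : ℝ → E3 → ℝ≥0∞} (hKm : Measurable fun q : ℝ × E3 => K q.1 q.2)
    (hK : ∀ p, A p ≠ 0 → ∀ σ ∈ Icc α β, ∀ ξ ∈ K1.disc K1.e0,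
      ∫⁻ u : E3, (ENNReal.ofReal (ε ^ 2) * ‖e.2 - u‖ₑ) * Ψ (shift (a.L u σ ξ + -l p) p) ≤
        K σ ξ * (A p * ∫⁻ u : E3, ENNReal.ofReal (Real.exp (-b * EE (shift ((0, u) : Ph) p)))))
    {l' : (ι → Ph) → Ph} (hl' : Measurable l') (hc' : Cov l')
    {B : Set E3} (hB : MeasurableSet B) (hB0 : volume B ≠ 0) (hBt : volume B ≠ ∞) :
    ∫⁻ p, Ψ p ≤ (∫⁻ σ in Icc α β, ∫⁻ ξ, K σ ξ ∂K1.sig) * mass b A l' B := by
  obtain ⟨φ, hφ, hφ1⟩ := exists_density
  have hsm : Measurable fun q : Ph × (ι → Ph) => shift q.1 q.2 := measurable_shift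
  have hMm : MeasurableSet {c : Ph | Meets ε (e, c)} := measurable_prodMk_left measurableSet_meets
  -- the inner integral
  have key : ∀ p : ι → Ph, ∫⁻ c : Ph, Ψ (shift (c + -l p) p) ≤
      (∫⁻ σ in Icc α β, ∫⁻ ξ, K σ ξ ∂K1.sig) * (A p *
        ∫⁻ u : E3, ENNReal.ofReal (Real.exp (-b * EE (shift ((0, u) : Ph) p)))) := by
    intro p
    by_cases hAp : A p = 0
    · have h0 : ∀ c : Ph, Ψ (shift (c + -l p) p) = 0 := by
        intro c
        by_contra hne
        exact (hΨ _ hne).1 (by rw [hAs, hAp])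
      simp only [h0, lintegral_zero]
      exact zero_le
    have hJ0 : Measurable fun c : Ph => Ψ (shift (c + -l p) p) :=
      hΨm.comp (hsm.comp ((measurable_id.add_const _).prodMk measurable_const))
    set F : ℝ → Ph → ℝ≥0∞ := fun σ c =>
      (Icc α β).indicator (fun _ => Ψ (shift (c + -l p) p)) σ with hF
    have hFm : Measurable fun q : ℝ × Ph => F q.1 q.2 := by
      have : (fun q : ℝ × Ph => F q.1 q.2) = (Prod.fst ⁻¹' Icc α β).indicator
          (fun q : ℝ × Ph => Ψ (shift (q.2 + -l p) p)) := by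
        funext q
        rfl
      rw [this]
      exact (hJ0.comp measurable_snd).indicator (measurable_fst measurableSet_Icc)
    have e1 : ∫⁻ c : Ph, Ψ (shift (c + -l p) p) =
        ∫⁻ c in {c : Ph | Meets ε (e, c)}, F (a.T c) c := by
      rw [← lintegral_indicator hMm]
      refine lintegral_congr fun c => ?_
      by_cases h0 : Ψ (shift (c + -l p) p) = 0
      · by_cases hcm : c ∈ {c : Ph | Meets ε (e, c)}
        · rw [indicator_of_mem hcm, hF]
          simp only [h0, indicator_zero]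
        · rw [indicator_of_notMem hcm]
          exact h0
      · obtain ⟨-, a1, a2⟩ := hΨ _ h0
        rw [line_shift_sub hc] at a1 a2
        rw [indicator_of_mem (show c ∈ {c : Ph | Meets ε (e, c)} from a1), hF]
        simp only
        rw [indicator_of_mem a2]
    rw [e1, a.lint F hFm]
    set ν : Measure (ℝ × E3) := (volume.restrict (Icc α β)).prod K1.sig with hν
    have hJm : Measurable fun q : E3 × (ℝ × E3) => Ψ (shift (a.L q.1 q.2.1 q.2.2 + -l p) p) :=
      hJ0.comp a.mL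
    have e2 : ∀ u : E3, ∫⁻ σ : ℝ, ∫⁻ ξ, F σ (a.L u σ ξ) ∂K1.sig =
        ∫⁻ q, Ψ (shift (a.L u q.1 q.2 + -l p) p) ∂ν := by
      intro u
      have hm : Measurable fun q : ℝ × E3 => Ψ (shift (a.L u q.1 q.2 + -l p) p) :=
        hJm.comp (measurable_const.prodMk measurable_id)
      rw [hν, lintegral_prod _ hm.aemeasurable, ← lintegral_indicator measurableSet_Icc]
      refine lintegral_congr fun σ => ?_
      by_cases hσ : σ ∈ Icc α β
      · simp only [hF, indicator_of_mem hσ]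
      · simp only [hF, indicator_of_notMem hσ, lintegral_zero]
    have e3 : ENNReal.ofReal (ε ^ 2) * ∫⁻ u : E3, ‖e.2 - u‖ₑ * ∫⁻ σ : ℝ, ∫⁻ ξ,
        F σ (a.L u σ ξ) ∂K1.sig = ∫⁻ q, (∫⁻ u : E3, (ENNReal.ofReal (ε ^ 2) *
          ‖e.2 - u‖ₑ) * Ψ (shift (a.L u q.1 q.2 + -l p) p)) ∂ν := by
      rw [← lintegral_const_mul' _ _ ENNReal.ofReal_ne_top]
      have h5 : Measurable fun q : E3 × (ℝ × E3) => (ENNReal.ofReal (ε ^ 2) *
          ‖e.2 - q.1‖ₑ) * Ψ (shift (a.L q.1 q.2.1 q.2.2 + -l p) p) := by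
        refine Measurable.mul ?_ hJm
        fun_prop
      rw [← lintegral_lintegral_swap (μ := (volume : Measure E3)) h5.aemeasurable]
      refine lintegral_congr fun u => ?_
      have hm : Measurable fun q : ℝ × E3 => Ψ (shift (a.L u q.1 q.2 + -l p) p) :=
        hJm.comp (measurable_const.prodMk measurable_id)
      rw [e2 u, lintegral_const_mul _ hm, mul_assoc]
    rw [e3]
    have hae : ∀ᵐ q ∂ν, q.1 ∈ Icc α β ∧ q.2 ∈ K1.disc K1.e0 := by
      have h1 : ∀ᵐ σ ∂(volume.restrict (Icc α β)), σ ∈ Icc α β := ae_restrict_mem measurableSet_Icc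
      have h2 : ∀ᵐ ξ ∂K1.sig, ξ ∈ K1.disc K1.e0 := ae_restrict_mem (K1.measurableSet_disc _)
      have h3 : ∀ᵐ q ∂ν, q.1 ∈ Icc α β := Measure.quasiMeasurePreserving_fst.ae h1
      have h4 : ∀ᵐ q ∂ν, q.2 ∈ K1.disc K1.e0 := Measure.quasiMeasurePreserving_snd.ae h2
      filter_upwards [h3, h4] with q a1 a2 using ⟨a1, a2⟩
    calc ∫⁻ q, (∫⁻ u : E3, (ENNReal.ofReal (ε ^ 2) *
          ‖e.2 - u‖ₑ) * Ψ (shift (a.L u q.1 q.2 + -l p) p)) ∂ν
        ≤ ∫⁻ q, K q.1 q.2 * (A p * ∫⁻ u : E3,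
          ENNReal.ofReal (Real.exp (-b * EE (shift ((0, u) : Ph) p)))) ∂ν := by
          refine lintegral_mono_ae ?_
          filter_upwards [hae] with q hq
          exact hK p hAp q.1 hq.1 q.2 hq.2
      _ = _ := by
          rw [lintegral_mul_const _ hKm, hν, lintegral_prod _ hKm.aemeasurable]
  rw [lintegral_cov' hl hc hφ hφ1 hΨm]
  refine (lintegral_mono fun p => mul_le_mul' le_rfl (key p)).trans (le_of_eq ?_)
  rw [← mass_eq (b := b) hA hAs hl' hc' hB hB0 hBt hl hc hφ hφ1]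
  have hmeas : Measurable fun p : ι → Ph => φ (l p) * (A p *
      ∫⁻ u : E3, ENNReal.ofReal (Real.exp (-b * EE (shift ((0, u) : Ph) p)))) := by
    refine (hφ.comp hl).mul (hA.mul ?_)
    have h1 : Measurable fun q : (ι → Ph) × E3 =>
        ENNReal.ofReal (Real.exp (-b * EE (shift ((0, q.2) : Ph) q.1))) := by
      refine Measurable.ennreal_ofReal (Measurable.exp (Measurable.const_mul ?_ _))
      exact measurable_EE.comp (hsm.comp ((measurable_const.prodMk measurable_snd).prodMk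
        measurable_fst))
    exact h1.lintegral_prod_right'
  rw [← lintegral_const_mul _ hmeas]
  refine lintegral_congr fun p => ?_
  ring

/-! ### Averaging over a ball of velocities -/

/-- The energy of the piece whose line `l` has velocity `u`. -/
noncomputable def Eu (l : (ι → Ph) → Ph) (p : ι → Ph) (u : E3) : ℝ :=
  EE (shift ((0, u + -(l p).2) : Ph) p)

theorem Eu_nonneg (l : (ι → Ph) → Ph) (p : ι → Ph) (u : E3) : 0 ≤ Eu l p u := EE_nonneg _

theorem measurable_Eu (l : (ι → Ph) → Ph) (p : ι → Ph) : Measurable (Eu l p) := by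
  have h1 : Measurable fun u : E3 => shift ((0, u + -(l p).2) : Ph) p :=
    measurable_shift.comp ((measurable_const.prodMk (measurable_id.add_const _)).prodMk
      measurable_const)
  exact measurable_EE.comp h1

theorem EE_eq_Eu {ε : ℝ} {e : Ph} (a : Att ε e) (l : (ι → Ph) → Ph) (p : ι → Ph) (u : E3) (σ : ℝ)
    (ξ : E3) : EE (shift (a.L u σ ξ + -l p) p) = Eu l p u := by
  unfold Eu
  rw [EE_shift, EE_shift]
  simp only [Prod.snd_add, Prod.snd_neg]
  rw [a.snd]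

theorem sq_le_Eu {ε : ℝ} {e : Ph} (a : Att ε e) {l : (ι → Ph) → Ph} (hc : Cov l)
    (hE : ∀ p, ‖(l p).2‖ ^ 2 ≤ EE p) (p : ι → Ph) (u : E3) (σ : ℝ) (ξ : E3) :
    ‖u‖ ^ 2 ≤ Eu l p u := by
  have := hE (shift (a.L u σ ξ + -l p) p)
  rw [line_shift_sub hc, a.snd, EE_eq_Eu] at this
  exact this

/-- The radius on which the energies are comparable. -/
noncomputable def rad (ι : Type*) [Fintype ι] : ℝ := 1 / √((Fintype.card ι : ℝ) + 1)

theorem rad_pos : 0 < rad ι := by unfold rad; positivity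

theorem Eu_le (l : (ι → Ph) → Ph) (p : ι → Ph) {u u' : E3} (h : ‖u - u'‖ ≤ rad ι) :
    Eu l p u' ≤ 2 * Eu l p u + 2 := by
  have h1 : Eu l p u' ≤ 2 * Eu l p u + 2 * ((Fintype.card ι : ℝ) + 1) * ‖u - u'‖ ^ 2 := by
    have := EE_shift_le p ((0, u + -(l p).2) : Ph) ((0, u' + -(l p).2) : Ph)
    unfold Eu
    simpa only [add_sub_add_right_eq_sub] using this
  have h2 : ‖u - u'‖ ^ 2 ≤ (1 / √((Fintype.card ι : ℝ) + 1)) ^ 2 := by
    unfold rad at h; gcongr
  rw [div_pow, Real.sq_sqrt (by positivity), one_pow] at h2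
  have h3 : 2 * ((Fintype.card ι : ℝ) + 1) * ‖u - u'‖ ^ 2 ≤
      2 * ((Fintype.card ι : ℝ) + 1) * (1 / ((Fintype.card ι : ℝ) + 1)) := by gcongr
  have h4 : 2 * ((Fintype.card ι : ℝ) + 1) * (1 / ((Fintype.card ι : ℝ) + 1)) = 2 := by field_simp
  linarith

/-- The Gaussian at one velocity is bounded by the integral of a worse Gaussian. -/
theorem gauss_le_avg {b : ℝ} (hb : 0 < b) (l : (ι → Ph) → Ph) (p : ι → Ph) (u : E3) :
    ENNReal.ofReal (Real.exp (-b * Eu l p u)) ≤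
      (ENNReal.ofReal (rad ι ^ 3) * bv)⁻¹ * (ENNReal.ofReal (Real.exp b) *
        ∫⁻ u' : E3, ENNReal.ofReal (Real.exp (-(b / 2) * Eu l p u'))) := by
  have hr : 0 < rad ι := rad_pos
  have hball0 : ENNReal.ofReal (rad ι ^ 3) * bv ≠ 0 :=
    mul_ne_zero (by simpa using pow_pos hr 3) bv_ne_zero
  have hballt : ENNReal.ofReal (rad ι ^ 3) * bv ≠ ∞ :=
    ENNReal.mul_ne_top ENNReal.ofReal_ne_top bv_ne_top
  have hm : Measurable fun u' : E3 => ENNReal.ofReal (Real.exp (-(b / 2) * Eu l p u')) :=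
    ((measurable_Eu l p).const_mul _).exp.ennreal_ofReal
  have h1 : ENNReal.ofReal (Real.exp (-b * Eu l p u)) * volume (closedBall u (rad ι)) ≤
      ENNReal.ofReal (Real.exp b) *
        ∫⁻ u' : E3, ENNReal.ofReal (Real.exp (-(b / 2) * Eu l p u')) := by
    calc ENNReal.ofReal (Real.exp (-b * Eu l p u)) * volume (closedBall u (rad ι))
        = ∫⁻ _ in closedBall u (rad ι), ENNReal.ofReal (Real.exp (-b * Eu l p u)) := by
          rw [setLIntegral_const]
      _ ≤ ∫⁻ u' in closedBall u (rad ι), ENNReal.ofReal (Real.exp b) *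
          ENNReal.ofReal (Real.exp (-(b / 2) * Eu l p u')) := by
          refine setLIntegral_mono' measurableSet_closedBall fun u' hu' => ?_
          rw [← ENNReal.ofReal_mul (Real.exp_nonneg _), ← Real.exp_add]
          refine ENNReal.ofReal_le_ofReal (Real.exp_le_exp.2 ?_)
          have h2 : ‖u - u'‖ ≤ rad ι := by
            rw [← dist_eq_norm, dist_comm]; exact hu'
          have h3 := Eu_le l p h2
          nlinarith
      _ ≤ ∫⁻ u' : E3, ENNReal.ofReal (Real.exp b) *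
          ENNReal.ofReal (Real.exp (-(b / 2) * Eu l p u')) := setLIntegral_le_lintegral _ _
      _ = _ := lintegral_const_mul _ hm
  rw [vol_closedBall _ hr.le] at h1
  calc ENNReal.ofReal (Real.exp (-b * Eu l p u))
      = (ENNReal.ofReal (rad ι ^ 3) * bv)⁻¹ *
        (ENNReal.ofReal (Real.exp (-b * Eu l p u)) * (ENNReal.ofReal (rad ι ^ 3) * bv)) := by
        rw [mul_comm (ENNReal.ofReal (Real.exp (-b * Eu l p u))), ← mul_assoc,
          ENNReal.inv_mul_cancel hball0 hballt, one_mul]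
    _ ≤ _ := by gcongr

theorem lintegral_Eu (b : ℝ) (l : (ι → Ph) → Ph) (p : ι → Ph) :
    ∫⁻ u : E3, ENNReal.ofReal (Real.exp (-b * Eu l p u)) =
      ∫⁻ u : E3, ENNReal.ofReal (Real.exp (-b * EE (shift ((0, u) : Ph) p))) :=
  lintegral_add_right_eq_self (fun u : E3 =>
    ENNReal.ofReal (Real.exp (-b * EE (shift ((0, u) : Ph) p)))) (-(l p).2)

/-! ### The corollaries -/

/-- **Attachment time in a set `S` of times.** -/
theorem attach_win {ε b α β : ℝ} (hε : 0 < ε) (hb : 0 < b)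
    {A : (ι → Ph) → ℝ≥0∞} (hA : Measurable A) (hAs : ∀ (c : Ph) (p : ι → Ph), A (shift c p) = A p)
    {l : (ι → Ph) → Ph} (hl : Measurable l) (hc : Cov l) (hE : ∀ p, ‖(l p).2‖ ^ 2 ≤ EE p)
    {e : Ph} (a : Att ε e) {S : Set ℝ} (hS : MeasurableSet S) (hSI : S ⊆ Icc α β)
    {Ψ : (ι → Ph) → ℝ≥0∞} (hΨm : Measurable Ψ)
    (hΨ : ∀ p, Ψ p ≠ 0 → Meets ε (e, l p) ∧ a.T (l p) ∈ S ∧
      Ψ p ≤ muE ε * (A p * ENNReal.ofReal (Real.exp (-b * EE p))))
    {l' : (ι → Ph) → Ph} (hl' : Measurable l') (hc' : Cov l')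
    {B : Set E3} (hB : MeasurableSet B) (hB0 : volume B ≠ 0) (hBt : volume B ≠ ∞) :
    ∫⁻ p, Ψ p ≤ (volume S * (ENNReal.ofReal (Kp b e) * K1.sig univ)) * mass (b / 2) A l' B := by
  have h := attach_gen (α := α) (β := β) (b := b / 2) hA hAs hl hc a hΨm
    (K := fun σ _ => S.indicator (fun _ => ENNReal.ofReal (Kp b e)) σ)
    (fun p hp => by
      obtain ⟨h1, h2, h3⟩ := hΨ p hp
      refine ⟨?_, h1, hSI h2⟩
      intro h0
      rw [h0, zero_mul, mul_zero] at h3
      exact hp (le_antisymm h3 zero_le))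
    ((measurable_const.indicator hS).comp measurable_fst)
    (by
      intro p _ σ _ ξ hξ
      by_cases hσS : σ ∈ S
      swap
      · have h0 : ∀ u : E3, (ENNReal.ofReal (ε ^ 2) * ‖e.2 - u‖ₑ) *
            Ψ (shift (a.L u σ ξ + -l p) p) = 0 := by
          intro u
          by_contra hne
          have hΨ0 : Ψ (shift (a.L u σ ξ + -l p) p) ≠ 0 := fun h => hne (by rw [h, mul_zero])
          have hV : e.2 - u ≠ 0 := by
            intro h
            apply hne
            simp [h]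
          have h2 := (hΨ _ hΨ0).2.1
          rw [line_shift_sub hc, a.time u hV σ ξ hξ] at h2
          exact hσS h2
        simp only [h0, lintegral_zero]
        exact zero_le
      rw [indicator_of_mem hσS, ← lintegral_Eu (b / 2) l p]
      have hm : Measurable fun u : E3 => ENNReal.ofReal (Real.exp (-(b / 2) * Eu l p u)) :=
        ((measurable_Eu l p).const_mul _).exp.ennreal_ofReal
      rw [← mul_assoc, ← lintegral_const_mul _ hm]
      refine lintegral_mono fun u => ?_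
      by_cases hΨ0 : Ψ (shift (a.L u σ ξ + -l p) p) = 0
      · rw [hΨ0, mul_zero]; exact zero_le
      have h3 := (hΨ _ hΨ0).2.2
      rw [hAs, EE_eq_Eu] at h3
      calc (ENNReal.ofReal (ε ^ 2) * ‖e.2 - u‖ₑ) * Ψ (shift (a.L u σ ξ + -l p) p)
          ≤ (ENNReal.ofReal (ε ^ 2) * ‖e.2 - u‖ₑ) *
            (muE ε * (A p * ENNReal.ofReal (Real.exp (-b * Eu l p u)))) := by gcongr
        _ = (muE ε * ENNReal.ofReal (ε ^ 2)) * (A p *
            (‖e.2 - u‖ₑ * ENNReal.ofReal (Real.exp (-b * Eu l p u)))) := by ring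
        _ = A p * ENNReal.ofReal (‖e.2 - u‖ * Real.exp (-b * Eu l p u)) := by
            rw [muE_mul hε, one_mul, ← ofReal_norm, ← ENNReal.ofReal_mul (norm_nonneg _)]
        _ ≤ A p * ENNReal.ofReal (Kp b e * Real.exp (-(b / 2) * Eu l p u)) :=
            mul_le_mul' le_rfl (ENNReal.ofReal_le_ofReal
              (vel_gauss' hb e.2 u (sq_le_Eu a hc hE p u σ ξ)))
        _ = _ := by
            rw [ENNReal.ofReal_mul (Kp_pos b e).le]
            ring)
    hl' hc' hB hB0 hBt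
  refine h.trans (le_of_eq ?_)
  congr 1
  simp_rw [lintegral_const]
  have hm2 : Measurable fun σ : ℝ => S.indicator (fun _ => ENNReal.ofReal (Kp b e)) σ :=
    measurable_const.indicator hS
  rw [lintegral_mul_const _ hm2, lintegral_indicator_const hS, Measure.restrict_apply hS,
    inter_eq_left.2 hSI]
  ring

/-- **Contact at a fixed time.**  The piece, at the time `s`, is within `R` of the point `y₁`; the
attachment time is in `[α, β]` and has lag `≥ δ` from `s`. -/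
theorem attach_fix {ε b α β s δ R : ℝ} (hε : 0 < ε) (hb : 0 < b) (hδ : 0 < δ) (hR : 0 ≤ R)
    {A : (ι → Ph) → ℝ≥0∞} (hA : Measurable A) (hAs : ∀ (c : Ph) (p : ι → Ph), A (shift c p) = A p)
    {l : (ι → Ph) → Ph} (hl : Measurable l) (hc : Cov l) (hE : ∀ p, ‖(l p).2‖ ^ 2 ≤ EE p)
    {e : Ph} (a : Att ε e) (hlag : ∀ σ ∈ Icc α β, δ ≤ |s - σ|)
    {X : (ι → Ph) → E3} (hX : ∀ (c : Ph) (p : ι → Ph), X (shift c p) = X p + (c.1 + s • c.2))
    {y₁ : E3} {Ψ : (ι → Ph) → ℝ≥0∞} (hΨm : Measurable Ψ)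
    (hΨ : ∀ p, Ψ p ≠ 0 → Meets ε (e, l p) ∧ a.T (l p) ∈ Icc α β ∧ ‖X p - y₁‖ ≤ R ∧
      Ψ p ≤ muE ε * (A p * ENNReal.ofReal (Real.exp (-b * EE p))))
    {l' : (ι → Ph) → Ph} (hl' : Measurable l') (hc' : Cov l')
    {B : Set E3} (hB : MeasurableSet B) (hB0 : volume B ≠ 0) (hBt : volume B ≠ ∞) :
    ∫⁻ p, Ψ p ≤ (ENNReal.ofReal (β - α) * (K1.sig univ * (ENNReal.ofReal (Kp b e) *
      (ENNReal.ofReal (((R + ε) / (δ * rad ι)) ^ 3) * ENNReal.ofReal (Real.exp (b / 2)))))) *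
        mass (b / 4) A l' B := by
  have hr : 0 < rad ι := rad_pos
  have hball0 : ENNReal.ofReal (rad ι ^ 3) * bv ≠ 0 :=
    mul_ne_zero (by simpa using pow_pos hr 3) bv_ne_zero
  have hballt : ENNReal.ofReal (rad ι ^ 3) * bv ≠ ∞ :=
    ENNReal.mul_ne_top ENNReal.ofReal_ne_top bv_ne_top
  set K0 : ℝ≥0∞ := ENNReal.ofReal (Kp b e) *
      (ENNReal.ofReal (((R + ε) / (δ * rad ι)) ^ 3) * ENNReal.ofReal (Real.exp (b / 2))) with hK0
  have h := attach_gen (α := α) (β := β) (b := b / 4) hA hAs hl hc a hΨm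
    (K := fun _ _ => K0)
    (fun p hp => by
      obtain ⟨h1, h2, -, h3⟩ := hΨ p hp
      refine ⟨?_, h1, h2⟩
      intro h0
      rw [h0, zero_mul, mul_zero] at h3
      exact hp (le_antisymm h3 zero_le))
    measurable_const
    (by
      intro p _ σ hσ ξ hξ
      rw [← lintegral_Eu (b / 4) l p]
      set z : E3 := X p - ((l p).1 + s • (l p).2) + (e.1 + σ • e.2) - y₁ with hz
      set N : Set E3 := {u : E3 | ‖(s - σ) • u + z‖ ≤ R + ε} with hN
      have hNm : MeasurableSet N := measurable_lin (s - σ) z (measurableSet_near (R + ε))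
      have hs0 : s - σ ≠ 0 := by
        intro h0
        have := hlag σ hσ
        rw [h0, abs_zero] at this
        linarith
      have hNv : volume N ≤ ENNReal.ofReal (((R + ε) / δ) ^ 3) * bv := by
        rw [hN, vol_near_smul' _ (by positivity) hs0]
        gcongr
        exact hlag σ hσ
      set G : ℝ≥0∞ := (ENNReal.ofReal (rad ι ^ 3) * bv)⁻¹ * (ENNReal.ofReal (Real.exp (b / 2)) *
        ∫⁻ u' : E3, ENNReal.ofReal (Real.exp (-(b / 4) * Eu l p u'))) with hG
      have hpt : ∀ u : E3, (ENNReal.ofReal (ε ^ 2) * ‖e.2 - u‖ₑ) *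
          Ψ (shift (a.L u σ ξ + -l p) p) ≤
          N.indicator (fun _ => (ENNReal.ofReal (Kp b e) * A p) * G) u := by
        intro u
        by_cases hΨ0 : Ψ (shift (a.L u σ ξ + -l p) p) = 0
        · rw [hΨ0, mul_zero]; exact zero_le
        obtain ⟨-, -, h4, h3⟩ := hΨ _ hΨ0
        rw [hAs, EE_eq_Eu] at h3
        have huN : u ∈ N := by
          rw [hX] at h4
          have hid : (s - σ) • u + z = (X p + ((a.L u σ ξ + -l p).1 + s • (a.L u σ ξ + -l p).2) - y₁)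
              + -(((a.L u σ ξ).1 + σ • u) - (e.1 + σ • e.2)) := by
            simp only [Prod.fst_add, Prod.fst_neg, Prod.snd_add, Prod.snd_neg]
            rw [a.snd, hz]
            module
          show ‖(s - σ) • u + z‖ ≤ R + ε
          rw [hid]
          refine (norm_add_le _ _).trans (add_le_add h4 ?_)
          rw [norm_neg]
          exact a.pos u σ ξ hξ
        rw [indicator_of_mem huN]
        have hav := gauss_le_avg (b := b / 2) (by positivity) l p u
        rw [show b / 2 / 2 = b / 4 by ring] at hav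
        calc (ENNReal.ofReal (ε ^ 2) * ‖e.2 - u‖ₑ) * Ψ (shift (a.L u σ ξ + -l p) p)
            ≤ (ENNReal.ofReal (ε ^ 2) * ‖e.2 - u‖ₑ) *
              (muE ε * (A p * ENNReal.ofReal (Real.exp (-b * Eu l p u)))) := by gcongr
          _ = (muE ε * ENNReal.ofReal (ε ^ 2)) * (A p *
              (‖e.2 - u‖ₑ * ENNReal.ofReal (Real.exp (-b * Eu l p u)))) := by ring
          _ = A p * ENNReal.ofReal (‖e.2 - u‖ * Real.exp (-b * Eu l p u)) := by
              rw [muE_mul hε, one_mul, ← ofReal_norm, ← ENNReal.ofReal_mul (norm_nonneg _)]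
          _ ≤ A p * ENNReal.ofReal (Kp b e * Real.exp (-(b / 2) * Eu l p u)) :=
              mul_le_mul' le_rfl (ENNReal.ofReal_le_ofReal
                (vel_gauss' hb e.2 u (sq_le_Eu a hc hE p u σ ξ)))
          _ = (ENNReal.ofReal (Kp b e) * A p) *
              ENNReal.ofReal (Real.exp (-(b / 2) * Eu l p u)) := by
              rw [ENNReal.ofReal_mul (Kp_pos b e).le]
              ring
          _ ≤ _ := mul_le_mul' le_rfl hav
      refine (lintegral_mono hpt).trans ?_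
      rw [lintegral_indicator_const hNm]
      refine (mul_le_mul' le_rfl hNv).trans (le_of_eq ?_)
      have h2 : ENNReal.ofReal (((R + ε) / δ) ^ 3) =
          ENNReal.ofReal (((R + ε) / (δ * rad ι)) ^ 3) * ENNReal.ofReal (rad ι ^ 3) := by
        rw [← ENNReal.ofReal_mul (by positivity)]
        congr 1
        field_simp
      rw [hG, h2, hK0]
      calc ENNReal.ofReal (Kp b e) * A p * ((ENNReal.ofReal (rad ι ^ 3) * bv)⁻¹ *
            (ENNReal.ofReal (Real.exp (b / 2)) *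
            ∫⁻ u' : E3, ENNReal.ofReal (Real.exp (-(b / 4) * Eu l p u')))) *
            (ENNReal.ofReal (((R + ε) / (δ * rad ι)) ^ 3) * ENNReal.ofReal (rad ι ^ 3) * bv)
          = ((ENNReal.ofReal (rad ι ^ 3) * bv)⁻¹ * (ENNReal.ofReal (rad ι ^ 3) * bv)) *
            (ENNReal.ofReal (Kp b e) * (ENNReal.ofReal (((R + ε) / (δ * rad ι)) ^ 3) *
            ENNReal.ofReal (Real.exp (b / 2))) * (A p *
            ∫⁻ u' : E3, ENNReal.ofReal (Real.exp (-(b / 4) * Eu l p u')))) := by ring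
        _ = _ := by rw [ENNReal.inv_mul_cancel hball0 hballt, one_mul])
    hl' hc' hB hB0 hBt
  refine h.trans (le_of_eq ?_)
  congr 1
  simp_rw [lintegral_const]
  rw [Measure.restrict_apply_univ, Real.volume_Icc]
  ring

/-- The weight of the relative velocity and the impact parameter. -/
noncomputable def chiW (b : ℝ) (χ : E3 × E3 → ℝ≥0∞) (q : E3 × E3) : ℝ≥0∞ :=
  ‖q.1‖ₑ * ENNReal.ofReal (Real.exp (-(b / 4) * ‖q.1‖ ^ 2)) * χ q

theorem measurable_chiW {b : ℝ} {χ : E3 × E3 → ℝ≥0∞} (hχ : Measurable χ) :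
    Measurable (chiW b χ) := by
  have a1 : Measurable fun q : E3 × E3 => ‖q.1‖ₑ := measurable_fst.enorm
  have a2 : Measurable fun q : E3 × E3 => -(b / 4) * ‖q.1‖ ^ 2 :=
    (measurable_fst.norm.pow_const 2).const_mul _
  have a3 : Measurable fun q : E3 × E3 => ENNReal.ofReal (Real.exp (-(b / 4) * ‖q.1‖ ^ 2)) :=
    a2.exp.ennreal_ofReal
  exact (a1.mul a3).mul hχ

theorem chi_pt {ε b : ℝ} (hε : 0 < ε) (hb : 0 < b) (A : ℝ≥0∞) (χ : E3 × E3 → ℝ≥0∞)
    {l : (ι → Ph) → Ph} (p : ι → Ph) (e : Ph) (u ξ : E3) (hu : ‖u‖ ^ 2 ≤ Eu l p u)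
    {Ψ : ℝ≥0∞} (hΨ : Ψ ≤ muE ε * (A * (ENNReal.ofReal (Real.exp (-b * Eu l p u)) *
      χ (e.2 - u, ξ)))) :
    (ENNReal.ofReal (ε ^ 2) * ‖e.2 - u‖ₑ) * Ψ ≤
      ((ENNReal.ofReal (rad ι ^ 3) * bv)⁻¹ *
        ENNReal.ofReal (Real.exp (b / 2) * Real.exp (b / 2 * ‖e.2‖ ^ 2)) * (A *
        ∫⁻ u' : E3, ENNReal.ofReal (Real.exp (-(b / 4) * Eu l p u')))) * chiW b χ (e.2 - u, ξ) := by
  have hav := gauss_le_avg (b := b / 2) (by positivity) l p u
  rw [show b / 2 / 2 = b / 4 by ring] at hav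
  set I : ℝ≥0∞ := ∫⁻ u' : E3, ENNReal.ofReal (Real.exp (-(b / 4) * Eu l p u')) with hI
  have hV : ‖e.2 - u‖ ^ 2 ≤ 2 * ‖e.2‖ ^ 2 + 2 * ‖u‖ ^ 2 := by
    have h1 := norm_sub_le e.2 u
    have h2 : ‖e.2 - u‖ ^ 2 ≤ (‖e.2‖ + ‖u‖) ^ 2 := by gcongr
    nlinarith [sq_nonneg (‖e.2‖ - ‖u‖)]
  have hsp : Real.exp (-b * Eu l p u) ≤ Real.exp (-(b / 2) * Eu l p u) *
      (Real.exp (b / 2 * ‖e.2‖ ^ 2) * Real.exp (-(b / 4) * ‖e.2 - u‖ ^ 2)) := by
    rw [← Real.exp_add, ← Real.exp_add]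
    apply Real.exp_le_exp.2
    nlinarith
  unfold chiW
  calc (ENNReal.ofReal (ε ^ 2) * ‖e.2 - u‖ₑ) * Ψ
      ≤ (ENNReal.ofReal (ε ^ 2) * ‖e.2 - u‖ₑ) * (muE ε * (A *
        (ENNReal.ofReal (Real.exp (-b * Eu l p u)) * χ (e.2 - u, ξ)))) := by gcongr
    _ = (muE ε * ENNReal.ofReal (ε ^ 2)) * (A * (‖e.2 - u‖ₑ *
        (ENNReal.ofReal (Real.exp (-b * Eu l p u)) * χ (e.2 - u, ξ)))) := by ring
    _ = A * (‖e.2 - u‖ₑ *
        (ENNReal.ofReal (Real.exp (-b * Eu l p u)) * χ (e.2 - u, ξ))) := by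
        rw [muE_mul hε, one_mul]
    _ ≤ A * (‖e.2 - u‖ₑ * (ENNReal.ofReal (Real.exp (-(b / 2) * Eu l p u) *
        (Real.exp (b / 2 * ‖e.2‖ ^ 2) * Real.exp (-(b / 4) * ‖e.2 - u‖ ^ 2))) *
          χ (e.2 - u, ξ))) := by gcongr
    _ = (ENNReal.ofReal (Real.exp (b / 2 * ‖e.2‖ ^ 2)) * A) *
        (‖e.2 - u‖ₑ * ENNReal.ofReal (Real.exp (-(b / 4) * ‖e.2 - u‖ ^ 2)) *
          χ (e.2 - u, ξ)) * ENNReal.ofReal (Real.exp (-(b / 2) * Eu l p u)) := by
        rw [ENNReal.ofReal_mul (Real.exp_nonneg _), ENNReal.ofReal_mul (Real.exp_nonneg _)]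
        ring
    _ ≤ (ENNReal.ofReal (Real.exp (b / 2 * ‖e.2‖ ^ 2)) * A) *
        (‖e.2 - u‖ₑ * ENNReal.ofReal (Real.exp (-(b / 4) * ‖e.2 - u‖ ^ 2)) *
          χ (e.2 - u, ξ)) * ((ENNReal.ofReal (rad ι ^ 3) * bv)⁻¹ *
          (ENNReal.ofReal (Real.exp (b / 2)) * I)) := by gcongr
    _ = _ := by
        rw [ENNReal.ofReal_mul (Real.exp_nonneg _)]
        ring

/-- **Small set of relative velocities and impact parameters.** -/
theorem attach_chi {ε b α β : ℝ} (hε : 0 < ε) (hb : 0 < b)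
    {A : (ι → Ph) → ℝ≥0∞} (hA : Measurable A) (hAs : ∀ (c : Ph) (p : ι → Ph), A (shift c p) = A p)
    {l : (ι → Ph) → Ph} (hl : Measurable l) (hc : Cov l) (hE : ∀ p, ‖(l p).2‖ ^ 2 ≤ EE p)
    {e : Ph} (a : Att ε e) {χ : E3 × E3 → ℝ≥0∞} (hχ : Measurable χ)
    {Ψ : (ι → Ph) → ℝ≥0∞} (hΨm : Measurable Ψ)
    (hΨ : ∀ p, Ψ p ≠ 0 → A p ≠ 0 ∧ Meets ε (e, l p) ∧ a.T (l p) ∈ Icc α β)
    (hΨχ : ∀ p, ∀ u σ, ∀ ξ ∈ K1.disc K1.e0, Ψ (shift (a.L u σ ξ + -l p) p) ≤
      muE ε * (A p * (ENNReal.ofReal (Real.exp (-b * Eu l p u)) * χ (e.2 - u, ξ))))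
    {l' : (ι → Ph) → Ph} (hl' : Measurable l') (hc' : Cov l')
    {B : Set E3} (hB : MeasurableSet B) (hB0 : volume B ≠ 0) (hBt : volume B ≠ ∞) :
    ∫⁻ p, Ψ p ≤ (ENNReal.ofReal (β - α) * ((ENNReal.ofReal (rad ι ^ 3) * bv)⁻¹ *
      ENNReal.ofReal (Real.exp (b / 2) * Real.exp (b / 2 * ‖e.2‖ ^ 2)) *
      ∫⁻ ξ, (∫⁻ V : E3, chiW b χ (V, ξ)) ∂K1.sig)) * mass (b / 4) A l' B := by
  have hfm : Measurable (chiW b χ) := measurable_chiW hχ
  have hfm2 : Measurable fun ξ : E3 => ∫⁻ V : E3, chiW b χ (V, ξ) := hfm.lintegral_prod_left'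
  set C0 : ℝ≥0∞ := (ENNReal.ofReal (rad ι ^ 3) * bv)⁻¹ *
      ENNReal.ofReal (Real.exp (b / 2) * Real.exp (b / 2 * ‖e.2‖ ^ 2)) with hC0
  have h := attach_gen (α := α) (β := β) (b := b / 4) hA hAs hl hc a hΨm
    (K := fun _ ξ => C0 * ∫⁻ V : E3, chiW b χ (V, ξ)) hΨ
    ((hfm2.const_mul C0).comp measurable_snd)
    (by
      intro p _ σ hσ ξ hξ
      rw [← lintegral_Eu (b / 4) l p]
      refine (lintegral_mono fun u => chi_pt hε hb (A p) χ p e u ξ (sq_le_Eu a hc hE p u σ ξ)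
        (hΨχ p u σ ξ hξ)).trans (le_of_eq ?_)
      have hm1 : Measurable fun V : E3 => chiW b χ (V, ξ) :=
        hfm.comp (measurable_id.prodMk measurable_const)
      have hm3 : Measurable fun u : E3 => chiW b χ (e.2 - u, ξ) :=
        hm1.comp (measurable_const.sub measurable_id)
      rw [lintegral_const_mul _ hm3,
        lintegral_sub_left_eq_self (fun V : E3 => chiW b χ (V, ξ)) e.2, hC0]
      ring)
    hl' hc' hB hB0 hBt
  refine h.trans (le_of_eq ?_)
  congr 1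
  rw [lintegral_const, Measure.restrict_apply_univ, Real.volume_Icc, lintegral_const_mul _ hfm2]
  ring

end Vale.Agent.P119.RA
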