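import Vale.Agent.P119.IND.Attach

/-!
# P119: averages over the rigid motions of a class of labels (`helper723`)

All the estimates are on the fixed space `ι → Ph`; the group `Ph` acts on the labels of a class
`B : Set ι` by `shB B c Z = Z + B.indicator (fun _ => c)` (rigid boosts and translations).

* `lintegral_avg`: disintegration of a translation-invariant measure along a covariant function.
* `lintegral_avg_tr`, `lintegral_avg_ph`, `lintegral_avg_vel`: translations, all boosts, boosts of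
  velocity only.
* `base_change`.
* `bridge_le`: the contact of a line of the class `B` with a line outside of the class.
-/

open MeasureTheory Set Filter Topology Metric ProbabilityTheory
open scoped ENNReal

namespace Vale.Agent.P119.Avg

open KU FL RA

/-! ### The general average -/

section general

variable {V G : Type*} [AddCommGroup V] [MeasurableSpace V] [MeasurableAdd₂ V]
  {μ : Measure V} [SFinite μ] [μ.IsAddRightInvariant]
  [AddCommGroup G] [MeasurableSpace G] [MeasurableAdd₂ G] [MeasurableNeg G]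
  {ν : Measure G} [SFinite ν]

/-- Disintegration along a covariant function, for an action by translations. -/
theorem lintegral_avg (hν1 : ∀ (F : G → ℝ≥0∞) (c : G), ∫⁻ x, F (x + c) ∂ν = ∫⁻ x, F x ∂ν)
    (hν2 : ∀ F : G → ℝ≥0∞, ∫⁻ x, F (-x) ∂ν = ∫⁻ x, F x ∂ν)
    {j : G → V} (hj : Measurable j) {l : V → G} (hl : Measurable l)
    (hc : ∀ c p, l (p + j c) = l p + c)
    {φ : G → ℝ≥0∞} (hφ : Measurable φ) (h1 : ∫⁻ c, φ c ∂ν = 1)
    {F : V → ℝ≥0∞} (hF : Measurable F) :
    ∫⁻ p, F p ∂μ = ∫⁻ p, φ (l p) * ∫⁻ c, F (p + j c) ∂ν ∂μ := by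
  have hsm : Measurable fun q : V × G => q.1 + j q.2 := measurable_fst.add (hj.comp measurable_snd)
  have hm1 : Measurable fun q : V × G => φ (l q.1) * F (q.1 + j q.2) :=
    (hφ.comp (hl.comp measurable_fst)).mul (hF.comp hsm)
  have e1 : ∫⁻ p, φ (l p) * ∫⁻ c, F (p + j c) ∂ν ∂μ =
      ∫⁻ p, ∫⁻ c, φ (l p) * F (p + j c) ∂ν ∂μ := by
    refine lintegral_congr fun p => ?_
    rw [lintegral_const_mul]
    exact hF.comp (measurable_const.add hj)
  rw [e1, lintegral_lintegral_swap hm1.aemeasurable]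
  have e2 : ∀ c : G, ∫⁻ p, φ (l p) * F (p + j c) ∂μ = ∫⁻ p, φ (l p + -c) * F p ∂μ := by
    intro c
    rw [← lintegral_add_right_eq_self (μ := μ) (fun p => φ (l p + -c) * F p) (j c)]
    refine lintegral_congr fun p => ?_
    rw [hc, add_neg_cancel_right]
  simp_rw [e2]
  have hm2 : Measurable fun q : G × V => φ (l q.2 + -q.1) * F q.2 := by
    refine Measurable.mul (hφ.comp ?_) (hF.comp measurable_snd)
    exact (hl.comp measurable_snd).add measurable_fst.neg
  rw [lintegral_lintegral_swap hm2.aemeasurable]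
  refine lintegral_congr fun p => ?_
  have hm3 : Measurable fun c : G => φ (l p + -c) :=
    hφ.comp (measurable_const.add measurable_id.neg)
  rw [lintegral_mul_const _ hm3]
  have e3 : ∫⁻ c, φ (l p + -c) ∂ν = ∫⁻ c, φ c ∂ν := by
    rw [hν2 (fun c => φ (l p + c))]
    have h3 := hν1 φ (l p)
    simpa only [add_comm] using h3
  rw [e3, h1, one_mul]

end general

/-! ### Rigid motions of a class of labels -/

variable {ι : Type*}

/-- The rigid motion of the labels of `B`. -/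
noncomputable def shB (B : Set ι) (c : Ph) (Z : ι → Ph) : ι → Ph := Z + B.indicator fun _ => c

theorem shB_mem {B : Set ι} (c : Ph) (Z : ι → Ph) {i : ι} (hi : i ∈ B) :
    shB B c Z i = Z i + c := by
  unfold shB
  rw [Pi.add_apply, indicator_of_mem hi]

theorem shB_notMem {B : Set ι} (c : Ph) (Z : ι → Ph) {i : ι} (hi : i ∉ B) :
    shB B c Z i = Z i := by
  unfold shB
  rw [Pi.add_apply, indicator_of_notMem hi, add_zero]

theorem shB_mem_boost {B : Set ι} (c : Ph) (Z : ι → Ph) {i : ι} (hi : i ∈ B) :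
    shB B c Z i = KU.boost c (Z i) := by
  rw [shB_mem c Z hi]; rfl

theorem shB_zero (B : Set ι) (Z : ι → Ph) : shB B 0 Z = Z := by
  unfold shB
  have : (B.indicator fun _ => (0 : Ph)) = 0 := by
    funext i; simp
  rw [this, add_zero]

theorem shB_shB (B : Set ι) (c d : Ph) (Z : ι → Ph) : shB B c (shB B d Z) = shB B (d + c) Z := by
  classical
  funext i
  by_cases hi : i ∈ B
  · rw [shB_mem _ _ hi, shB_mem _ _ hi, shB_mem _ _ hi, add_assoc]
  · rw [shB_notMem _ _ hi, shB_notMem _ _ hi, shB_notMem _ _ hi]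

theorem shB_empty (c : Ph) (Z : ι → Ph) : shB ∅ c Z = Z := by
  funext i; exact shB_notMem c Z (notMem_empty i)

theorem shB_univ (c : Ph) (Z : ι → Ph) : shB univ c Z = RA.shift c Z := by
  funext i; rw [shB_mem c Z (mem_univ i)]; rfl

theorem measurable_ind (B : Set ι) : Measurable fun c : Ph => (B.indicator fun _ => c : ι → Ph) := by
  classical
  refine measurable_pi_iff.2 fun i => ?_
  by_cases hi : i ∈ B
  · have : (fun c : Ph => (B.indicator (fun _ => c) : ι → Ph) i) = fun c => c := by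
      funext c; rw [indicator_of_mem hi]
    rw [this]; exact measurable_id
  · have : (fun c : Ph => (B.indicator (fun _ => c) : ι → Ph) i) = fun _ => 0 := by
      funext c; rw [indicator_of_notMem hi]
    rw [this]; exact measurable_const

theorem measurable_shB (B : Set ι) : Measurable fun q : Ph × (ι → Ph) => shB B q.1 q.2 :=
  measurable_snd.add ((measurable_ind B).comp measurable_fst)

theorem measurable_shB' (B : Set ι) (c : Ph) : Measurable (shB B c) :=
  (measurable_shB B).comp (measurable_const.prodMk measurable_id)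

variable [Fintype ι]

theorem sfinite_V : SigmaFinite (volume : Measure (ι → Ph)) := by
  have hsf := sigmaFinite_Ph
  exact Measure.pi.sigmaFinite (μ := fun _ : ι => (volume : Measure Ph))

theorem inv_V : (volume : Measure (ι → Ph)).IsAddLeftInvariant := by
  have h0 := haar_Ph
  have hsf := sigmaFinite_Ph
  have h1 : (volume : Measure Ph).IsAddLeftInvariant := inferInstance
  have h2 : ∀ _ : ι, (volume : Measure Ph).IsAddLeftInvariant := fun _ => h1
  exact Measure.pi.isAddLeftInvariant (μ := fun _ : ι => (volume : Measure Ph))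

theorem invr_V : (volume : Measure (ι → Ph)).IsAddRightInvariant := by
  have h := inv_V (ι := ι)
  infer_instance

theorem lintegral_shB (B : Set ι) (c : Ph) (F : (ι → Ph) → ℝ≥0∞) :
    ∫⁻ Z, F (shB B c Z) = ∫⁻ Z, F Z := by
  have h := inv_V (ι := ι)
  unfold shB
  exact lintegral_add_right_eq_self (μ := (volume : Measure (ι → Ph))) F _

/-- **Average over all the boosts** of a class. -/
theorem lintegral_avg_ph {B : Set ι} {l : (ι → Ph) → Ph} (hl : Measurable l)
    (hc : ∀ c Z, l (shB B c Z) = l Z + c)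
    {φ : Ph → ℝ≥0∞} (hφ : Measurable φ) (h1 : ∫⁻ c, φ c = 1)
    {F : (ι → Ph) → ℝ≥0∞} (hF : Measurable F) :
    ∫⁻ Z, F Z = ∫⁻ Z, φ (l Z) * ∫⁻ c : Ph, F (shB B c Z) := by
  have h := sfinite_V (ι := ι)
  have h' := invr_V (ι := ι)
  have hsf := sigmaFinite_Ph
  exact lintegral_avg (μ := (volume : Measure (ι → Ph))) (ν := (volume : Measure Ph))
    lintegral_add_Ph lintegral_neg_Ph (measurable_ind B) hl hc hφ h1 hF

/-- **Average over the translations** of a class. -/
theorem lintegral_avg_tr {B : Set ι} {l : (ι → Ph) → E3} (hl : Measurable l)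
    (hc : ∀ (a : E3) Z, l (shB B (a, 0) Z) = l Z + a)
    {φ : E3 → ℝ≥0∞} (hφ : Measurable φ) (h1 : ∫⁻ c, φ c = 1)
    {F : (ι → Ph) → ℝ≥0∞} (hF : Measurable F) :
    ∫⁻ Z, F Z = ∫⁻ Z, φ (l Z) * ∫⁻ a : E3, F (shB B (a, 0) Z) := by
  have h := sfinite_V (ι := ι)
  have h' := invr_V (ι := ι)
  have hj : Measurable fun a : E3 => (B.indicator fun _ => ((a, 0) : Ph) : ι → Ph) :=
    (measurable_ind B).comp (measurable_id.prodMk measurable_const)
  exact lintegral_avg (μ := (volume : Measure (ι → Ph))) (ν := (volume : Measure E3))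
    (fun F c => lintegral_add_right_eq_self F c)
    (fun F => lintegral_neg_eq_self (μ := (volume : Measure E3)) F) hj hl hc hφ h1 hF

/-- **Average over the velocity boosts** of a class. -/
theorem lintegral_avg_vel {B : Set ι} {l : (ι → Ph) → E3} (hl : Measurable l)
    (hc : ∀ (u : E3) Z, l (shB B (0, u) Z) = l Z + u)
    {φ : E3 → ℝ≥0∞} (hφ : Measurable φ) (h1 : ∫⁻ c, φ c = 1)
    {F : (ι → Ph) → ℝ≥0∞} (hF : Measurable F) :
    ∫⁻ Z, F Z = ∫⁻ Z, φ (l Z) * ∫⁻ u : E3, F (shB B (0, u) Z) := by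
  have h := sfinite_V (ι := ι)
  have h' := invr_V (ι := ι)
  have hj : Measurable fun a : E3 => (B.indicator fun _ => ((0, a) : Ph) : ι → Ph) :=
    (measurable_ind B).comp (measurable_const.prodMk measurable_id)
  exact lintegral_avg (μ := (volume : Measure (ι → Ph))) (ν := (volume : Measure E3))
    (fun F c => lintegral_add_right_eq_self F c)
    (fun F => lintegral_neg_eq_self (μ := (volume : Measure E3)) F) hj hl hc hφ h1 hF

/-! ### Change of base -/

/-- General form: the base weight `g` has integral at most `k` over the translations of the class. -/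
theorem base_le {B : Set ι} {l : (ι → Ph) → E3} (hl : Measurable l)
    (hc : ∀ (a : E3) Z, l (shB B (a, 0) Z) = l Z + a)
    {φ : E3 → ℝ≥0∞} (hφ : Measurable φ) (h1 : ∫⁻ c, φ c = 1)
    {g k H : (ι → Ph) → ℝ≥0∞} (hg : Measurable g) (hH : Measurable H)
    (hHi : ∀ (a : E3) Z, H (shB B (a, 0) Z) = H Z)
    (hk : ∀ Z, ∫⁻ a : E3, g (shB B (a, 0) Z) ≤ k Z) :
    ∫⁻ Z, g Z * H Z ≤ ∫⁻ Z, φ (l Z) * (k Z * H Z) := by
  rw [lintegral_avg_tr hl hc hφ h1 (F := fun Z => g Z * H Z) (hg.mul hH)]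
  refine lintegral_mono fun Z => mul_le_mul' le_rfl ?_
  have h2 : ∀ a : E3, g (shB B (a, 0) Z) * H (shB B (a, 0) Z) = g (shB B (a, 0) Z) * H Z :=
    fun a => by rw [hHi]
  have h3 : Measurable fun a : E3 => g (shB B (a, 0) Z) :=
    hg.comp ((measurable_shB B).comp ((measurable_id.prodMk measurable_const).prodMk
      measurable_const))
  simp only [h2]
  rw [lintegral_mul_const _ h3]
  exact mul_le_mul' (hk Z) le_rfl

/-- **Change of base**: the position which fixes the class can be any covariant position. -/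
theorem base_change {B : Set ι} {l l' : (ι → Ph) → E3} (hl : Measurable l)
    (hc : ∀ (a : E3) Z, l (shB B (a, 0) Z) = l Z + a) (hl' : Measurable l')
    (hc' : ∀ (a : E3) Z, l' (shB B (a, 0) Z) = l' Z + a)
    {φ g : E3 → ℝ≥0∞} (hφ : Measurable φ) (h1 : ∫⁻ c, φ c = 1) (hg : Measurable g)
    {H : (ι → Ph) → ℝ≥0∞} (hH : Measurable H) (hHi : ∀ (a : E3) Z, H (shB B (a, 0) Z) = H Z) :
    ∫⁻ Z, g (l' Z) * H Z = (∫⁻ a, g a) * ∫⁻ Z, φ (l Z) * H Z := by
  rw [lintegral_avg_tr hl hc hφ h1 (F := fun Z => g (l' Z) * H Z) ((hg.comp hl').mul hH)]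
  have h2 : ∀ Z, φ (l Z) * ∫⁻ a : E3, g (l' (shB B (a, 0) Z)) * H (shB B (a, 0) Z) =
      (∫⁻ a, g a) * (φ (l Z) * H Z) := by
    intro Z
    have h3 : ∀ a : E3, g (l' (shB B (a, 0) Z)) * H (shB B (a, 0) Z) = g (l' Z + a) * H Z :=
      fun a => by rw [hHi, hc']
    simp only [h3]
    have h4 : Measurable fun a : E3 => g (l' Z + a) := hg.comp (measurable_const.add measurable_id)
    rw [lintegral_mul_const _ h4, lintegral_add_left_eq_self (fun a => g a) (l' Z)]
    ring
  simp only [h2]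
  exact lintegral_const_mul _ ((hφ.comp hl).mul hH)

/-! ### Bridging contacts -/

/-- The free path of a line. -/
noncomputable def fp (p : Ph) (s : ℝ) : E3 := p.1 + s • p.2

theorem fp_add (p c : Ph) (s : ℝ) : fp (p + c) s = fp p s + fp c s := by
  unfold fp
  rw [Prod.fst_add, Prod.snd_add]
  module

theorem fp_tr (p : Ph) (a : E3) (s : ℝ) : fp (p + (a, 0)) s = fp p s + a := by
  rw [fp_add]
  unfold fp
  simp

theorem fp_sub (p c : Ph) (s : ℝ) : fp (p - c) s = fp p s - fp c s := by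
  unfold fp
  rw [Prod.fst_sub, Prod.snd_sub]
  module

theorem continuous_fp (p : Ph) : Continuous (fp p) := by
  unfold fp
  fun_prop

theorem measurable_fp : Measurable fun q : Ph × ℝ => fp q.1 q.2 := by
  unfold fp
  exact measurable_fst.fst.add (measurable_snd.smul measurable_fst.snd)

theorem speedOn_fp (p : Ph) (a t : ℝ) : SpeedOn (fp p) (fun _ => ENNReal.ofReal ‖p.2‖) a t := by
  intro s _ s' _ hss
  have h1 : fp p s' - fp p s = (s' - s) • p.2 := by unfold fp; module
  rw [h1, norm_smul, Real.norm_eq_abs, abs_of_nonneg (sub_nonneg.2 hss), setLIntegral_const,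
    Real.volume_Icc, ENNReal.ofReal_mul (sub_nonneg.2 hss), mul_comm]

/-- The proximity functional of a line `ζ` with the origin, on the window `[lo, hi]`. -/
noncomputable def prox (ε : ℝ) (ζ : Ph) (lo hi : ℝ) : ℝ≥0∞ :=
  {y : E3 | ‖y‖ ≤ 2 * ε}.indicator (fun _ => 1) (fp ζ lo) + (ENNReal.ofReal ε)⁻¹ *
    ∫⁻ τ in Icc lo hi, {y : E3 | ‖y‖ ≤ 2 * ε}.indicator (fun _ => ENNReal.ofReal ‖ζ.2‖) (fp ζ τ)

theorem one_le_prox {ε : ℝ} (hε : 0 < ε) {ζ : Ph} {lo hi τ : ℝ} (hτ : τ ∈ Icc lo hi)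
    (h : ‖fp ζ τ‖ ≤ ε) : 1 ≤ prox ε ζ lo hi := by
  have := contact_weight_le hε (Z := fp ζ) (F := fun _ => (1 : ℝ≥0∞)) (a := lo) (t := hi)
    (continuous_fp ζ).continuousOn (speedOn_fp ζ lo hi) antitoneOn_const hτ h
  simp only [mul_one] at this
  exact this

/-- The proximity functional is measurable. -/
theorem measurable_prox {α : Type*} [MeasurableSpace α] (ε : ℝ) {ζ : α → Ph} {lo hi : α → ℝ}
    (hζ : Measurable ζ) (hlo : Measurable lo) (hhi : Measurable hi) :
    Measurable fun z => prox ε (ζ z) (lo z) (hi z) := by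
  unfold prox
  have hN : MeasurableSet {y : E3 | ‖y‖ ≤ 2 * ε} := measurableSet_near (2 * ε)
  refine Measurable.add ?_ (Measurable.const_mul ?_ _)
  · exact (measurable_const.indicator hN).comp (measurable_fp.comp (hζ.prodMk hlo))
  · have e : ∀ z, ∫⁻ τ in Icc (lo z) (hi z),
        {y : E3 | ‖y‖ ≤ 2 * ε}.indicator (fun _ => ENNReal.ofReal ‖(ζ z).2‖) (fp (ζ z) τ) =
        ∫⁻ τ : ℝ, {q : α × ℝ | lo q.1 ≤ q.2 ∧ q.2 ≤ hi q.1 ∧ ‖fp (ζ q.1) q.2‖ ≤ 2 * ε}.indicator
          (fun q => ENNReal.ofReal ‖(ζ q.1).2‖) (z, τ) := by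
      intro z
      rw [← lintegral_indicator measurableSet_Icc]
      refine lintegral_congr fun τ => ?_
      by_cases h : τ ∈ Icc (lo z) (hi z)
      · rw [indicator_of_mem h]
        by_cases h2 : ‖fp (ζ z) τ‖ ≤ 2 * ε
        · rw [indicator_of_mem (show fp (ζ z) τ ∈ {y : E3 | ‖y‖ ≤ 2 * ε} from h2),
            indicator_of_mem (show (z, τ) ∈ {q : α × ℝ | lo q.1 ≤ q.2 ∧ q.2 ≤ hi q.1 ∧
              ‖fp (ζ q.1) q.2‖ ≤ 2 * ε} from ⟨h.1, h.2, h2⟩)]
        · rw [indicator_of_notMem (show fp (ζ z) τ ∉ {y : E3 | ‖y‖ ≤ 2 * ε} from h2),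
            indicator_of_notMem (show (z, τ) ∉ {q : α × ℝ | lo q.1 ≤ q.2 ∧ q.2 ≤ hi q.1 ∧
              ‖fp (ζ q.1) q.2‖ ≤ 2 * ε} from fun h' => h2 h'.2.2)]
      · rw [indicator_of_notMem h, indicator_of_notMem (show (z, τ) ∉ {q : α × ℝ | lo q.1 ≤ q.2 ∧
          q.2 ≤ hi q.1 ∧ ‖fp (ζ q.1) q.2‖ ≤ 2 * ε} from fun h' => h ⟨h'.1, h'.2.1⟩)]
    simp only [e]
    refine Measurable.lintegral_prod_right' (f := {q : α × ℝ | lo q.1 ≤ q.2 ∧ q.2 ≤ hi q.1 ∧
      ‖fp (ζ q.1) q.2‖ ≤ 2 * ε}.indicator (fun q => ENNReal.ofReal ‖(ζ q.1).2‖)) ?_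
    refine Measurable.indicator ?_ ?_
    · exact ((hζ.comp measurable_fst).snd.norm).ennreal_ofReal
    · refine MeasurableSet.inter ?_ (MeasurableSet.inter ?_ ?_)
      · exact measurableSet_le (hlo.comp measurable_fst) measurable_snd
      · exact measurableSet_le measurable_snd (hhi.comp measurable_fst)
      · exact measurableSet_le
          (measurable_fp.comp ((hζ.comp measurable_fst).prodMk measurable_snd)).norm
          measurable_const

/-- The integral of the proximity functional over the translations. -/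
theorem lintegral_prox {ε : ℝ} (hε : 0 < ε) (ζ : Ph) (lo hi : ℝ) :
    ∫⁻ a : E3, prox ε (ζ + (a, 0)) lo hi = ENNReal.ofReal ((2 * ε) ^ 3) * bv *
      (1 + (ENNReal.ofReal ε)⁻¹ * (ENNReal.ofReal (hi - lo) * ENNReal.ofReal ‖ζ.2‖)) := by
  have hN : MeasurableSet {y : E3 | ‖y‖ ≤ 2 * ε} := measurableSet_near (2 * ε)
  have hb : ∀ (z : E3) (c : ℝ≥0∞),
      ∫⁻ y : E3, {y : E3 | ‖y‖ ≤ 2 * ε}.indicator (fun _ => c) (z + y) =
        ENNReal.ofReal ((2 * ε) ^ 3) * bv * c := by
    intro z c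
    have e : (fun y : E3 => {y : E3 | ‖y‖ ≤ 2 * ε}.indicator (fun _ => c) (z + y)) =
        {y : E3 | ‖y + z‖ ≤ 2 * ε}.indicator (fun _ => c) := by
      funext y
      rw [add_comm z y]
      rfl
    rw [e, lintegral_indicator_const, vol_near _ (by positivity), mul_comm]
    exact measurableSet_le (measurable_id.add_const _).norm measurable_const
  have h2 : ∀ a : E3, (ζ + ((a, 0) : Ph)).2 = ζ.2 := fun a => by simp
  unfold prox
  simp only [fp_tr, h2]
  have hm1 : Measurable fun a : E3 =>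
      {y : E3 | ‖y‖ ≤ 2 * ε}.indicator (fun _ => (1 : ℝ≥0∞)) (fp ζ lo + a) :=
    (measurable_const.indicator hN).comp (measurable_const.add measurable_id)
  have hm2 : Measurable fun q : E3 × ℝ => {y : E3 | ‖y‖ ≤ 2 * ε}.indicator
      (fun _ => ENNReal.ofReal ‖ζ.2‖) (fp ζ q.2 + q.1) := by
    refine (measurable_const.indicator hN).comp ?_
    exact (measurable_fp.comp (measurable_const.prodMk measurable_snd)).add measurable_fst
  rw [lintegral_add_left hm1, hb, mul_one]
  have hinv : (ENNReal.ofReal ε)⁻¹ ≠ ∞ := ENNReal.inv_ne_top.2 (by simpa using hε)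
  rw [lintegral_const_mul' _ _ hinv, lintegral_lintegral_swap hm2.aemeasurable]
  simp only [hb]
  rw [lintegral_const, Measure.restrict_apply_univ, Real.volume_Icc]
  ring

/-- **Bridging contact.**  `X` is a line of the class `B`, `Y` a line outside of the class; they are
within `ε` of each other at some time of the window `[lo, hi]`. -/
theorem bridge_le {ε : ℝ} (hε : 0 < ε) {B : Set ι} {l : (ι → Ph) → E3} (hl : Measurable l)
    (hc : ∀ (a : E3) Z, l (shB B (a, 0) Z) = l Z + a)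
    {φ : E3 → ℝ≥0∞} (hφ : Measurable φ) (h1 : ∫⁻ c, φ c = 1)
    {G : (ι → Ph) → ℝ≥0∞} (hG : Measurable G) (hGi : ∀ (a : E3) Z, G (shB B (a, 0) Z) = G Z)
    {X Y : (ι → Ph) → Ph} (hXm : Measurable X) (hYm : Measurable Y)
    (hX : ∀ (a : E3) Z, X (shB B (a, 0) Z) = X Z + (a, 0))
    (hY : ∀ (a : E3) Z, Y (shB B (a, 0) Z) = Y Z)
    {lo hi : (ι → Ph) → ℝ} (hlom : Measurable lo) (hhim : Measurable hi)
    (hlo : ∀ (a : E3) Z, lo (shB B (a, 0) Z) = lo Z)
    (hhi : ∀ (a : E3) Z, hi (shB B (a, 0) Z) = hi Z)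
    {Ψ : (ι → Ph) → ℝ≥0∞}
    (hΨ : ∀ Z, Ψ Z ≠ 0 → (∃ τ ∈ Icc (lo Z) (hi Z), ‖fp (X Z) τ - fp (Y Z) τ‖ ≤ ε) ∧
      Ψ Z ≤ G Z) :
    ∫⁻ Z, Ψ Z ≤ ENNReal.ofReal ((2 * ε) ^ 3) * bv * ∫⁻ Z, φ (l Z) * (G Z *
      (1 + (ENNReal.ofReal ε)⁻¹ *
        (ENNReal.ofReal (hi Z - lo Z) * ENNReal.ofReal ‖(X Z).2 - (Y Z).2‖))) := by
  have hζm : Measurable fun Z => X Z - Y Z := hXm.sub hYm
  have hPm : Measurable fun Z => prox ε (X Z - Y Z) (lo Z) (hi Z) :=
    measurable_prox ε hζm hlom hhim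
  have hle : ∀ Z, Ψ Z ≤ G Z * prox ε (X Z - Y Z) (lo Z) (hi Z) := by
    intro Z
    by_cases h0 : Ψ Z = 0
    · rw [h0]; exact zero_le
    obtain ⟨⟨τ, hτ, h2⟩, h3⟩ := hΨ Z h0
    rw [← fp_sub] at h2
    calc Ψ Z ≤ G Z * 1 := by rw [mul_one]; exact h3
      _ ≤ _ := mul_le_mul' le_rfl (one_le_prox hε hτ h2)
  refine (lintegral_mono hle).trans (le_of_eq ?_)
  rw [lintegral_avg_tr hl hc hφ h1
    (F := fun Z => G Z * prox ε (X Z - Y Z) (lo Z) (hi Z)) (hG.mul hPm)]
  have h4 : ∀ (Z : ι → Ph) (a : E3), G (shB B (a, 0) Z) *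
      prox ε (X (shB B (a, 0) Z) - Y (shB B (a, 0) Z)) (lo (shB B (a, 0) Z))
        (hi (shB B (a, 0) Z)) = G Z * prox ε (X Z - Y Z + (a, 0)) (lo Z) (hi Z) := by
    intro Z a
    rw [hGi, hX, hY, hlo, hhi]
    congr 2
    abel
  simp only [h4]
  have h5 : ∀ Z : ι → Ph, ∫⁻ a : E3, G Z * prox ε (X Z - Y Z + (a, 0)) (lo Z) (hi Z) =
      G Z * (ENNReal.ofReal ((2 * ε) ^ 3) * bv * (1 + (ENNReal.ofReal ε)⁻¹ *
        (ENNReal.ofReal (hi Z - lo Z) * ENNReal.ofReal ‖(X Z).2 - (Y Z).2‖))) := by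
    intro Z
    rw [lintegral_const_mul, lintegral_prox hε]
    · rfl
    · exact measurable_prox ε (measurable_const.add (measurable_id.prodMk measurable_const))
        measurable_const measurable_const
  simp only [h5]
  rw [← lintegral_const_mul' _ _ (ENNReal.mul_ne_top ENNReal.ofReal_ne_top bv_ne_top)]
  refine lintegral_congr fun Z => ?_
  ring

end Vale.Agent.P119.Avg
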