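import Vale.Agent.P119.IND.Avg
import Vale.Agent.P119.IND.AttachFlux

/-!
# P119: the scattering of two labels, on the space of all the labels (`helper723`)

`scP Φ ε a b : (ι → Ph) → (ι → Ph)` replaces the lines of the labels `a ≠ b` by the outgoing lines.
It preserves the Lebesgue measure of `ι → Ph` and the kinetic energy, and commutes with the rigid
motions of every class which contains both or none of the two labels.
-/

open MeasureTheory Set Filter Topology Metric ProbabilityTheory
open scoped ENNReal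

namespace Vale.Agent.P119.Avg

open KU FL RA

section general

variable {ι : Type*} [DecidableEq ι] {X : Type*}

/-- Two coordinates are replaced. -/
def upd2 (a b : ι) (q : X × X) (Z : ι → X) : ι → X :=
  Function.update (Function.update Z a q.1) b q.2

theorem upd2_fst {a b : ι} (hab : a ≠ b) (q : X × X) (Z : ι → X) : upd2 a b q Z a = q.1 := by
  unfold upd2
  rw [Function.update_of_ne hab, Function.update_self]

theorem upd2_snd (a b : ι) (q : X × X) (Z : ι → X) : upd2 a b q Z b = q.2 := by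
  unfold upd2
  rw [Function.update_self]

theorem upd2_of_ne {a b i : ι} (ha : i ≠ a) (hb : i ≠ b) (q : X × X) (Z : ι → X) :
    upd2 a b q Z i = Z i := by
  unfold upd2
  rw [Function.update_of_ne hb, Function.update_of_ne ha]

theorem upd2_swap {a b : ι} (hab : a ≠ b) (q : X × X) (Z : ι → X) :
    upd2 b a q.swap Z = upd2 a b q Z := by
  unfold upd2
  rw [Prod.fst_swap, Prod.snd_swap, Function.update_comm hab.symm]

theorem upd2_self (a b : ι) (Z : ι → X) : upd2 a b (Z a, Z b) Z = Z := by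
  unfold upd2
  rw [Function.update_eq_self, Function.update_eq_self]

theorem upd2_upd2 {a b : ι} (hab : a ≠ b) (q q' : X × X) (Z : ι → X) :
    upd2 a b q (upd2 a b q' Z) = upd2 a b q Z := by
  funext i
  by_cases hb : i = b
  · subst hb; rw [upd2_snd, upd2_snd]
  by_cases ha : i = a
  · subst ha; rw [upd2_fst hab, upd2_fst hab]
  · rw [upd2_of_ne ha hb, upd2_of_ne ha hb, upd2_of_ne ha hb]

variable [MeasurableSpace X]

theorem measurable_upd2 (a b : ι) : Measurable fun p : (X × X) × (ι → X) => upd2 a b p.1 p.2 := by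
  unfold upd2
  refine measurable_pi_iff.2 fun i => ?_
  by_cases hb : i = b
  · subst hb
    simp only [Function.update_self]
    exact measurable_fst.snd
  by_cases ha : i = a
  · subst ha
    simp only [Function.update_of_ne hb, Function.update_self]
    exact measurable_fst.fst
  · simp only [Function.update_of_ne hb, Function.update_of_ne ha]
    exact (measurable_pi_apply i).comp measurable_snd

variable [Fintype ι] {μ : Measure X} [SigmaFinite μ]

/-- A measure preserving map acts on two coordinates. -/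
theorem lintegral_upd2 {a b : ι} (hab : a ≠ b) {f : X × X → X × X}
    (hf : MeasurePreserving f (μ.prod μ) (μ.prod μ)) {F : (ι → X) → ℝ≥0∞} (hF : Measurable F) :
    ∫⁻ Z, F (upd2 a b (f (Z a, Z b)) Z) ∂(Measure.pi fun _ : ι => μ) =
      ∫⁻ Z, F Z ∂(Measure.pi fun _ : ι => μ) := by
  have hm : Measurable fun Z : ι → X => F (upd2 a b (f (Z a, Z b)) Z) := by
    refine hF.comp ((measurable_upd2 a b).comp (Measurable.prodMk ?_ measurable_id))
    exact hf.measurable.comp ((measurable_pi_apply a).prodMk (measurable_pi_apply b))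
  refine lintegral_eq_of_lmarginal_eq {a, b} hm hF ?_
  have hab' : a ∉ ({b} : Finset ι) := by simpa using hab
  have key : ∀ {H : (ι → X) → ℝ≥0∞}, Measurable H → ∀ x,
      (∫⋯∫⁻_{a, b}, H ∂fun _ => μ) x = ∫⁻ q : X × X, H (upd2 a b q x) ∂(μ.prod μ) := by
    intro H hH x
    rw [lmarginal_insert _ hH hab']
    simp only [lmarginal_singleton]
    have h2 : Measurable fun q : X × X => H (upd2 a b q x) :=
      hH.comp ((measurable_upd2 a b).comp (measurable_id.prodMk measurable_const))
    rw [lintegral_prod _ h2.aemeasurable]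
    rfl
  funext x
  rw [key hm, key hF]
  have h3 : ∀ q : X × X, F (upd2 a b (f (upd2 a b q x a, upd2 a b q x b)) (upd2 a b q x)) =
      F (upd2 a b (f q) x) := by
    intro q
    rw [upd2_fst hab, upd2_snd, upd2_upd2 hab]
  simp only [h3]
  have h2 : Measurable fun q : X × X => F (upd2 a b q x) :=
    hF.comp ((measurable_upd2 a b).comp (measurable_id.prodMk measurable_const))
  exact hf.lintegral_comp h2

end general

variable {ι : Type*} [DecidableEq ι] {Φ : E3 → ℝ} {ε : ℝ}

/-- The lines of the labels `a`, `b` are replaced by the outgoing lines. -/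
noncomputable def scP (Φ : E3 → ℝ) (ε : ℝ) (a b : ι) (Z : ι → Ph) : ι → Ph :=
  upd2 a b (sc2 Φ ε (Z a, Z b)) Z

theorem scP_fst {a b : ι} (hab : a ≠ b) (Z : ι → Ph) :
    scP Φ ε a b Z a = (sc2 Φ ε (Z a, Z b)).1 := upd2_fst hab _ _

theorem scP_snd (a b : ι) (Z : ι → Ph) :
    scP Φ ε a b Z b = (sc2 Φ ε (Z a, Z b)).2 := upd2_snd _ _ _ _

theorem scP_of_ne {a b i : ι} (ha : i ≠ a) (hb : i ≠ b) (Z : ι → Ph) : scP Φ ε a b Z i = Z i :=
  upd2_of_ne ha hb _ _

theorem scP_pair {a b : ι} (hab : a ≠ b) (Z : ι → Ph) :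
    (scP Φ ε a b Z a, scP Φ ε a b Z b) = sc2 Φ ε (Z a, Z b) := by
  rw [scP_fst hab, scP_snd]

theorem scP_swap (hΦ : IsPotential Φ) {a b : ι} (hab : a ≠ b) (Z : ι → Ph) :
    scP Φ ε b a Z = scP Φ ε a b Z := by
  unfold scP
  have : sc2 Φ ε (Z b, Z a) = (sc2 Φ ε (Z a, Z b)).swap := sc2_swap hΦ (Z a, Z b)
  rw [this, upd2_swap hab]

theorem measurable_scP (hΦ : IsPotential Φ) (hε : ε ≠ 0) (a b : ι) :
    Measurable (scP Φ ε a b) := by
  unfold scP
  refine (measurable_upd2 a b).comp (Measurable.prodMk ?_ measurable_id)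
  exact (measurable_sc2 hΦ hε).comp ((measurable_pi_apply a).prodMk (measurable_pi_apply b))

/-- The outgoing pair meets iff the incoming pair meets. -/
theorem meets_scP (hΦ : IsPotential Φ) (hε : ε ≠ 0) {a b : ι} (hab : a ≠ b) (Z : ι → Ph) :
    Meets ε (scP Φ ε a b Z a, scP Φ ε a b Z b) ↔ Meets ε (Z a, Z b) := by
  rw [scP_pair hab]; exact meets_sc2 hΦ hε _

/-- The exit time of the outgoing pair is the separation time of the collision. -/
theorem exT_scP (hΦ : IsPotential Φ) (hε : ε ≠ 0) {a b : ι} (hab : a ≠ b) (Z : ι → Ph) :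
    exT ε (scP Φ ε a b Z a, scP Φ ε a b Z b) = sepT Φ ε (Z a, Z b) := by
  rw [scP_pair hab]; exact exT_sc2 hΦ hε _

/-- The scattering commutes with the rigid motions of a class which contains both labels or none
of them. -/
theorem scP_shB {a b : ι} (hab : a ≠ b) {B : Set ι} (hB : a ∈ B ↔ b ∈ B) (c : Ph) (Z : ι → Ph) :
    scP Φ ε a b (shB B c Z) = shB B c (scP Φ ε a b Z) := by
  funext i
  by_cases h : a ∈ B
  · have hb : b ∈ B := hB.1 h
    have h2 : sc2 Φ ε (shB B c Z a, shB B c Z b) =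
        (KU.boost c (sc2 Φ ε (Z a, Z b)).1, KU.boost c (sc2 Φ ε (Z a, Z b)).2) := by
      rw [shB_mem_boost c Z h, shB_mem_boost c Z hb]
      exact sc2_boost c (Z a, Z b)
    by_cases hib : i = b
    · subst hib
      rw [scP_snd, h2, shB_mem_boost _ _ hb, scP_snd]
    by_cases hia : i = a
    · subst hia
      rw [scP_fst hab, h2, shB_mem_boost _ _ h, scP_fst hab]
    · rw [scP_of_ne hia hib]
      by_cases hi : i ∈ B
      · rw [shB_mem _ _ hi, shB_mem _ _ hi, scP_of_ne hia hib]
      · rw [shB_notMem _ _ hi, shB_notMem _ _ hi, scP_of_ne hia hib]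
  · have hb : b ∉ B := fun hb => h (hB.2 hb)
    have h2 : sc2 Φ ε (shB B c Z a, shB B c Z b) = sc2 Φ ε (Z a, Z b) := by
      rw [shB_notMem c Z h, shB_notMem c Z hb]
    by_cases hib : i = b
    · subst hib
      rw [scP_snd, h2, shB_notMem _ _ hb, scP_snd]
    by_cases hia : i = a
    · subst hia
      rw [scP_fst hab, h2, shB_notMem _ _ h, scP_fst hab]
    · rw [scP_of_ne hia hib]
      by_cases hi : i ∈ B
      · rw [shB_mem _ _ hi, shB_mem _ _ hi, scP_of_ne hia hib]
      · rw [shB_notMem _ _ hi, shB_notMem _ _ hi, scP_of_ne hia hib]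

variable [Fintype ι]

/-- **The scattering of two labels preserves the Lebesgue measure.** -/
theorem lintegral_scP (hΦ : IsPotential Φ) (hε : ε ≠ 0) {a b : ι} (hab : a ≠ b)
    {F : (ι → Ph) → ℝ≥0∞} (hF : Measurable F) :
    ∫⁻ Z, F (scP Φ ε a b Z) = ∫⁻ Z, F Z := by
  have hsf := sigmaFinite_Ph
  have h := measurePreserving_sc2 hΦ hε (Φ := Φ) (ε := ε)
  rw [Measure.volume_eq_prod] at h
  exact lintegral_upd2 (μ := (volume : Measure Ph)) hab h hF

/-- The scattering of two labels preserves the kinetic energy. -/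
theorem EE_scP (hΦ : IsPotential Φ) (hε : ε ≠ 0) {a b : ι} (hab : a ≠ b) (Z : ι → Ph) :
    EE (scP Φ ε a b Z) = EE Z := by
  unfold EE
  have hsplit : ∀ W : ι → Ph, ∑ i, ‖(W i).2‖ ^ 2 =
      ‖(W a).2‖ ^ 2 + (‖(W b).2‖ ^ 2 + ∑ i ∈ (Finset.univ.erase a).erase b, ‖(W i).2‖ ^ 2) := by
    intro W
    rw [Finset.add_sum_erase (Finset.univ.erase a) (fun i => ‖(W i).2‖ ^ 2)
        (Finset.mem_erase.2 ⟨hab.symm, Finset.mem_univ b⟩),
      Finset.add_sum_erase _ (fun i => ‖(W i).2‖ ^ 2) (Finset.mem_univ a)]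
  rw [hsplit, hsplit, scP_fst hab, scP_snd]
  have h1 := energy_sc2 hΦ hε (Z a, Z b)
  have h2 : ∑ i ∈ (Finset.univ.erase a).erase b, ‖(scP Φ ε a b Z i).2‖ ^ 2 =
      ∑ i ∈ (Finset.univ.erase a).erase b, ‖(Z i).2‖ ^ 2 := by
    refine Finset.sum_congr rfl fun i hi => ?_
    rw [Finset.mem_erase, Finset.mem_erase] at hi
    rw [scP_of_ne hi.2.1 hi.1]
  rw [h2]
  simp only at h1
  linarith

end Vale.Agent.P119.Avg
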