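import Vale.Agent.P119.PB.Iter
import Vale.Agent.P119.IND.ExcProg

/-!
# P119, block IND: the iterated collision operator with exact births (`helper228`)

* `nwS o q`: the state (birth, line) of the new line of type `o` (first, second outgoing line,
  undeflected partner) of the pair `q`; `Hs`: the hit takes place;
* `Hc`: the iterates for functions of (birth, line); `KIt_le_Hc`;
* `chn`, `cst`: chains of hits and their final state; **`Hc_eq`**: the unrolled form.
-/

open MeasureTheory Filter Topology Set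
open scoped ENNReal NNReal

set_option linter.unusedSectionVars false

noncomputable section

namespace Vale.Agent.P119.IND

open KU FL M CTree GC MM AU PB PB.CT

variable {Φ : E3 → ℝ} {ε b t : ℝ}

/-- The state of the new line. -/
def nwS (Φ : E3 → ℝ) (ε : ℝ) (o : Fin 3) (q : Ph × Ph) : ℝ × Ph :=
  if o = 0 then (sepT Φ ε q, (sc2 Φ ε q).1)
  else if o = 1 then (sepT Φ ε q, (sc2 Φ ε q).2) else (hitT ε q, q.2)

/-- The line `x.2`, born at the time `x.1`, hits the line `z'`, and the new line is born not later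
than `t`. -/
def Hs (Φ : E3 → ℝ) (ε t : ℝ) (o : Fin 3) (x : ℝ × Ph) (z' : Ph) : Prop :=
  Meets ε (x.2, z') ∧ x.1 < hitT ε (x.2, z') ∧ (nwS Φ ε o (x.2, z')).1 ≤ t

theorem measurable_nwS (hΦ : IsPotential Φ) (hε : ε ≠ 0) (o : Fin 3) :
    Measurable (nwS Φ ε o) := by
  unfold nwS
  by_cases h0 : o = 0
  · simp only [if_pos h0]
    exact (measurable_sepT hΦ).prodMk (measurable_sc2 hΦ hε).fst
  · simp only [if_neg h0]
    by_cases h1 : o = 1
    · simp only [if_pos h1]
      exact (measurable_sepT hΦ).prodMk (measurable_sc2 hΦ hε).snd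
    · simp only [if_neg h1]
      exact measurable_hitT.prodMk measurable_snd

theorem measurableSet_Hs (hΦ : IsPotential Φ) (hε : ε ≠ 0) (t : ℝ) (o : Fin 3) :
    MeasurableSet {q : (ℝ × Ph) × Ph | Hs Φ ε t o q.1 q.2} := by
  have hq : Measurable fun q : (ℝ × Ph) × Ph => ((q.1.2, q.2) : Ph × Ph) := by fun_prop
  exact (hq measurableSet_meets).inter ((measurableSet_lt (measurable_fst.comp measurable_fst)
    (measurable_hitT.comp hq)).inter (measurableSet_le
      ((measurable_nwS hΦ hε o).comp hq).fst measurable_const))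

variable (Φ ε) in
/-- The iterates for functions of the state. -/
def Hc (b t : ℝ) : ℕ → (ℝ × Ph → ℝ≥0∞) → ℝ × Ph → ℝ≥0∞
  | 0, F => F
  | j + 1, F => fun x => ∑ o : Fin 3, ∫⁻ z' : Ph, {z' : Ph | Hs Φ ε t o x z'}.indicator
      (fun z' => muE ε * g1 b z'.2 * Hc b t j F (nwS Φ ε o (x.2, z'))) z'

theorem measurable_Hc (hΦ : IsPotential Φ) (hε : ε ≠ 0) (b t : ℝ) (j : ℕ)
    {F : ℝ × Ph → ℝ≥0∞} (hF : Measurable F) : Measurable (Hc Φ ε b t j F) := by
  induction j with
  | zero => exact hF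
  | succ j ih =>
    refine Finset.measurable_sum _ fun o _ => Measurable.lintegral_prod_right'
      (f := fun q : (ℝ × Ph) × Ph => {z' : Ph | Hs Φ ε t o q.1 z'}.indicator
        (fun z' => muE ε * g1 b z'.2 * Hc Φ ε b t j F (nwS Φ ε o (q.1.2, z'))) q.2) ?_
    have e : (fun q : (ℝ × Ph) × Ph => {z' : Ph | Hs Φ ε t o q.1 z'}.indicator
        (fun z' => muE ε * g1 b z'.2 * Hc Φ ε b t j F (nwS Φ ε o (q.1.2, z'))) q.2) =
        {q : (ℝ × Ph) × Ph | Hs Φ ε t o q.1 q.2}.indicator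
          (fun q => muE ε * g1 b q.2.2 * Hc Φ ε b t j F (nwS Φ ε o (q.1.2, q.2))) := rfl
    rw [e]
    refine Measurable.indicator ?_ (measurableSet_Hs hΦ hε t o)
    have hq : Measurable fun q : (ℝ × Ph) × Ph => ((q.1.2, q.2) : Ph × Ph) := by fun_prop
    exact (((measurable_g1 b).comp measurable_snd).const_mul _).mul
      (ih.comp ((measurable_nwS hΦ hε o).comp hq))

theorem Hc_mono (b t : ℝ) (j : ℕ) {F F' : ℝ × Ph → ℝ≥0∞} (h : ∀ x, F x ≤ F' x) (x : ℝ × Ph) :
    Hc Φ ε b t j F x ≤ Hc Φ ε b t j F' x := by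
  induction j generalizing x with
  | zero => exact h x
  | succ j ih =>
    exact Finset.sum_le_sum fun o _ => lintegral_mono fun z' =>
      indicator_le_indicator_of fun _ => mul_le_mul' le_rfl (ih _)

/-- One step of the collision operator. -/
theorem KOp_le_Hc (hΦ : IsPotential Φ) (hε : ε ≠ 0) {α : ℕ → ℝ≥0∞} {θ : Src → ℝ≥0∞}
    {F : ℝ × Ph → ℝ≥0∞} (hF : Measurable F) (hθ : ∀ σ, θ σ ≤ F (σ.1, σ.2.1)) (σ : Src) :
    KOp Φ ε b t α θ σ ≤ (∑' n, α n) * Hc Φ ε b t 1 F (σ.1, σ.2.1) := by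
  set x : ℝ × Ph := (σ.1, σ.2.1) with hx
  have hS : MeasurableSet {z' : Ph | Meets ε (σ.2.1, z') ∧ σ.1 < hitT ε (σ.2.1, z')} :=
    measurable_prodMk_left (x := σ) measurableSet_hit
  have hS' : ∀ o, MeasurableSet {z' : Ph | Hs Φ ε t o x z'} := fun o =>
    measurable_prodMk_left (x := x) (measurableSet_Hs hΦ hε t o)
  have hq : Measurable fun z' : Ph => ((σ.2.1, z') : Ph × Ph) := by fun_prop
  have hm : ∀ o, Measurable fun z' : Ph => {z' : Ph | Hs Φ ε t o x z'}.indicator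
      (fun z' => muE ε * g1 b z'.2 * F (nwS Φ ε o (x.2, z'))) z' := fun o =>
    Measurable.indicator (((measurable_g1 b).const_mul _).mul
      (hF.comp ((measurable_nwS hΦ hε o).comp hq))) (hS' o)
  have h1 : ∀ n, muE ε * ∫⁻ z' in {z' : Ph | Meets ε (σ.2.1, z') ∧ σ.1 < hitT ε (σ.2.1, z')},
      PB.gw b z'.2 * fresh Φ ε t θ σ z' n ≤ Hc Φ ε b t 1 F x := by
    intro n
    have e1 : Hc Φ ε b t 1 F x = ∫⁻ z' : Ph, ∑ o : Fin 3, {z' : Ph | Hs Φ ε t o x z'}.indicator
        (fun z' => muE ε * g1 b z'.2 * F (nwS Φ ε o (x.2, z'))) z' :=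
      (lintegral_finsetSum _ fun o _ => hm o).symm
    rw [e1, ← lintegral_const_mul' _ _ muE_ne_top, ← lintegral_indicator hS]
    refine lintegral_mono fun z' => ?_
    by_cases hz : z' ∈ {z' : Ph | Meets ε (σ.2.1, z') ∧ σ.1 < hitT ε (σ.2.1, z')}
    swap
    · rw [indicator_of_notMem hz]; exact zero_le
    rw [indicator_of_mem hz, ← mul_assoc]
    have hgw : PB.gw b z'.2 = g1 b z'.2 := rfl
    have e2 : ∀ (o : Fin 3) (y : ℝ≥0∞) (τ : ℝ) (f : ℝ → ℝ≥0∞), (nwS Φ ε o (x.2, z')).1 = τ →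
        f τ ≤ F (nwS Φ ε o (x.2, z')) →
        muE ε * g1 b z'.2 * (Iic t).indicator f τ ≤ {z' : Ph | Hs Φ ε t o x z'}.indicator
          (fun z' => muE ε * g1 b z'.2 * F (nwS Φ ε o (x.2, z'))) z' := by
      intro o y τ f h1 h2
      by_cases hτ : τ ∈ Iic t
      · have h3 : z' ∈ {z' : Ph | Hs Φ ε t o x z'} := ⟨hz.1, hz.2, by rw [h1]; exact hτ⟩
        rw [indicator_of_mem hτ, indicator_of_mem h3]
        exact mul_le_mul' le_rfl h2
      · rw [indicator_of_notMem hτ, mul_zero]; exact zero_le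
    rw [hgw]
    unfold fresh
    rw [mul_add, mul_add, Fin.sum_univ_three]
    refine add_le_add (add_le_add ?_ ?_) ?_
    · refine e2 0 0 (sepT Φ ε (σ.2.1, z')) (fun τ => θ (τ, (sc2 Φ ε (σ.2.1, z')).1,
        max σ.2.2 n + 1)) rfl (hθ _)
    · refine e2 1 0 (sepT Φ ε (σ.2.1, z')) (fun τ => θ (τ, (sc2 Φ ε (σ.2.1, z')).2,
        max σ.2.2 n + 1)) ?_ ?_
      · unfold nwS; rw [if_neg (by decide), if_pos rfl]
      · refine (hθ _).trans (le_of_eq ?_)
        unfold nwS; rw [if_neg (by decide), if_pos rfl]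
    · refine e2 2 0 (hitT ε (σ.2.1, z')) (fun τ => θ (τ, z', n)) ?_ ?_
      · unfold nwS; rw [if_neg (by decide), if_neg (by decide)]
      · refine (hθ _).trans (le_of_eq ?_)
        unfold nwS; rw [if_neg (by decide), if_neg (by decide)]
  unfold KOp
  rw [← ENNReal.tsum_mul_left, ← ENNReal.tsum_mul_right]
  refine ENNReal.tsum_le_tsum fun n => ?_
  calc _ = α n * (muE ε * ∫⁻ z' in {z' : Ph | Meets ε (σ.2.1, z') ∧ σ.1 < hitT ε (σ.2.1, z')},
      PB.gw b z'.2 * fresh Φ ε t θ σ z' n) := by ring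
    _ ≤ _ := mul_le_mul' le_rfl (h1 n)

theorem Hc_const_mul (hΦ : IsPotential Φ) (hε : ε ≠ 0) (j : ℕ) {F : ℝ × Ph → ℝ≥0∞}
    (hF : Measurable F) (c : ℝ≥0∞) (x : ℝ × Ph) :
    Hc Φ ε b t j (fun y => c * F y) x = c * Hc Φ ε b t j F x := by
  induction j generalizing x with
  | zero => rfl
  | succ j ih =>
    have hq : Measurable fun z' : Ph => ((x.2, z') : Ph × Ph) := by fun_prop
    change ∑ o : Fin 3, ∫⁻ z' : Ph, {z' : Ph | Hs Φ ε t o x z'}.indicator
      (fun z' => muE ε * g1 b z'.2 * Hc Φ ε b t j (fun y => c * F y) (nwS Φ ε o (x.2, z'))) z' =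
      c * ∑ o : Fin 3, ∫⁻ z' : Ph, {z' : Ph | Hs Φ ε t o x z'}.indicator
      (fun z' => muE ε * g1 b z'.2 * Hc Φ ε b t j F (nwS Φ ε o (x.2, z'))) z'
    rw [Finset.mul_sum]
    refine Finset.sum_congr rfl fun o _ => ?_
    rw [← lintegral_const_mul]
    · refine lintegral_congr fun z' => ?_
      by_cases hz : z' ∈ {z' : Ph | Hs Φ ε t o x z'}
      · rw [indicator_of_mem hz, indicator_of_mem hz, ih]
        ring
      · rw [indicator_of_notMem hz, indicator_of_notMem hz, mul_zero]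
    · exact Measurable.indicator (((measurable_g1 b).const_mul _).mul
        ((measurable_Hc hΦ hε b t j hF).comp ((measurable_nwS hΦ hε o).comp hq)))
        (measurable_prodMk_left (x := x) (measurableSet_Hs hΦ hε t o))

theorem Hc_one (j : ℕ) (F : ℝ × Ph → ℝ≥0∞) :
    Hc Φ ε b t 1 (Hc Φ ε b t j F) = Hc Φ ε b t (j + 1) F := rfl

/-- **The iterated collision operator.** -/
theorem KIt_le_Hc (hΦ : IsPotential Φ) (hε : ε ≠ 0) {α : ℕ → ℝ≥0∞} (j : ℕ) {θ : Src → ℝ≥0∞}
    {F : ℝ × Ph → ℝ≥0∞} (hF : Measurable F) (hθ : ∀ σ, θ σ ≤ F (σ.1, σ.2.1)) (σ : Src) :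
    KIt Φ ε b t α j θ σ ≤ (∑' n, α n) ^ j * Hc Φ ε b t j F (σ.1, σ.2.1) := by
  induction j generalizing σ with
  | zero =>
    rw [KIt_zero, pow_zero, one_mul]
    exact hθ σ
  | succ j ih =>
    rw [KIt_succ]
    refine (KOp_le_Hc (b := b) (t := t) hΦ hε (F := fun y => (∑' n, α n) ^ j * Hc Φ ε b t j F y)
      ((measurable_Hc hΦ hε b t j hF).const_mul _) ih σ).trans (le_of_eq ?_)
    rw [Hc_const_mul hΦ hε 1 (measurable_Hc hΦ hε b t j hF), Hc_one, pow_succ]
    ring

/-! ### Chains -/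

variable (Φ ε) in
/-- The chain of hits takes place. -/
def chn (t : ℝ) : {j : ℕ} → (Fin j → Fin 3) → ℝ × Ph → (Fin j → Ph) → Prop
  | 0, _, _, _ => True
  | _ + 1, P, x, p => Hs Φ ε t (P 0) x (p 0) ∧
      chn t (fun i => P i.succ) (nwS Φ ε (P 0) (x.2, p 0)) fun i => p i.succ

variable (Φ ε) in
/-- The final state. -/
def cst : {j : ℕ} → (Fin j → Fin 3) → ℝ × Ph → (Fin j → Ph) → ℝ × Ph
  | 0, _, x, _ => x
  | _ + 1, P, x, p => cst (fun i => P i.succ) (nwS Φ ε (P 0) (x.2, p 0)) fun i => p i.succ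

theorem chn_cons {j : ℕ} (o : Fin 3) (P : Fin j → Fin 3) (x : ℝ × Ph) (a : Ph) (p : Fin j → Ph) :
    chn Φ ε t (Fin.cons o P : Fin (j + 1) → Fin 3) x (Fin.cons a p) ↔
      Hs Φ ε t o x a ∧ chn Φ ε t P (nwS Φ ε o (x.2, a)) p := Iff.rfl

theorem cst_cons {j : ℕ} (o : Fin 3) (P : Fin j → Fin 3) (x : ℝ × Ph) (a : Ph) (p : Fin j → Ph) :
    cst Φ ε (Fin.cons o P : Fin (j + 1) → Fin 3) x (Fin.cons a p) =
      cst Φ ε P (nwS Φ ε o (x.2, a)) p := rfl

theorem measurable_cst (hΦ : IsPotential Φ) (hε : ε ≠ 0) : ∀ {j : ℕ} (P : Fin j → Fin 3),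
    Measurable fun q : (ℝ × Ph) × (Fin j → Ph) => cst Φ ε P q.1 q.2
  | 0, _ => measurable_fst
  | j + 1, P => by
    have hq : Measurable fun q : (ℝ × Ph) × (Fin (j + 1) → Ph) =>
        ((q.1.2, q.2 0) : Ph × Ph) := by fun_prop
    have h1 : Measurable fun q : (ℝ × Ph) × (Fin (j + 1) → Ph) =>
        ((nwS Φ ε (P 0) (q.1.2, q.2 0), fun i : Fin j => q.2 i.succ) :
          (ℝ × Ph) × (Fin j → Ph)) :=
      ((measurable_nwS hΦ hε (P 0)).comp hq).prodMk
        (measurable_pi_iff.2 fun i => (measurable_pi_apply _).comp measurable_snd)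
    exact (measurable_cst hΦ hε fun i => P i.succ).comp h1

theorem measurableSet_chn (hΦ : IsPotential Φ) (hε : ε ≠ 0) (t : ℝ) :
    ∀ {j : ℕ} (P : Fin j → Fin 3),
    MeasurableSet {q : (ℝ × Ph) × (Fin j → Ph) | chn Φ ε t P q.1 q.2}
  | 0, P => by
    have e' : {q : (ℝ × Ph) × (Fin 0 → Ph) | chn Φ ε t P q.1 q.2} = univ := by
      ext q
      exact ⟨fun _ => mem_univ _, fun _ => trivial⟩
    rw [e']
    exact MeasurableSet.univ
  | j + 1, P => by
    have hq : Measurable fun q : (ℝ × Ph) × (Fin (j + 1) → Ph) =>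
        ((q.1.2, q.2 0) : Ph × Ph) := by fun_prop
    have h1 : Measurable fun q : (ℝ × Ph) × (Fin (j + 1) → Ph) =>
        ((nwS Φ ε (P 0) (q.1.2, q.2 0), fun i : Fin j => q.2 i.succ) :
          (ℝ × Ph) × (Fin j → Ph)) :=
      ((measurable_nwS hΦ hε (P 0)).comp hq).prodMk
        (measurable_pi_iff.2 fun i => (measurable_pi_apply _).comp measurable_snd)
    have h2 : Measurable fun q : (ℝ × Ph) × (Fin (j + 1) → Ph) => ((q.1, q.2 0) : (ℝ × Ph) × Ph) :=
      measurable_fst.prodMk ((measurable_pi_apply 0).comp measurable_snd)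
    exact (h2 (measurableSet_Hs hΦ hε t (P 0))).inter
      (h1 (measurableSet_chn hΦ hε t fun i => P i.succ))

variable (Φ ε) in
/-- The integrand of the unrolled form. -/
def hcI (b t : ℝ) {j : ℕ} (P : Fin j → Fin 3) (F : ℝ × Ph → ℝ≥0∞) (x : ℝ × Ph)
    (p : Fin j → Ph) : ℝ≥0∞ :=
  {p | chn Φ ε t P x p}.indicator
    (fun p => (∏ i, (muE ε * g1 b (p i).2)) * F (cst Φ ε P x p)) p

theorem measurable_hcI (hΦ : IsPotential Φ) (hε : ε ≠ 0) (b t : ℝ) {j : ℕ} (P : Fin j → Fin 3)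
    {F : ℝ × Ph → ℝ≥0∞} (hF : Measurable F) :
    Measurable fun q : (ℝ × Ph) × (Fin j → Ph) => hcI Φ ε b t P F q.1 q.2 := by
  have e : (fun q : (ℝ × Ph) × (Fin j → Ph) => hcI Φ ε b t P F q.1 q.2) =
      {q : (ℝ × Ph) × (Fin j → Ph) | chn Φ ε t P q.1 q.2}.indicator
        (fun q => (∏ i, (muE ε * g1 b (q.2 i).2)) * F (cst Φ ε P q.1 q.2)) := rfl
  rw [e]
  refine Measurable.indicator (Measurable.mul ?_ (hF.comp (measurable_cst hΦ hε P)))
    (measurableSet_chn hΦ hε t P)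
  exact Finset.measurable_prod _ fun i _ => ((measurable_g1 b).comp
    ((measurable_pi_apply i).comp measurable_snd)).const_mul _

/-- **The unrolled form of the iterates.** -/
theorem Hc_eq (hΦ : IsPotential Φ) (hε : ε ≠ 0) (b t : ℝ) (j : ℕ) {F : ℝ × Ph → ℝ≥0∞}
    (hF : Measurable F) (x : ℝ × Ph) :
    Hc Φ ε b t j F x = ∑ P : Fin j → Fin 3, ∫⁻ p, hcI Φ ε b t P F x p := by
  induction j generalizing x with
  | zero =>
    have h1 : ∀ P : Fin 0 → Fin 3, ∫⁻ p, hcI Φ ε b t P F x p = F x := by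
      intro P
      have h2 : ∀ p : Fin 0 → Ph, hcI Φ ε b t P F x p = F x := by
        intro p
        unfold hcI
        rw [indicator_of_mem (show p ∈ {p | chn Φ ε t P x p} from trivial)]
        simp [cst]
      simp only [h2]
      rw [lintegral_const]
      have h3 : (volume : Measure (Fin 0 → Ph)) univ = 1 := by
        simp [volume_pi]
      rw [h3, mul_one]
    rw [Finset.sum_congr rfl fun P _ => h1 P]
    simp [Hc]
  | succ j ih =>
    have h2 : ∑ P : Fin (j + 1) → Fin 3, ∫⁻ p, hcI Φ ε b t P F x p =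
        ∑ o : Fin 3, ∑ P : Fin j → Fin 3, ∫⁻ p,
          hcI Φ ε b t (Fin.cons o P : Fin (j + 1) → Fin 3) F x p := by
      rw [← Fintype.sum_prod_type']
      exact (Fintype.sum_equiv (Fin.consEquiv fun _ : Fin (j + 1) => Fin 3) _ _ fun p => rfl).symm
    rw [h2]
    change ∑ o : Fin 3, ∫⁻ z' : Ph, {z' : Ph | Hs Φ ε t o x z'}.indicator
      (fun z' => muE ε * g1 b z'.2 * Hc Φ ε b t j F (nwS Φ ε o (x.2, z'))) z' = _
    refine Finset.sum_congr rfl fun o _ => ?_
    have hq : Measurable fun z' : Ph => ((x.2, z') : Ph × Ph) := by fun_prop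
    have h3 : ∀ P : Fin j → Fin 3,
        ∫⁻ p, hcI Φ ε b t (Fin.cons o P : Fin (j + 1) → Fin 3) F x p =
        ∫⁻ z' : Ph, {z' : Ph | Hs Φ ε t o x z'}.indicator
          (fun z' => muE ε * g1 b z'.2 * ∫⁻ p, hcI Φ ε b t P F (nwS Φ ε o (x.2, z')) p) z' := by
      intro P
      have hmc : Measurable fun p : Fin (j + 1) → Ph =>
          hcI Φ ε b t (Fin.cons o P : Fin (j + 1) → Fin 3) F x p :=
        (measurable_hcI hΦ hε b t (Fin.cons o P : Fin (j + 1) → Fin 3) hF).comp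
          measurable_prodMk_left
      rw [lintegral_cons hmc]
      refine lintegral_congr fun z' => ?_
      have hmq : Measurable fun p : Fin j → Ph => hcI Φ ε b t P F (nwS Φ ε o (x.2, z')) p :=
        (measurable_hcI hΦ hε b t P hF).comp measurable_prodMk_left
      by_cases hz : z' ∈ {z' : Ph | Hs Φ ε t o x z'}
      · rw [indicator_of_mem hz, ← lintegral_const_mul _ hmq]
        refine lintegral_congr fun p => ?_
        unfold hcI
        by_cases hp : p ∈ {p | chn Φ ε t P (nwS Φ ε o (x.2, z')) p}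
        · rw [indicator_of_mem hp, indicator_of_mem (show (Fin.cons z' p : Fin (j + 1) → Ph) ∈
            {p | chn Φ ε t (Fin.cons o P : Fin (j + 1) → Fin 3) x p} from ⟨hz, hp⟩),
            Fin.prod_univ_succ, cst_cons]
          simp only [Fin.cons_zero, Fin.cons_succ]
          ring
        · have hn : (Fin.cons z' p : Fin (j + 1) → Ph) ∉
              {p | chn Φ ε t (Fin.cons o P : Fin (j + 1) → Fin 3) x p} := fun h =>
            hp ((chn_cons o P x z' p).1 h).2
          rw [indicator_of_notMem hp, indicator_of_notMem hn, mul_zero]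
      · rw [indicator_of_notMem hz]
        have : ∀ p : Fin j → Ph, hcI Φ ε b t (Fin.cons o P : Fin (j + 1) → Fin 3) F x
            (Fin.cons z' p) = 0 := by
          intro p
          have hn : (Fin.cons z' p : Fin (j + 1) → Ph) ∉
              {p | chn Φ ε t (Fin.cons o P : Fin (j + 1) → Fin 3) x p} := fun h =>
            hz ((chn_cons o P x z' p).1 h).1
          unfold hcI
          rw [indicator_of_notMem hn]
        simp only [this, lintegral_zero]
    rw [Finset.sum_congr rfl fun P _ => h3 P]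
    have hmP : ∀ P : Fin j → Fin 3, Measurable fun z' : Ph =>
        {z' : Ph | Hs Φ ε t o x z'}.indicator
          (fun z' => muE ε * g1 b z'.2 * ∫⁻ p, hcI Φ ε b t P F (nwS Φ ε o (x.2, z')) p) z' := by
      intro P
      refine Measurable.indicator (((measurable_g1 b).const_mul _).mul ?_)
        (measurable_prodMk_left (x := x) (measurableSet_Hs hΦ hε t o))
      exact (measurable_hcI hΦ hε b t P hF).lintegral_prod_right'.comp
        ((measurable_nwS hΦ hε o).comp hq)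
    rw [← lintegral_finsetSum _ fun P _ => hmP P]
    refine lintegral_congr fun z' => ?_
    by_cases hz : z' ∈ {z' : Ph | Hs Φ ε t o x z'}
    · simp only [indicator_of_mem hz]
      rw [ih, Finset.mul_sum]
    · simp only [indicator_of_notMem hz, Finset.sum_const_zero]

end Vale.Agent.P119.IND
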