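import Vale.Agent.P119.IND.Scene

/-!
# P119, block IND: the outputs at the final time of an exploration (`helper498`)

`h : Hd .. b T s l σ` is an exploration from `T` at the time `s`.  The trees `S`, `node x y`, … are
live in all the worlds at the time `s` (`Fu`).  Each of the final contacts of `helper621`'s
classification gives an output.
-/

open MeasureTheory Filter Topology Set
open scoped ENNReal NNReal

noncomputable section

namespace Vale.Agent.P119.IND

open KU M M.CTree TL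

variable {Φ : E3 → ℝ} {ε : ℝ} {L : ℕ} {ι : Type*} [DecidableEq ι] {W : Finset ι → Set Src}
  {K : Finset ι} {V₀ ins all : Set Src} {Lv : CTree → Prop} {Lg : Bool → Gh → Prop} {s₀ t : ℝ}
  {m : ℕ} {i : ι}
  {b : Bool} {T : CTree} {s : ℝ} {l : List (CTree × ℝ × CTree)} {σ : Src}

theorem FX.to_FJ {F : Finset CTree} {G : List Gh} {x y : Src} (h : FX F G [] x y) :
    FJ F G x y := by
  induction h with
  | rel x y h =>
    rcases h with h | h
    · exact Relation.EqvGen.rel _ _ h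
    · exact absurd h List.not_mem_nil
  | refl x => exact FJ.refl _ _ _
  | symm _ _ _ ih => exact ih.symm
  | trans _ _ _ _ _ ih1 ih2 => exact ih1.trans ih2

theorem FX.ghost {F : Finset CTree} {G : List Gh} {es : List (Src × Src)} {g : Gh} (h : g ∈ G) :
    FX F G es g.1.root g.2.1.root := FX.of_FJ (FJ.ghost h)

theorem FX.pair {F : Finset CTree} {G : List Gh} {es : List (Src × Src)}
    (hF : ∀ a b, node a b ∈ F → a ∈ F ∧ b ∈ F) {x y : CTree} (hx : x ∈ F) (hy : y ∈ F)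
    (he : (x.root, y.root) ∈ es) : ∀ a ∈ (node x y).leaves, FX F G es a x.root := by
  rintro a (ha | ha)
  · exact FX.root hF hx a ha
  · exact (FX.root hF hy a ha).trans (FX.edge he).symm

omit [DecidableEq ι] in
/-- The trees of an exploration are joined to the source. -/
theorem Hd.connX (h : Hd Φ ε L W K V₀ s₀ i m b T s l σ) {F : Finset CTree} {G : List Gh}
    {es : List (Src × Src)} (hfam : Fam Φ ε s F G) (hmem : ∀ u ∈ l.map Prod.fst, u ∈ F)
    (hG : ∀ g ∈ lgs (lks K i b l), g ∈ G) (hTX : ∀ a ∈ T.leaves, FX F G es a T.root) :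
    ∀ u ∈ T :: l.map Prod.fst, ∀ a ∈ u.leaves, FX F G es a σ := by
  have hsrc := h.pc.src
  have hrt := h.pc.rt
  cases hrt with
  | stop _ _ =>
    intro u hu a ha
    rw [List.map_nil, List.mem_singleton] at hu
    subst hu
    exact (hTX a ha).trans (hTX σ hsrc).symm
  | @step _ _ R Y _ r l' _ _ _ _ _ _ hk _ ht =>
    have hc := ht.conn (i := i) (K := K) hfam (fun u hu => hmem u hu) (fun g hg => hG g (by
      rw [lgs_cons]; exact List.mem_cons_of_mem _ hg)) hsrc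
    have h1 : FX F G es R.root σ :=
      FX.of_FJ (hc R List.mem_cons_self R.root R.root_mem_leaves)
    have h2 : FX F G es R.root Y.root :=
      FX.ghost (g := (R, Y, r)) (hG _ (by rw [lgs_cons]; exact List.mem_cons_self))
    have h3 := hTX Y.root (hk.at_.sub.leaves_subset Y.root_mem_leaves)
    intro u hu a ha
    rcases List.mem_cons.1 hu with rfl | hu
    · exact (hTX a ha).trans (h3.symm.trans (h2.symm.trans h1))
    · exact FX.of_FJ (hc u hu a ha)

section scene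

variable (hE : Env Φ ε L W K V₀ ins all Lv Lg s₀ t) (h : Hd Φ ε L W K V₀ s₀ i m b T s l σ)
  {𝓔 : List CTree}

include hE h

theorem Hd.sc (hF : ∀ P ∈ 𝓔, Fu Φ ε L W K P s) (hr : 𝓔.Pairwise fun P Q => P.root ≠ Q.root) :
    Sc Φ ε L (wd W K) s (hrc K i b T s l 𝓔) (lks K i b l) := by
  obtain ⟨f1, f2, f3, f4, -⟩ := h.facts hE hF hr
  exact ⟨f1, f2, f3, f4⟩

/-- The trees of the exploration, except the first one, belong to the family. -/
theorem Hd.tail_mem {u : CTree} (hu : u ∈ l.map Prod.fst) :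
    u ∈ famT Φ ε s (hrc K i b T s l 𝓔) := by
  obtain ⟨-, f2, -, -⟩ := h.pc.rt.facts hE.pot hE.pos hE.cube hE.dep h.hi h.hs h.bg h.nl
  rw [← map_rcs (K := K) (i := i) (b := b)] at hu
  obtain ⟨x, hx, rfl⟩ := List.mem_map.1 hu
  obtain ⟨h1, h2, -⟩ := f2 x hx
  exact mem_famT_self (List.mem_append_left _ (List.mem_cons_of_mem _ hx)) (h2.trans h1.le)

/-- **The labels are joined to the source.** -/
theorem Hd.joined {G : List Gh} {es : List (Src × Src)}
    (hfam : Fam Φ ε s (famT Φ ε s (hrc K i b T s l 𝓔)) G)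
    (hG : ∀ g ∈ lgs (lks K i b l), g ∈ G)
    (hTX : ∀ a ∈ T.leaves, FX (famT Φ ε s (hrc K i b T s l 𝓔)) G es a T.root)
    (hEX : ∀ P ∈ 𝓔, ∀ a ∈ P.leaves, FX (famT Φ ε s (hrc K i b T s l 𝓔)) G es a T.root) :
    (∀ a ∈ lab (famT Φ ε s (hrc K i b T s l 𝓔)),
      FX (famT Φ ε s (hrc K i b T s l 𝓔)) G es a σ) ∧
      σ ∈ lab (famT Φ ε s (hrc K i b T s l 𝓔)) := by
  have hc := h.connX hfam (fun u hu => h.tail_mem hE hu) hG hTX
  have hT : FX (famT Φ ε s (hrc K i b T s l 𝓔)) G es T.root σ :=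
    hc T List.mem_cons_self T.root T.root_mem_leaves
  refine ⟨fun a ha => ?_, ?_⟩
  · obtain ⟨x, hx, ha'⟩ := lab_famT ha
    rcases List.mem_append.1 hx with hx | hx
    · exact hc x.R (exists_rc.2 ⟨x, hx, rfl⟩) a ha'
    · obtain ⟨P, hP, rfl⟩ := List.mem_map.1 hx
      exact (hEX P hP a ha').trans hT
  · have h1 := lastT_mem T l
    have h2 : leaf σ ∈ parts (lastT T l) := leaf_mem_parts h.pc.src
    obtain ⟨x, hx, hxR⟩ := (exists_rc (K := K) (i := i) (b := b) (s := s)).1 h1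
    have f1 := (h.facts hE (𝓔 := []) (fun P hP => absurd hP List.not_mem_nil)
      List.Pairwise.nil)
    have hx' : x ∈ hrc K i b T s l [] := List.mem_append_left _ hx
    have hxok := f1.1 x hx'
    have h3 : sig Φ ε (leaf σ) ≤ s := by
      rw [← hxR] at h2
      have h4 := parts_sig_le hE.pot hE.pos h2 hxok.ok
      obtain ⟨v, hv⟩ := hxok.ne
      exact h4.trans (((hxok.up v hv).live.sig_le).trans (f1.2.1 x hx'))
    refine mem_lab.2 ⟨leaf σ, mem_famT.2 ⟨⟨x, List.mem_append_left _ hx, ?_⟩, h3⟩, rfl⟩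
    rw [hxR]
    exact h2

end scene

/-! ### The ends -/

section ends

variable (hE : Env Φ ε L W K V₀ ins all Lv Lg s₀ t) (h : Hd Φ ε L W K V₀ s₀ i m b T s l σ)

include hE h

omit [DecidableEq ι] in
theorem Hd.hins : σ ∈ ins := hE.hins i h.hi σ h.pc.src₁ h.pc.src₀

omit [DecidableEq ι] in
/-- The first tree flies, the second one is live everywhere. -/
theorem Hd.lgT {P : CTree} (hP : Fu Φ ε L W K P s) (eT : ext Φ ε T ≤ s) : Lg false (T, P, s) := by
  refine hE.hLg (vb K h.hi b) T P s h.hs ?_ (hP.live _)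
  rw [wd_vb]
  exact (alive_iff_live hE.pot hE.pos (wb_finite hE.cube h.hi b)).2 ⟨h.pc.rt.live, eT⟩

omit [DecidableEq ι] in
theorem Hd.lgS {P : CTree} (hP : Fu Φ ε L W K P s) (eP : ext Φ ε P ≤ s) : Lg false (P, T, s) := by
  refine hE.hLg (vb K h.hi b) P T s h.hs
    ((alive_iff_live hE.pot hE.pos (wd_finite hE.cube _)).2 ⟨hP.live _, eP⟩) ?_
  rw [wd_vb]
  exact h.pc.rt.live

omit [DecidableEq ι] in
/-- The legs of a colliding pair which is live everywhere. -/
theorem Hd.lgP {x y : CTree} (hP : Fu Φ ε L W K (node x y) s) :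
    Lg false (x, y, sig Φ ε (node x y)) := by
  have hW := wd_finite hE.cube (vb K h.hi b)
  have h1 := hP.live (vb K h.hi b)
  exact hE.hLg (vb K h.hi b) x y _ (h1.sig_le.trans h.hs) (live_left hE.pot hE.pos hW h1)
    ((alive_iff_live hE.pot hE.pos hW).1 (live_right hE.pot hE.pos hW h1)).1

omit [DecidableEq ι] in
/-- The legs of the first tree. -/
theorem Hd.lgQ {x y : CTree} (hT : T = node x y) : Lg false (x, y, sig Φ ε (node x y)) := by
  have hW := wd_finite hE.cube (vb K h.hi b)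
  have h1 : M.live Φ ε L (wd W K (vb K h.hi b)) (node x y) s := by
    rw [wd_vb, ← hT]
    exact h.pc.rt.live
  exact hE.hLg (vb K h.hi b) x y _ (h1.sig_le.trans h.hs) (live_left hE.pot hE.pos hW h1)
    ((alive_iff_live hE.pot hE.pos hW).1 (live_right hE.pot hE.pos hW h1)).1

omit [DecidableEq ι] in
theorem Hd.lg2 {P Q : CTree} (hP : Fu Φ ε L W K P s) (hQ : Fu Φ ε L W K Q s)
    (eP : ext Φ ε P ≤ s) : Lg false (P, Q, s) :=
  hE.hLg (vb K h.hi b) P Q s h.hs
    ((alive_iff_live hE.pot hE.pos (wd_finite hE.cube _)).2 ⟨hP.live _, eP⟩) (hQ.live _)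

/-- A flying tree at a colliding pair. -/
theorem Hd.colS {x y : CTree} (hS : Fu Φ ε L W K (node x y) s)
    (hsx : s < ext Φ ε (node x y)) (eT : ext Φ ε T ≤ s) (hrx : T.root ≠ x.root)
    (hry : T.root ≠ y.root)
    (hc : Ctc ε (st Φ ε (node x y) s) (KU.free s (ln Φ ε T)) ∨
      Ctc ε (st Φ ε (node y x) s) (KU.free s (ln Φ ε T))) : Outp hE m := by
  have hF : ∀ P ∈ [node x y], Fu Φ ε L W K P s := by
    intro P hP; rw [List.mem_singleton] at hP; rw [hP]; exact hS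
  have hr : [node x y].Pairwise fun P Q => P.root ≠ Q.root := List.pairwise_singleton _ _
  obtain ⟨G, hG, hB⟩ := h.bfam hE hF hr (by simp)
  have hsc := h.sc hE hF hr
  have hW := wd_finite (W := W) hE.cube
  set 𝓜 := hrc K i b T s l [node x y] with h𝓜
  have mT : rc1 K i b T s ∈ 𝓜 := List.mem_append_left _ List.mem_cons_self
  have mS : fr K s (node x y) ∈ 𝓜 := List.mem_append_right _ List.mem_cons_self
  have lx := hsc.last_fst hE.pot hE.pos hW mS rfl rfl hsx
  have ly := hsc.last_snd hE.pot hE.pos hW mS rfl hsx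
  have lT : IsLast (famT Φ ε s 𝓜) T := hsc.isLast hE.pot hE.pos hW mT rfl eT
  have hsub : ∀ a b, node a b ∈ famT Φ ε s 𝓜 → a ∈ famT Φ ε s 𝓜 ∧ b ∈ famT Φ ε s 𝓜 :=
    fun a b hab => ⟨(hB.fam.sub a b hab).1, (hB.fam.sub a b hab).2.1⟩
  have e1 : (x.root, y.root) ∈ [(x.root, y.root), (x.root, T.root)] := by simp
  have e2 : (x.root, T.root) ∈ [(x.root, y.root), (x.root, T.root)] := by simp
  obtain ⟨hJ, hσ⟩ := h.joined hE (es := [(x.root, y.root), (x.root, T.root)]) hB.fam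
    (fun g hg => hG.mem_iff.2 hg) (FX.root hsub lT.mem) (fun P hP a ha => by
      rw [List.mem_singleton] at hP
      subst hP
      exact (FX.pair hsub lx.mem ly.mem e1 a ha).trans (FX.edge e2))
  have hgt : ∀ g ∈ G, g ∈ lgs (lks K i b l) := fun g hg => hG.mem_iff.1 hg
  refine ⟨s, h.hs, DetOut.irr _ G _ hB σ (h.hins hE) hσ hJ
    (Irr.tri x y T lx ly lT hS.ok hS.sig_le hsx.le eT hrx hry hc (fun g hg => ⟨?_, ?_, ?_⟩) ?_
      (Or.inl (h.lgT hE hS eT)))⟩
  · exact hsc.nd hE.pot hE.pos hW mS rfl (self_mem_parts _) (Or.inl rfl) g (hgt g hg)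
  · exact hsc.nd hE.pot hE.pos hW mS rfl (Q := node y x) (swap_mem_parts (self_mem_parts _))
      (Or.inr (by rw [ext_swap hE.pot x y]; exact hsx)) g (hgt g hg)
  · exact hsc.nd hE.pot hE.pos hW mT rfl (self_mem_parts _) (Or.inl rfl) g (hgt g hg)
  · exact fun g hg => hsc.tg hE.pot hE.pos hW mS rfl lx ly g (hgt g hg)

/-- A colliding tree and a flying tree. -/
theorem Hd.colT {x y S : CTree} (hT : T = node x y) (hsx : s < ext Φ ε T)
    (hS : Fu Φ ε L W K S s) (eS : ext Φ ε S ≤ s) (hrx : S.root ≠ x.root)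
    (hry : S.root ≠ y.root) (hc : Ctc ε (st Φ ε (node x y) s) (KU.free s (ln Φ ε S))) :
    Outp hE m := by
  have hF : ∀ P ∈ [S], Fu Φ ε L W K P s := by
    intro P hP; rw [List.mem_singleton] at hP; rw [hP]; exact hS
  have hr : [S].Pairwise fun P Q => P.root ≠ Q.root := List.pairwise_singleton _ _
  obtain ⟨G, hG, hB⟩ := h.bfam hE hF hr (by simp)
  have hsc := h.sc hE hF hr
  have hW := wd_finite (W := W) hE.cube
  set 𝓜 := hrc K i b T s l [S] with h𝓜
  have mT : rc1 K i b T s ∈ 𝓜 := List.mem_append_left _ List.mem_cons_self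
  have mS : fr K s S ∈ 𝓜 := List.mem_append_right _ List.mem_cons_self
  have hsx' : s < ext Φ ε (node x y) := hT ▸ hsx
  have hTr : T.root = x.root := by rw [hT]; rfl
  have hTl : ∀ a ∈ T.leaves, a ∈ (node x y).leaves := fun a ha => hT ▸ ha
  have lx := hsc.last_fst hE.pot hE.pos hW mT rfl hT hsx'
  have ly := hsc.last_snd hE.pot hE.pos hW mT hT hsx'
  have lS : IsLast (famT Φ ε s 𝓜) S := hsc.isLast hE.pot hE.pos hW mS rfl eS
  have hsub : ∀ a b, node a b ∈ famT Φ ε s 𝓜 → a ∈ famT Φ ε s 𝓜 ∧ b ∈ famT Φ ε s 𝓜 :=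
    fun a b hab => ⟨(hB.fam.sub a b hab).1, (hB.fam.sub a b hab).2.1⟩
  have e1 : (x.root, y.root) ∈ [(x.root, y.root), (x.root, S.root)] := by simp
  have e2 : (x.root, S.root) ∈ [(x.root, y.root), (x.root, S.root)] := by simp
  obtain ⟨hJ, hσ⟩ := h.joined hE (es := [(x.root, y.root), (x.root, S.root)]) hB.fam
    (fun g hg => hG.mem_iff.2 hg)
    (fun a ha => by
      rw [hTr]
      exact FX.pair hsub lx.mem ly.mem e1 a (hTl a ha))
    (fun P hP a ha => by
      rw [List.mem_singleton] at hP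
      subst hP
      rw [hTr]
      exact (FX.root hsub lS.mem a ha).trans (FX.edge e2).symm)
  have hgt : ∀ g ∈ G, g ∈ lgs (lks K i b l) := fun g hg => hG.mem_iff.1 hg
  have hlive : M.live Φ ε L (wb W i b) T s := h.pc.rt.live
  have hTp : node x y ∈ parts (rc1 K i b T s).R := hT ▸ self_mem_parts _
  refine ⟨s, h.hs, DetOut.irr _ G _ hB σ (h.hins hE) hσ hJ
    (Irr.tri x y S lx ly lS (hT ▸ hlive.ok) (hT ▸ hlive.sig_le) hsx'.le eS hrx hry
      (Or.inl hc) (fun g hg => ⟨?_, ?_, ?_⟩) ?_ (Or.inl (hT ▸ h.lgS hE hS eS)))⟩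
  · exact hsc.nd hE.pot hE.pos hW mT rfl hTp (Or.inr hsx') g (hgt g hg)
  · exact hsc.nd hE.pot hE.pos hW mT rfl (Q := node y x) (swap_mem_parts hTp)
      (Or.inr (by rw [ext_swap hE.pot x y]; exact hsx')) g (hgt g hg)
  · exact hsc.nd hE.pot hE.pos hW mS rfl (self_mem_parts _) (Or.inl rfl) g (hgt g hg)
  · exact fun g hg => hsc.tg hE.pot hE.pos hW mT hT lx ly g (hgt g hg)

/-- Two colliding pairs. -/
theorem Hd.col2 {x y u v : CTree} (hT : T = node x y) (hsx : s < ext Φ ε T)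
    (hS : Fu Φ ε L W K (node u v) s) (hsu : s < ext Φ ε (node u v))
    (h1 : x.root ≠ u.root) (h2 : x.root ≠ v.root) (h3 : y.root ≠ u.root) (h4 : y.root ≠ v.root)
    (hc : Ctc ε (st Φ ε (node x y) s) (st Φ ε (node u v) s)) : Outp hE m := by
  have hF : ∀ P ∈ [node u v], Fu Φ ε L W K P s := by
    intro P hP; rw [List.mem_singleton] at hP; rw [hP]; exact hS
  have hr : [node u v].Pairwise fun P Q => P.root ≠ Q.root := List.pairwise_singleton _ _
  obtain ⟨G, hG, hB⟩ := h.bfam hE hF hr (by simp)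
  have hsc := h.sc hE hF hr
  have hW := wd_finite (W := W) hE.cube
  set 𝓜 := hrc K i b T s l [node u v] with h𝓜
  have mT : rc1 K i b T s ∈ 𝓜 := List.mem_append_left _ List.mem_cons_self
  have mS : fr K s (node u v) ∈ 𝓜 := List.mem_append_right _ List.mem_cons_self
  have hsx' : s < ext Φ ε (node x y) := hT ▸ hsx
  have hTr : T.root = x.root := by rw [hT]; rfl
  have hTl : ∀ a ∈ T.leaves, a ∈ (node x y).leaves := fun a ha => hT ▸ ha
  have lx := hsc.last_fst hE.pot hE.pos hW mT rfl hT hsx'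
  have ly := hsc.last_snd hE.pot hE.pos hW mT hT hsx'
  have lu := hsc.last_fst hE.pot hE.pos hW mS rfl rfl hsu
  have lv := hsc.last_snd hE.pot hE.pos hW mS rfl hsu
  have hsub : ∀ a b, node a b ∈ famT Φ ε s 𝓜 → a ∈ famT Φ ε s 𝓜 ∧ b ∈ famT Φ ε s 𝓜 :=
    fun a b hab => ⟨(hB.fam.sub a b hab).1, (hB.fam.sub a b hab).2.1⟩
  have e1 : (x.root, y.root) ∈ [(x.root, y.root), (u.root, v.root), (x.root, u.root)] := by simp
  have e2 : (u.root, v.root) ∈ [(x.root, y.root), (u.root, v.root), (x.root, u.root)] := by simp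
  have e3 : (x.root, u.root) ∈ [(x.root, y.root), (u.root, v.root), (x.root, u.root)] := by simp
  obtain ⟨hJ, hσ⟩ := h.joined hE
    (es := [(x.root, y.root), (u.root, v.root), (x.root, u.root)]) hB.fam
    (fun g hg => hG.mem_iff.2 hg)
    (fun a ha => by
      rw [hTr]
      exact FX.pair hsub lx.mem ly.mem e1 a (hTl a ha))
    (fun P hP a ha => by
      rw [List.mem_singleton] at hP
      subst hP
      rw [hTr]
      exact (FX.pair hsub lu.mem lv.mem e2 a ha).trans (FX.edge e3).symm)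
  have hgt : ∀ g ∈ G, g ∈ lgs (lks K i b l) := fun g hg => hG.mem_iff.1 hg
  have hlive : M.live Φ ε L (wb W i b) T s := h.pc.rt.live
  have hTp : node x y ∈ parts (rc1 K i b T s).R := hT ▸ self_mem_parts _
  refine ⟨s, h.hs, DetOut.irr _ G _ hB σ (h.hins hE) hσ hJ
    (Irr.quad x y u v lx ly lu lv (hT ▸ hlive.ok) (hT ▸ hlive.sig_le) hsx'.le hS.ok hS.sig_le
      hsu.le h1 h2 h3 h4 hc (fun g hg => ⟨?_, ?_, ?_, ?_⟩) ?_ ?_ (h.lgQ hE hT) (h.lgP hE hS))⟩
  · exact hsc.nd hE.pot hE.pos hW mT rfl hTp (Or.inr hsx') g (hgt g hg)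
  · exact hsc.nd hE.pot hE.pos hW mT rfl (Q := node y x) (swap_mem_parts hTp)
      (Or.inr (by rw [ext_swap hE.pot x y]; exact hsx')) g (hgt g hg)
  · exact hsc.nd hE.pot hE.pos hW mS rfl (self_mem_parts _) (Or.inl rfl) g (hgt g hg)
  · exact hsc.nd hE.pot hE.pos hW mS rfl (Q := node v u) (swap_mem_parts (self_mem_parts _))
      (Or.inr (by rw [ext_swap hE.pot u v]; exact hsu)) g (hgt g hg)
  · exact fun g hg => hsc.tg hE.pot hE.pos hW mT hT lx ly g (hgt g hg)
  · exact fun g hg => hsc.tg hE.pot hE.pos hW mS rfl lu lv g (hgt g hg)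

/-- Two flying trees: the common part of the contact at a birth and of the grazing contact. -/
theorem Hd.two_fly {S : CTree} (hS : Fu Φ ε L W K S s) (eT : ext Φ ε T ≤ s)
    (eS : ext Φ ε S ≤ s)
    (hI : ∀ F G, IsLast F T → IsLast F S → (∀ g ∈ G, g.1.root ≠ T.root ∧ g.1.root ≠ S.root) →
      Lg false (T, S, s) → Irr Φ ε Lg F G s [(T.root, S.root)]) : Outp hE m := by
  have hF : ∀ P ∈ [S], Fu Φ ε L W K P s := by
    intro P hP; rw [List.mem_singleton] at hP; rw [hP]; exact hS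
  have hr : [S].Pairwise fun P Q => P.root ≠ Q.root := List.pairwise_singleton _ _
  obtain ⟨G, hG, hB⟩ := h.bfam hE hF hr (by simp)
  have hsc := h.sc hE hF hr
  have hW := wd_finite (W := W) hE.cube
  set 𝓜 := hrc K i b T s l [S] with h𝓜
  have mT : rc1 K i b T s ∈ 𝓜 := List.mem_append_left _ List.mem_cons_self
  have mS : fr K s S ∈ 𝓜 := List.mem_append_right _ List.mem_cons_self
  have lT : IsLast (famT Φ ε s 𝓜) T := hsc.isLast hE.pot hE.pos hW mT rfl eT
  have lS : IsLast (famT Φ ε s 𝓜) S := hsc.isLast hE.pot hE.pos hW mS rfl eS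
  have hsub : ∀ a b, node a b ∈ famT Φ ε s 𝓜 → a ∈ famT Φ ε s 𝓜 ∧ b ∈ famT Φ ε s 𝓜 :=
    fun a b hab => ⟨(hB.fam.sub a b hab).1, (hB.fam.sub a b hab).2.1⟩
  have e1 : (T.root, S.root) ∈ [(T.root, S.root)] := by simp
  obtain ⟨hJ, hσ⟩ := h.joined hE (es := [(T.root, S.root)]) hB.fam
    (fun g hg => hG.mem_iff.2 hg) (FX.root hsub lT.mem) (fun P hP a ha => by
      rw [List.mem_singleton] at hP
      subst hP
      exact (FX.root hsub lS.mem a ha).trans (FX.edge e1).symm)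
  have hgt : ∀ g ∈ G, g ∈ lgs (lks K i b l) := fun g hg => hG.mem_iff.1 hg
  exact ⟨s, h.hs, DetOut.irr _ G _ hB σ (h.hins hE) hσ hJ (hI _ G lT lS (fun g hg =>
    ⟨hsc.nd hE.pot hE.pos hW mT rfl (self_mem_parts _) (Or.inl rfl) g (hgt g hg),
      hsc.nd hE.pot hE.pos hW mS rfl (self_mem_parts _) (Or.inl rfl) g (hgt g hg)⟩)
      (h.lgT hE hS eT))⟩

/-- Three flying trees. -/
theorem Hd.three {S S₂ : CTree} (hS : Fu Φ ε L W K S s) (hS₂ : Fu Φ ε L W K S₂ s)
    (eT : ext Φ ε T < s) (eS : ext Φ ε S < s) (eS₂ : ext Φ ε S₂ ≤ s)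
    (hr : T.root ≠ S.root) (hr₂ : S₂.root ≠ S.root) (hr' : S₂.root ≠ T.root)
    (hm : Meets ε (ln Φ ε T, ln Φ ε S)) (hh : hitT ε (ln Φ ε T, ln Φ ε S) = s)
    (hc : Ctc ε (KU.free s (ln Φ ε S)) (KU.free s (ln Φ ε S₂))) : Outp hE m := by
  have hF : ∀ P ∈ [S, S₂], Fu Φ ε L W K P s := by
    intro P hP
    rcases List.mem_cons.1 hP with rfl | hP
    · exact hS
    · rw [List.mem_singleton] at hP; rw [hP]; exact hS₂
  have hrr : [S, S₂].Pairwise fun P Q => P.root ≠ Q.root := List.pairwise_pair.2 hr₂.symm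
  obtain ⟨G, hG, hB⟩ := h.bfam hE hF hrr (by simp)
  have hsc := h.sc hE hF hrr
  have hW := wd_finite (W := W) hE.cube
  set 𝓜 := hrc K i b T s l [S, S₂] with h𝓜
  have mT : rc1 K i b T s ∈ 𝓜 := List.mem_append_left _ List.mem_cons_self
  have mS : fr K s S ∈ 𝓜 := List.mem_append_right _ List.mem_cons_self
  have mS₂ : fr K s S₂ ∈ 𝓜 :=
    List.mem_append_right _ (List.mem_cons_of_mem _ List.mem_cons_self)
  have lT : IsLast (famT Φ ε s 𝓜) T := hsc.isLast hE.pot hE.pos hW mT rfl eT.le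
  have lS : IsLast (famT Φ ε s 𝓜) S := hsc.isLast hE.pot hE.pos hW mS rfl eS.le
  have lS₂ : IsLast (famT Φ ε s 𝓜) S₂ := hsc.isLast hE.pot hE.pos hW mS₂ rfl eS₂
  have hsub : ∀ a b, node a b ∈ famT Φ ε s 𝓜 → a ∈ famT Φ ε s 𝓜 ∧ b ∈ famT Φ ε s 𝓜 :=
    fun a b hab => ⟨(hB.fam.sub a b hab).1, (hB.fam.sub a b hab).2.1⟩
  have e1 : (T.root, S.root) ∈ [(T.root, S.root), (S.root, S₂.root)] := by simp
  have e2 : (S.root, S₂.root) ∈ [(T.root, S.root), (S.root, S₂.root)] := by simp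
  obtain ⟨hJ, hσ⟩ := h.joined hE (es := [(T.root, S.root), (S.root, S₂.root)]) hB.fam
    (fun g hg => hG.mem_iff.2 hg) (FX.root hsub lT.mem) (fun P hP a ha => by
      rcases List.mem_cons.1 hP with rfl | hP
      · exact (FX.root hsub lS.mem a ha).trans (FX.edge e1).symm
      · rw [List.mem_singleton] at hP
        subst hP
        exact (FX.root hsub lS₂.mem a ha).trans ((FX.edge e2).symm.trans (FX.edge e1).symm))
  have hgt : ∀ g ∈ G, g ∈ lgs (lks K i b l) := fun g hg => hG.mem_iff.1 hg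
  exact ⟨s, h.hs, DetOut.irr _ G _ hB σ (h.hins hE) hσ hJ
    (Irr.trip T S S₂ lT lS lS₂ eT eS eS₂ hr hr' hr₂ hm hh hc (fun g hg =>
    ⟨hsc.nd hE.pot hE.pos hW mT rfl (self_mem_parts _) (Or.inl rfl) g (hgt g hg),
      hsc.nd hE.pot hE.pos hW mS rfl (self_mem_parts _) (Or.inl rfl) g (hgt g hg),
      hsc.nd hE.pot hE.pos hW mS₂ rfl (self_mem_parts _) (Or.inl rfl) g (hgt g hg)⟩)
      (h.lgT hE hS eT.le) (h.lg2 hE hS hS₂ eS.le))⟩

/-- A flying tree at the entrance of a pair. -/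
theorem Hd.ent {x y : CTree} (hx : Fu Φ ε L W K x s) (hy : Fu Φ ε L W K y s)
    (hok : ok Φ ε (node x y)) (hsig : sig Φ ε (node x y) = s) (eT : ext Φ ε T ≤ s)
    (hrx : T.root ≠ x.root) (hry : T.root ≠ y.root)
    (hc : Ctc ε (KU.free s (ln Φ ε T)) (KU.free s (ln Φ ε x))) : Outp hE m := by
  have hxy : x.root ≠ y.root := fun hcon =>
    disjoint_left.1 hok.2.2.1 x.root_mem_leaves (hcon ▸ y.root_mem_leaves)
  have hF : ∀ P ∈ [x, y], Fu Φ ε L W K P s := by
    intro P hP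
    rcases List.mem_cons.1 hP with rfl | hP
    · exact hx
    · rw [List.mem_singleton] at hP; rw [hP]; exact hy
  have hrr : [x, y].Pairwise fun P Q => P.root ≠ Q.root := List.pairwise_pair.2 hxy
  obtain ⟨G, hG, hB⟩ := h.bfam hE hF hrr (by simp)
  have hsc := h.sc hE hF hrr
  have hW := wd_finite (W := W) hE.cube
  set 𝓜 := hrc K i b T s l [x, y] with h𝓜
  have mT : rc1 K i b T s ∈ 𝓜 := List.mem_append_left _ List.mem_cons_self
  have mx : fr K s x ∈ 𝓜 := List.mem_append_right _ List.mem_cons_self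
  have my : fr K s y ∈ 𝓜 :=
    List.mem_append_right _ (List.mem_cons_of_mem _ List.mem_cons_self)
  have ex : ext Φ ε x ≤ s := by rw [← hsig]; exact hok.2.2.2.2.2.1.le
  have ey : ext Φ ε y ≤ s := by rw [← hsig]; exact hok.2.2.2.2.2.2.le
  have lT : IsLast (famT Φ ε s 𝓜) T := hsc.isLast hE.pot hE.pos hW mT rfl eT
  have lx : IsLast (famT Φ ε s 𝓜) x := hsc.isLast hE.pot hE.pos hW mx rfl ex
  have ly : IsLast (famT Φ ε s 𝓜) y := hsc.isLast hE.pot hE.pos hW my rfl ey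
  have hsub : ∀ a b, node a b ∈ famT Φ ε s 𝓜 → a ∈ famT Φ ε s 𝓜 ∧ b ∈ famT Φ ε s 𝓜 :=
    fun a b hab => ⟨(hB.fam.sub a b hab).1, (hB.fam.sub a b hab).2.1⟩
  have e1 : (x.root, y.root) ∈ [(x.root, y.root), (x.root, T.root)] := by simp
  have e2 : (x.root, T.root) ∈ [(x.root, y.root), (x.root, T.root)] := by simp
  obtain ⟨hJ, hσ⟩ := h.joined hE (es := [(x.root, y.root), (x.root, T.root)]) hB.fam
    (fun g hg => hG.mem_iff.2 hg) (FX.root hsub lT.mem) (fun P hP a ha => by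
      rcases List.mem_cons.1 hP with rfl | hP
      · exact (FX.root hsub lx.mem a ha).trans (FX.edge e2)
      · rw [List.mem_singleton] at hP
        subst hP
        exact (FX.root hsub ly.mem a ha).trans ((FX.edge e1).symm.trans (FX.edge e2)))
  have hgt : ∀ g ∈ G, g ∈ lgs (lks K i b l) := fun g hg => hG.mem_iff.1 hg
  refine ⟨s, h.hs, DetOut.irr _ G _ hB σ (h.hins hE) hσ hJ
    (Irr.tri x y T lx ly lT hok hsig.le (hsig ▸ (sig_lt_ext hE.pot hE.pos hok).le) eT hrx hry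
      (Or.inl ?_) (fun g hg => ⟨?_, ?_, ?_⟩) (fun g hg _ => ?_)
      (Or.inr ⟨h.lgT hE hx eT, h.lg2 hE hx hy ex, hc⟩))⟩
  · rw [st_before hE.pot hE.pos hok hsig.ge]
    exact hc.symm
  · exact hsc.nd hE.pot hE.pos hW mx rfl (self_mem_parts _) (Or.inl rfl) g (hgt g hg)
  · exact hsc.nd hE.pot hE.pos hW my rfl (self_mem_parts _) (Or.inl rfl) g (hgt g hg)
  · exact hsc.nd hE.pot hE.pos hW mT rfl (self_mem_parts _) (Or.inl rfl) g (hgt g hg)
  · have h1 := hgt g hg
    unfold lgs at h1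
    obtain ⟨z, hz, rfl⟩ := List.mem_map.1 h1
    rw [hsig]
    exact (hsc.lk z hz).2.le

/-- Two flying trees, the second one at a colliding pair. -/
theorem Hd.gtri {S x y : CTree} (hS : Fu Φ ε L W K S s) (hS₂ : Fu Φ ε L W K (node x y) s)
    (hsx : s < ext Φ ε (node x y)) (eT : ext Φ ε T ≤ s) (eS : ext Φ ε S ≤ s)
    (hr : T.root ≠ S.root) (h1 : S.root ≠ x.root) (h2 : S.root ≠ y.root)
    (h3 : T.root ≠ x.root) (h4 : T.root ≠ y.root)
    (hc : Ctc ε (KU.free s (ln Φ ε T)) (KU.free s (ln Φ ε S)))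
    (hc₂ : Ctc ε (st Φ ε (node x y) s) (KU.free s (ln Φ ε S))) : Outp hE m := by
  have hF : ∀ P ∈ [S, node x y], Fu Φ ε L W K P s := by
    intro P hP
    rcases List.mem_cons.1 hP with rfl | hP
    · exact hS
    · rw [List.mem_singleton] at hP; rw [hP]; exact hS₂
  have hrr : [S, node x y].Pairwise fun P Q => P.root ≠ Q.root := List.pairwise_pair.2 h1
  obtain ⟨G, hG, hB⟩ := h.bfam' hE hF hrr (by simp) List.mem_cons_self eT eS hc
  have hsc := h.sc hE hF hrr
  have hW := wd_finite (W := W) hE.cube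
  set 𝓜 := hrc K i b T s l [S, node x y] with h𝓜
  have mT : rc1 K i b T s ∈ 𝓜 := List.mem_append_left _ List.mem_cons_self
  have mS : fr K s S ∈ 𝓜 := List.mem_append_right _ List.mem_cons_self
  have mD : fr K s (node x y) ∈ 𝓜 :=
    List.mem_append_right _ (List.mem_cons_of_mem _ List.mem_cons_self)
  have lT : IsLast (famT Φ ε s 𝓜) T := hsc.isLast hE.pot hE.pos hW mT rfl eT
  have lS : IsLast (famT Φ ε s 𝓜) S := hsc.isLast hE.pot hE.pos hW mS rfl eS
  have lx := hsc.last_fst hE.pot hE.pos hW mD rfl rfl hsx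
  have ly := hsc.last_snd hE.pot hE.pos hW mD rfl hsx
  have hsub : ∀ a b, node a b ∈ famT Φ ε s 𝓜 → a ∈ famT Φ ε s 𝓜 ∧ b ∈ famT Φ ε s 𝓜 :=
    fun a b hab => ⟨(hB.fam.sub a b hab).1, (hB.fam.sub a b hab).2.1⟩
  have e1 : (x.root, y.root) ∈ [(x.root, y.root), (x.root, S.root)] := by simp
  have e2 : (x.root, S.root) ∈ [(x.root, y.root), (x.root, S.root)] := by simp
  have hgT : (T, S, s) ∈ G := hG.mem_iff.2 List.mem_cons_self
  have e3 : FX (famT Φ ε s 𝓜) G [(x.root, y.root), (x.root, S.root)] S.root T.root :=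
    (FX.ghost (g := (T, S, s)) hgT).symm
  obtain ⟨hJ, hσ⟩ := h.joined hE (es := [(x.root, y.root), (x.root, S.root)]) hB.fam
    (fun g hg => hG.mem_iff.2 (List.mem_cons_of_mem _ hg)) (FX.root hsub lT.mem)
    (fun P hP a ha => by
      rcases List.mem_cons.1 hP with rfl | hP
      · exact (FX.root hsub lS.mem a ha).trans e3
      · rw [List.mem_singleton] at hP
        subst hP
        exact (FX.pair hsub lx.mem ly.mem e1 a ha).trans ((FX.edge e2).trans e3))
  have hgt : ∀ g ∈ G, g = (T, S, s) ∨ g ∈ lgs (lks K i b l) :=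
    fun g hg => List.mem_cons.1 (hG.mem_iff.1 hg)
  refine ⟨s, h.hs, DetOut.irr _ G _ hB σ (h.hins hE) hσ hJ
    (Irr.tri x y S lx ly lS hS₂.ok hS₂.sig_le hsx.le eS h1 h2 (Or.inl hc₂)
      (fun g hg => ?_) (fun g hg hgr => ?_) (Or.inl (h.lg2 hE hS hS₂ eS)))⟩
  · rcases hgt g hg with rfl | hg
    · exact ⟨h3, h4, hr⟩
    · exact ⟨hsc.nd hE.pot hE.pos hW mD rfl (self_mem_parts _) (Or.inl rfl) g hg,
        hsc.nd hE.pot hE.pos hW mD rfl (Q := node y x) (swap_mem_parts (self_mem_parts _))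
          (Or.inr (by rw [ext_swap hE.pot x y]; exact hsx)) g hg,
        hsc.nd hE.pot hE.pos hW mS rfl (self_mem_parts _) (Or.inl rfl) g hg⟩
  · rcases hgt g hg with rfl | hg
    · exact absurd hgr (by
        rintro (h5 | h5)
        · exact h1 h5
        · exact h2 h5)
    · exact hsc.tg hE.pot hE.pos hW mD rfl lx ly g hg hgr

/-- Two flying trees with a common particle. -/
theorem Hd.cyc {S : CTree} (hS : Fu Φ ε L W K S s) (eT : ext Φ ε T ≤ s) (eS : ext Φ ε S ≤ s)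
    (hc : Ctc ε (KU.free s (ln Φ ε T)) (KU.free s (ln Φ ε S)))
    (hd : ¬Disjoint T.leaves S.leaves) : Outp hE m := by
  have hF : ∀ P ∈ [S], Fu Φ ε L W K P s := by
    intro P hP; rw [List.mem_singleton] at hP; rw [hP]; exact hS
  have hr : [S].Pairwise fun P Q => P.root ≠ Q.root := List.pairwise_singleton _ _
  obtain ⟨G, hG, hB⟩ := h.bfam' hE hF hr (by simp) List.mem_cons_self eT eS hc
  have hsc := h.sc hE hF hr
  have hW := wd_finite (W := W) hE.cube
  set 𝓜 := hrc K i b T s l [S] with h𝓜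
  have mT : rc1 K i b T s ∈ 𝓜 := List.mem_append_left _ List.mem_cons_self
  have mS : fr K s S ∈ 𝓜 := List.mem_append_right _ List.mem_cons_self
  have lT : IsLast (famT Φ ε s 𝓜) T := hsc.isLast hE.pot hE.pos hW mT rfl eT
  have lS : IsLast (famT Φ ε s 𝓜) S := hsc.isLast hE.pot hE.pos hW mS rfl eS
  have hsub : ∀ a b, node a b ∈ famT Φ ε s 𝓜 → a ∈ famT Φ ε s 𝓜 ∧ b ∈ famT Φ ε s 𝓜 :=
    fun a b hab => ⟨(hB.fam.sub a b hab).1, (hB.fam.sub a b hab).2.1⟩
  have hgT : (T, S, s) ∈ G := hG.mem_iff.2 List.mem_cons_self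
  obtain ⟨hJ, hσ⟩ := h.joined hE (es := []) hB.fam
    (fun g hg => hG.mem_iff.2 (List.mem_cons_of_mem _ hg)) (FX.root hsub lT.mem)
    (fun P hP a ha => by
      rw [List.mem_singleton] at hP
      subst hP
      exact (FX.root hsub lS.mem a ha).trans (FX.ghost (g := (T, P, s)) hgT).symm)
  obtain ⟨G₁, G₂, hGe, -⟩ := exists_split hG
  have hfam' : Fam Φ ε s (famT Φ ε s 𝓜) (G₁ ++ G₂) := by
    have h1 := hB.fam
    rw [hGe] at h1
    exact h1.sublist sublist_split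
  obtain ⟨a, ha1, ha2⟩ := Set.not_disjoint_iff.1 hd
  refine ⟨s, h.hs, DetOut.closed _ G hB σ (h.hins hE) hσ (fun a ha => (hJ a ha).to_FJ)
    (Or.inr ⟨G₁, (T, S, s), G₂, hGe, ?_⟩)⟩
  exact (FJ.root hfam' lT.mem a ha1).symm.trans (FJ.root hfam' lS.mem a ha2)

end ends

end Vale.Agent.P119.IND
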