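import Vale.Agent.P119.IND.Conn
import Vale.Agent.P119.IND.LinkCases

/-!
# P119, block IND: the outputs of the deterministic analysis (`helper498`)

* `BFam`: a family of bounded size, with labels in `all`, whose collisions take place (`Lv`) before
  the time `s`, and whose ghosts are contacts of two histories which are alive together (`Lg`);
* `Irr Lg F G s es`: the irregular final contacts at the time `s`, with their edges `es`:
  `tri` (a flying third body at a colliding pair), `quad` (two colliding pairs in contact), `trip` (three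
  flying trees at the entrance of two of them), `born` (contact of two flying trees at the end of a
  collision or at a birth), `graze`;
* `DetOut`: a long clean chain, a closed connected family, or a connected family with an irregular
  final contact.
-/

open MeasureTheory Filter Topology Set
open scoped ENNReal NNReal

noncomputable section

namespace Vale.Agent.P119.IND

open KU M M.CTree TL

variable {Φ : E3 → ℝ} {ε : ℝ} {L : ℕ} {κ : Type*} {𝒲 : κ → Set Src}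

/-- A family of bounded size. -/
structure BFam (Φ : E3 → ℝ) (ε s : ℝ) (N : ℕ) (all : Set Src) (Lv : CTree → Prop)
    (Lg : Bool → Gh → Prop) (F : Finset CTree) (G : List Gh) : Prop where
  fam : Fam Φ ε s F G
  cardF : F.card ≤ N
  lenG : G.length ≤ N
  sub : ∀ a ∈ lab F, a ∈ all
  live : ∀ a b, node a b ∈ F → sig Φ ε (node a b) < s ∧ Lv (node a b)
  gal : ∀ g ∈ G, Lg false g ∧ Lg true g

/-- The irregular final contacts at the time `s`, with their edges. -/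
inductive Irr (Φ : E3 → ℝ) (ε : ℝ) (Lg : Bool → Gh → Prop) (F : Finset CTree) (G : List Gh) (s : ℝ) :
    List (Src × Src) → Prop
  /-- the flying tree `C` is in contact with one of the particles of the colliding pair `x`, `y` -/
  | tri (x y C : CTree) (hx : IsLast F x) (hy : IsLast F y) (hC : IsLast F C)
      (hok : ok Φ ε (node x y)) (h1 : sig Φ ε (node x y) ≤ s) (h2 : s ≤ ext Φ ε (node x y))
      (eC : ext Φ ε C ≤ s) (hCx : C.root ≠ x.root) (hCy : C.root ≠ y.root)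
      (hc : Ctc ε (st Φ ε (node x y) s) (KU.free s (ln Φ ε C)) ∨
        Ctc ε (st Φ ε (node y x) s) (KU.free s (ln Φ ε C)))
      (nd : ∀ g ∈ G, g.1.root ≠ x.root ∧ g.1.root ≠ y.root ∧ g.1.root ≠ C.root)
      (tg : ∀ g ∈ G, g.2.1.root = x.root ∨ g.2.1.root = y.root →
        g.2.2 ≤ sig Φ ε (node x y))
      (lC : Lg false (C, node x y, s) ∨ (Lg false (C, x, s) ∧ Lg false (x, y, s) ∧
        Ctc ε (KU.free s (ln Φ ε C)) (KU.free s (ln Φ ε x)))) :
      Irr Φ ε Lg F G s [(x.root, y.root), (x.root, C.root)]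
  /-- the colliding pairs `x`, `y` and `u`, `v` are in contact -/
  | quad (x y u v : CTree) (hx : IsLast F x) (hy : IsLast F y) (hu : IsLast F u)
      (hv : IsLast F v) (hok : ok Φ ε (node x y)) (h1 : sig Φ ε (node x y) ≤ s)
      (h2 : s ≤ ext Φ ε (node x y)) (hok' : ok Φ ε (node u v)) (h1' : sig Φ ε (node u v) ≤ s)
      (h2' : s ≤ ext Φ ε (node u v)) (r1 : x.root ≠ u.root) (r2 : x.root ≠ v.root)
      (r3 : y.root ≠ u.root) (r4 : y.root ≠ v.root)
      (hc : Ctc ε (st Φ ε (node x y) s) (st Φ ε (node u v) s))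
      (nd : ∀ g ∈ G, g.1.root ≠ x.root ∧ g.1.root ≠ y.root ∧ g.1.root ≠ u.root ∧
        g.1.root ≠ v.root)
      (tg : ∀ g ∈ G, g.2.1.root = x.root ∨ g.2.1.root = y.root →
        g.2.2 ≤ sig Φ ε (node x y))
      (tg' : ∀ g ∈ G, g.2.1.root = u.root ∨ g.2.1.root = v.root →
        g.2.2 ≤ sig Φ ε (node u v))
      (q : Lg false (x, y, sig Φ ε (node x y))) (q' : Lg false (u, v, sig Φ ε (node u v))) :
      Irr Φ ε Lg F G s [(x.root, y.root), (u.root, v.root), (x.root, u.root)]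
  /-- three flying trees, at the entrance of the first two -/
  | trip (x y C : CTree) (hx : IsLast F x) (hy : IsLast F y) (hC : IsLast F C)
      (ex : ext Φ ε x < s) (ey : ext Φ ε y < s) (eC : ext Φ ε C ≤ s) (hxy : x.root ≠ y.root)
      (hCx : C.root ≠ x.root) (hCy : C.root ≠ y.root) (hm : Meets ε (ln Φ ε x, ln Φ ε y))
      (hh : hitT ε (ln Φ ε x, ln Φ ε y) = s)
      (hc : Ctc ε (KU.free s (ln Φ ε y)) (KU.free s (ln Φ ε C)))
      (nd : ∀ g ∈ G, g.1.root ≠ x.root ∧ g.1.root ≠ y.root ∧ g.1.root ≠ C.root)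
      (l₁ : Lg false (x, y, s)) (l₂ : Lg false (y, C, s)) :
      Irr Φ ε Lg F G s [(x.root, y.root), (y.root, C.root)]
  /-- two flying trees, at the end of a collision or at a birth -/
  | born (A B : CTree) (hA : IsLast F A) (hB : IsLast F B) (hr : A.root ≠ B.root)
      (hs : s = max (ext Φ ε A) (ext Φ ε B))
      (hc : Ctc ε (KU.free s (ln Φ ε A)) (KU.free s (ln Φ ε B)))
      (nd : ∀ g ∈ G, g.1.root ≠ A.root ∧ g.1.root ≠ B.root) (l : Lg false (A, B, s)) :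
      Irr Φ ε Lg F G s [(A.root, B.root)]
  /-- two flying trees, grazing -/
  | graze (A B : CTree) (hA : IsLast F A) (hB : IsLast F B) (hr : A.root ≠ B.root)
      (hg : Graze Φ ε A B s) (nd : ∀ g ∈ G, g.1.root ≠ A.root ∧ g.1.root ≠ B.root)
      (l : Lg false (A, B, s)) :
      Irr Φ ε Lg F G s [(A.root, B.root)]

/-- **The outputs.** `V₀` is the world of the ordinary sources of the clean chains, `ins` are the
inserted sources, `all` is the biggest world. -/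
inductive DetOut (hΦ : IsPotential Φ) (hε : 0 < ε) (L : ℕ) (V₀ ins all : Set Src)
    (Lv : CTree → Prop) (Lg : Bool → Gh → Prop) (t : ℝ) (m N : ℕ) (s : ℝ) : Prop
  /-- a long clean chain -/
  | clean (σ : Src) (hσ : σ ∈ ins) (h : HasClean hΦ hε.ne' L t (t + 1) m V₀ σ.1 σ.2.1)
  /-- a connected family, which contains two special labels or a closing ghost -/
  | closed (F : Finset CTree) (G : List Gh) (hB : BFam Φ ε s N all Lv Lg F G) (σ : Src)
      (hσ : σ ∈ ins) (hσF : σ ∈ lab F) (hJ : ∀ a ∈ lab F, FJ F G a σ)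
      (hc : (∃ y ∈ lab F, y ∉ V₀ ∧ y ≠ σ) ∨ ∃ G₁ g G₂, G = G₁ ++ g :: G₂ ∧
        FJ F (G₁ ++ G₂) g.1.root g.2.1.root)
  /-- a family with an irregular final contact, connected together with it -/
  | irr (F : Finset CTree) (G : List Gh) (es : List (Src × Src))
      (hB : BFam Φ ε s N all Lv Lg F G) (σ : Src) (hσ : σ ∈ ins) (hσF : σ ∈ lab F)
      (hJ : ∀ a ∈ lab F, FX F G es a σ) (h : Irr Φ ε Lg F G s es)

/-! ### The families of lists of records -/

theorem Lk.mono {𝓜 𝓜' : List (Rc κ)} {m : Rc κ} {Y : CTree} (h : Lk Φ ε L 𝒲 𝓜 m Y)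
    (hM : ∀ x ∈ 𝓜, x ∈ 𝓜') : Lk Φ ε L 𝒲 𝓜' m Y := by
  obtain ⟨m', h1, h2⟩ := h.tgt
  exact ⟨hM _ h.mem, h.ext, h.ne, h.free, ⟨m', hM _ h1, h2⟩, h.extY, h.ctc, h.root_ne⟩

theorem gp_of_pairwise {𝓜 : List (Rc κ)} (h : 𝓜.Pairwise (GP Φ ε L 𝒲)) :
    ∀ m ∈ 𝓜, ∀ m' ∈ 𝓜, m = m' ∨ GP Φ ε L 𝒲 m m' := by
  intro m hm m' hm'
  have h1 : 𝓜.Pairwise fun m m' => m = m' ∨ GP Φ ε L 𝒲 m m' := h.imp fun h => Or.inr h
  have h2 : Std.Symm fun m m' : Rc κ => m = m' ∨ GP Φ ε L 𝒲 m m' :=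
    ⟨fun _ _ h => Or.imp Eq.symm GP.symm h⟩
  exact List.Pairwise.forall_of_forall (R := fun m m' : Rc κ => m = m' ∨ GP Φ ε L 𝒲 m m')
    (fun x _ => Or.inl rfl) h1 hm hm'

theorem isChain_and {α : Type*} {R S : α → α → Prop} {l : List α} (h : l.IsChain R)
    (h' : l.IsChain S) : l.IsChain fun a b => R a b ∧ S a b := by
  rw [List.isChain_iff_getElem] at *
  exact fun i hi => ⟨h i hi, h' i hi⟩

/-- **The bounded family of a list of records.** -/
theorem exists_bfam (hΦ : IsPotential Φ) (hε : 0 < ε) (hW : ∀ v, (𝒲 v).Finite) {s : ℝ}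
    {all : Set Src} (hall : ∀ v, 𝒲 v ⊆ all) {Lv : CTree → Prop}
    (hLv : ∀ P v, lives Φ ε L (𝒲 v) P (sig Φ ε P) → Lv P) {Lg : Bool → Gh → Prop}
    (hLg : ∀ v A B r, r ≤ s → alive Φ ε L (𝒲 v) A r → alive Φ ε L (𝒲 v) B r →
      Lg false (A, B, r))
    (hLd : ∀ v A B r, r ≤ s → ¬(live Φ ε L (𝒲 v) A r ↔ live Φ ε L (𝒲 v) B r) →
      Lg true (A, B, r))
    (𝓜 : List (Rc κ)) (hok : ∀ m ∈ 𝓜, m.Ok Φ ε L 𝒲) (hr : ∀ m ∈ 𝓜, m.r ≤ s)
    (hgp : 𝓜.Pairwise (GP Φ ε L 𝒲))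
    (𝓛 : List (Rc κ × CTree)) (hL : ∀ x ∈ 𝓛, Lk Φ ε L 𝒲 𝓜 x.1 x.2)
    (hLp : 𝓛.Pairwise fun x y => GP Φ ε L 𝒲 x.1 y.1) (hs : ∀ x ∈ 𝓛, x.1.r < s)
    (Pa : List (Rc κ)) (hP : ∀ m ∈ Pa, m ∈ 𝓜 ∧ m.r = s ∧ ext Φ ε m.R ≤ s)
    (hPp : Pa.Pairwise (GP Φ ε L 𝒲))
    (hPc : Pa.IsChain fun a b => Ctc ε (KU.free s (ln Φ ε a.R)) (KU.free s (ln Φ ε b.R)))
    (hPS : Pa.IsChain fun a b => a.S ≠ b.S)
    {n : ℕ} (hn : 𝓜.length ≤ n) (hn' : 𝓛.length + (pg s Pa).length ≤ n) :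
    ∃ G : List Gh, G.Perm (lgs 𝓛 ++ pg s Pa) ∧
      BFam Φ ε s (n * 2 ^ (L + 2)) all Lv Lg (famT Φ ε s 𝓜) G := by
  obtain ⟨G₁, h1, h2⟩ := exists_fam hΦ hε hW 𝓜 hok (gp_of_pairwise hgp) 𝓛 hL hLp hs le_rfl Pa hP
    hPp hPc
  refine ⟨G₁ ++ pg s Pa, h1.append_right _, h2, famT_card_le (fun m hm => (hok m hm).depth) hn,
    ?_, ?_, ?_, ?_⟩
  · have h3 : (G₁ ++ pg s Pa).length ≤ n := by
      rw [List.length_append, h1.length_eq]
      unfold lgs
      rw [List.length_map]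
      exact hn'
    exact h3.trans (Nat.le_mul_of_pos_right n (by positivity))
  · intro a ha
    obtain ⟨m, hm, ha'⟩ := lab_famT ha
    obtain ⟨v, hv⟩ := (hok m hm).ne
    exact hall v (((hok m hm).up v hv).live.sub ha')
  · intro a b hab
    obtain ⟨m, hm, h3, v, -, h4⟩ := famT_live hΦ hε hok hab
    exact ⟨h3.trans_le (hr m hm), hLv _ v h4⟩
  · have hal : ∀ {v : κ} {R : CTree} {r : ℝ}, Free Φ ε L (𝒲 v) R r → ext Φ ε R ≤ r →
        alive Φ ε L (𝒲 v) R r := fun {v R r} hf he =>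
      (alive_iff_live hΦ hε (hW v)).2 ⟨hf.live ((sig_le_ext hΦ hε hf.ok).trans he), he⟩
    intro g hg
    rcases List.mem_append.1 hg with hg | hg
    · have hg' := h1.mem_iff.1 hg
      unfold lgs at hg'
      obtain ⟨x, hx, rfl⟩ := List.mem_map.1 hg'
      have h3 := hL x hx
      obtain ⟨v, hv⟩ := (hok _ h3.mem).ne
      refine ⟨hLg v _ _ _ (hs x hx).le (hal ((hok _ h3.mem).up v hv).free h3.ext)
        (hal (h3.free v) h3.extY), ?_⟩
      obtain ⟨v', hv'⟩ := (ne_univ_iff_exists_notMem _).1 h3.ne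
      exact hLd v' _ _ _ (hs x hx).le fun hcon => (hok _ h3.mem).down v' hv' (hcon.2
        ((alive_iff_live hΦ hε (hW v')).1 (hal (h3.free v') h3.extY)).1)
    · obtain ⟨a, ha, b, hb, ⟨h3, h3S⟩, rfl⟩ := mem_pg (isChain_and (List.Pairwise.isChain hPp) hPS) hg
      obtain ⟨a1, a2, a3⟩ := hP a ha
      obtain ⟨b1, b2, b3⟩ := hP b hb
      refine ⟨?_, ?_⟩
      swap
      · have key : ∀ c d : Rc κ, c ∈ 𝓜 → d ∈ 𝓜 → c.r = s → d.r = s → ∀ v, v ∈ c.S → v ∉ d.S →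
            live Φ ε L (𝒲 v) c.R s ∧ ¬live Φ ε L (𝒲 v) d.R s := by
          intro c d hc hd hcr hdr v h4 h5
          exact ⟨hcr ▸ ((hok c hc).up v h4).live, hdr ▸ (hok d hd).down v h5⟩
        have h4 : (∃ v, v ∈ a.S ∧ v ∉ b.S) ∨ ∃ v, v ∈ b.S ∧ v ∉ a.S := by
          by_contra hcon
          push Not at hcon
          exact h3S (Set.ext fun v => ⟨hcon.1 v, hcon.2 v⟩)
        rcases h4 with ⟨v, h4, h5⟩ | ⟨v, h4, h5⟩
        · obtain ⟨k1, k2⟩ := key a b a1 b1 a2 b2 v h4 h5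
          exact hLd v _ _ _ le_rfl fun hcon => k2 (hcon.1 k1)
        · obtain ⟨k1, k2⟩ := key b a b1 a1 b2 a2 v h4 h5
          exact hLd v _ _ _ le_rfl fun hcon => k2 (hcon.2 k1)
      rcases h3 with ⟨h3, -⟩ | ⟨h3, -⟩ | ⟨⟨v, h4, h5⟩, -⟩
      · obtain ⟨v, hv⟩ := (hok _ b1).ne
        refine hLg v _ _ _ le_rfl (hal (b2 ▸ h3 v) a3) (hal (b2 ▸ ((hok _ b1).up v hv).free) b3)
      · obtain ⟨v, hv⟩ := (hok _ a1).ne
        refine hLg v _ _ _ le_rfl (hal (a2 ▸ ((hok _ a1).up v hv).free) a3) (hal (a2 ▸ h3 v) b3)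
      · exact hLg v _ _ _ le_rfl (hal (a2 ▸ ((hok _ a1).up v h4).free) a3)
          (hal (b2 ▸ ((hok _ b1).up v h5).free) b3)

end Vale.Agent.P119.IND
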