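import Vale.Agent.P119.IND.Conn

/-!
# P119, block IND: a clean chain from a regular exploration (`helper472`)

`RT.hasClean`: a regular exploration with disjoint trees, whose sources are in `V₀` except for one
source `σ` of the last tree, contains a clean chain from `σ`.
-/

open MeasureTheory Filter Topology Set
open scoped ENNReal NNReal

noncomputable section

namespace Vale.Agent.P119.IND

open KU M M.CTree TL

variable {Φ : E3 → ℝ} {ε : ℝ} {L : ℕ} {w : Bool → Set Src} {b : Bool} {T : CTree} {s : ℝ}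
  {l : List (CTree × ℝ × CTree)}

theorem RT.lt_of_mem (h : RT Φ ε L w b T s l) : ∀ x ∈ l, x.2.1 < s := by
  induction h with
  | stop => intro x hx; cases hx
  | step _ _ hr _ _ _ _ _ _ ih =>
    intro x hx
    rcases List.mem_cons.1 hx with rfl | hx
    · exact hr
    · exact (ih x hx).trans hr

theorem RT.decr (h : RT Φ ε L w b T s l) : l.Pairwise fun x y => y.2.1 < x.2.1 := by
  induction h with
  | stop => exact List.Pairwise.nil
  | step _ _ _ _ _ _ _ _ ht ih =>
    exact List.pairwise_cons.2 ⟨fun x hx => ht.lt_of_mem x hx, ih⟩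

theorem RT.okd (h : RT Φ ε L w b T s l) : ∀ u ∈ T :: l.map Prod.fst, ok Φ ε u ∧ u.depth ≤ L := by
  induction h with
  | stop hl _ =>
    intro u hu
    rw [List.map_nil, List.mem_singleton] at hu
    subst hu
    exact ⟨hl.ok, hl.depth⟩
  | step hl _ _ _ _ _ _ _ _ ih =>
    intro u hu
    rcases List.mem_cons.1 hu with rfl | hu
    · exact ⟨hl.ok, hl.depth⟩
    · exact ih u hu

/-- The links of a regular exploration. -/
theorem RT.link (h : RT Φ ε L w b T s l) : ∀ (j : ℕ) (hj : j < l.length),
    RegLink Φ ε ((T :: l.map Prod.fst)[j]'(by simp; omega)) (l[j]).1 (l[j]).2.2 (l[j]).2.1 := by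
  induction h with
  | stop => intro j hj; exact absurd hj (Nat.not_lt_zero j)
  | step _ _ _ _ _ _ hk _ _ ih =>
    intro j hj
    cases j with
    | zero => exact hk
    | succ j => exact ih j (Nat.lt_of_succ_lt_succ hj)

theorem getElem_trees {j : ℕ} (hj : j < l.length) :
    (T :: l.map Prod.fst)[j + 1]'(by simp; omega) = (l[j]).1 := by
  rw [List.getElem_cons_succ, List.getElem_map]

theorem lastT_eq : ∀ (T : CTree) (l : List (CTree × ℝ × CTree)),
    lastT T l = (T :: l.map Prod.fst)[l.length]'(by simp)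
  | _, [] => rfl
  | _, (R, _, _) :: l => lastT_eq R l

/-- **A clean chain from a regular exploration.** -/
theorem RT.hasClean (hΦ : IsPotential Φ) (hε : 0 < ε) (h : RT Φ ε L w b T s l) {V₀ : Set Src}
    {σ : Src} {t : ℝ} (hσ : σ ∈ (lastT T l).leaves)
    (hd : (T :: l.map Prod.fst).Pairwise fun a b => Disjoint a.leaves b.leaves)
    (hV : ∀ u ∈ T :: l.map Prod.fst, ∀ x ∈ u.leaves, x ∉ V₀ → x = σ) (hst : s ≤ t) :
    HasClean hΦ hε.ne' L t (t + 1) l.length V₀ σ.1 σ.2.1 := by
  set U : List CTree := T :: l.map Prod.fst with hU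
  have hlen : U.length = l.length + 1 := by rw [hU]; simp
  set m := l.length with hm
  have hidx : ∀ k, m - k < U.length := fun k => by omega
  set R : ℕ → CTree := fun k => U[m - k]'(hidx k) with hR
  set Y : ℕ → CTree := fun k => if hk : 0 < k ∧ k ≤ m then
    (l[m - k]'(by omega)).2.2 else leaf σ with hY
  set r : ℕ → ℝ := fun k => if hk : k < m then (l[m - (k + 1)]'(by omega)).2.1 else 0 with hr
  have hRmem : ∀ k, R k ∈ U := fun k => List.getElem_mem _
  have hR0 : R 0 = lastT T l := by
    rw [lastT_eq]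
    rfl
  have hdis : ∀ j ≤ m, ∀ k ≤ m, j ≠ k → Disjoint (R j).leaves (R k).leaves := by
    intro j hj k hk hjk
    rcases lt_or_gt_of_ne hjk with h1 | h1
    · exact (List.pairwise_iff_getElem.1 hd (m - k) (m - j) _ _ (by omega)).symm
    · exact List.pairwise_iff_getElem.1 hd (m - j) (m - k) _ _ (by omega)
  have hσ0 : σ ∈ (R 0).leaves := by rw [hR0]; exact hσ
  refine hasClean_of_links hΦ hε (R := R) (Y := Y) (r := r) hσ0 (fun k _ => (h.okd _ (hRmem k)).1)
    (fun k _ => (h.okd _ (hRmem k)).2) (fun k hk => ?_) (fun k hk => ?_) (fun k hk => ?_) hdis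
    (fun x hx => ?_) fun k hk h0 x hx => ?_
  · have h1 := h.link (m - (k + 1)) (by omega)
    have e1 : (U[m - (k + 1)]'(hidx (k + 1))) = R (k + 1) := rfl
    have e2 : (l[m - (k + 1)]'(by omega)).1 = R k := by
      have e3 : m - k = (m - (k + 1)) + 1 := by omega
      have e4 : R k = U[(m - (k + 1)) + 1]'(by omega) := by
        rw [hR]
        simp only
        congr 1
      rw [e4]
      exact (getElem_trees (T := T) _).symm
    have e5 : Y (k + 1) = (l[m - (k + 1)]'(by omega)).2.2 := by
      rw [hY]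
      simp only
      rw [dif_pos ⟨Nat.succ_pos k, hk⟩]
    have e6 : r k = (l[m - (k + 1)]'(by omega)).2.1 := by
      rw [hr]
      simp only
      rw [dif_pos hk]
    rw [e5, e6, ← e2, ← e1]
    exact h1
  · have hk' : k < m := by omega
    rw [hr]
    simp only
    rw [dif_pos hk', dif_pos hk]
    exact List.pairwise_iff_getElem.1 h.decr (m - (k + 1 + 1)) (m - (k + 1)) _ _ (by omega)
  · rw [hr]
    simp only
    rw [dif_pos hk]
    exact (h.lt_of_mem _ (List.getElem_mem _)).trans_le hst
  · by_cases hx' : x ∈ V₀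
    · exact Or.inr hx'
    · exact Or.inl (hV _ (hRmem 0) x hx hx')
  · by_contra hx'
    have h1 := hV _ (hRmem k) x hx hx'
    rw [h1] at hx
    exact disjoint_left.1 (hdis 0 (Nat.zero_le m) k hk h0.ne) hσ0 hx

end Vale.Agent.P119.IND
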