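import Vale.Agent.P119.IND.DetEnd
import Vale.Agent.P119.IND.RTClean

/-!
# P119, block IND: every exploration is regular or gives an output (`helper498`)

* `Hd.check`: a head which is flying has pairwise disjoint trees, the special label `σ` only, and is
  short, or there is an output;
* `exists_pc`: an exploration backward by first hits (`Trail`) is regular (`PC`), or there is an
  output before `s₀`.
-/

open MeasureTheory Filter Topology Set
open scoped ENNReal NNReal

noncomputable section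

namespace Vale.Agent.P119.IND

open KU M M.CTree TL

variable {Φ : E3 → ℝ} {ε : ℝ} {L : ℕ} {κ : Type*} {𝒲 : κ → Set Src}

/-! ### Trees without hits in all the worlds -/

theorem AllFree.left {a b : CTree} {x : ℝ} (h : AllFree Φ ε L 𝒲 (node a b) x)
    (hx : x ≤ sig Φ ε (node a b)) : AllFree Φ ε L 𝒲 a x := fun v =>
  ⟨fun _ hy => (h v).sub (Or.inl hy), (h v).ok.1,
    ((le_max_left _ _).trans (Nat.le_succ _)).trans (h v).depth,
    fun X s hs hh => (h v).nohit X s hs (hit_left_of_lt (hs.trans_le hx) hh)⟩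

theorem AllFree.right {a b : CTree} {x : ℝ} (h : AllFree Φ ε L 𝒲 (node a b) x)
    (hx : x ≤ sig Φ ε (node a b)) : AllFree Φ ε L 𝒲 b x := fun v =>
  ⟨fun _ hy => (h v).sub (Or.inr hy), (h v).ok.2.1,
    ((le_max_right _ _).trans (Nat.le_succ _)).trans (h v).depth,
    fun X s hs hh => (h v).nohit X s hs (hit_right_of_lt (hs.trans_le hx) hh)⟩

theorem AllFree.of_at (hΦ : IsPotential Φ) {T Y y : CTree} {r : ℝ}
    (h : AllFree Φ ε L 𝒲 T r) (ha : TL.At Φ ε y r Y T) : AllFree Φ ε L 𝒲 Y r := fun v =>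
  ⟨ha.sub.leaves_subset.trans (h v).sub, ha.sub.ok (h v).ok, ha.sub.depth_le.trans (h v).depth,
    nohit_of_at hΦ (h v).nohit ha⟩

theorem bg_of_ext (hΦ : IsPotential Φ) (hε : 0 < ε) {T : CTree} {s : ℝ} (hok : ok Φ ε T)
    (h : ext Φ ε T ≤ s) : Bg Φ ε T s := by
  cases T with
  | leaf σ => exact Or.inr rfl
  | node a b => exact Or.inl ((sig_lt_ext hΦ hε hok).trans_le h)

variable {ι : Type*} {W : Finset ι → Set Src} {K : Finset ι}

theorem Fu.of_allFree {P : CTree} {s : ℝ} (h : AllFree Φ ε L (wd W K) P s) (hb : Bg Φ ε P s)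
    (hs : sig Φ ε P ≤ s) : Fu Φ ε L W K P s := ⟨hb, fun v => (h v).live hs⟩

theorem Fu.of_ext (hΦ : IsPotential Φ) (hε : 0 < ε) {P : CTree} {s : ℝ}
    (h : AllFree Φ ε L (wd W K) P s) (he : ext Φ ε P ≤ s) : Fu Φ ε L W K P s := by
  have hok := (h ⟨∅, Finset.empty_subset _⟩).ok
  exact Fu.of_allFree h (bg_of_ext hΦ hε hok he) ((sig_le_ext hΦ hε hok).trans he)

variable [DecidableEq ι] {V₀ ins all : Set Src} {Lv : CTree → Prop} {Lg : Bool → Gh → Prop} {s₀ t : ℝ}
  {m : ℕ} {i : ι} {b : Bool} {T : CTree} {s : ℝ} {l : List (CTree × ℝ × CTree)} {σ : Src}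

/-- **The checks of a flying head.** -/
theorem Hd.check (hE : Env Φ ε L W K V₀ ins all Lv Lg s₀ t)
    (h : Hd Φ ε L W K V₀ s₀ i m b T s l σ) (eT : ext Φ ε T ≤ s) :
    (l.length < m ∧ (∀ u ∈ l.map Prod.fst, Disjoint T.leaves u.leaves) ∧
      ∀ x ∈ T.leaves, x ∉ V₀ → x = σ) ∨ Outp hE m := by
  have hF : ∀ P ∈ ([] : List CTree), Fu Φ ε L W K P s := fun P hP => absurd hP List.not_mem_nil
  have hr : ([] : List CTree).Pairwise fun P Q => P.root ≠ Q.root := List.Pairwise.nil
  obtain ⟨G, hG, hB⟩ := h.bfam hE hF hr (by simp)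
  have mT : rc1 K i b T s ∈ hrc K i b T s l [] := List.mem_append_left _ List.mem_cons_self
  have hTF : T ∈ famT Φ ε s (hrc K i b T s l []) := mem_famT_self mT eT
  have hsub : ∀ a b', node a b' ∈ famT Φ ε s (hrc K i b T s l []) →
      a ∈ famT Φ ε s (hrc K i b T s l []) ∧ b' ∈ famT Φ ε s (hrc K i b T s l []) :=
    fun a b hab => ⟨(hB.fam.sub a b hab).1, (hB.fam.sub a b hab).2.1⟩
  obtain ⟨hJ, hσ⟩ := h.joined hE (es := []) hB.fam
    (fun g hg => hG.mem_iff.2 hg) (FX.root hsub hTF) fun P hP => absurd hP List.not_mem_nil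
  have hJ' : ∀ a ∈ lab (famT Φ ε s (hrc K i b T s l [])),
      FJ (famT Φ ε s (hrc K i b T s l [])) G a σ := fun a ha => (hJ a ha).to_FJ
  by_cases h1 : ∀ x ∈ T.leaves, x ∉ V₀ → x = σ
  swap
  · right
    push Not at h1
    obtain ⟨x, hx, hx0, hxσ⟩ := h1
    exact ⟨s, h.hs, DetOut.closed _ G hB σ (h.hins hE) hσ hJ'
      (Or.inl ⟨x, Fam.leaves_lab hB.fam hTF hx, hx0, hxσ⟩)⟩
  by_cases h2 : ∀ u ∈ l.map Prod.fst, Disjoint T.leaves u.leaves
  swap
  · right
    push Not at h2
    obtain ⟨u, hu, hu'⟩ := h2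
    obtain ⟨a, ha1, ha2⟩ := Set.not_disjoint_iff.1 hu'
    refine ⟨s, h.hs, DetOut.closed _ G hB σ (h.hins hE) hσ hJ' (Or.inr ?_)⟩
    have hmem : ∀ u ∈ l.map Prod.fst, u ∈ famT Φ ε s (hrc K i b T s l []) :=
      fun u hu => h.tail_mem hE hu
    have hsrc := h.pc.src
    have hrt := h.pc.rt
    clear hJ hJ'
    generalize hFdef : famT Φ ε s (hrc K i b T s l []) = F at *
    cases hrt with
    | stop _ _ => exact absurd hu List.not_mem_nil
    | @step _ _ R Y _ r l' _ _ _ _ _ _ hk _ ht =>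
      rw [lgs_cons] at hG
      obtain ⟨G₁, G₂, hGe, hGp⟩ := exists_split hG
      have hfam' : Fam Φ ε s F (G₁ ++ G₂) := by
        have h3 := hB.fam
        rw [hGe] at h3
        exact h3.sublist sublist_split
      have hc := ht.conn (i := i) (K := K) hfam' (fun u hu => hmem u hu)
        (fun g hg => hGp.mem_iff.2 hg) hsrc
      refine ⟨G₁, (R, Y, r), G₂, hGe, ?_⟩
      have h4 : FJ F (G₁ ++ G₂) R.root σ := hc R List.mem_cons_self R.root R.root_mem_leaves
      have h5 : FJ F (G₁ ++ G₂) a σ := hc u hu a ha2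
      have h6 : FJ F (G₁ ++ G₂) a Y.root := FJ.leaves hfam' hTF ha1
        (hk.at_.sub.leaves_subset Y.root_mem_leaves)
      exact h4.trans (h5.symm.trans h6)
  by_cases h3 : l.length < m
  · exact Or.inl ⟨h3, h2, h1⟩
  · right
    have h4 : l.length = m := le_antisymm h.pc.len (not_lt.1 h3)
    have h5 := h.pc.rt.hasClean hE.pot hE.pos (V₀ := V₀) (t := t) h.pc.src
      (List.pairwise_cons.2 ⟨h2, h.pc.disj⟩) (fun u hu x hx hx0 => by
        rcases List.mem_cons.1 hu with rfl | hu
        · exact h1 x hx hx0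
        · exact h.pc.only u hu x hx hx0) (h.hs.trans hE.hst)
    rw [h4] at h5
    exact ⟨s, h.hs, DetOut.clean σ (h.hins hE) h5⟩

/-- **Every exploration is regular, or there is an output.** -/
theorem exists_pc (hE : Env Φ ε L W K V₀ ins all Lv Lg s₀ t) (m : ℕ) (hi : i ∈ K)
    {l' : List (CTree × ℝ)} (h : Trail Φ ε L (wb W i) b T s l') (hs : s ≤ s₀)
    (hb : Bg Φ ε T s) (hnl : ¬live Φ ε L (wb W i !b) T s) :
    (∃ l σ, PC Φ ε L W V₀ i m b T s l σ) ∨ Outp hE m := by
  have hΦ := hE.pot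
  have hε := hE.pos
  induction h with
  | @stop b T s hl hσ =>
    left
    obtain ⟨σ, h1, h2, h3⟩ := exists_source hE.cube hi hl hσ
    exact ⟨[], σ, RT.stop hl hσ, Nat.zero_le m, h1, h2, h3, List.Pairwise.nil,
      fun u hu => absurd hu List.not_mem_nil⟩
  | @step b T R s r l' hl hsub hr hh hf ha ht ih =>
    have haL := (alive_iff_live hΦ hε (wb_finite hE.cube hi (!b))).1 ha
    have hna : ¬alive Φ ε L (wb W i b) R r := hl.nohit R r hr hh
    have hnR : ¬live Φ ε L (wb W i !!b) R r := by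
      rw [Bool.not_not]
      exact not_live_of_not_alive hΦ hε hE.cube hi haL.2 hna
    have hrs : r ≤ s₀ := hr.le.trans hs
    have hbR : Bg Φ ε R r := Bg.of_alive hΦ hε ha
    rcases ih hrs hbR hnR with ⟨l, σ, hpc⟩ | ih
    swap
    · exact Or.inr ih
    have hd : Hd Φ ε L W K V₀ s₀ i m (!b) R r l σ := ⟨hpc, hi, hrs, hbR, hnR⟩
    rcases hd.check hE haL.2 with ⟨hlen, hdis, honly⟩ | h0
    swap
    · exact Or.inr h0
    have htr : Trail Φ ε L (wb W i) b T s ((R, r) :: l') :=
      Trail.step hl hsub hr hh hf ha ht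
    have hno : ∀ d X x, x < r → hit Φ ε T X x → ¬alive Φ ε L (wb W i d) X x :=
      fun d X x hx hX => htr.nohit d hx hX
    have hAF : AllFree Φ ε L (wd W K) T r :=
      allFree_of hΦ hε hE.cube hE.dep hi hs hb hl hnl hsub hr hno
    obtain ⟨Y, hat, hdj, hsY, hcs⟩ := link_cases hΦ hε hl.ok hf ha hh
    have hYF : AllFree Φ ε L (wd W K) Y r := hAF.of_at hΦ hat
    rcases hcs with ⟨h1, a, a', rfl, hc⟩ | ⟨h1, hc, hcs⟩
    · -- the leg is colliding
      right
      have hra : R.root ≠ a.root := fun hcon =>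
        disjoint_left.1 hdj (Or.inl a.root_mem_leaves) (hcon ▸ R.root_mem_leaves)
      have hra' : R.root ≠ a'.root := fun hcon =>
        disjoint_left.1 hdj (Or.inr a'.root_mem_leaves) (hcon ▸ R.root_mem_leaves)
      rcases hsY.lt_or_eq with h2 | h2
      · exact hd.colS hE (Fu.of_allFree hYF (Or.inl h2) hsY) h1 haL.2 hra hra' hc
      · -- at the beginning of the collision
        have hok : ok Φ ε (node a a') := (hYF (vb K hi true)).ok
        have ea : ext Φ ε a ≤ r := by rw [← h2]; exact hok.2.2.2.2.2.1.le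
        have ea' : ext Φ ε a' ≤ r := by rw [← h2]; exact hok.2.2.2.2.2.2.le
        have fa : Fu Φ ε L W K a r := Fu.of_ext hΦ hε (hYF.left h2.ge) ea
        have fa' : Fu Φ ε L W K a' r := Fu.of_ext hΦ hε (hYF.right h2.ge) ea'
        rcases hc with hc | hc
        · rw [st_before hΦ hε hok h2.ge] at hc
          exact hd.ent hE fa fa' hok h2 haL.2 hra hra' hc.symm
        · have hok' := ok_swap hΦ hok
          have h2' : sig Φ ε (node a' a) = r := by rw [sig_swap]; exact h2
          rw [st_before hΦ hε hok' h2'.ge] at hc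
          exact hd.ent hE fa' fa hok' h2' haL.2 hra' hra hc.symm
    · have hrY : R.root ≠ Y.root := fun hcon =>
        disjoint_left.1 hdj Y.root_mem_leaves (hcon ▸ R.root_mem_leaves)
      have fY : Fu Φ ε L W K Y r := Fu.of_ext hΦ hε hYF h1
      rcases hcs with hcs | ⟨b', hb', h2, hne⟩ | hcs | hcs
      · -- a regular link
        left
        refine ⟨(R, r, Y) :: l, σ, RT.step hl hsub hr hno ha hna hcs hc hpc.rt, ?_, hpc.src,
          hpc.src₁, hpc.src₀, List.pairwise_cons.2 ⟨hdis, hpc.disj⟩, fun u hu x hx hx0 => ?_⟩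
        · rw [List.length_cons]
          exact hlen
        · rcases List.mem_cons.1 hu with rfl | hu
          · exact honly x hx hx0
          · exact hpc.only u hu x hx hx0
      · -- at the beginning of the next collision of the leg
        right
        have key : ok Φ ε (node Y b') ∧ Fu Φ ε L W K b' r := by
          rcases hb' with hb' | hb'
          · have hok := hb'.ok hl.ok
            refine ⟨hok, ?_⟩
            have hN : AllFree Φ ε L (wd W K) (node Y b') r := fun v =>
              ⟨hb'.leaves_subset.trans (hAF v).sub, hok, hb'.depth_le.trans (hAF v).depth,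
                fun X x hx hX => (hAF v).nohit X x hx (hit_of_sub hΦ hε hb' hl.ok
                  (hx.le.trans (h2.ge.trans (sig_lt_ext hΦ hε hok).le)) hX)⟩
            exact Fu.of_ext hΦ hε (hN.right h2.ge) (by rw [← h2]; exact hok.2.2.2.2.2.2.le)
          · have hok := hb'.ok hl.ok
            have h2' : sig Φ ε (node b' Y) = r := by rw [sig_swap]; exact h2
            refine ⟨ok_swap hΦ hok, ?_⟩
            have hN : AllFree Φ ε L (wd W K) (node b' Y) r := fun v =>
              ⟨hb'.leaves_subset.trans (hAF v).sub, hok, hb'.depth_le.trans (hAF v).depth,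
                fun X x hx hX => (hAF v).nohit X x hx (hit_of_sub hΦ hε hb' hl.ok
                  (hx.le.trans (h2'.ge.trans (sig_lt_ext hΦ hε hok).le)) hX)⟩
            exact Fu.of_ext hΦ hε (hN.left h2'.ge) (by rw [← h2']; exact hok.2.2.2.2.2.1.le)
        obtain ⟨hok, fb⟩ := key
        have hrb : R.root ≠ b'.root := by
          intro hcon
          refine hne (Bg.unique hΦ hε (wb_finite hE.cube hi (!b)) haL.1 ?_ hbR fb.bg hcon)
          rw [← wd_vb hi (!b)]
          exact fb.live _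
        exact hd.ent hE fY fb hok h2 haL.2 hrY hrb hc
      · -- at a birth
        right
        exact hd.two_fly hE fY haL.2 h1 fun F G hF hF' hg => Irr.born R Y hF hF' hrY hcs hc hg
      · -- grazing
        right
        exact hd.two_fly hE fY haL.2 h1 fun F G hF hF' hg => Irr.graze R Y hF hF' hrY hcs hg

end Vale.Agent.P119.IND
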