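import Mathlib

/-!
# P119, IND: combinatorics of lists of edges (`helper723`, for the Program theorem of `helper295`)

An edge is a pair of labels.  `Joined P` is the equivalence relation generated by the edges of the
list `P`; `Forest P`: no edge joins two labels which are joined by the other edges.
-/

open Relation

namespace Vale.Agent.P119.Edg

variable {ι : Type*}

/-- `i` and `k` are joined by the edges of `P`. -/
def Joined (P : List (ι × ι)) : ι → ι → Prop := EqvGen fun a b => (a, b) ∈ P

@[refl] theorem Joined.refl (P : List (ι × ι)) (a : ι) : Joined P a a := EqvGen.refl a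

theorem Joined.symm {P : List (ι × ι)} {a b : ι} (h : Joined P a b) : Joined P b a :=
  EqvGen.symm _ _ h

theorem Joined.trans {P : List (ι × ι)} {a b c : ι} (h : Joined P a b) (h' : Joined P b c) :
    Joined P a c := EqvGen.trans _ _ _ h h'

theorem joined_comm {P : List (ι × ι)} {a b : ι} : Joined P a b ↔ Joined P b a :=
  ⟨Joined.symm, Joined.symm⟩

theorem joined_of_mem {P : List (ι × ι)} {a b : ι} (h : (a, b) ∈ P) : Joined P a b :=
  EqvGen.rel _ _ h

theorem joined_edge {P : List (ι × ι)} {e : ι × ι} (h : e ∈ P) : Joined P e.1 e.2 :=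
  joined_of_mem h

/-- Minimality of `Joined`. -/
theorem Joined.rec_le {P : List (ι × ι)} {r : ι → ι → Prop} (hr : Equivalence r)
    (h : ∀ e ∈ P, r e.1 e.2) {a b : ι} (hab : Joined P a b) : r a b := by
  induction hab with
  | rel x y hxy => exact h _ hxy
  | refl x => exact hr.refl x
  | symm x y _ ih => exact hr.symm ih
  | trans x y z _ _ ih1 ih2 => exact hr.trans ih1 ih2

theorem joined_equivalence (P : List (ι × ι)) : Equivalence (Joined P) :=
  ⟨Joined.refl P, Joined.symm, Joined.trans⟩

/-- All edges of `P` are joined in `Q`. -/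
theorem Joined.of_edges {P Q : List (ι × ι)} (h : ∀ e ∈ P, Joined Q e.1 e.2) {a b : ι}
    (hab : Joined P a b) : Joined Q a b := hab.rec_le (joined_equivalence Q) h

theorem Joined.mono {P Q : List (ι × ι)} (h : P ⊆ Q) {a b : ι} (hab : Joined P a b) :
    Joined Q a b := hab.of_edges fun _ he => joined_edge (h he)

theorem joined_perm {P Q : List (ι × ι)} (h : P.Perm Q) {a b : ι} : Joined P a b ↔ Joined Q a b :=
  ⟨Joined.mono h.subset, Joined.mono h.symm.subset⟩

theorem joined_reverse {P : List (ι × ι)} {a b : ι} : Joined P.reverse a b ↔ Joined P a b :=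
  joined_perm (List.reverse_perm P)

theorem Joined.cons {P : List (ι × ι)} {a b : ι} (e : ι × ι) (h : Joined P a b) :
    Joined (e :: P) a b := h.mono (List.subset_cons_self e P)

theorem Joined.append_left {P : List (ι × ι)} {a b : ι} (Q : List (ι × ι)) (h : Joined P a b) :
    Joined (Q ++ P) a b := h.mono (List.subset_append_right Q P)

theorem Joined.append_right {P : List (ι × ι)} {a b : ι} (Q : List (ι × ι)) (h : Joined P a b) :
    Joined (P ++ Q) a b := h.mono (List.subset_append_left P Q)

theorem joined_nil {a b : ι} : Joined ([] : List (ι × ι)) a b ↔ a = b := by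
  refine ⟨fun h => ?_, fun h => h ▸ Joined.refl _ _⟩
  exact h.rec_le eq_equivalence (by simp)

/-- **One more edge.** -/
theorem joined_cons {P : List (ι × ι)} {e : ι × ι} {a b : ι} : Joined (e :: P) a b ↔
    Joined P a b ∨ (Joined P a e.1 ∧ Joined P e.2 b) ∨ (Joined P a e.2 ∧ Joined P e.1 b) := by
  constructor
  · intro h
    induction h with
    | rel x y hxy =>
      rcases List.mem_cons.1 hxy with h | h
      · subst h
        exact Or.inr (Or.inl ⟨Joined.refl _ _, Joined.refl _ _⟩)
      · exact Or.inl (joined_of_mem h)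
    | refl x => exact Or.inl (Joined.refl _ _)
    | symm x y _ ih =>
      rcases ih with h | ⟨h1, h2⟩ | ⟨h1, h2⟩
      · exact Or.inl h.symm
      · exact Or.inr (Or.inr ⟨h2.symm, h1.symm⟩)
      · exact Or.inr (Or.inl ⟨h2.symm, h1.symm⟩)
    | trans x y z _ _ ih1 ih2 =>
      rcases ih1 with h | ⟨h1, h2⟩ | ⟨h1, h2⟩ <;> rcases ih2 with k | ⟨k1, k2⟩ | ⟨k1, k2⟩
      · exact Or.inl (h.trans k)
      · exact Or.inr (Or.inl ⟨h.trans k1, k2⟩)
      · exact Or.inr (Or.inr ⟨h.trans k1, k2⟩)
      · exact Or.inr (Or.inl ⟨h1, h2.trans k⟩)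
      · exact Or.inr (Or.inl ⟨h1, k2⟩)
      · exact Or.inl (h1.trans k2)
      · exact Or.inr (Or.inr ⟨h1, h2.trans k⟩)
      · exact Or.inl (h1.trans k2)
      · exact Or.inr (Or.inr ⟨h1, k2⟩)
  · rintro (h | ⟨h1, h2⟩ | ⟨h1, h2⟩)
    · exact h.cons e
    · exact ((h1.cons e).trans (joined_edge List.mem_cons_self)).trans (h2.cons e)
    · exact ((h1.cons e).trans (joined_edge List.mem_cons_self).symm).trans (h2.cons e)

theorem joined_snoc {P : List (ι × ι)} {e : ι × ι} {a b : ι} : Joined (P ++ [e]) a b ↔
    Joined P a b ∨ (Joined P a e.1 ∧ Joined P e.2 b) ∨ (Joined P a e.2 ∧ Joined P e.1 b) := by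
  rw [joined_perm (List.perm_append_singleton e P), joined_cons]

/-- A closing edge changes nothing. -/
theorem joined_cons_of_joined {P : List (ι × ι)} {e : ι × ι} (he : Joined P e.1 e.2) {a b : ι} :
    Joined (e :: P) a b ↔ Joined P a b := by
  refine ⟨fun h => h.of_edges fun x hx => ?_, Joined.cons e⟩
  rcases List.mem_cons.1 hx with h | h
  · exact h ▸ he
  · exact joined_edge h

theorem joined_snoc_of_joined {P : List (ι × ι)} {e : ι × ι} (he : Joined P e.1 e.2) {a b : ι} :
    Joined (P ++ [e]) a b ↔ Joined P a b := by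
  rw [joined_perm (List.perm_append_singleton e P), joined_cons_of_joined he]

/-- The class of one end of a new edge. -/
theorem joined_cons_fst {P : List (ι × ι)} {e : ι × ι} {a : ι} :
    Joined (e :: P) a e.1 ↔ Joined P a e.1 ∨ Joined P a e.2 := by
  constructor
  · intro h
    rcases joined_cons.1 h with h | ⟨h1, -⟩ | ⟨h1, -⟩
    · exact Or.inl h
    · exact Or.inl h1
    · exact Or.inr h1
  · rintro (h | h)
    · exact h.cons e
    · exact (h.cons e).trans (joined_edge List.mem_cons_self).symm

theorem joined_cons_snd {P : List (ι × ι)} {e : ι × ι} {a : ι} :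
    Joined (e :: P) a e.2 ↔ Joined P a e.1 ∨ Joined P a e.2 := by
  constructor
  · intro h
    rcases joined_cons.1 h with h | ⟨h1, -⟩ | ⟨h1, -⟩
    · exact Or.inr h
    · exact Or.inl h1
    · exact Or.inr h1
  · rintro (h | h)
    · exact (h.cons e).trans (joined_edge List.mem_cons_self)
    · exact h.cons e

/-- A label which is joined to no end of the new edge keeps its class. -/
theorem joined_cons_of_not {P : List (ι × ι)} {e : ι × ι} {a b : ι} (h1 : ¬Joined P a e.1)
    (h2 : ¬Joined P a e.2) : Joined (e :: P) a b ↔ Joined P a b := by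
  rw [joined_cons]
  simp [h1, h2]

theorem Joined.map {κ : Type*} (f : ι → κ) {P : List (ι × ι)} {a b : ι} (h : Joined P a b) :
    Joined (P.map (Prod.map f f)) (f a) (f b) :=
  h.rec_le (r := fun a b => Joined (P.map (Prod.map f f)) (f a) (f b))
    ⟨fun _ => Joined.refl _ _, fun h => h.symm, fun h h' => h.trans h'⟩
    (fun e he => joined_edge (List.mem_map.2 ⟨e, he, rfl⟩))

/-! ### Forests -/

/-- No edge joins two labels which are joined by the later edges (equivalently: by the earlier
edges, or by all the other edges; see `forest_snoc`, `forest_perm`, `Forest.bridge`). -/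
def Forest : List (ι × ι) → Prop
  | [] => True
  | e :: P => ¬Joined P e.1 e.2 ∧ Forest P

@[simp] theorem forest_nil : Forest ([] : List (ι × ι)) := trivial

theorem forest_cons {e : ι × ι} {P : List (ι × ι)} :
    Forest (e :: P) ↔ ¬Joined P e.1 e.2 ∧ Forest P := Iff.rfl

theorem Forest.tail {e : ι × ι} {P : List (ι × ι)} (h : Forest (e :: P)) : Forest P := h.2

private theorem cross {P : List (ι × ι)} {x y : ι × ι} (hx : ¬Joined P x.1 x.2) :
    Joined (y :: P) x.1 x.2 → Joined (x :: P) y.1 y.2 := by
  intro h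
  rw [joined_cons] at h ⊢
  rcases h with h | ⟨h1, h2⟩ | ⟨h1, h2⟩
  · exact absurd h hx
  · exact Or.inr (Or.inl ⟨h1.symm, h2.symm⟩)
  · exact Or.inr (Or.inr ⟨h2, h1⟩)

private theorem forest_swap {P : List (ι × ι)} {x y : ι × ι} (h : Forest (y :: x :: P)) :
    Forest (x :: y :: P) := by
  obtain ⟨hy, hx, hP⟩ := h
  refine ⟨fun h => hy (cross hx h), fun h => hy (h.cons x), hP⟩

/-- **`Forest` does not depend on the order.** -/
theorem forest_perm {P Q : List (ι × ι)} (h : P.Perm Q) : Forest P ↔ Forest Q := by
  have key : ∀ {P Q : List (ι × ι)}, P.Perm Q → Forest P → Forest Q := by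
    intro P Q h
    induction h with
    | nil => exact id
    | cons x h ih => exact fun h' => ⟨fun h'' => h'.1 ((joined_perm h).2 h''), ih h'.2⟩
    | swap x y l => exact forest_swap
    | trans _ _ ih1 ih2 => exact fun h => ih2 (ih1 h)
  exact ⟨key h, key h.symm⟩

theorem forest_reverse {P : List (ι × ι)} : Forest P.reverse ↔ Forest P :=
  forest_perm (List.reverse_perm P)

/-- **The last edge** (prefix form). -/
theorem forest_snoc {e : ι × ι} {P : List (ι × ι)} :
    Forest (P ++ [e]) ↔ Forest P ∧ ¬Joined P e.1 e.2 := by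
  rw [forest_perm (List.perm_append_singleton e P), forest_cons, and_comm]

theorem forest_middle {A B : List (ι × ι)} {e : ι × ι} :
    Forest (A ++ e :: B) ↔ ¬Joined (A ++ B) e.1 e.2 ∧ Forest (A ++ B) := by
  rw [forest_perm List.perm_middle, forest_cons]

/-- **In a forest every edge is a bridge.** -/
theorem Forest.bridge {A B : List (ι × ι)} {e : ι × ι} (h : Forest (A ++ e :: B)) :
    ¬Joined (A ++ B) e.1 e.2 := (forest_middle.1 h).1

theorem Forest.erase {A B : List (ι × ι)} {e : ι × ι} (h : Forest (A ++ e :: B)) :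
    Forest (A ++ B) := (forest_middle.1 h).2

theorem Forest.sublist {P Q : List (ι × ι)} (h : P.Sublist Q) (hQ : Forest Q) : Forest P := by
  induction h with
  | slnil => exact hQ
  | cons a h ih => exact ih hQ.2
  | cons_cons a h ih => exact ⟨fun h' => hQ.1 (h'.mono h.subset), ih hQ.2⟩

theorem Forest.left {P Q : List (ι × ι)} (h : Forest (P ++ Q)) : Forest P :=
  h.sublist (List.sublist_append_left P Q)

theorem Forest.right {P Q : List (ι × ι)} (h : Forest (P ++ Q)) : Forest Q :=
  h.sublist (List.sublist_append_right P Q)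

/-- Some edge joins two labels which are already joined by the previous ones. -/
def Closed (P : List (ι × ι)) : Prop := ∃ A e B, P = A ++ e :: B ∧ Joined A e.1 e.2

theorem closed_iff_not_forest {P : List (ι × ι)} : Closed P ↔ ¬Forest P := by
  constructor
  · rintro ⟨A, e, B, rfl, h⟩ hF
    exact hF.bridge (h.append_right B)
  · intro h
    induction P using List.reverseRecOn with
    | nil => exact absurd forest_nil h
    | append_singleton P e ih =>
      by_cases hP : Forest P
      · refine ⟨P, e, [], by simp, ?_⟩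
        by_contra hcon
        exact h (forest_snoc.2 ⟨hP, hcon⟩)
      · obtain ⟨A, e', B, rfl, h'⟩ := ih hP
        exact ⟨A, e', B ++ [e], by simp, h'⟩

theorem forest_or_closed (P : List (ι × ι)) : Forest P ∨ Closed P := by
  rw [closed_iff_not_forest]; exact em _

/-- The first closing edge of a closed list. -/
theorem Closed.first {P : List (ι × ι)} (h : Closed P) :
    ∃ A e B, P = A ++ e :: B ∧ Forest A ∧ Joined A e.1 e.2 := by
  rw [closed_iff_not_forest] at h
  induction P using List.reverseRecOn with
  | nil => exact absurd forest_nil h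
  | append_singleton P e ih =>
    by_cases hP : Forest P
    · refine ⟨P, e, [], by simp, hP, ?_⟩
      by_contra hcon
      exact h (forest_snoc.2 ⟨hP, hcon⟩)
    · obtain ⟨A, e', B, rfl, hA, h'⟩ := ih hP
      exact ⟨A, e', B ++ [e], by simp, hA, h'⟩

/-- **Peeling from the front** of a forest with one closing edge `e`: the first edge `f` is either
a bridge of the whole list, or on the cycle. -/
theorem front_cases {P : List (ι × ι)} {f e : ι × ι} (hF : Forest (f :: P))
    (he : Joined (f :: P) e.1 e.2) :
    (¬Joined (P ++ [e]) f.1 f.2 ∧ Joined P e.1 e.2) ∨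
    (¬Joined P f.1 f.2 ∧ ¬Joined P e.1 e.2 ∧
      ((Joined P e.1 f.1 ∧ Joined P e.2 f.2) ∨ (Joined P e.1 f.2 ∧ Joined P e.2 f.1))) := by
  by_cases h : Joined P e.1 e.2
  · refine Or.inl ⟨?_, h⟩
    rw [joined_snoc_of_joined h]
    exact hF.1
  · refine Or.inr ⟨hF.1, h, ?_⟩
    rcases joined_cons.1 he with h' | ⟨h1, h2⟩ | ⟨h1, h2⟩
    · exact absurd h' h
    · exact Or.inl ⟨h1, h2.symm⟩
    · exact Or.inr ⟨h1, h2.symm⟩

/-- In the cycle case, the list without the first edge (but with the closing edge) is a forest. -/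
theorem forest_tail_snoc {P : List (ι × ι)} {f e : ι × ι} (hF : Forest (f :: P))
    (h : ¬Joined P e.1 e.2) : Forest (P ++ [e]) := forest_snoc.2 ⟨hF.2, h⟩

/-! ### Closed sets of labels -/

/-- `B` is a union of classes. -/
def Sat (P : List (ι × ι)) (B : Set ι) : Prop := ∀ e ∈ P, e.1 ∈ B ↔ e.2 ∈ B

theorem Sat.joined {P : List (ι × ι)} {B : Set ι} (h : Sat P B) {a b : ι} (hab : Joined P a b) :
    a ∈ B ↔ b ∈ B :=
  hab.rec_le (r := fun a b => a ∈ B ↔ b ∈ B)
    ⟨fun _ => Iff.rfl, fun h => h.symm, fun h h' => h.trans h'⟩ h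

theorem sat_class (P : List (ι × ι)) (a : ι) : Sat P {b | Joined P a b} := fun _ he =>
  ⟨fun h => Joined.trans h (joined_edge he), fun h => Joined.trans h (joined_edge he).symm⟩

theorem Sat.mono {P Q : List (ι × ι)} {B : Set ι} (h : P ⊆ Q) (hB : Sat Q B) : Sat P B :=
  fun e he => hB e (h he)

theorem Sat.compl {P : List (ι × ι)} {B : Set ι} (h : Sat P B) : Sat P Bᶜ := fun e he => by
  simp only [Set.mem_compl_iff, h e he]

theorem sat_cons {P : List (ι × ι)} {B : Set ι} {e : ι × ι} :
    Sat (e :: P) B ↔ (e.1 ∈ B ↔ e.2 ∈ B) ∧ Sat P B := by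
  unfold Sat; simp

theorem sat_append {P Q : List (ι × ι)} {B : Set ι} : Sat (P ++ Q) B ↔ Sat P B ∧ Sat Q B := by
  unfold Sat
  constructor
  · intro h
    exact ⟨fun e he => h e (by simp [he]), fun e he => h e (by simp [he])⟩
  · rintro ⟨h1, h2⟩ e he
    rcases List.mem_append.1 he with h | h
    · exact h1 e h
    · exact h2 e h

/-- Not joined: separated by a union of classes. -/
theorem not_joined_iff {P : List (ι × ι)} {a b : ι} :
    ¬Joined P a b ↔ ∃ B : Set ι, Sat P B ∧ a ∈ B ∧ b ∉ B := by
  constructor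
  · intro h
    exact ⟨{x | Joined P a x}, sat_class P a, Joined.refl P a, h⟩
  · rintro ⟨B, hB, ha, hb⟩ h
    exact hb ((hB.joined h).1 ha)

/-- Only the edges inside of the class matter. -/
theorem Sat.joined_filter {P : List (ι × ι)} {B : Set ι} [DecidablePred (· ∈ B)] (h : Sat P B)
    {a b : ι} (ha : a ∈ B) :
    Joined (P.filter fun e => e.1 ∈ B) a b ↔ Joined P a b := by
  refine ⟨Joined.mono (List.filter_subset_self _), fun hab => ?_⟩
  have key : (a ∈ B → Joined (P.filter fun e => e.1 ∈ B) a b) ∧ (a ∈ B ↔ b ∈ B) := by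
    refine hab.rec_le (r := fun a b =>
      (a ∈ B → Joined (P.filter fun e => e.1 ∈ B) a b) ∧ (a ∈ B ↔ b ∈ B))
      ⟨fun x => ⟨fun _ => Joined.refl _ _, Iff.rfl⟩,
       fun h => ⟨fun hb => (h.1 (h.2.2 hb)).symm, h.2.symm⟩,
       fun h h' => ⟨fun hx => (h.1 hx).trans (h'.1 (h.2.1 hx)), h.2.trans h'.2⟩⟩ ?_
    intro e he
    refine ⟨fun he1 => joined_edge (List.mem_filter.2 ⟨he, ?_⟩), h e he⟩
    simpa using he1
  exact key.1 ha

/-! ### Counting -/

/-- The equivalence relation. -/
def cls (P : List (ι × ι)) : Setoid ι := ⟨Joined P, joined_equivalence P⟩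

/-- The number of connected components. -/
noncomputable def comps (P : List (ι × ι)) : ℕ := Nat.card (Quotient (cls P))

theorem quot_eq {P : List (ι × ι)} {a b : ι} :
    (Quotient.mk (cls P) a = Quotient.mk (cls P) b) ↔ Joined P a b :=
  ⟨fun h => Quotient.exact h, fun h => Quotient.sound h⟩

theorem comps_nil : comps ([] : List (ι × ι)) = Nat.card ι := by
  refine Nat.card_congr ⟨Quotient.lift id fun a b h => joined_nil.1 h, Quotient.mk _,
    fun q => ?_, fun a => rfl⟩
  induction q using Quotient.ind
  rfl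

theorem comps_congr {P Q : List (ι × ι)} (h : ∀ a b, Joined P a b ↔ Joined Q a b) :
    comps P = comps Q := by
  have : cls P = cls Q := Setoid.ext fun a b => h a b
  unfold comps; rw [this]

theorem comps_perm {P Q : List (ι × ι)} (h : P.Perm Q) : comps P = comps Q :=
  comps_congr fun _ _ => joined_perm h

theorem comps_cons_of_joined {P : List (ι × ι)} {e : ι × ι} (he : Joined P e.1 e.2) :
    comps (e :: P) = comps P := comps_congr fun _ _ => joined_cons_of_joined he

/-- **A bridge joins two components.** -/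
theorem comps_cons_of_not [Finite ι] {P : List (ι × ι)} {e : ι × ι} (he : ¬Joined P e.1 e.2) :
    comps (e :: P) + 1 = comps P := by
  classical
  have : Finite (Quotient (cls P)) := Quotient.finite _
  have : Finite (Quotient (cls (e :: P))) := Quotient.finite _
  have := Fintype.ofFinite (Quotient (cls P))
  have := Fintype.ofFinite (Quotient (cls (e :: P)))
  have h1 : comps (e :: P) =
      Nat.card {q : Quotient (cls P) // q ≠ Quotient.mk (cls P) e.2} := by
    refine Nat.card_congr (Equiv.ofBijective
      (β := Quotient (cls (e :: P)))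
      (fun q : {q : Quotient (cls P) // q ≠ Quotient.mk (cls P) e.2} =>
        Quotient.lift (fun a => Quotient.mk (cls (e :: P)) a)
          (fun a b h => quot_eq.2 (Joined.cons e h)) q.1) ⟨?_, ?_⟩).symm
    · rintro ⟨q, hq⟩ ⟨q', hq'⟩ h
      induction q using Quotient.ind with
      | _ a =>
      induction q' using Quotient.ind with
      | _ b =>
      have h' : Joined (e :: P) a b := quot_eq.1 h
      have ha : ¬Joined P a e.2 := fun h => hq (quot_eq.2 h)
      have hb : ¬Joined P b e.2 := fun h => hq' (quot_eq.2 h)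
      refine Subtype.ext (quot_eq.2 ?_)
      rcases joined_cons.1 h' with h | ⟨h1, h2⟩ | ⟨h1, h2⟩
      · exact h
      · exact absurd h2.symm hb
      · exact absurd h1 ha
    · intro q
      induction q using Quotient.ind with
      | _ a =>
      by_cases ha : Joined P a e.2
      · refine ⟨⟨Quotient.mk (cls P) e.1, fun h => he (quot_eq.1 h)⟩, ?_⟩
        refine quot_eq.2 ?_
        exact (joined_edge List.mem_cons_self).trans (ha.symm.cons e)
      · exact ⟨⟨Quotient.mk (cls P) a, fun h => ha (quot_eq.1 h)⟩, rfl⟩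
  rw [h1]
  unfold comps
  rw [Nat.card_eq_fintype_card, Nat.card_eq_fintype_card, Fintype.card_subtype_compl,
    Fintype.card_subtype_eq]
  have : 0 < Fintype.card (Quotient (cls P)) := Fintype.card_pos_iff.2 ⟨Quotient.mk _ e.1⟩
  omega

theorem Forest.comps_add [Finite ι] {P : List (ι × ι)} (h : Forest P) :
    comps P + P.length = Nat.card ι := by
  induction P with
  | nil => simp [comps_nil]
  | cons e P ih =>
    have h1 := comps_cons_of_not h.1
    have h2 := ih h.2
    rw [List.length_cons]
    omega

theorem card_le_comps_add [Finite ι] (P : List (ι × ι)) :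
    Nat.card ι ≤ comps P + P.length := by
  induction P with
  | nil => simp [comps_nil]
  | cons e P ih =>
    rw [List.length_cons]
    by_cases he : Joined P e.1 e.2
    · rw [comps_cons_of_joined he]; omega
    · have := comps_cons_of_not he; omega

theorem comps_pos [Finite ι] [Nonempty ι] (P : List (ι × ι)) : 0 < comps P := by
  have : Finite (Quotient (cls P)) := Quotient.finite _
  have : Nonempty (Quotient (cls P)) := ⟨Quotient.mk _ (Classical.arbitrary ι)⟩
  exact Nat.card_pos

/-- Every label is joined to `r`. -/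
def Conn (P : List (ι × ι)) (r : ι) : Prop := ∀ i, Joined P r i

theorem Conn.joined {P : List (ι × ι)} {r : ι} (h : Conn P r) (a b : ι) : Joined P a b :=
  (h a).symm.trans (h b)

theorem Conn.mono {P Q : List (ι × ι)} {r : ι} (h : P ⊆ Q) (hP : Conn P r) : Conn Q r :=
  fun i => (hP i).mono h

theorem conn_perm {P Q : List (ι × ι)} {r : ι} (h : P.Perm Q) : Conn P r ↔ Conn Q r :=
  ⟨Conn.mono h.subset, Conn.mono h.symm.subset⟩

theorem Conn.comps_eq [Finite ι] {P : List (ι × ι)} {r : ι} (h : Conn P r) : comps P = 1 := by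
  have : Subsingleton (Quotient (cls P)) := ⟨fun p q => by
    induction p using Quotient.ind with
    | _ a =>
    induction q using Quotient.ind with
    | _ b => exact quot_eq.2 (h.joined a b)⟩
  have : Nonempty (Quotient (cls P)) := ⟨Quotient.mk _ r⟩
  exact Nat.card_unique

theorem Conn.forest_length [Finite ι] {P : List (ι × ι)} {r : ι} (h : Conn P r) (hF : Forest P) :
    P.length + 1 = Nat.card ι := by
  have h1 := hF.comps_add
  rw [h.comps_eq] at h1
  omega

theorem Conn.card_le [Finite ι] {P : List (ι × ι)} {r : ι} (h : Conn P r) :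
    Nat.card ι ≤ P.length + 1 := by
  have h1 := card_le_comps_add P
  rw [h.comps_eq] at h1
  omega

/-- **Counting**: at least as many events as labels gives a closing event. -/
theorem closed_of_card_le [Finite ι] [Nonempty ι] {P : List (ι × ι)}
    (h : Nat.card ι ≤ P.length) : Closed P := by
  rw [closed_iff_not_forest]
  intro hF
  have h1 := hF.comps_add
  have h2 := comps_pos P
  omega

/-- Counting on a set of labels which contains all the edges. -/
theorem closed_of_card_le_finset [DecidableEq ι] {P : List (ι × ι)} {S : Finset ι}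
    (hS : ∀ e ∈ P, e.1 ∈ S ∧ e.2 ∈ S) (hne : S.Nonempty) (h : S.card ≤ P.length) : Closed P := by
  have : Nonempty {x // x ∈ S} := hne.to_subtype
  let Q : List ({x // x ∈ S} × {x // x ∈ S}) :=
    P.attach.map fun e => (⟨e.1.1, (hS e.1 e.2).1⟩, ⟨e.1.2, (hS e.1 e.2).2⟩)
  have hQ : Q.length = P.length := by simp [Q]
  have hc : Closed Q := closed_of_card_le (by
    rw [hQ, Nat.card_eq_fintype_card, Fintype.card_coe]; exact h)
  have hmap : Q.map (Prod.map Subtype.val Subtype.val) = P := by
    simp only [Q, List.map_map]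
    conv_rhs => rw [← List.attach_map_subtype_val P]
    exact List.map_congr_left fun e _ => rfl
  obtain ⟨A, e, B, hAB, hJ⟩ := hc
  refine ⟨A.map (Prod.map Subtype.val Subtype.val), Prod.map Subtype.val Subtype.val e,
    B.map (Prod.map Subtype.val Subtype.val), ?_, ?_⟩
  · rw [← hmap, hAB]; simp
  · exact hJ.map Subtype.val

/-! ### Images -/

theorem Closed.map {κ : Type*} (f : ι → κ) {P : List (ι × ι)} (h : Closed P) :
    Closed (P.map (Prod.map f f)) := by
  obtain ⟨A, e, B, rfl, hJ⟩ := h
  exact ⟨A.map (Prod.map f f), Prod.map f f e, B.map (Prod.map f f), by simp, hJ.map f⟩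

theorem joined_map_iff {κ : Type*} {f : ι → κ} (hf : Function.Injective f) {P : List (ι × ι)}
    {a b : ι} : Joined (P.map (Prod.map f f)) (f a) (f b) ↔ Joined P a b := by
  refine ⟨fun h => ?_, Joined.map f⟩
  have key : ∀ x y, Joined (P.map (Prod.map f f)) x y →
      x = y ∨ ∃ a b, x = f a ∧ y = f b ∧ Joined P a b := by
    intro x y h
    induction h with
    | rel x y hxy =>
      obtain ⟨e, he, hE⟩ := List.mem_map.1 hxy
      refine Or.inr ⟨e.1, e.2, ?_, ?_, joined_edge he⟩
      · exact (congrArg Prod.fst hE).symm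
      · exact (congrArg Prod.snd hE).symm
    | refl x => exact Or.inl rfl
    | symm x y _ ih =>
      rcases ih with h | ⟨a, b, h1, h2, h3⟩
      · exact Or.inl h.symm
      · exact Or.inr ⟨b, a, h2, h1, h3.symm⟩
    | trans x y z _ _ ih1 ih2 =>
      rcases ih1 with h | ⟨a, b, h1, h2, h3⟩
      · exact h ▸ ih2
      · rcases ih2 with h | ⟨c, d, k1, k2, k3⟩
        · exact Or.inr ⟨a, b, h1, h ▸ h2, h3⟩
        · have : b = c := hf (h2.symm.trans k1)
          exact Or.inr ⟨a, d, h1, k2, h3.trans (this ▸ k3)⟩
  rcases key _ _ h with h | ⟨c, d, h1, h2, h3⟩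
  · exact hf h ▸ Joined.refl P a
  · rw [hf h1, hf h2]; exact h3

end Vale.Agent.P119.Edg
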