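import Vale.Agent.P119.IND.MassOpen
import Vale.Agent.P119.IND.Tail

/-!
# P119, block IND: the limit of the exceptional events (`helper228`)

* `RBad`: one of the relations of a finite family holds for some labelling of particles, all the
  particles of the base structure being labelled;
* `exc_lim_aux`: if, for every `m`, a bad event implies a clean chain of `m` trees from one of
  boundedly many lines or one of the relations of a finite family of small mass, and if the base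
  structure satisfies one of the relations of a finite family of bounded mass, then the measure of the
  bad event over the structure law tends to zero, uniformly in the law.
-/

open MeasureTheory Filter Topology Set
open scoped ENNReal NNReal

set_option linter.unusedSectionVars false

noncomputable section

namespace Vale.Agent.P119.IND

open KU FL M CTree GC MM AU PB.CT

variable {Φ : E3 → ℝ} {ε : ℝ} {m q : ℕ}

/-- One of the relations holds for some labelling. -/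
def RBad {D : Type} (n : D → ℕ) (R : ∀ d, Set (Fin (n d) → ℝ × Ph)) (Rs : ∀ d, Finset (Fin (n d)))
    (T : Fin m → CTree) (l : Fin q → Src) (w : Finset Ph) : Prop :=
  ∃ d, ∃ z : Fin (n d) → Src, LabT T l w z ∧ (fun i => sta (z i)) ∈ R d ∧
    ∀ r ∈ Rs d, z r ∉ range l

/-- The energy of the base structure. -/
def enB (T : Fin m → CTree) (l : Fin q → Ph) : ℝ := ∑ j, enT (T j) + ∑ j, ‖(l j).2‖ ^ 2

theorem enB_nonneg (T : Fin m → CTree) (l : Fin q → Ph) : 0 ≤ enB T l :=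
  add_nonneg (Finset.sum_nonneg fun _ _ => enT_nonneg _) (Finset.sum_nonneg fun _ _ => by positivity)

theorem measurable_enB :
    Measurable fun p : (Fin m → CTree) × (Fin q → Ph) => enB p.1 p.2 := by
  unfold enB
  exact (Finset.measurable_sum _ fun j _ => measurable_enT.comp
    ((measurable_pi_apply j).comp measurable_fst)).add (Finset.measurable_sum _ fun j _ =>
      (((measurable_pi_apply j).comp measurable_snd).snd.norm.pow_const 2))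

theorem HasClean.mono_T {hΦ : IsPotential Φ} {hε : ε ≠ 0} {L : ℕ} {T₀ T₁ t : ℝ} {k : ℕ}
    {W : Set Src} {s : ℝ} {l : Ph} (hT : T₀ ≤ T₁) (h : HasClean hΦ hε L T₀ t k W s l) :
    HasClean hΦ hε L T₁ t k W s l := by
  obtain ⟨P, T, h1, h2⟩ := h
  exact ⟨P, T, ⟨h1.fresh, fun k => (h1.ext_le k).trans hT, h1.chain⟩, h2⟩

theorem one_le_muE (hε : 0 < ε) (hε1 : ε ≤ 1) : 1 ≤ muE ε := by
  by_contra hcon
  push Not at hcon
  have h1 := muE_mul hε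
  have h2 : ENNReal.ofReal (ε ^ 2) ≤ 1 := by
    rw [← ENNReal.ofReal_one]
    exact ENNReal.ofReal_le_ofReal (by nlinarith)
  have h3 : muE ε * ENNReal.ofReal (ε ^ 2) ≤ muE ε := by
    calc _ ≤ muE ε * 1 := mul_le_mul_right h2 _
      _ = muE ε := mul_one _
  rw [h1] at h3
  exact absurd h3 (not_le.2 hcon)

theorem lintegral2_add_left {α β : Type*} [MeasurableSpace α] [MeasurableSpace β] {μ : Measure α}
    {ν : Measure β} [SFinite ν] {F : α → β → ℝ≥0∞} (hF : Measurable fun p : α × β => F p.1 p.2)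
    (G : α → β → ℝ≥0∞) : ∫⁻ x, ∫⁻ y, (F x y + G x y) ∂ν ∂μ =
      ∫⁻ x, ∫⁻ y, F x y ∂ν ∂μ + ∫⁻ x, ∫⁻ y, G x y ∂ν ∂μ := by
  have h1 : Measurable fun x => ∫⁻ y, F x y ∂ν := hF.lintegral_prod_right'
  rw [← lintegral_add_left h1]
  refine lintegral_congr fun x => ?_
  have h2 : Measurable (F x) := hF.comp measurable_prodMk_left
  exact lintegral_add_left h2 _

theorem lintegral2_const_mul {α β : Type*} [MeasurableSpace α] [MeasurableSpace β] {μ : Measure α}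
    {ν : Measure β} [SFinite ν] {F : α → β → ℝ≥0∞} (hF : Measurable fun p : α × β => F p.1 p.2)
    (K : ℝ≥0∞) : ∫⁻ x, ∫⁻ y, K * F x y ∂ν ∂μ = K * ∫⁻ x, ∫⁻ y, F x y ∂ν ∂μ := by
  have h1 : Measurable fun x => ∫⁻ y, F x y ∂ν := hF.lintegral_prod_right'
  rw [← lintegral_const_mul _ h1]
  refine lintegral_congr fun x => ?_
  have h2 : Measurable (F x) := hF.comp measurable_prodMk_left
  exact lintegral_const_mul _ h2

variable {f₀ : Ph → ℝ} {κ₀ b c M₀ : ℝ}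

open Classical in
/-- **The structure laws, with clean chains**: one `J`, one `ε`. -/
theorem exc_step (h : GoodDatum f₀ κ₀) (hΦ : IsPotential Φ) (hε : 0 < ε) (hb : 0 < b)
    (hc : 0 ≤ c) (hf : ∀ z, f₀ z ≤ M₀ * Real.exp (-b * ‖z.2‖ ^ 2)) (L nA c₀ : ℕ) {T₀ t₁ t₂ : ℝ}
    -- clean chains
    {J : ℕ} {a : ℝ≥0∞} (ha : ∀ (s : ℝ) (l : Ph), 0 ≤ s → s ≤ t₂ →
      PP f₀ ε {w | HasClean hΦ hε.ne' L T₀ t₂ J (world (pts w : Set Ph)) s l} ≤
        a * ENNReal.ofReal (Real.exp (b / 4 * ‖l.2‖ ^ 2))) (ht₁ : t₁ ≤ T₀)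
    -- the base
    {D₀ : Type} [Fintype D₀] {n₀ : D₀ → ℕ} {R₀ : ∀ d, Set (Fin (n₀ d) → ℝ × Ph)}
    {Rs₀ : ∀ d, Finset (Fin (n₀ d))} (hR₀ : ∀ d, MeasurableSet (R₀ d)) {δ₀ : D₀ → ℝ≥0∞}
    (hmass₀ : ∀ d, MassR f₀ ε b (c + b / 4) (R₀ d) (Rs₀ d) (δ₀ d)) {η₀ : ℝ≥0∞}
    (hη₀ : ∀ d, muE ε ^ (Rs₀ d).card * δ₀ d ≤ muE ε ^ c₀ * η₀)
    -- the relations
    {D : Type} [Fintype D] {n : D → ℕ} {R : ∀ d, Set (Fin (n d) → ℝ × Ph)}
    {Rs : ∀ d, Finset (Fin (n d))} (hR : ∀ d, MeasurableSet (R d)) {δ : D → ℝ≥0∞}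
    (hmass : ∀ d, MassR f₀ ε b c (R d) (Rs d) (δ d)) {η : ℝ≥0∞}
    (hη : ∀ d, muE ε ^ (Rs d).card * δ d ≤ muE ε ^ c₀ * η)
    -- the law
    {s : Fin q → ℝ} (hs : ∀ j, 0 ≤ s j) (dl : Fin q → ℕ)
    {W : (Fin m → CTree) → (Fin q → Ph) → ℝ≥0∞}
    (hW : Measurable fun p : (Fin m → CTree) × (Fin q → Ph) => W p.1 p.2) {CW : ℝ≥0∞}
    (hWb : ∀ T l, W T l ≤ CW * ENNReal.ofReal (Real.exp (c * enB T l)))
    (hbase : ∀ T l, W T l ≠ 0 → Base Φ ε T (lns s dl l))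
    (hbase' : ∀ T l, W T l ≠ 0 → RBad n₀ R₀ Rs₀ T (lns s dl l) ∅)
    {A : (Fin m → CTree) → (Fin q → Ph) → Finset (ℝ × Ph)}
    (hA : ∀ T l, W T l ≠ 0 → (A T l).card ≤ nA ∧
      ∀ σ ∈ A T l, 0 ≤ σ.1 ∧ σ.1 ≤ t₂ ∧ ‖σ.2.2‖ ^ 2 ≤ enB T l)
    {bad : (Fin m → CTree) → (Fin q → Ph) → Conf Ph → Prop}
    (hbad : ∀ T l, W T l ≠ 0 → ∀ᵐ w ∂(PP f₀ ε), bad T l w →
      (∃ σ ∈ A T l, HasClean hΦ hε.ne' L t₁ t₂ J (world (pts w : Set Ph)) σ.1 σ.2) ∨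
        RBad n R Rs T (lns s dl l) (pts w)) :
    muE ε ^ q * ∫⁻ T, ∫⁻ l : Fin q → Ph, (∏ j, g1 b (l j).2) * (W T l *
      (PP f₀ ε) {w | bad T l w}) ∂volume ∂(Measure.pi fun _ : Fin m => tree (inten f₀ ε) L) ≤
      CW * (muE ε ^ c₀ * (a * nA * (((shapes L).card ^ m : ℕ) *
        (∑ d, ((n₀ d).factorial * ENNReal.ofReal (max 1 M₀) ^ n₀ d)) * η₀) +
        ((shapes L).card ^ m : ℕ) *
        (∑ d, ((n d).factorial * ENNReal.ofReal (max 1 M₀) ^ n d)) * η)) := by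
  have hfin := isFiniteMeasure_inten (ε := ε) h
  have hPP : IsProbabilityMeasure (PP f₀ ε) := isProbability_PP h
  have hprob : (PP f₀ ε) {_w : Conf Ph | True} = 1 := by
    rw [Set.ofPred_true]
    exact measure_univ
  set ex : (Fin m → CTree) → (Fin q → Ph) → ℝ≥0∞ := fun T l =>
    ENNReal.ofReal (Real.exp (b / 4 * enB T l)) with hex
  have hexm : Measurable fun p : (Fin m → CTree) × (Fin q → Ph) => ex p.1 p.2 :=
    ((measurable_enB.const_mul (b / 4)).exp).ennreal_ofReal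
  set bad' : (Fin m → CTree) → (Fin q → Ph) → Conf Ph → Prop := fun T l w =>
    RBad n R Rs T (lns s dl l) (pts w) with hbad'
  have hpt : ∀ T l, W T l * (PP f₀ ε) {w | bad T l w} ≤
      W T l * (a * nA * ex T l) + W T l * (PP f₀ ε) {w | bad' T l w} := by
    intro T l
    by_cases hW0 : W T l = 0
    · rw [hW0, zero_mul]; exact zero_le
    rw [← mul_add]
    refine mul_le_mul_right ?_ _
    have h1 : (PP f₀ ε) {w | bad T l w} ≤ (PP f₀ ε) ((⋃ σ ∈ A T l,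
        {w : Conf Ph | HasClean hΦ hε.ne' L T₀ t₂ J (world (pts w : Set Ph)) σ.1 σ.2}) ∪
        {w | bad' T l w}) := by
      refine measure_mono_ae ?_
      filter_upwards [hbad T l hW0] with w hw hb
      rcases hw hb with ⟨σ, hσ, h2⟩ | h2
      · exact Or.inl (mem_iUnion₂.2 ⟨σ, hσ, h2.mono_T ht₁⟩)
      · exact Or.inr h2
    refine h1.trans ((measure_union_le _ _).trans (add_le_add ?_ le_rfl))
    obtain ⟨hA1, hA2⟩ := hA T l hW0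
    refine (measure_biUnion_finset_le _ _).trans ?_
    have h2 : ∀ σ ∈ A T l, (PP f₀ ε) {w : Conf Ph | HasClean hΦ hε.ne' L T₀ t₂ J
        (world (pts w : Set Ph)) σ.1 σ.2} ≤ a * ex T l := by
      intro σ hσ
      obtain ⟨h3, h4, h5⟩ := hA2 σ hσ
      refine (ha σ.1 σ.2 h3 h4).trans (mul_le_mul_right (ENNReal.ofReal_le_ofReal
        (Real.exp_le_exp.2 (mul_le_mul_of_nonneg_left h5 (by positivity)))) _)
    refine (Finset.sum_le_sum h2).trans ?_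
    rw [Finset.sum_const, nsmul_eq_mul]
    calc ((A T l).card : ℝ≥0∞) * (a * ex T l) ≤ (nA : ℝ≥0∞) * (a * ex T l) :=
          mul_le_mul_left (by exact_mod_cast hA1) _
      _ = _ := by ring
  have hgm : Measurable fun p : (Fin m → CTree) × (Fin q → Ph) => ∏ j, g1 b (p.2 j).2 :=
    Finset.measurable_prod _ fun j _ => (measurable_g1 b).comp
      ((measurable_pi_apply j).comp measurable_snd)
  have hF1 : Measurable fun p : (Fin m → CTree) × (Fin q → Ph) =>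
      (∏ j, g1 b (p.2 j).2) * (W p.1 p.2 * (a * nA * ex p.1 p.2)) :=
    hgm.mul (hW.mul (hexm.const_mul _))
  -- splitting of the integral
  have h1 : ∫⁻ T, ∫⁻ l : Fin q → Ph, (∏ j, g1 b (l j).2) * (W T l *
      (PP f₀ ε) {w | bad T l w}) ∂volume ∂(Measure.pi fun _ : Fin m => tree (inten f₀ ε) L) ≤
      (∫⁻ T, ∫⁻ l : Fin q → Ph, (∏ j, g1 b (l j).2) * (W T l * (a * nA * ex T l)) ∂volume
        ∂(Measure.pi fun _ : Fin m => tree (inten f₀ ε) L)) +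
      ∫⁻ T, ∫⁻ l : Fin q → Ph, (∏ j, g1 b (l j).2) * (W T l *
        (PP f₀ ε) {w | bad' T l w}) ∂volume
        ∂(Measure.pi fun _ : Fin m => tree (inten f₀ ε) L) := by
    rw [← lintegral2_add_left hF1]
    refine lintegral_mono fun T => lintegral_mono fun l => ?_
    rw [← mul_add]
    exact mul_le_mul_right (hpt T l) _
  -- the clean chains
  have h2 : muE ε ^ q * ∫⁻ T, ∫⁻ l : Fin q → Ph, (∏ j, g1 b (l j).2) *
      (W T l * ex T l * (PP f₀ ε) {_w | True}) ∂volume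
        ∂(Measure.pi fun _ : Fin m => tree (inten f₀ ε) L) ≤
      CW * (((shapes L).card ^ m : ℕ) *
        ∑ d, ((n₀ d).factorial * (ENNReal.ofReal (max 1 M₀) ^ n₀ d *
          (muE ε ^ (Rs₀ d).card * δ₀ d)))) := by
    refine lawR_le h hε.le (c := c + b / 4) (by positivity) hf L hR₀ hmass₀ hs dl
      (W := fun T l => W T l * ex T l) (hW.mul hexm) (CW := CW) (fun T l => ?_)
      (fun T l h3 => hbase T l fun h4 => h3 (by rw [h4, zero_mul]))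
      (bad := fun _ _ _ => True) (fun T l h3 => ?_)
    · refine (mul_le_mul' (hWb T l) le_rfl).trans (le_of_eq ?_)
      rw [mul_assoc, hex, ← ENNReal.ofReal_mul (Real.exp_nonneg _), ← Real.exp_add]
      congr 3
      unfold enB
      ring
    · obtain ⟨d, z, h4, h5, h6⟩ := hbase' T l fun h4 => h3 (by rw [h4, zero_mul])
      refine Eventually.of_forall fun w _ => ⟨d, z, ⟨h4.inj, fun i => ?_, h4.trees, h4.lines⟩,
        h5, h6⟩
      rcases h4.mem i with h7 | h7 | h7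
      · exact Or.inl h7
      · exact Or.inr (Or.inl h7)
      · unfold wS at h7
        simp at h7
  have h3 : muE ε ^ q * ∫⁻ T, ∫⁻ l : Fin q → Ph, (∏ j, g1 b (l j).2) *
      (W T l * (a * nA * ex T l)) ∂volume ∂(Measure.pi fun _ : Fin m => tree (inten f₀ ε) L) ≤
      CW * (muE ε ^ c₀ * (a * nA * (((shapes L).card ^ m : ℕ) *
        (∑ d, ((n₀ d).factorial * ENNReal.ofReal (max 1 M₀) ^ n₀ d)) * η₀))) := by
    have e1 : ∀ T l, (∏ j, g1 b (l j).2) * (W T l * (a * nA * ex T l)) =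
        a * nA * ((∏ j, g1 b (l j).2) * (W T l * ex T l * (PP f₀ ε) {_w | True})) := by
      intro T l
      rw [hprob]
      ring
    have hm1 : Measurable fun p : (Fin m → CTree) × (Fin q → Ph) =>
        (∏ j, g1 b (p.2 j).2) * (W p.1 p.2 * ex p.1 p.2 * (PP f₀ ε) {_w | True}) :=
      hgm.mul ((hW.mul hexm).mul_const _)
    have e3 : ∫⁻ T, ∫⁻ l : Fin q → Ph, (∏ j, g1 b (l j).2) * (W T l * (a * nA * ex T l))
        ∂volume ∂(Measure.pi fun _ : Fin m => tree (inten f₀ ε) L) =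
        a * nA * ∫⁻ T, ∫⁻ l : Fin q → Ph, (∏ j, g1 b (l j).2) * (W T l * ex T l *
        (PP f₀ ε) {_w | True}) ∂volume ∂(Measure.pi fun _ : Fin m => tree (inten f₀ ε) L) := by
      rw [← lintegral2_const_mul hm1]
      exact lintegral_congr fun T => lintegral_congr fun l => e1 T l
    have e4 : ∑ d, ((n₀ d).factorial * (ENNReal.ofReal (max 1 M₀) ^ n₀ d *
        (muE ε ^ c₀ * η₀))) = (∑ d, ((n₀ d).factorial *
          ENNReal.ofReal (max 1 M₀) ^ n₀ d)) * (muE ε ^ c₀ * η₀) := by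
      rw [Finset.sum_mul]
      exact Finset.sum_congr rfl fun d _ => by ring
    have e5 : ∑ d, ((n₀ d).factorial * (ENNReal.ofReal (max 1 M₀) ^ n₀ d *
          (muE ε ^ (Rs₀ d).card * δ₀ d))) ≤ ∑ d, ((n₀ d).factorial *
          (ENNReal.ofReal (max 1 M₀) ^ n₀ d * (muE ε ^ c₀ * η₀))) :=
      Finset.sum_le_sum fun d _ => mul_le_mul_right (mul_le_mul_right (hη₀ d) _) _
    rw [e3]
    calc _ = a * nA * (muE ε ^ q * ∫⁻ T, ∫⁻ l : Fin q → Ph, (∏ j, g1 b (l j).2) *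
          (W T l * ex T l * (PP f₀ ε) {_w | True}) ∂volume
          ∂(Measure.pi fun _ : Fin m => tree (inten f₀ ε) L)) := by ring
      _ ≤ a * nA * (CW * (((shapes L).card ^ m : ℕ) *
          ∑ d, ((n₀ d).factorial * (ENNReal.ofReal (max 1 M₀) ^ n₀ d *
          (muE ε ^ (Rs₀ d).card * δ₀ d))))) := mul_le_mul_right h2 _
      _ ≤ a * nA * (CW * (((shapes L).card ^ m : ℕ) *
          ∑ d, ((n₀ d).factorial * (ENNReal.ofReal (max 1 M₀) ^ n₀ d *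
          (muE ε ^ c₀ * η₀))))) :=
          mul_le_mul_right (mul_le_mul_right (mul_le_mul_right e5 _) _) _
      _ = _ := by
          rw [e4]
          ring
  have h4 : muE ε ^ q * ∫⁻ T, ∫⁻ l : Fin q → Ph, (∏ j, g1 b (l j).2) *
      (W T l * (PP f₀ ε) {w | bad' T l w}) ∂volume
        ∂(Measure.pi fun _ : Fin m => tree (inten f₀ ε) L) ≤
      CW * (muE ε ^ c₀ * (((shapes L).card ^ m : ℕ) *
        (∑ d, ((n d).factorial * ENNReal.ofReal (max 1 M₀) ^ n d)) * η)) := by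
    refine (lawR_le h hε.le hc hf L hR hmass hs dl hW (CW := CW) hWb hbase
      (bad := bad') (fun T l _ => Eventually.of_forall fun w hw => hw)).trans ?_
    have e4 : ∑ d, ((n d).factorial * (ENNReal.ofReal (max 1 M₀) ^ n d *
        (muE ε ^ c₀ * η))) = (∑ d, ((n d).factorial *
          ENNReal.ofReal (max 1 M₀) ^ n d)) * (muE ε ^ c₀ * η) := by
      rw [Finset.sum_mul]
      exact Finset.sum_congr rfl fun d _ => by ring
    have e5 : ∑ d, ((n d).factorial * (ENNReal.ofReal (max 1 M₀) ^ n d *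
          (muE ε ^ (Rs d).card * δ d))) ≤ ∑ d, ((n d).factorial *
          (ENNReal.ofReal (max 1 M₀) ^ n d * (muE ε ^ c₀ * η))) :=
      Finset.sum_le_sum fun d _ => mul_le_mul_right (mul_le_mul_right (hη d) _) _
    refine (mul_le_mul_right (mul_le_mul_right e5 _) _).trans (le_of_eq ?_)
    rw [e4]
    ring
  calc _ ≤ muE ε ^ q * ((∫⁻ T, ∫⁻ l : Fin q → Ph, (∏ j, g1 b (l j).2) *
        (W T l * (a * nA * ex T l)) ∂volume
        ∂(Measure.pi fun _ : Fin m => tree (inten f₀ ε) L)) +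
      ∫⁻ T, ∫⁻ l : Fin q → Ph, (∏ j, g1 b (l j).2) * (W T l *
        (PP f₀ ε) {w | bad' T l w}) ∂volume
        ∂(Measure.pi fun _ : Fin m => tree (inten f₀ ε) L)) := mul_le_mul_right h1 _
    _ ≤ _ := by
      rw [mul_add]
      refine (add_le_add h3 h4).trans (le_of_eq ?_)
      ring

/-- **The limit.** -/
theorem exc_lim_aux (h : GoodDatum f₀ κ₀) (hΦ : IsPotential Φ) (hb : 0 < b) (hc : 0 ≤ c)
    (hM₀ : 0 ≤ M₀) (hf : ∀ z, f₀ z ≤ M₀ * Real.exp (-b * ‖z.2‖ ^ 2)) (m q L nA c₀ : ℕ) {T₀ : ℝ}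
    (hT₀ : 0 ≤ T₀)
    -- the base
    {D₀ : Type} [Fintype D₀] {n₀ : D₀ → ℕ} {R₀ : ℝ → ∀ d, Set (Fin (n₀ d) → ℝ × Ph)}
    {Rs₀ : ∀ d, Finset (Fin (n₀ d))}
    (hR₀ : ∀ ε : ℝ, 0 < ε → ∀ d, MeasurableSet (R₀ ε d)) {δ₀ : ℝ → D₀ → ℝ≥0∞}
    (hmass₀ : ∀ ε : ℝ, 0 < ε → ε ≤ 1 → ∀ d, MassR f₀ ε b (c + b / 4) (R₀ ε d) (Rs₀ d) (δ₀ ε d))
    {η₀ : ℝ≥0∞} (hη₀t : η₀ ≠ ∞) (hη₀ : ∀ ε : ℝ, 0 < ε → ε ≤ 1 → ∀ d,
      muE ε ^ (Rs₀ d).card * δ₀ ε d ≤ muE ε ^ c₀ * η₀)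
    -- the relations
    {D : ℕ → Type} [∀ J, Fintype (D J)] {n : ∀ J, D J → ℕ}
    {R : ∀ J, ℝ → ∀ d : D J, Set (Fin (n J d) → ℝ × Ph)} {Rs : ∀ J, ∀ d : D J, Finset (Fin (n J d))}
    (hR : ∀ J, ∀ ε : ℝ, 0 < ε → ∀ d, MeasurableSet (R J ε d)) {δ : ∀ J, ℝ → D J → ℝ≥0∞}
    (hmass : ∀ J, ∀ ε : ℝ, 0 < ε → ε ≤ 1 → ∀ d, MassR f₀ ε b c (R J ε d) (Rs J d) (δ J ε d))
    {η : ℕ → ℝ → ℝ≥0∞} (hη : ∀ J, ∀ ε : ℝ, 0 < ε → ε ≤ 1 → ∀ d,
      muE ε ^ (Rs J d).card * δ J ε d ≤ muE ε ^ c₀ * η J ε)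
    (hη0 : ∀ J, Tendsto (η J) (𝓝[>] 0) (𝓝 0)) :
    ∃ Dl : ℝ → ℝ≥0∞, Tendsto Dl (𝓝[>] 0) (𝓝 0) ∧ ∀ (ε : ℝ) (hε : 0 < ε), ε ≤ 1 →
      ∀ t₁ t₂ : ℝ, t₁ ≤ T₀ → t₂ ≤ T₀ + 1 → ∀ s : Fin q → ℝ, (∀ j, 0 ≤ s j) → ∀ (dl : Fin q → ℕ)
      (W : (Fin m → CTree) → (Fin q → Ph) → ℝ≥0∞),
      (Measurable fun p : (Fin m → CTree) × (Fin q → Ph) => W p.1 p.2) → ∀ CW : ℝ≥0∞, CW ≠ ∞ →
      (∀ T l, W T l ≤ CW * ENNReal.ofReal (Real.exp (c * enB T l))) →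
      (∀ T l, W T l ≠ 0 → Base Φ ε T (lns s dl l)) →
      (∀ T l, W T l ≠ 0 → RBad n₀ (R₀ ε) Rs₀ T (lns s dl l) ∅) →
      ∀ A : (Fin m → CTree) → (Fin q → Ph) → Finset (ℝ × Ph),
      (∀ T l, W T l ≠ 0 → (A T l).card ≤ nA ∧
        ∀ σ ∈ A T l, 0 ≤ σ.1 ∧ σ.1 ≤ t₂ ∧ ‖σ.2.2‖ ^ 2 ≤ enB T l) →
      ∀ bad : (Fin m → CTree) → (Fin q → Ph) → Conf Ph → Prop,
      (∀ J, ∀ T l, W T l ≠ 0 → ∀ᵐ w ∂(PP f₀ ε), bad T l w →
        (∃ σ ∈ A T l, HasClean hΦ hε.ne' L t₁ t₂ J (world (pts w : Set Ph)) σ.1 σ.2) ∨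
          RBad (n J) (R J ε) (Rs J) T (lns s dl l) (pts w)) →
      muE ε ^ q * ∫⁻ T, ∫⁻ l : Fin q → Ph, (∏ j, g1 b (l j).2) * (W T l *
        (PP f₀ ε) {w | bad T l w}) ∂volume ∂(Measure.pi fun _ : Fin m => tree (inten f₀ ε) L) ≤
      CW * (muE ε ^ c₀ * Dl ε) := by
  obtain ⟨a, ha, hat, hcl⟩ := prob_clean_le hΦ h hb hT₀ hM₀ hf L (T₀ + 1) (by linarith)
  set K₀ : ℝ≥0∞ := nA * (((shapes L).card ^ m : ℕ) *
    (∑ d, ((n₀ d).factorial * ENNReal.ofReal (max 1 M₀) ^ n₀ d)) * η₀) with hK₀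
  have hK₀t : K₀ ≠ ∞ := by
    refine ENNReal.mul_ne_top (ENNReal.natCast_ne_top _) (ENNReal.mul_ne_top (ENNReal.mul_ne_top
      (ENNReal.natCast_ne_top _) (ENNReal.sum_ne_top.2 fun d _ => ENNReal.mul_ne_top
        (ENNReal.natCast_ne_top _) (ENNReal.pow_ne_top ENNReal.ofReal_ne_top))) hη₀t)
  set K : ℕ → ℝ≥0∞ := fun J => ((shapes L).card ^ m : ℕ) *
    (∑ d, ((n J d).factorial * ENNReal.ofReal (max 1 M₀) ^ n J d)) with hK
  have hKt : ∀ J, K J ≠ ∞ := fun J => ENNReal.mul_ne_top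
      (ENNReal.natCast_ne_top _) (ENNReal.sum_ne_top.2 fun d _ => ENNReal.mul_ne_top
        (ENNReal.natCast_ne_top _) (ENNReal.pow_ne_top ENNReal.ofReal_ne_top))
  refine ⟨fun ε => ⨅ J, (a J * K₀ + K J * η J ε), ?_, ?_⟩
  · rw [ENNReal.tendsto_nhds_zero]
    intro δ' hδ'
    have h1 : Tendsto (fun J => a J * K₀) atTop (𝓝 0) := by
      have := ENNReal.Tendsto.mul_const (b := K₀) ha (Or.inr hK₀t)
      rwa [zero_mul] at this
    obtain ⟨J, hJ⟩ := ((ENNReal.tendsto_nhds_zero.1 h1) (δ' / 2)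
      (ENNReal.half_pos hδ'.ne')).exists
    have h2 : Tendsto (fun ε => K J * η J ε) (𝓝[>] 0) (𝓝 0) := by
      have := ENNReal.Tendsto.const_mul (a := K J) (hη0 J) (Or.inr (hKt J))
      rwa [mul_zero] at this
    filter_upwards [(ENNReal.tendsto_nhds_zero.1 h2) (δ' / 2) (ENNReal.half_pos hδ'.ne')]
      with ε hε
    calc ⨅ J, (a J * K₀ + K J * η J ε) ≤ a J * K₀ + K J * η J ε := iInf_le _ J
      _ ≤ δ' / 2 + δ' / 2 := add_le_add hJ hε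
      _ = δ' := ENNReal.add_halves δ'
  · intro ε hε hε1 t₁ t₂ ht₁ ht₂ s hs dl W hW CW hCW hWb hbase hbase' A hA bad hbad
    have key : ∀ J, muE ε ^ q * ∫⁻ T, ∫⁻ l : Fin q → Ph, (∏ j, g1 b (l j).2) * (W T l *
        (PP f₀ ε) {w | bad T l w}) ∂volume ∂(Measure.pi fun _ : Fin m => tree (inten f₀ ε) L) ≤
        CW * muE ε ^ c₀ * (a J * K₀ + K J * η J ε) := by
      intro J
      refine (exc_step h hΦ hε hb hc hf L nA c₀ (T₀ := T₀) (t₁ := t₁) (t₂ := t₂) (J := J)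
        (a := a J) (fun s' l' h1 h2 => hcl ε hε J t₂ s' l' h2 (by linarith)) ht₁ (hR₀ ε hε)
        (hmass₀ ε hε hε1) (hη₀ ε hε hε1) (hR J ε hε) (hmass J ε hε hε1) (hη J ε hε hε1) hs dl hW
        hWb hbase hbase' hA (hbad J)).trans (le_of_eq ?_)
      rw [hK₀, hK]
      ring
    have hCt : CW * muE ε ^ c₀ ≠ ∞ := ENNReal.mul_ne_top hCW (ENNReal.pow_ne_top muE_ne_top)
    rw [← mul_assoc]
    by_cases hC0 : CW * muE ε ^ c₀ = 0
    · have h1 := key 0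
      rw [hC0, zero_mul] at h1
      rw [hC0, zero_mul]
      exact h1
    · rw [ENNReal.mul_iInf_of_ne hC0 hCt]
      exact le_iInf key

/-! ### Finite sets of relations -/

/-- A relation between the states of `n` particles, for every `ε`, with the localised labels. -/
structure Rln where
  /-- the number of labels -/
  n : ℕ
  /-- the relation -/
  R : ℝ → Set (Fin n → ℝ × Ph)
  /-- one label of every class -/
  Rs : Finset (Fin n)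

namespace Rln

/-- The relation has bounded mass, compared with `μ ^ c₀`. -/
def Bdd (f₀ : Ph → ℝ) (b c : ℝ) (c₀ : ℕ) (r : Rln) : Prop :=
  (∀ ε : ℝ, 0 < ε → MeasurableSet (r.R ε)) ∧ ∃ η : ℝ≥0∞, η ≠ ∞ ∧ ∀ ε : ℝ, 0 < ε → ε ≤ 1 →
    ∃ δ : ℝ≥0∞, MassR f₀ ε b c (r.R ε) r.Rs δ ∧ muE ε ^ r.Rs.card * δ ≤ muE ε ^ c₀ * η

/-- The relation has small mass, compared with `μ ^ c₀`. -/
def Small (f₀ : Ph → ℝ) (b c : ℝ) (c₀ : ℕ) (r : Rln) : Prop :=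
  (∀ ε : ℝ, 0 < ε → MeasurableSet (r.R ε)) ∧ ∃ η : ℝ → ℝ≥0∞, Tendsto η (𝓝[>] 0) (𝓝 0) ∧
    ∀ ε : ℝ, 0 < ε → ε ≤ 1 →
      ∃ δ : ℝ≥0∞, MassR f₀ ε b c (r.R ε) r.Rs δ ∧ muE ε ^ r.Rs.card * δ ≤ muE ε ^ c₀ * η ε

end Rln

/-- One of the relations of the set holds for some labelling. -/
def SBad (S : Set Rln) (ε : ℝ) (T : Fin m → CTree) (l : Fin q → Src) (w : Finset Ph) : Prop :=
  ∃ r ∈ S, ∃ z : Fin r.n → Src, LabT T l w z ∧ (fun i => sta (z i)) ∈ r.R ε ∧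
    ∀ i ∈ r.Rs, z i ∉ range l

theorem SBad.mono {S S' : Set Rln} (hS : S ⊆ S') {T : Fin m → CTree} {l : Fin q → Src}
    {w : Finset Ph} (h : SBad S ε T l w) : SBad S' ε T l w := by
  obtain ⟨r, hr, h1⟩ := h
  exact ⟨r, hS hr, h1⟩

/-- **The limit of the exceptional events.** `m` trees, `q` free lines, `c₀` components. -/
theorem exc_lim (h : GoodDatum f₀ κ₀) (hΦ : IsPotential Φ) (hb : 0 < b) (hc : 0 ≤ c)
    (hM₀ : 0 ≤ M₀) (hf : ∀ z, f₀ z ≤ M₀ * Real.exp (-b * ‖z.2‖ ^ 2)) (m q L nA c₀ : ℕ) {T₀ : ℝ}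
    (hT₀ : 0 ≤ T₀) {S₀ : Set Rln} (hS₀ : S₀.Finite) (hB : ∀ r ∈ S₀, r.Bdd f₀ b (c + b / 4) c₀)
    {S : ℕ → Set Rln} (hS : ∀ J, (S J).Finite) (hSm : ∀ J, ∀ r ∈ S J, r.Small f₀ b c c₀) :
    ∃ Dl : ℝ → ℝ≥0∞, Tendsto Dl (𝓝[>] 0) (𝓝 0) ∧ ∀ (ε : ℝ) (hε : 0 < ε), ε ≤ 1 →
      ∀ t₁ t₂ : ℝ, t₁ ≤ T₀ → t₂ ≤ T₀ + 1 → ∀ s : Fin q → ℝ, (∀ j, 0 ≤ s j) → ∀ (dl : Fin q → ℕ)
      (W : (Fin m → CTree) → (Fin q → Ph) → ℝ≥0∞),
      (Measurable fun p : (Fin m → CTree) × (Fin q → Ph) => W p.1 p.2) → ∀ CW : ℝ≥0∞, CW ≠ ∞ →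
      (∀ T l, W T l ≤ CW * ENNReal.ofReal (Real.exp (c * enB T l))) →
      (∀ T l, W T l ≠ 0 → Base Φ ε T (lns s dl l)) →
      (∀ T l, W T l ≠ 0 → SBad S₀ ε T (lns s dl l) ∅) →
      ∀ A : (Fin m → CTree) → (Fin q → Ph) → Finset (ℝ × Ph),
      (∀ T l, W T l ≠ 0 → (A T l).card ≤ nA ∧
        ∀ σ ∈ A T l, 0 ≤ σ.1 ∧ σ.1 ≤ t₂ ∧ ‖σ.2.2‖ ^ 2 ≤ enB T l) →
      ∀ bad : (Fin m → CTree) → (Fin q → Ph) → Conf Ph → Prop,
      (∀ J, ∀ T l, W T l ≠ 0 → ∀ᵐ w ∂(PP f₀ ε), bad T l w →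
        (∃ σ ∈ A T l, HasClean hΦ hε.ne' L t₁ t₂ J (world (pts w : Set Ph)) σ.1 σ.2) ∨
          SBad (S J) ε T (lns s dl l) (pts w)) →
      muE ε ^ q * ∫⁻ T, ∫⁻ l : Fin q → Ph, (∏ j, g1 b (l j).2) * (W T l *
        (PP f₀ ε) {w | bad T l w}) ∂volume ∂(Measure.pi fun _ : Fin m => tree (inten f₀ ε) L) ≤
      CW * (muE ε ^ c₀ * Dl ε) := by
  have : Fintype S₀ := hS₀.fintype
  have : ∀ J, Fintype (S J) := fun J => (hS J).fintype
  have h1 : ∀ r : S₀, ∃ η : ℝ≥0∞, ∃ δ : ℝ → ℝ≥0∞, η ≠ ∞ ∧ ∀ ε : ℝ, 0 < ε → ε ≤ 1 →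
      MassR f₀ ε b (c + b / 4) (r.1.R ε) r.1.Rs (δ ε) ∧
        muE ε ^ r.1.Rs.card * δ ε ≤ muE ε ^ c₀ * η := by
    intro r
    obtain ⟨-, η, hη, h2⟩ := hB r.1 r.2
    refine ⟨η, fun ε => if h3 : 0 < ε ∧ ε ≤ 1 then (h2 ε h3.1 h3.2).choose else 0, hη,
      fun ε hε hε1 => ?_⟩
    simp only [dif_pos (And.intro hε hε1)]
    exact (h2 ε hε hε1).choose_spec
  choose η₀ δ₀ hη₀t h2 using h1
  have h3 : ∀ J, ∀ r : S J, ∃ η : ℝ → ℝ≥0∞, ∃ δ : ℝ → ℝ≥0∞, Tendsto η (𝓝[>] 0) (𝓝 0) ∧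
      ∀ ε : ℝ, 0 < ε → ε ≤ 1 → MassR f₀ ε b c (r.1.R ε) r.1.Rs (δ ε) ∧
        muE ε ^ r.1.Rs.card * δ ε ≤ muE ε ^ c₀ * η ε := by
    intro J r
    obtain ⟨-, η, hη, h2⟩ := hSm J r.1 r.2
    refine ⟨η, fun ε => if h3 : 0 < ε ∧ ε ≤ 1 then (h2 ε h3.1 h3.2).choose else 0, hη,
      fun ε hε hε1 => ?_⟩
    simp only [dif_pos (And.intro hε hε1)]
    exact (h2 ε hε hε1).choose_spec
  choose η δ hηt h4 using h3
  obtain ⟨Dl, hDl, h5⟩ := exc_lim_aux h hΦ hb hc hM₀ hf m q L nA c₀ hT₀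
    (D₀ := S₀) (n₀ := fun d => d.1.n) (R₀ := fun ε d => d.1.R ε) (Rs₀ := fun d => d.1.Rs)
    (fun ε hε d => (hB d.1 d.2).1 ε hε) (δ₀ := fun ε d => δ₀ d ε)
    (fun ε hε hε1 d => (h2 d ε hε hε1).1) (η₀ := ∑ d, η₀ d)
    (ENNReal.sum_ne_top.2 fun d _ => hη₀t d)
    (fun ε hε hε1 d => ((h2 d ε hε hε1).2).trans (mul_le_mul_right
      (Finset.single_le_sum (f := η₀) (fun _ _ => zero_le) (Finset.mem_univ d)) _))
    (D := fun J => S J) (n := fun J d => d.1.n) (R := fun J ε d => d.1.R ε)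
    (Rs := fun J d => d.1.Rs) (fun J ε hε d => (hSm J d.1 d.2).1 ε hε)
    (δ := fun J ε d => δ J d ε) (fun J ε hε hε1 d => (h4 J d ε hε hε1).1)
    (η := fun J ε => ∑ d, η J d ε)
    (fun J ε hε hε1 d => ((h4 J d ε hε hε1).2).trans (mul_le_mul_right
      (Finset.single_le_sum (f := fun d => η J d ε) (fun _ _ => zero_le) (Finset.mem_univ d)) _))
    (fun J => by
      have h6 := tendsto_finsetSum (Finset.univ : Finset (S J)) fun d _ => hηt J d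
      rwa [Finset.sum_const_zero] at h6)
  refine ⟨Dl, hDl, fun ε hε hε1 t₁ t₂ ht₁ ht₂ s hs dl W hW CW hCW hWb hbase hbase' A hA bad hbad =>
    h5 ε hε hε1 t₁ t₂ ht₁ ht₂ s hs dl W hW CW hCW hWb hbase (fun T l hTl => ?_) A hA bad
      fun J T l hTl => ?_⟩
  · obtain ⟨r, hr, z, h6⟩ := hbase' T l hTl
    exact ⟨⟨r, hr⟩, z, h6⟩
  · filter_upwards [hbad J T l hTl] with w hw hb'
    rcases hw hb' with h6 | ⟨r, hr, z, h6⟩
    · exact Or.inl h6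
    · exact Or.inr ⟨⟨r, hr⟩, z, h6⟩

end Vale.Agent.P119.IND
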