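import Vale.Agent.P119.M.Loc
import Vale.Agent.P119.TL.Comb

/-!
# P119, block IND: from families of histories to sorted lists of events (`helper350`)

* `Cev`: concrete events, `nd a b` (the histories `a` and `b` collide) and `gh A B r` (ghost: the root
  particle of `A` is in contact with the undisturbed root particle of `B` at the time `r`);
* `Val T c s Q`: the list `Q` of events is sorted in time, and every event concerns the current
  histories `c` of its two labels;
* `Fam T F G`: a finite family `F` of histories, closed and comparable, with a list `G` of ghosts;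
* `Fam.exists_val`: all the events of `Fam T F G` can be arranged to a list `Q` with `Val`.
-/

open MeasureTheory Filter Topology Set
open scoped ENNReal NNReal

noncomputable section

namespace Vale.Agent.P119.IND

open KU M M.CTree TL

variable {Φ : E3 → ℝ} {ε : ℝ}

/-! ### Spines -/

theorem Spine.exists_next {S T : CTree} (h : Spine S T) (hne : S ≠ T) :
    ∃ b, Spine (node S b) T := by
  induction h with
  | refl => exact absurd rfl hne
  | @left a b h ih =>
    by_cases hS : S = a
    · subst hS
      exact ⟨b, Spine.refl _⟩
    · obtain ⟨c, hc⟩ := ih hS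
      exact ⟨c, Spine.left b hc⟩

theorem Spine.node_cases {P a b : CTree} (h : Spine P (node a b)) : P = node a b ∨ Spine P a := by
  cases h with
  | refl => exact Or.inl rfl
  | left b h => exact Or.inr h

theorem Spine.leaf_eq {P : CTree} {σ : Src} (h : Spine P (leaf σ)) : P = leaf σ := by
  cases h; rfl

/-- Earlier histories end earlier. -/
theorem Spine.ext_le (hΦ : IsPotential Φ) (hε : 0 < ε) {S T : CTree} (h : Spine S T)
    (hT : ok Φ ε T) : ext Φ ε S ≤ ext Φ ε T := by
  induction h with
  | refl => exact le_rfl
  | @left a b h ih =>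
    have h1 := ih hT.1
    have h2 := hT.2.2.2.2.2.1
    have h3 := sig_lt_ext hΦ hε hT
    change _ < sig Φ ε (node a b) at h2
    linarith

/-- Earlier histories end before the later collisions. -/
theorem Spine.ext_lt_sig (hΦ : IsPotential Φ) (hε : 0 < ε) {S T : CTree} (h : Spine S T)
    (hne : S ≠ T) (hT : ok Φ ε T) : ext Φ ε S < sig Φ ε T := by
  cases h with
  | refl => exact absurd rfl hne
  | @left a b h =>
    have h1 := Spine.ext_le hΦ hε h hT.1
    have h2 := hT.2.2.2.2.2.1
    change _ < sig Φ ε (node a b) at h2
    linarith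

/-! ### Concrete events -/

/-- Concrete events: the collision of two histories, and a ghost contact at a given time. -/
inductive Cev : Type
  | nd (a b : CTree) : Cev
  | gh (A B : CTree) (r : ℝ) : Cev

namespace Cev

/-- The time. -/
def time (Φ : E3 → ℝ) (ε : ℝ) : Cev → ℝ
  | nd a b => sig Φ ε (node a b)
  | gh _ _ r => r

/-- The first label. -/
def fst : Cev → Src
  | nd a _ => a.root
  | gh A _ _ => A.root

/-- The second label. -/
def snd : Cev → Src
  | nd _ b => b.root
  | gh _ B _ => B.root

end Cev

open Classical in
/-- The histories of the labels after an event. -/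
def upd (c : Src → CTree) : Cev → Src → CTree
  | .nd a b => Function.update (Function.update c a.root (node a b)) b.root (node b a)
  | .gh _ _ _ => c

theorem upd_fst (c : Src → CTree) {a b : CTree} (h : a.root ≠ b.root) :
    upd c (.nd a b) a.root = node a b := by
  classical
  unfold upd
  simp only
  rw [Function.update_of_ne h, Function.update_self]

theorem upd_snd (c : Src → CTree) (a b : CTree) : upd c (.nd a b) b.root = node b a := by
  classical
  unfold upd
  simp only
  rw [Function.update_self]

theorem upd_of_ne (c : Src → CTree) {a b : CTree} {x : Src} (h1 : x ≠ a.root)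
    (h2 : x ≠ b.root) : upd c (.nd a b) x = c x := by
  classical
  unfold upd
  simp only
  rw [Function.update_of_ne h2, Function.update_of_ne h1]

/-- The conditions for an event, given the current histories. -/
def Pre (Φ : E3 → ℝ) (ε T : ℝ) (c : Src → CTree) : Cev → Prop
  | .nd a b => ok Φ ε (node a b) ∧ ext Φ ε (node a b) ≤ T ∧ c a.root = a ∧ c b.root = b
  | .gh A B r => c A.root = A ∧ c B.root = B ∧ A.root ≠ B.root ∧ ext Φ ε A ≤ r ∧ ext Φ ε B ≤ r ∧
      r ≤ T ∧ Ctc ε (free r (ln Φ ε A)) (free r (ln Φ ε B))

/-- The events of the list take place one after the other, after the time `s`. -/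
def Val (Φ : E3 → ℝ) (ε T : ℝ) : (Src → CTree) → ℝ → List Cev → Prop
  | _, _, [] => True
  | c, s, e :: Q => s ≤ e.time Φ ε ∧ Pre Φ ε T c e ∧ Val Φ ε T (upd c e) (e.time Φ ε) Q

/-- The histories at the end. -/
def fin (c : Src → CTree) (Q : List Cev) : Src → CTree := Q.foldl upd c

theorem fin_append (c : Src → CTree) (Q : List Cev) (e : Cev) :
    fin c (Q ++ [e]) = upd (fin c Q) e := by
  unfold fin
  rw [List.foldl_append]
  rfl

theorem val_append {T : ℝ} (Q : List Cev) (e : Cev) : ∀ (c : Src → CTree) (s : ℝ),
    Val Φ ε T c s Q → (∀ x ∈ Q, x.time Φ ε ≤ e.time Φ ε) → s ≤ e.time Φ ε →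
    Pre Φ ε T (fin c Q) e → Val Φ ε T c s (Q ++ [e]) := by
  induction Q with
  | nil => exact fun c s _ _ hs hp => ⟨hs, hp, trivial⟩
  | cons x Q ih =>
    intro c s h hx _ hp
    refine ⟨h.1, h.2.1, ih _ _ h.2.2 (fun y hy => hx y (List.mem_cons_of_mem _ hy))
      (hx x List.mem_cons_self) hp⟩

/-- Ghosts: the two histories and the time. -/
abbrev Gh : Type := CTree × CTree × ℝ

/-- The event of a ghost. -/
def Gh.ev (g : Gh) : Cev := .gh g.1 g.2.1 g.2.2

/-- A finite family `F` of histories, closed with respect to the constituents and to the exchange of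
the two partners, comparable, and a list `G` of ghosts, sorted in time; the first label of a ghost
is not used afterwards, the second history of a ghost is the current one. -/
structure Fam (Φ : E3 → ℝ) (ε T : ℝ) (F : Finset CTree) (G : List Gh) : Prop where
  ok : ∀ P ∈ F, ok Φ ε P
  ext_le : ∀ P ∈ F, ext Φ ε P ≤ T
  sub : ∀ a b, node a b ∈ F → a ∈ F ∧ b ∈ F ∧ node b a ∈ F
  cmp : ∀ P ∈ F, ∀ Q ∈ F, P.root = Q.root → Spine P Q ∨ Spine Q P
  gh : ∀ g ∈ G, g.1 ∈ F ∧ g.2.1 ∈ F ∧ g.1.root ≠ g.2.1.root ∧ ext Φ ε g.1 ≤ g.2.2 ∧
    ext Φ ε g.2.1 ≤ g.2.2 ∧ g.2.2 ≤ T ∧ Ctc ε (free g.2.2 (ln Φ ε g.1)) (free g.2.2 (ln Φ ε g.2.1))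
  last : ∀ g ∈ G, ∀ P ∈ F, P.root = g.1.root → Spine P g.1
  cur : ∀ g ∈ G, ∀ y, node g.2.1 y ∈ F → g.2.2 ≤ sig Φ ε (node g.2.1 y)
  srt : G.Pairwise fun g g' => g.2.2 ≤ g'.2.2 ∧ g.1.root ≠ g'.1.root ∧ g.1.root ≠ g'.2.1.root

open Classical in
/-- The histories with at least one collision. -/
def nl (F : Finset CTree) : Finset CTree := F.filter fun P => ∃ a b, P = node a b

theorem mem_nl {F : Finset CTree} {P : CTree} : P ∈ nl F ↔ P ∈ F ∧ ∃ a b, P = node a b := by
  classical
  unfold nl
  rw [Finset.mem_filter]

/-- The events of the list are those of the family. -/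
structure Res (Φ : E3 → ℝ) (ε T s : ℝ) (F : Finset CTree) (G : List Gh) (Q : List Cev) : Prop where
  val : Val Φ ε T leaf s Q
  cur : ∀ P ∈ F, Spine P (fin leaf Q P.root) ∧ fin leaf Q P.root ∈ F
  node : ∀ a b, node a b ∈ F → Cev.nd a b ∈ Q ∨ Cev.nd b a ∈ Q
  mem : ∀ e ∈ Q, (∃ a b, e = Cev.nd a b ∧ CTree.node a b ∈ F) ∨ ∃ g ∈ G, e = Gh.ev g
  ghost : ∀ g ∈ G, Gh.ev g ∈ Q
  len : 2 * Q.length = (nl F).card + 2 * G.length
  wf : Q.Pairwise fun e e' => ∀ A B r, e = Cev.gh A B r → e'.fst ≠ A.root ∧ e'.snd ≠ A.root

theorem Fam.root_ne {T : ℝ} {F : Finset CTree} {G : List Gh} (h : Fam Φ ε T F G) {a b : CTree}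
    (hab : node a b ∈ F) : a.root ≠ b.root := by
  intro hr
  have h1 := (h.ok _ hab).2.2.1
  exact Set.disjoint_left.1 h1 a.root_mem_leaves (hr ▸ b.root_mem_leaves)

theorem Fam.swap_ne {T : ℝ} {F : Finset CTree} {G : List Gh} (h : Fam Φ ε T F G) {a b : CTree}
    (hab : node a b ∈ F) : node b a ≠ node a b := by
  intro hr
  injection hr with h1 h2
  exact h.root_ne hab (by rw [h1])

theorem Fam.spine_mem {T : ℝ} {F : Finset CTree} {G : List Gh} (h : Fam Φ ε T F G) {P Q : CTree}
    (hPQ : Spine P Q) (hQ : Q ∈ F) : P ∈ F := by
  induction hPQ with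
  | refl => exact hQ
  | left b _ ih => exact ih (h.sub _ _ hQ).1

/-- Removal of the last collision. -/
theorem Fam.erase (hΦ : IsPotential Φ) (hε : 0 < ε) {T : ℝ} {F F' : Finset CTree} {G : List Gh}
    (h : Fam Φ ε T F G) {a b : CTree} (hab : node a b ∈ F)
    (hmax : ∀ P ∈ nl F, sig Φ ε P ≤ sig Φ ε (node a b))
    (hG : ∀ g ∈ G, g.2.2 ≤ sig Φ ε (node a b))
    (hF' : ∀ P, P ∈ F' ↔ P ∈ F ∧ P ≠ node a b ∧ P ≠ node b a) : Fam Φ ε T F' G := by
  have hba := (h.sub a b hab).2.2
  have e1 : sig Φ ε (node b a) = sig Φ ε (node a b) := sig_swap a b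
  have hs : ∀ P, P ∈ F' → P ∈ F := fun P hP => ((hF' P).1 hP).1
  have hlt : sig Φ ε (node a b) < ext Φ ε (node a b) := sig_lt_ext hΦ hε (h.ok _ hab)
  have hlt' : sig Φ ε (node a b) < ext Φ ε (node b a) := by
    rw [← e1]; exact sig_lt_ext hΦ hε (h.ok _ hba)
  -- nothing in the family contains the two last histories
  have key : ∀ c d, node c d ∈ F → c ≠ node a b ∧ c ≠ node b a ∧ d ≠ node a b ∧ d ≠ node b a := by
    intro c d hcd
    have h1 := hmax _ (mem_nl.2 ⟨hcd, c, d, rfl⟩)
    have h2 := (h.ok _ hcd).2.2.2.2.2
    change _ < sig Φ ε (node c d) ∧ _ < sig Φ ε (node c d) at h2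
    refine ⟨?_, ?_, ?_, ?_⟩
    · rintro rfl; linarith [h2.1]
    · rintro rfl; linarith [h2.1]
    · rintro rfl; linarith [h2.2]
    · rintro rfl; linarith [h2.2]
  refine ⟨fun P hP => h.ok P (hs P hP), fun P hP => h.ext_le P (hs P hP), fun c d hcd => ?_,
    fun P hP Q hQ => h.cmp P (hs P hP) Q (hs Q hQ), fun g hg => ?_,
    fun g hg P hP => h.last g hg P (hs P hP), fun g hg y hy => h.cur g hg y (hs _ hy), h.srt⟩
  · have h1 := (hF' _).1 hcd
    have h2 := h.sub c d h1.1
    have h3 := key c d h1.1
    refine ⟨(hF' _).2 ⟨h2.1, h3.1, h3.2.1⟩, (hF' _).2 ⟨h2.2.1, h3.2.2.1, h3.2.2.2⟩,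
      (hF' _).2 ⟨h2.2.2, ?_, ?_⟩⟩
    · intro h4
      injection h4 with h5 h6
      exact h1.2.2 (by rw [h5, h6])
    · intro h4
      injection h4 with h5 h6
      exact h1.2.1 (by rw [h5, h6])
  · have h1 := h.gh g hg
    have h2 := hG g hg
    refine ⟨(hF' _).2 ⟨h1.1, ?_, ?_⟩, (hF' _).2 ⟨h1.2.1, ?_, ?_⟩, h1.2.2⟩
    · intro h3; rw [h3] at h1; linarith [h1.2.2.2.1]
    · intro h3; rw [h3] at h1; linarith [h1.2.2.2.1]
    · intro h3; rw [h3] at h1; linarith [h1.2.2.2.2.1]
    · intro h3; rw [h3] at h1; linarith [h1.2.2.2.2.1]

/-- Removal of the last ghost. -/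
theorem Fam.init {T : ℝ} {F : Finset CTree} {G : List Gh} {g : Gh}
    (h : Fam Φ ε T F (G ++ [g])) : Fam Φ ε T F G := by
  have hs : ∀ x, x ∈ G → x ∈ G ++ [g] := fun x hx => List.mem_append_left _ hx
  exact ⟨h.ok, h.ext_le, h.sub, h.cmp, fun x hx => h.gh x (hs x hx),
    fun x hx => h.last x (hs x hx), fun x hx => h.cur x (hs x hx),
    (List.pairwise_append.1 h.srt).1⟩

/-- **The events of a family can be arranged in the order of time.** -/
theorem Fam.exists_val (hΦ : IsPotential Φ) (hε : 0 < ε) {T s : ℝ} {F : Finset CTree}
    {G : List Gh} (h : Fam Φ ε T F G) (hs : ∀ P ∈ nl F, s ≤ sig Φ ε P) (hs' : ∀ g ∈ G, s ≤ g.2.2) :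
    ∃ Q, Res Φ ε T s F G Q := by
  classical
  induction hn : F.card + G.length using Nat.strong_induction_on generalizing F G with
  | _ n ih =>
    subst hn
    -- the last ghost comes last
    have ghost : ∀ (G' : List Gh) (g : Gh), G = G' ++ [g] → (∀ P ∈ nl F, sig Φ ε P < g.2.2) →
        ∃ Q, Res Φ ε T s F G Q := by
      intro G' g hG hlast
      subst hG
      have hg : g ∈ G' ++ [g] := List.mem_append_right _ List.mem_cons_self
      obtain ⟨Q, hQ⟩ := ih (F.card + G'.length) (by simp) h.init hs
        (fun x hx => hs' x (List.mem_append_left _ hx)) rfl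
      have hsrt := (List.pairwise_append.1 h.srt).2.2
      have hghe := h.gh g hg
      have time_le : ∀ x ∈ Q, x.time Φ ε ≤ (Gh.ev g).time Φ ε := by
        intro x hx
        rcases hQ.mem x hx with ⟨a, b, rfl, hab⟩ | ⟨g', hg', rfl⟩
        · exact (hlast _ (mem_nl.2 ⟨hab, a, b, rfl⟩)).le
        · exact (hsrt g' hg' g List.mem_cons_self).1
      have cA : fin leaf Q g.1.root = g.1 := by
        obtain ⟨h1, h2⟩ := hQ.cur _ hghe.1
        have h3 := h.last g hg _ h2 (by rw [← h1.root_eq])
        exact Spine.antisymm h3 h1
      have cB : fin leaf Q g.2.1.root = g.2.1 := by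
        obtain ⟨h1, h2⟩ := hQ.cur _ hghe.2.1
        by_contra hne
        obtain ⟨y, hy⟩ := Spine.exists_next h1 (Ne.symm hne)
        have h3 := h.spine_mem hy h2
        have h4 := h.cur g hg y h3
        have h5 := hlast _ (mem_nl.2 ⟨h3, _, _, rfl⟩)
        linarith
      have hfin : fin leaf (Q ++ [Gh.ev g]) = fin leaf Q := fin_append _ _ _
      refine ⟨Q ++ [Gh.ev g], ?_, ?_, ?_, ?_, ?_, ?_, ?_⟩
      · exact val_append Q _ _ _ hQ.val time_le (hs' g hg) ⟨cA, cB, hghe.2.2⟩
      · rw [hfin]; exact hQ.cur
      · intro a b hab
        exact (hQ.node a b hab).imp (fun h => List.mem_append_left _ h)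
          (fun h => List.mem_append_left _ h)
      · intro e he
        rcases List.mem_append.1 he with he | he
        · rcases hQ.mem e he with h1 | ⟨g', h1, h2⟩
          · exact Or.inl h1
          · exact Or.inr ⟨g', List.mem_append_left _ h1, h2⟩
        · rw [List.mem_singleton] at he
          exact Or.inr ⟨g, hg, he⟩
      · intro g' hg'
        rcases List.mem_append.1 hg' with h1 | h1
        · exact List.mem_append_left _ (hQ.ghost g' h1)
        · rw [List.mem_singleton] at h1
          rw [h1]
          exact List.mem_append_right _ List.mem_cons_self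
      · have := hQ.len
        simp only [List.length_append, List.length_cons, List.length_nil]
        omega
      · rw [List.pairwise_append]
        refine ⟨hQ.wf, List.pairwise_singleton _ _, fun e he e' he' A B r hAB => ?_⟩
        rw [List.mem_singleton] at he'
        subst he'
        rcases hQ.mem e he with ⟨a, b, h1, -⟩ | ⟨g', hg', h1⟩
        · rw [hAB] at h1; exact absurd h1 (by simp)
        · rw [hAB] at h1
          unfold Gh.ev at h1
          injection h1 with h2 h3 h4
          have h5 := hsrt g' hg' g List.mem_cons_self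
          rw [h2]
          exact ⟨h5.2.1.symm, h5.2.2.symm⟩
    by_cases hM : (nl F).Nonempty
    · obtain ⟨P, hP, hmax⟩ := Finset.exists_max_image (nl F) (sig Φ ε) hM
      obtain ⟨hPF, a, b, rfl⟩ := mem_nl.1 hP
      -- is there a later ghost?
      by_cases hlate : ∃ (G' : List Gh) (g : Gh), G = G' ++ [g] ∧ sig Φ ε (node a b) < g.2.2
      · obtain ⟨G', g, hG, hlt⟩ := hlate
        exact ghost G' g hG fun P hP => (hmax P hP).trans_lt hlt
      · -- the node comes last
        have hG : ∀ g ∈ G, g.2.2 ≤ sig Φ ε (node a b) := by
          intro g hg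
          rcases List.eq_nil_or_concat G with h0 | ⟨G', g', hG'⟩
          · rw [h0] at hg; exact absurd hg List.not_mem_nil
          · rw [List.concat_eq_append] at hG'
            have h1 : g'.2.2 ≤ sig Φ ε (node a b) := by
              by_contra hcon
              exact hlate ⟨G', g', hG', not_le.1 hcon⟩
            subst hG'
            rcases List.mem_append.1 hg with h2 | h2
            · exact ((List.pairwise_append.1 h.srt).2.2 g h2 g' List.mem_cons_self).1.trans h1
            · rw [List.mem_singleton] at h2; rw [h2]; exact h1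
        have hba := (h.sub a b hPF).2.2
        have hne := h.swap_ne hPF
        have e1 : sig Φ ε (node b a) = sig Φ ε (node a b) := sig_swap a b
        set F' := (F.erase (node a b)).erase (node b a) with hF'
        have hmem : ∀ P, P ∈ F' ↔ P ∈ F ∧ P ≠ node a b ∧ P ≠ node b a := by
          intro P
          rw [hF', Finset.mem_erase, Finset.mem_erase]
          tauto
        have hcard : F'.card + 2 = F.card := by
          have h1 : (F.erase (node a b)).card + 1 = F.card :=
            Finset.card_erase_add_one hPF
          have h2 : ((F.erase (node a b)).erase (node b a)).card + 1 = (F.erase (node a b)).card :=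
            Finset.card_erase_add_one (Finset.mem_erase.2 ⟨hne, hba⟩)
          rw [hF']
          omega
        have hnl : (nl F').card + 2 = (nl F).card := by
          have e2 : nl F' = ((nl F).erase (node a b)).erase (node b a) := by
            ext P
            rw [mem_nl, hmem, Finset.mem_erase, Finset.mem_erase, mem_nl]
            tauto
          have h1 : ((nl F).erase (node a b)).card + 1 = (nl F).card :=
            Finset.card_erase_add_one hP
          have h2 : (((nl F).erase (node a b)).erase (node b a)).card + 1 =
              ((nl F).erase (node a b)).card :=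
            Finset.card_erase_add_one (Finset.mem_erase.2 ⟨hne, mem_nl.2 ⟨hba, b, a, rfl⟩⟩)
          rw [e2]
          omega
        have hfam := h.erase hΦ hε hPF hmax hG hmem
        obtain ⟨Q, hQ⟩ := ih (F'.card + G.length) (by omega) hfam
          (fun P hP => hs P (mem_nl.2 ⟨((hmem P).1 (mem_nl.1 hP).1).1, (mem_nl.1 hP).2⟩)) hs' rfl
        have time_le : ∀ x ∈ Q, x.time Φ ε ≤ (Cev.nd a b).time Φ ε := by
          intro x hx
          rcases hQ.mem x hx with ⟨c, d, rfl, hcd⟩ | ⟨g', hg', rfl⟩
          · exact hmax _ (mem_nl.2 ⟨((hmem _).1 hcd).1, c, d, rfl⟩)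
          · exact hG g' hg'
        -- the current histories
        have current : ∀ c d, node c d ∈ F → (∀ P ∈ nl F, sig Φ ε P ≤ sig Φ ε (node c d)) →
            node c d ∉ F' → c ∈ F' → fin leaf Q c.root = c := by
          intro c d hcd hm hnot hc
          obtain ⟨h1, h2⟩ := hQ.cur _ hc
          have h2' := ((hmem _).1 h2).1
          rcases h.cmp _ h2' _ hcd h1.root_eq.symm with h3 | h3
          · rcases Spine.node_cases h3 with h4 | h4
            · exact absurd (h4 ▸ h2) hnot
            · exact Spine.antisymm h4 h1
          · by_cases h4 : node c d = fin leaf Q c.root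
            · exact absurd (h4 ▸ h2) hnot
            · have h5 := Spine.ext_lt_sig hΦ hε h3 h4 (h.ok _ h2')
              have h6 := sig_lt_ext hΦ hε (h.ok _ hcd)
              obtain ⟨y, hy⟩ := Spine.exists_next h3 h4
              have h7 : fin leaf Q c.root ∈ nl F := by
                refine mem_nl.2 ⟨h2', ?_⟩
                cases hfq : fin leaf Q c.root with
                | leaf σ =>
                  rw [hfq] at h3
                  exact absurd (Spine.leaf_eq h3) (by simp)
                | node x y => exact ⟨x, y, rfl⟩
              have h8 := hm _ h7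
              linarith
        have haF : a ∈ F' := by
          have h1 := (h.sub a b hPF).1
          refine (hmem a).2 ⟨h1, ?_, ?_⟩
          · intro h2
            have h3 := congrArg CTree.card h2
            have h4 := b.card_pos
            simp only [CTree.card] at h3
            omega
          · intro h2
            have h3 := congrArg CTree.card h2
            have h4 := b.card_pos
            simp only [CTree.card] at h3
            omega
        have hbF : b ∈ F' := by
          have h1 := (h.sub a b hPF).2.1
          refine (hmem b).2 ⟨h1, ?_, ?_⟩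
          · intro h2
            have h3 := congrArg CTree.card h2
            have h4 := a.card_pos
            simp only [CTree.card] at h3
            omega
          · intro h2
            have h3 := congrArg CTree.card h2
            have h4 := a.card_pos
            simp only [CTree.card] at h3
            omega
        have cA : fin leaf Q a.root = a :=
          current a b hPF hmax (fun h => ((hmem _).1 h).2.1 rfl) haF
        have cB : fin leaf Q b.root = b :=
          current b a hba (fun P hP => (hmax P hP).trans e1.ge)
            (fun h => ((hmem _).1 h).2.2 rfl) hbF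
        have hab := h.root_ne hPF
        have hfin : fin leaf (Q ++ [Cev.nd a b]) = upd (fin leaf Q) (Cev.nd a b) :=
          fin_append _ _ _
        have fA := upd_fst (fin leaf Q) hab
        have fB := upd_snd (fin leaf Q) a b
        have fC : ∀ x, x ≠ a.root → x ≠ b.root →
            upd (fin leaf Q) (Cev.nd a b) x = fin leaf Q x := fun x h1 h2 => upd_of_ne _ h1 h2
        -- everything with the root of the last collision is an earlier history
        have top : ∀ c d, node c d ∈ F → (∀ P ∈ nl F, sig Φ ε P ≤ sig Φ ε (node c d)) →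
            ∀ P ∈ F, P.root = c.root → Spine P (node c d) := by
          intro c d hcd hm P hP hr
          rcases h.cmp P hP _ hcd hr with h1 | h1
          · exact h1
          · by_cases h2 : node c d = P
            · rw [h2]; exact Spine.refl _
            · exfalso
              have h3 := Spine.ext_lt_sig hΦ hε h1 h2 (h.ok _ hP)
              have h4 := sig_lt_ext hΦ hε (h.ok _ hcd)
              have h5 : P ∈ nl F := by
                refine mem_nl.2 ⟨hP, ?_⟩
                cases P with
                | leaf σ => exact absurd (Spine.leaf_eq h1) (by simp)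
                | node x y => exact ⟨x, y, rfl⟩
              have h6 := hm _ h5
              linarith
        refine ⟨Q ++ [Cev.nd a b], ?_, ?_, ?_, ?_, ?_, ?_, ?_⟩
        · exact val_append Q _ _ _ hQ.val time_le (hs _ hP)
            ⟨h.ok _ hPF, h.ext_le _ hPF, cA, cB⟩
        · intro P hPm
          rw [hfin]
          by_cases h1 : P.root = a.root
          · rw [h1, fA]
            exact ⟨top a b hPF hmax P hPm h1, hPF⟩
          · by_cases h2 : P.root = b.root
            · rw [h2, fB]
              exact ⟨top b a hba (fun P hP => (hmax P hP).trans e1.ge) P hPm h2, hba⟩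
            · rw [fC _ h1 h2]
              have h3 : P ∈ F' := (hmem P).2 ⟨hPm, fun h => h1 (by rw [h]; rfl),
                fun h => h2 (by rw [h]; rfl)⟩
              obtain ⟨h4, h5⟩ := hQ.cur P h3
              exact ⟨h4, ((hmem _).1 h5).1⟩
        · intro c d hcd
          by_cases h1 : node c d ∈ F'
          · exact (hQ.node c d h1).imp (fun h => List.mem_append_left _ h)
              (fun h => List.mem_append_left _ h)
          · have h2 : node c d = node a b ∨ node c d = node b a := by
              by_contra hcon
              rw [not_or] at hcon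
              exact h1 ((hmem _).2 ⟨hcd, hcon.1, hcon.2⟩)
            rcases h2 with h2 | h2
            · injection h2 with h3 h4
              left
              rw [h3, h4]
              exact List.mem_append_right _ List.mem_cons_self
            · injection h2 with h3 h4
              right
              rw [h3, h4]
              exact List.mem_append_right _ List.mem_cons_self
        · intro e he
          rcases List.mem_append.1 he with he | he
          · rcases hQ.mem e he with ⟨c, d, h1, h2⟩ | h1
            · exact Or.inl ⟨c, d, h1, ((hmem _).1 h2).1⟩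
            · exact Or.inr h1
          · rw [List.mem_singleton] at he
            exact Or.inl ⟨a, b, he, hPF⟩
        · exact fun g hg => List.mem_append_left _ (hQ.ghost g hg)
        · have := hQ.len
          simp only [List.length_append, List.length_cons, List.length_nil]
          omega
        · rw [List.pairwise_append]
          refine ⟨hQ.wf, List.pairwise_singleton _ _, fun e he e' he' A B r hAB => ?_⟩
          rw [List.mem_singleton] at he'
          subst he'
          rcases hQ.mem e he with ⟨c, d, h1, -⟩ | ⟨g, hg, h1⟩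
          · rw [hAB] at h1; exact absurd h1 (by simp)
          · rw [hAB] at h1
            unfold Gh.ev at h1
            injection h1 with h2 h3 h4
            have h5 := hG g hg
            have h6 := h.gh g hg
            have h7 := sig_lt_ext hΦ hε (h.ok _ hPF)
            have h8 := sig_lt_ext hΦ hε (h.ok _ hba)
            rw [h2]
            refine ⟨fun h9 => ?_, fun h9 => ?_⟩
            · have h10 := h.last g hg _ hPF h9
              have h11 := Spine.ext_le hΦ hε h10 (h.ok _ h6.1)
              linarith [h6.2.2.2.1]
            · have h10 := h.last g hg _ hba h9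
              have h11 := Spine.ext_le hΦ hε h10 (h.ok _ h6.1)
              linarith [h6.2.2.2.1]
    · -- no collisions
      rcases List.eq_nil_or_concat G with h0 | ⟨G', g, hG'⟩
      · subst h0
        have hM' : nl F = ∅ := Finset.not_nonempty_iff_eq_empty.1 hM
        refine ⟨[], trivial, ?_, ?_, ?_, ?_, ?_, List.Pairwise.nil⟩
        · intro P hP
          have h1 : P = leaf P.root := by
            cases P with
            | leaf σ => rfl
            | node a b =>
              exact absurd (mem_nl.2 ⟨hP, a, b, rfl⟩) (by rw [hM']; exact Finset.notMem_empty _)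
          have h2 : fin leaf [] P.root = leaf P.root := rfl
          rw [h2, ← h1]
          exact ⟨Spine.refl _, hP⟩
        · intro a b hab
          exact absurd (mem_nl.2 ⟨hab, a, b, rfl⟩) (by rw [hM']; exact Finset.notMem_empty _)
        · exact fun e he => absurd he List.not_mem_nil
        · exact fun g hg => absurd hg List.not_mem_nil
        · rw [hM']; simp
      · rw [List.concat_eq_append] at hG'
        refine ghost G' g hG' fun P hP => ?_
        exact absurd ⟨P, hP⟩ hM

end Vale.Agent.P119.IND
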