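import Vale.Agent.P119.IND.Prog1

/-!
# P119, block IND: the graph of a program (`helper295`)

`Jn P i k`: the labels `i` and `k` are joined by the events of `P`.  `cls P k`: the class of `k`.
`Trans P R`: `R` contains exactly one label of every class.  `Forest P`: every event is a bridge.
-/

open Set

set_option linter.unusedSectionVars false

namespace Vale.Agent.P119.IND

open KU

variable {ι : Type} [DecidableEq ι]

/-- The labels are joined by the events of `P`. -/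
def Jn (P : List (Ev ι × ℝ)) : ι → ι → Prop :=
  Relation.EqvGen fun i k => ∃ e ∈ P, e.1.fst = i ∧ e.1.snd = k

theorem Jn.refl (P : List (Ev ι × ℝ)) (i : ι) : Jn P i i := Relation.EqvGen.refl i

theorem Jn.symm {P : List (Ev ι × ℝ)} {i k : ι} (h : Jn P i k) : Jn P k i :=
  Relation.EqvGen.symm _ _ h

theorem Jn.trans {P : List (Ev ι × ℝ)} {i k l : ι} (h : Jn P i k) (h' : Jn P k l) : Jn P i l :=
  Relation.EqvGen.trans _ _ _ h h'

theorem jn_comm {P : List (Ev ι × ℝ)} {i k : ι} : Jn P i k ↔ Jn P k i := ⟨Jn.symm, Jn.symm⟩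

theorem jn_of_mem {P : List (Ev ι × ℝ)} {e : Ev ι × ℝ} (h : e ∈ P) : Jn P e.1.fst e.1.snd :=
  Relation.EqvGen.rel _ _ ⟨e, h, rfl, rfl⟩

theorem Jn.mono {P Q : List (Ev ι × ℝ)} (h : ∀ e ∈ P, e ∈ Q) {i k : ι} (hJ : Jn P i k) :
    Jn Q i k := by
  induction hJ with
  | rel i k hr =>
    obtain ⟨e, he, rfl, rfl⟩ := hr
    exact jn_of_mem (h e he)
  | refl i => exact Jn.refl _ i
  | symm i k _ ih => exact ih.symm
  | trans i k l _ _ ih1 ih2 => exact ih1.trans ih2

theorem jn_congr {P Q : List (Ev ι × ℝ)} (h : ∀ e, e ∈ P ↔ e ∈ Q) {i k : ι} :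
    Jn P i k ↔ Jn Q i k := ⟨Jn.mono fun e he => (h e).1 he, Jn.mono fun e he => (h e).2 he⟩

/-- A set which is closed for the events contains with `i` everything joined to `i`. -/
theorem Jn.mem_iff {P : List (Ev ι × ℝ)} {B : Finset ι} (hB : Cl B P) {i k : ι} (h : Jn P i k) :
    i ∈ B ↔ k ∈ B := by
  induction h with
  | rel i k hr =>
    obtain ⟨e, he, rfl, rfl⟩ := hr
    exact hB e he
  | refl i => exact Iff.rfl
  | symm i k _ ih => exact ih.symm
  | trans i k l _ _ ih1 ih2 => exact ih1.trans ih2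

theorem jn_nil {i k : ι} : Jn ([] : List (Ev ι × ℝ)) i k ↔ i = k := by
  refine ⟨fun h => ?_, fun h => h ▸ Jn.refl _ _⟩
  induction h with
  | rel i k hr =>
    obtain ⟨e, he, -, -⟩ := hr
    exact absurd he List.not_mem_nil
  | refl i => rfl
  | symm i k _ ih => exact ih.symm
  | trans i k l _ _ ih1 ih2 => exact ih1.trans ih2

/-- One more event. -/
theorem jn_cons {P : List (Ev ι × ℝ)} {e : Ev ι × ℝ} {c d : ι} :
    Jn (e :: P) c d ↔ Jn P c d ∨ (Jn P c e.1.fst ∧ Jn P e.1.snd d) ∨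
      (Jn P c e.1.snd ∧ Jn P e.1.fst d) := by
  constructor
  · intro h
    induction h with
    | rel i k hr =>
      obtain ⟨e', he', rfl, rfl⟩ := hr
      rcases List.mem_cons.1 he' with rfl | he'
      · exact Or.inr (Or.inl ⟨Jn.refl _ _, Jn.refl _ _⟩)
      · exact Or.inl (jn_of_mem he')
    | refl i => exact Or.inl (Jn.refl _ _)
    | symm i k _ ih =>
      rcases ih with h | ⟨h1, h2⟩ | ⟨h1, h2⟩
      · exact Or.inl h.symm
      · exact Or.inr (Or.inr ⟨h2.symm, h1.symm⟩)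
      · exact Or.inr (Or.inl ⟨h2.symm, h1.symm⟩)
    | trans i k l _ _ ih1 ih2 =>
      rcases ih1 with h | ⟨h1, h2⟩ | ⟨h1, h2⟩
      · rcases ih2 with h' | ⟨h3, h4⟩ | ⟨h3, h4⟩
        · exact Or.inl (h.trans h')
        · exact Or.inr (Or.inl ⟨h.trans h3, h4⟩)
        · exact Or.inr (Or.inr ⟨h.trans h3, h4⟩)
      · rcases ih2 with h' | ⟨h3, h4⟩ | ⟨h3, h4⟩
        · exact Or.inr (Or.inl ⟨h1, h2.trans h'⟩)
        · exact Or.inr (Or.inl ⟨h1, h4⟩)
        · exact Or.inl (h1.trans h4)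
      · rcases ih2 with h' | ⟨h3, h4⟩ | ⟨h3, h4⟩
        · exact Or.inr (Or.inr ⟨h1, h2.trans h'⟩)
        · exact Or.inl (h1.trans h4)
        · exact Or.inr (Or.inr ⟨h1, h4⟩)
  · have hm : ∀ {i k : ι}, Jn P i k → Jn (e :: P) i k :=
      fun h => h.mono fun e' he' => List.mem_cons_of_mem _ he'
    have he : Jn (e :: P) e.1.fst e.1.snd := jn_of_mem List.mem_cons_self
    rintro (h | ⟨h1, h2⟩ | ⟨h1, h2⟩)
    · exact hm h
    · exact ((hm h1).trans he).trans (hm h2)
    · exact ((hm h1).trans he.symm).trans (hm h2)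

theorem jn_concat {P : List (Ev ι × ℝ)} {e : Ev ι × ℝ} {c d : ι} :
    Jn (P ++ [e]) c d ↔ Jn P c d ∨ (Jn P c e.1.fst ∧ Jn P e.1.snd d) ∨
      (Jn P c e.1.snd ∧ Jn P e.1.fst d) := by
  rw [← jn_cons]
  exact jn_congr fun e' => by simp [or_comm]

theorem Cl.mono {B : Finset ι} {P Q : List (Ev ι × ℝ)} (h : Cl B Q) (hPQ : ∀ e ∈ P, e ∈ Q) :
    Cl B P := fun e he => h e (hPQ e he)

section Fin

variable [Fintype ι]

open Classical in
/-- The class of a label. -/
noncomputable def cls (P : List (Ev ι × ℝ)) (k : ι) : Finset ι := Finset.univ.filter (Jn P k)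

theorem mem_cls {P : List (Ev ι × ℝ)} {k j : ι} : j ∈ cls P k ↔ Jn P k j := by
  simp [cls]

theorem self_mem_cls (P : List (Ev ι × ℝ)) (k : ι) : k ∈ cls P k := mem_cls.2 (Jn.refl _ _)

theorem cl_cls (P : List (Ev ι × ℝ)) (k : ι) : Cl (cls P k) P := by
  intro e he
  rw [mem_cls, mem_cls]
  exact ⟨fun h => h.trans (jn_of_mem he), fun h => h.trans (jn_of_mem he).symm⟩

end Fin

/-- Exactly one element of every class. -/
structure Trv (P : List (Ev ι × ℝ)) (R : Finset ι) : Prop where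
  cov : ∀ i, ∃ r ∈ R, Jn P i r
  uni : ∀ r ∈ R, ∀ r' ∈ R, Jn P r r' → r = r'

theorem trv_nil [Fintype ι] {R : Finset ι} (h : Trv ([] : List (Ev ι × ℝ)) R) :
    R = Finset.univ := by
  refine Finset.eq_univ_of_forall fun i => ?_
  obtain ⟨r, hr, hJ⟩ := h.cov i
  rw [jn_nil] at hJ
  exact hJ ▸ hr

theorem Trv.congr {P Q : List (Ev ι × ℝ)} {R : Finset ι} (h : Trv P R)
    (hPQ : ∀ i k, Jn P i k ↔ Jn Q i k) : Trv Q R := by
  refine ⟨fun i => ?_, fun r hr r' hr' hJ => h.uni r hr r' hr' ((hPQ _ _).2 hJ)⟩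
  obtain ⟨r, hr, hJ⟩ := h.cov i
  exact ⟨r, hr, (hPQ _ _).1 hJ⟩

/-- An event between labels which are already joined changes nothing. -/
theorem jn_concat_of_jn {P : List (Ev ι × ℝ)} {e : Ev ι × ℝ} (h : Jn P e.1.fst e.1.snd) (c d : ι) :
    Jn (P ++ [e]) c d ↔ Jn P c d := by
  rw [jn_concat]
  constructor
  · rintro (h1 | ⟨h1, h2⟩ | ⟨h1, h2⟩)
    · exact h1
    · exact (h1.trans h).trans h2
    · exact (h1.trans h.symm).trans h2
  · exact Or.inl

/-- **Splitting a class**: a bridge `e` between the classes (of `P`) of `i` and `k`, the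
representative being in the class of `i`: add `k`. -/
theorem Trv.split {P Q : List (Ev ι × ℝ)} {e : Ev ι × ℝ} {R : Finset ι} (h : Trv Q R)
    (hQ : ∀ c d, Jn Q c d ↔ Jn P c d ∨ (Jn P c e.1.fst ∧ Jn P e.1.snd d) ∨
      (Jn P c e.1.snd ∧ Jn P e.1.fst d)) {i k r : ι}
    (hik : (i = e.1.fst ∧ k = e.1.snd) ∨ (i = e.1.snd ∧ k = e.1.fst)) (hbr : ¬Jn P i k)
    (hr : r ∈ R) (hri : Jn P r i) {k' : ι} (hk' : Jn P k k') :
    k' ∉ R ∧ (∀ j ∈ R, ¬Jn P k j) ∧ Trv P (insert k' R) := by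
  have hQ' : ∀ c d, Jn Q c d ↔ Jn P c d ∨ (Jn P c i ∧ Jn P k d) ∨ (Jn P c k ∧ Jn P i d) := by
    intro c d
    rw [hQ]
    rcases hik with ⟨rfl, rfl⟩ | ⟨rfl, rfl⟩
    · exact Iff.rfl
    · tauto
  have hrk : ∀ j ∈ R, ¬Jn P k j := by
    intro j hj hkj
    have h1 : Jn Q r j := (hQ' _ _).2 (Or.inr (Or.inl ⟨hri, hkj⟩))
    have h2 := h.uni r hr j hj h1
    subst h2
    exact hbr (hri.symm.trans hkj.symm)
  refine ⟨fun hk'' => hrk k' hk'' hk', hrk, ?_, ?_⟩
  · intro j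
    obtain ⟨r', hr', hJ⟩ := h.cov j
    rcases (hQ' _ _).1 hJ with h1 | ⟨h1, h2⟩ | ⟨h1, h2⟩
    · exact ⟨r', Finset.mem_insert_of_mem hr', h1⟩
    · exact ⟨r, Finset.mem_insert_of_mem hr, h1.trans hri.symm⟩
    · exact ⟨k', Finset.mem_insert_self _ _, h1.trans hk'⟩
  · intro r1 h1 r2 h2 hJ
    rcases Finset.mem_insert.1 h1 with h3 | h3 <;> rcases Finset.mem_insert.1 h2 with h4 | h4
    · rw [h3, h4]
    · rw [h3] at hJ
      exact absurd (hk'.trans hJ) (hrk r2 h4)
    · rw [h4] at hJ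
      exact absurd (hk'.trans hJ.symm) (hrk r1 h3)
    · exact h.uni r1 h3 r2 h4 ((hQ' _ _).2 (Or.inl hJ))

/-- Changing the representative of a class. -/
theorem Trv.swap {P : List (Ev ι × ℝ)} {R : Finset ι} (h : Trv P R) {r r' : ι} (hr : r ∈ R)
    (hJ : Jn P r r') : Trv P (insert r' (R.erase r)) := by
  refine ⟨fun i => ?_, fun r1 h1 r2 h2 hJ' => ?_⟩
  · obtain ⟨r'', hr'', hJ'⟩ := h.cov i
    by_cases hE : r'' = r
    · subst hE
      exact ⟨r', Finset.mem_insert_self _ _, hJ'.trans hJ⟩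
    · exact ⟨r'', Finset.mem_insert_of_mem (Finset.mem_erase.2 ⟨hE, hr''⟩), hJ'⟩
  · rcases Finset.mem_insert.1 h1 with h3 | h3 <;> rcases Finset.mem_insert.1 h2 with h4 | h4
    · rw [h3, h4]
    · rw [h3] at hJ'
      obtain ⟨h5, h6⟩ := Finset.mem_erase.1 h4
      exact absurd (h.uni r hr r2 h6 (hJ.trans hJ')) (Ne.symm h5)
    · rw [h4] at hJ'
      obtain ⟨h5, h6⟩ := Finset.mem_erase.1 h3
      exact absurd (h.uni r hr r1 h6 (hJ.trans hJ'.symm)) (Ne.symm h5)
    · exact h.uni r1 (Finset.mem_of_mem_erase h3) r2 (Finset.mem_of_mem_erase h4) hJ'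

/-! ### Closed programs and forests -/

/-- Some event joins two labels which are already joined. -/
def Closed (P : List (Ev ι × ℝ)) : Prop :=
  ∃ P₁ e P₂, P = P₁ ++ e :: P₂ ∧ Jn P₁ e.1.fst e.1.snd

theorem not_closed_nil : ¬Closed ([] : List (Ev ι × ℝ)) := by
  rintro ⟨P₁, e, P₂, h, -⟩
  exact absurd h.symm (by simp)

theorem closed_concat {P : List (Ev ι × ℝ)} {e : Ev ι × ℝ} :
    Closed (P ++ [e]) ↔ Closed P ∨ Jn P e.1.fst e.1.snd := by
  constructor
  · rintro ⟨P₁, e', P₂, h, hJ⟩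
    rcases P₂.eq_nil_or_concat with h2 | ⟨P₃, e'', h2⟩
    · subst h2
      obtain ⟨h3, h4⟩ := List.append_inj' h rfl
      rw [List.cons.injEq] at h4
      subst h3
      rw [← h4.1] at hJ
      exact Or.inr hJ
    · subst h2
      rw [List.concat_eq_append] at h
      left
      refine ⟨P₁, e', P₃, ?_, hJ⟩
      have h3 : P ++ [e] = (P₁ ++ e' :: P₃) ++ [e''] := by simpa using h
      exact (List.append_inj' h3 rfl).1
  · rintro (⟨P₁, e', P₂, h, hJ⟩ | h)
    · exact ⟨P₁, e', P₂ ++ [e], by rw [h]; simp, hJ⟩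
    · exact ⟨P, e, [], rfl, h⟩

/-- Every event is a bridge. -/
def Forest (P : List (Ev ι × ℝ)) : Prop :=
  ∀ P₁ e P₂, P = P₁ ++ e :: P₂ → ¬Jn (P₁ ++ P₂) e.1.fst e.1.snd

theorem forest_of_not_closed {P : List (Ev ι × ℝ)} (h : ¬Closed P) : Forest P := by
  induction P using List.reverseRecOn with
  | nil =>
    intro P₁ e P₂ h
    exact absurd h.symm (by simp)
  | append_singleton P e ih =>
    rw [closed_concat, not_or] at h
    obtain ⟨h1, h2⟩ := h
    have hF := ih h1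
    intro P₁ g P₂ hP hJ
    rcases P₂.eq_nil_or_concat with h3 | ⟨P₃, e'', h3⟩
    · subst h3
      obtain ⟨h4, h5⟩ := List.append_inj' hP rfl
      rw [List.cons.injEq] at h5
      subst h4
      rw [← h5.1, List.append_nil] at hJ
      exact h2 hJ
    · subst h3
      rw [List.concat_eq_append] at hP hJ
      have h4 : P ++ [e] = (P₁ ++ g :: P₃) ++ [e''] := by simpa using hP
      obtain ⟨h5, h6⟩ := List.append_inj' h4 rfl
      rw [List.cons.injEq] at h6
      obtain ⟨h6, -⟩ := h6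
      subst h6
      have h7 := hF P₁ g P₃ h5
      rw [← List.append_assoc, jn_concat] at hJ
      have hm : ∀ {i k : ι}, Jn (P₁ ++ P₃) i k → Jn P i k := by
        intro i k hik
        refine hik.mono fun e' he' => ?_
        rw [h5]
        rcases List.mem_append.1 he' with h | h
        · exact List.mem_append.2 (Or.inl h)
        · exact List.mem_append.2 (Or.inr (List.mem_cons_of_mem _ h))
      have hg : Jn P g.1.fst g.1.snd := jn_of_mem (by rw [h5]; simp)
      rcases hJ with h8 | ⟨h8, h9⟩ | ⟨h8, h9⟩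
      · exact h7 h8
      · exact h2 (((hm h8).symm.trans hg).trans (hm h9).symm)
      · exact h2 (((hm h9).trans hg.symm).trans (hm h8))

theorem Forest.sub {P₁ P₂ : List (Ev ι × ℝ)} {e : Ev ι × ℝ} (h : Forest (P₁ ++ e :: P₂)) :
    Forest (P₁ ++ P₂) := by
  intro Q₁ g Q₂ hQ hJ
  rcases List.append_eq_append_iff.1 hQ with ⟨R, h1, h2⟩ | ⟨R, h1, h2⟩
  · -- `Q₁ = P₁ ++ R`, `P₂ = R ++ g :: Q₂`
    refine h (P₁ ++ e :: R) g Q₂ (by rw [h2]; simp) (hJ.mono fun e' he' => ?_)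
    rw [h1] at he'
    simp only [List.mem_append, List.mem_cons] at he' ⊢
    tauto
  · -- `P₁ = Q₁ ++ R`, `g :: Q₂ = R ++ P₂`
    cases R with
    | nil =>
      simp only [List.nil_append, List.append_nil] at h1 h2
      subst h1
      refine h (P₁ ++ [e]) g Q₂ (by rw [← h2]; simp) (hJ.mono fun e' he' => ?_)
      simp only [List.mem_append, List.mem_cons] at he' ⊢
      tauto
    | cons g' R =>
      rw [List.cons_append, List.cons.injEq] at h2
      obtain ⟨h2, h3⟩ := h2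
      subst h2
      refine h Q₁ g (R ++ e :: P₂) (by rw [h1]; simp) (hJ.mono fun e' he' => ?_)
      rw [h3] at he'
      simp only [List.mem_append, List.mem_cons] at he' ⊢
      tauto

theorem Forest.not_closed {P : List (Ev ι × ℝ)} (h : Forest P) : ¬Closed P := by
  rintro ⟨P₁, e, P₂, h1, h2⟩
  exact h P₁ e P₂ h1 (h2.mono fun e' he' => List.mem_append.2 (Or.inl he'))

theorem Forest.ne {P : List (Ev ι × ℝ)} (h : Forest P) {e : Ev ι × ℝ} (he : e ∈ P) :
    e.1.fst ≠ e.1.snd := by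
  obtain ⟨P₁, P₂, h1⟩ := List.append_of_mem he
  intro hE
  exact h P₁ e P₂ h1 (hE ▸ Jn.refl _ _)

/-! ### Well-formed programs, plain programs -/

/-- The dropped label of a ghost contact is not used afterwards. -/
def Wf : List (Ev ι × ℝ) → Prop
  | [] => True
  | e :: P => (∀ i k, e.1 = Ev.gh i k → ∀ e' ∈ P, e'.1.fst ≠ i ∧ e'.1.snd ≠ i) ∧ Wf P

theorem Wf.left {P Q : List (Ev ι × ℝ)} (h : Wf (P ++ Q)) : Wf P := by
  induction P with
  | nil => trivial
  | cons e P ih =>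
    exact ⟨fun i k hik e' he' => h.1 i k hik e' (List.mem_append_left _ he'), ih h.2⟩

/-- The plain program: no information on the delays. -/
def pl (T : ℝ) (P : List (Ev ι)) : List (Ev ι × ℝ) := P.map fun e => (e, T)

end Vale.Agent.P119.IND
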