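import Vale.Agent.P119.IND.Extract
import Vale.Agent.P119.IND.Edges
import Vale.Agent.P119.IND.Prog2

/-!
# P119, block IND: from families of histories to programs (`helper350`)

* `Val.run`: the list of the events of a family is a run of a program on the sources;
* `Ev.map`, `run_map`, `jn_map`, `closed_map`, `wf_map`: relabelling of programs;
* `Fam.exists_prog`: the program of a family, on the sources;
* `exists_relabel`: the same on any set of labels which contains all the sources which are used.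
-/

open MeasureTheory Filter Topology Set
open scoped ENNReal NNReal

set_option linter.unusedSectionVars false

noncomputable section

namespace Vale.Agent.P119.IND

open KU M M.CTree TL

variable {Φ : E3 → ℝ} {ε T : ℝ}

/-- The event on the labels. -/
def Cev.ev : Cev → Ev Src
  | .nd a b => .sc a.root b.root
  | .gh A B _ => .gh A.root B.root

theorem Cev.ev_fst (e : Cev) : e.ev.fst = e.fst := by cases e <;> rfl

theorem Cev.ev_snd (e : Cev) : e.ev.snd = e.snd := by cases e <;> rfl

/-- The births of the current histories. -/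
def cB (Φ : E3 → ℝ) (ε : ℝ) (c : Src → CTree) (x : Src) : ℝ := ext Φ ε (c x)

/-- The lines of the current histories. -/
def cZ (Φ : E3 → ℝ) (ε : ℝ) (c : Src → CTree) (x : Src) : Ph := ln Φ ε (c x)

theorem cB_leaf : cB Φ ε leaf = fun x : Src => x.1 := rfl

theorem cZ_leaf : cZ Φ ε leaf = fun x : Src => x.2.1 := rfl

section

variable [DecidableEq Src]

theorem lineApp_nd (hΦ : IsPotential Φ) (c : Src → CTree) {a b : CTree} (hab : a.root ≠ b.root)
    (ha : c a.root = a) (hb : c b.root = b) :
    lineApp Φ ε (.sc a.root b.root) (cZ Φ ε c) = cZ Φ ε (upd c (.nd a b)) := by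
  have e1 : cZ Φ ε c a.root = ln Φ ε a := by unfold cZ; rw [ha]
  have e2 : cZ Φ ε c b.root = ln Φ ε b := by unfold cZ; rw [hb]
  funext x
  simp only [lineApp, e1, e2]
  by_cases hx : x = b.root
  · subst hx
    rw [Function.update_self]
    unfold cZ
    rw [upd_snd, ln_swap hΦ a b]
  · rw [Function.update_of_ne hx]
    by_cases hx' : x = a.root
    · subst hx'
      rw [Function.update_self]
      unfold cZ
      rw [upd_fst c hab]
      rfl
    · rw [Function.update_of_ne hx']
      unfold cZ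
      rw [upd_of_ne c hx' hx]

theorem birthApp_nd (hΦ : IsPotential Φ) (c : Src → CTree) {a b : CTree} (hab : a.root ≠ b.root)
    (ha : c a.root = a) (hb : c b.root = b) :
    birthApp Φ ε (.sc a.root b.root) (cB Φ ε c) (cZ Φ ε c) = cB Φ ε (upd c (.nd a b)) := by
  have e1 : cZ Φ ε c a.root = ln Φ ε a := by unfold cZ; rw [ha]
  have e2 : cZ Φ ε c b.root = ln Φ ε b := by unfold cZ; rw [hb]
  funext x
  simp only [birthApp, e1, e2]
  by_cases hx : x = b.root
  · subst hx
    rw [Function.update_self]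
    unfold cB
    rw [upd_snd, ext_swap hΦ a b]
    rfl
  · rw [Function.update_of_ne hx]
    by_cases hx' : x = a.root
    · subst hx'
      rw [Function.update_self]
      unfold cB
      rw [upd_fst c hab]
      rfl
    · rw [Function.update_of_ne hx']
      unfold cB
      rw [upd_of_ne c hx' hx]

/-- **The events of a valid list form a run.** -/
theorem Val.run (hΦ : IsPotential Φ) (hε : 0 < ε) (S : Set Src) : ∀ (Q : List Cev)
    (c : Src → CTree) (s : ℝ), (∀ e ∈ Q, e.fst ∈ S ∧ e.snd ∈ S) → (∀ x ∈ S, 0 ≤ cB Φ ε c x) →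
    Val Φ ε T c s Q → Run Φ ε T s (pl T (Q.map Cev.ev)) (cB Φ ε c) (cZ Φ ε c)
  | [], _, _, _, _, _ => trivial
  | .nd a b :: Q, c, s, hS, hB, h => by
    obtain ⟨h1, ⟨h2, h3, h4, h5⟩, h6⟩ := h
    have hSa := hS (.nd a b) List.mem_cons_self
    have hab : a.root ≠ b.root := by
      intro hr
      exact Set.disjoint_left.1 h2.2.2.1 a.root_mem_leaves (hr ▸ b.root_mem_leaves)
    have e1 : cZ Φ ε c a.root = ln Φ ε a := by unfold cZ; rw [h4]
    have e2 : cZ Φ ε c b.root = ln Φ ε b := by unfold cZ; rw [h5]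
    have hlt := sig_lt_ext hΦ hε h2
    have hB' : ∀ x ∈ S, 0 ≤ cB Φ ε (upd c (.nd a b)) x := by
      intro x hxS
      by_cases hx : x = b.root
      · subst hx
        unfold cB
        rw [upd_snd]
        exact ext_nonneg hΦ hε (ok_swap hΦ h2)
      · by_cases hx' : x = a.root
        · subst hx'
          unfold cB
          rw [upd_fst c hab]
          exact ext_nonneg hΦ hε h2
        · unfold cB
          rw [upd_of_ne c hx' hx]
          exact hB x hxS
    have ih := Val.run hΦ hε S Q _ _ (fun e he => hS e (List.mem_cons_of_mem _ he)) hB' h6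
    refine ⟨sig Φ ε (node a b), h1, hlt.le.trans h3, ?_, ?_⟩
    · simp only [Cev.ev, At]
      rw [e1, e2]
      refine ⟨hab, h2.2.2.2.1, h2.2.2.2.2.1, rfl, ?_, ?_, h3, ?_⟩
      · unfold cB
        rw [h4]
        exact h2.2.2.2.2.2.1
      · unfold cB
        rw [h5]
        exact h2.2.2.2.2.2.2
      · have h7 := hB a.root hSa.1
        have h8 := le_max_left (cB Φ ε c a.root) (cB Φ ε c b.root)
        linarith
    · simp only [Cev.ev]
      rw [lineApp_nd hΦ c hab h4 h5, birthApp_nd hΦ c hab h4 h5]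
      exact ih
  | .gh A B r :: Q, c, s, hS, hB, h => by
    obtain ⟨h1, ⟨h2, h3, h4, h5, h6, h7, h8⟩, h9⟩ := h
    refine ⟨r, h1, h7, ?_,
      Val.run hΦ hε S Q _ _ (fun e he => hS e (List.mem_cons_of_mem _ he)) hB h9⟩
    simp only [Cev.ev, At]
    refine ⟨h4, ?_, ?_, ?_, ?_⟩
    · unfold cB; rw [h2]; exact h5
    · unfold cB; rw [h3]; exact h6
    · unfold cZ; rw [h2, h3]; exact h8
    · have h10 := hB A.root (hS (.gh A B r) List.mem_cons_self).1
      have h11 := le_max_left (cB Φ ε c A.root) (cB Φ ε c B.root)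
      linarith

end

/-! ### Relabelling -/

section Map

variable {ι κ : Type} [DecidableEq ι] [DecidableEq κ]

/-- Relabelling of events. -/
def Ev.map (f : ι → κ) : Ev ι → Ev κ
  | .sc i k => .sc (f i) (f k)
  | .gh i k => .gh (f i) (f k)

theorem Ev.map_fst (f : ι → κ) (e : Ev ι) : (e.map f).fst = f e.fst := by cases e <;> rfl

theorem Ev.map_snd (f : ι → κ) (e : Ev ι) : (e.map f).snd = f e.snd := by cases e <;> rfl

/-- An event whose labels are in the range of `f` comes from an event. -/
theorem Ev.exists_map {f : ι → κ} {e : Ev κ} (h1 : e.fst ∈ range f) (h2 : e.snd ∈ range f) :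
    ∃ e' : Ev ι, e'.map f = e := by
  cases e with
  | sc i k =>
    obtain ⟨a, ha⟩ := h1
    obtain ⟨b, hb⟩ := h2
    change f a = i at ha
    change f b = k at hb
    subst ha
    subst hb
    exact ⟨.sc a b, rfl⟩
  | gh i k =>
    obtain ⟨a, ha⟩ := h1
    obtain ⟨b, hb⟩ := h2
    change f a = i at ha
    change f b = k at hb
    subst ha
    subst hb
    exact ⟨.gh a b, rfl⟩

/-- **Relabelling backwards**: a list of events whose labels are in the range of `f`. -/
theorem exists_map_list {f : ι → κ} : ∀ P : List (Ev κ),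
    (∀ e ∈ P, e.fst ∈ range f ∧ e.snd ∈ range f) → ∃ P' : List (Ev ι), P'.map (Ev.map f) = P
  | [], _ => ⟨[], rfl⟩
  | e :: P, h => by
    obtain ⟨P', hP'⟩ := exists_map_list P fun e' he' => h e' (List.mem_cons_of_mem _ he')
    obtain ⟨e', he'⟩ := Ev.exists_map (h e List.mem_cons_self).1 (h e List.mem_cons_self).2
    exact ⟨e' :: P', by rw [List.map_cons, hP', he']⟩

theorem lineApp_map {f : ι → κ} (hf : Function.Injective f) (e : Ev ι) (Z : κ → Ph) :
    lineApp Φ ε (e.map f) Z ∘ f = lineApp Φ ε e (Z ∘ f) := by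
  cases e with
  | gh i k => rfl
  | sc i k =>
    funext x
    simp only [Ev.map, lineApp, Function.comp_apply]
    by_cases hk : x = k
    · subst hk
      rw [Function.update_self, Function.update_self]
    · rw [Function.update_of_ne hk, Function.update_of_ne (fun h => hk (hf h))]
      by_cases hi : x = i
      · subst hi
        rw [Function.update_self, Function.update_self]
      · rw [Function.update_of_ne hi, Function.update_of_ne (fun h => hi (hf h))]
        rfl

theorem birthApp_map {f : ι → κ} (hf : Function.Injective f) (e : Ev ι) (β : κ → ℝ)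
    (Z : κ → Ph) : birthApp Φ ε (e.map f) β Z ∘ f = birthApp Φ ε e (β ∘ f) (Z ∘ f) := by
  cases e with
  | gh i k => rfl
  | sc i k =>
    funext x
    simp only [Ev.map, birthApp, Function.comp_apply]
    by_cases hk : x = k
    · subst hk
      rw [Function.update_self, Function.update_self]
    · rw [Function.update_of_ne hk, Function.update_of_ne (fun h => hk (hf h))]
      by_cases hi : x = i
      · subst hi
        rw [Function.update_self, Function.update_self]
      · rw [Function.update_of_ne hi, Function.update_of_ne (fun h => hi (hf h))]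
        rfl

theorem at_map {f : ι → κ} (hf : Function.Injective f) (e : Ev ι) (d : ℝ) (β : κ → ℝ)
    (Z : κ → Ph) (s : ℝ) : At Φ ε T (e.map f) d β Z s ↔ At Φ ε T e d (β ∘ f) (Z ∘ f) s := by
  cases e with
  | gh i k =>
    simp only [Ev.map, At, Function.comp_apply]
    rw [hf.ne_iff]
  | sc i k =>
    simp only [Ev.map, At, Function.comp_apply]
    rw [hf.ne_iff]

/-- Relabelling of programs. -/
def mapP (f : ι → κ) (P : List (Ev ι × ℝ)) : List (Ev κ × ℝ) := P.map fun e => (e.1.map f, e.2)

theorem mapP_pl (f : ι → κ) (T : ℝ) (P : List (Ev ι)) :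
    mapP f (pl T P) = pl T (P.map (Ev.map f)) := by
  unfold mapP pl
  rw [List.map_map, List.map_map]
  rfl

theorem run_map {f : ι → κ} (hf : Function.Injective f) : ∀ (P : List (Ev ι × ℝ)) (r : ℝ)
    (β : κ → ℝ) (Z : κ → Ph),
    Run Φ ε T r (mapP f P) β Z ↔ Run Φ ε T r P (β ∘ f) (Z ∘ f)
  | [], _, _, _ => Iff.rfl
  | e :: P, r, β, Z => by
    change (∃ s, r ≤ s ∧ s ≤ T ∧ At Φ ε T (e.1.map f) e.2 β Z s ∧
      Run Φ ε T s (mapP f P) (birthApp Φ ε (e.1.map f) β Z) (lineApp Φ ε (e.1.map f) Z)) ↔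
      (∃ s, r ≤ s ∧ s ≤ T ∧ At Φ ε T e.1 e.2 (β ∘ f) (Z ∘ f) s ∧
      Run Φ ε T s P (birthApp Φ ε e.1 (β ∘ f) (Z ∘ f)) (lineApp Φ ε e.1 (Z ∘ f)))
    refine exists_congr fun s => ?_
    rw [at_map hf, run_map hf P, birthApp_map hf, lineApp_map hf]

theorem Jn.map {P : List (Ev ι × ℝ)} (f : ι → κ) {i k : ι} (h : Jn P i k) :
    Jn (mapP f P) (f i) (f k) := by
  induction h with
  | rel i k hr =>
    obtain ⟨e, he, rfl, rfl⟩ := hr
    have h1 : (e.1.map f, e.2) ∈ mapP f P := List.mem_map.2 ⟨e, he, rfl⟩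
    have h2 := jn_of_mem h1
    rw [Ev.map_fst, Ev.map_snd] at h2
    exact h2
  | refl i => exact Jn.refl _ _
  | symm i k _ ih => exact ih.symm
  | trans i k l _ _ ih1 ih2 => exact ih1.trans ih2

theorem jn_map {P : List (Ev ι × ℝ)} {f : ι → κ} (hf : Function.Injective f) {i k : ι} :
    Jn (mapP f P) (f i) (f k) ↔ Jn P i k := by
  refine ⟨fun h => ?_, Jn.map f⟩
  have key : ∀ a b : κ, Jn (mapP f P) a b → a = b ∨ ∃ i k, a = f i ∧ b = f k ∧ Jn P i k := by
    intro a b hab
    induction hab with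
    | rel a b hr =>
      obtain ⟨e, he, rfl, rfl⟩ := hr
      obtain ⟨e', he', rfl⟩ := List.mem_map.1 he
      exact Or.inr ⟨e'.1.fst, e'.1.snd, Ev.map_fst _ _, Ev.map_snd _ _, jn_of_mem he'⟩
    | refl a => exact Or.inl rfl
    | symm a b _ ih =>
      rcases ih with h | ⟨i, k, h1, h2, h3⟩
      · exact Or.inl h.symm
      · exact Or.inr ⟨k, i, h2, h1, h3.symm⟩
    | trans a b c _ _ ih1 ih2 =>
      rcases ih1 with h | ⟨i, k, h1, h2, h3⟩
      · rw [h]; exact ih2
      · rcases ih2 with h | ⟨i', k', h4, h5, h6⟩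
        · rw [← h]; exact Or.inr ⟨i, k, h1, h2, h3⟩
        · rw [h2] at h4
          have h7 := hf h4
          subst h7
          exact Or.inr ⟨i, k', h1, h5, h3.trans h6⟩
  rcases key _ _ h with h1 | ⟨i', k', h1, h2, h3⟩
  · rw [hf h1]; exact Jn.refl _ _
  · rw [hf h1, hf h2]; exact h3

theorem closed_map {P : List (Ev ι × ℝ)} {f : ι → κ} (hf : Function.Injective f) :
    Closed (mapP f P) ↔ Closed P := by
  constructor
  · rintro ⟨P₁, e, P₂, h, hJ⟩
    obtain ⟨Q₁, Q₂, h1, h2, h3⟩ := List.map_eq_append_iff.1 h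
    cases Q₂ with
    | nil => exact absurd h3 (by simp)
    | cons q Q₂ =>
      rw [List.map_cons, List.cons.injEq] at h3
      refine ⟨Q₁, q, Q₂, h1, ?_⟩
      rw [← h3.1, ← h2] at hJ
      change Jn (mapP f Q₁) (q.1.map f).fst (q.1.map f).snd at hJ
      rw [Ev.map_fst, Ev.map_snd] at hJ
      exact (jn_map hf).1 hJ
  · rintro ⟨P₁, e, P₂, h, hJ⟩
    refine ⟨mapP f P₁, (e.1.map f, e.2), mapP f P₂, ?_, ?_⟩
    · rw [h]; unfold mapP; rw [List.map_append, List.map_cons]
    · simp only [Ev.map_fst, Ev.map_snd]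
      exact hJ.map f

theorem wf_map {f : ι → κ} (hf : Function.Injective f) : ∀ P : List (Ev ι × ℝ),
    Wf (mapP f P) ↔ Wf P
  | [] => Iff.rfl
  | e :: P => by
    have ih := wf_map hf P
    change ((∀ i k, e.1.map f = Ev.gh i k → ∀ e' ∈ mapP f P, e'.1.fst ≠ i ∧ e'.1.snd ≠ i) ∧
      Wf (mapP f P)) ↔ ((∀ i k, e.1 = Ev.gh i k → ∀ e' ∈ P, e'.1.fst ≠ i ∧ e'.1.snd ≠ i) ∧ Wf P)
    rw [ih]
    refine and_congr_left fun _ => ?_
    constructor
    · intro h i k hik e' he'
      have h1 := h (f i) (f k) (by rw [hik]; rfl) (e'.1.map f, e'.2)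
        (List.mem_map.2 ⟨e', he', rfl⟩)
      simp only [Ev.map_fst, Ev.map_snd] at h1
      exact ⟨fun h => h1.1 (by rw [h]), fun h => h1.2 (by rw [h])⟩
    · intro h i k hik e' he'
      obtain ⟨e'', he'', rfl⟩ := List.mem_map.1 he'
      simp only [Ev.map_fst, Ev.map_snd]
      cases hev : e.1 with
      | sc a b => rw [hev] at hik; exact absurd hik (by simp [Ev.map])
      | gh a b =>
        rw [hev] at hik
        have h1 := h a b hev e'' he''
        have h2 : f a = i := by
          simp only [Ev.map, Ev.gh.injEq] at hik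
          exact hik.1
        rw [← h2]
        exact ⟨fun h => h1.1 (hf h), fun h => h1.2 (hf h)⟩

end Map

/-! ### Edges -/

section Edges

variable {ι : Type} [DecidableEq ι]

/-- The edges of a program. -/
def edges (P : List (Ev ι × ℝ)) : List (ι × ι) := P.map fun e => (e.1.fst, e.1.snd)

theorem jn_iff_joined {P : List (Ev ι × ℝ)} {i k : ι} : Jn P i k ↔ Edg.Joined (edges P) i k := by
  constructor
  · intro h
    induction h with
    | rel i k hr =>
      obtain ⟨e, he, rfl, rfl⟩ := hr
      exact Edg.joined_of_mem (List.mem_map.2 ⟨e, he, rfl⟩)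
    | refl i => exact Edg.Joined.refl _ _
    | symm i k _ ih => exact ih.symm
    | trans i k l _ _ ih1 ih2 => exact ih1.trans ih2
  · intro h
    refine h.rec_le (r := Jn P) ⟨Jn.refl P, Jn.symm, Jn.trans⟩ fun e he => ?_
    obtain ⟨e', he', rfl⟩ := List.mem_map.1 he
    exact jn_of_mem he'

theorem closed_of_edges {P : List (Ev ι × ℝ)} (h : Edg.Closed (edges P)) : Closed P := by
  obtain ⟨A, e, B, h1, h2⟩ := h
  obtain ⟨Q₁, Q₂, h3, h4, h5⟩ := List.map_eq_append_iff.1 h1
  cases Q₂ with
  | nil => exact absurd h5 (by simp)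
  | cons q Q₂ =>
    rw [List.map_cons, List.cons.injEq] at h5
    refine ⟨Q₁, q, Q₂, h3, ?_⟩
    rw [jn_iff_joined]
    rw [← h4, ← h5.1] at h2
    exact h2

end Edges

/-! ### The program of a family -/

section Prog

variable [DecidableEq Src]

/-- The labels of a family: the sources of all the histories. -/
def rts (F : Finset CTree) : Finset Src := F.image CTree.root

theorem mem_rts {F : Finset CTree} {x : Src} : x ∈ rts F ↔ ∃ P ∈ F, P.root = x := by
  unfold rts
  rw [Finset.mem_image]

theorem root_mem_rts {F : Finset CTree} {P : CTree} (h : P ∈ F) : P.root ∈ rts F :=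
  mem_rts.2 ⟨P, h, rfl⟩

/-- All the sources of the histories are labels. -/
theorem Fam.leaves_subset {F : Finset CTree} {G : List Gh} (h : Fam Φ ε T F G) {P : CTree}
    (hP : P ∈ F) : P.leaves ⊆ (rts F : Set Src) := by
  induction P with
  | leaf σ =>
    intro x hx
    rw [mem_singleton_iff.1 hx]
    exact root_mem_rts hP
  | node a b iha ihb =>
    have h1 := h.sub a b hP
    exact union_subset (iha h1.1) (ihb h1.2.1)

/-- The labels are the sources of the histories. -/
theorem rts_eq {F : Finset CTree} {G : List Gh} (h : Fam Φ ε T F G) :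
    (rts F : Set Src) = ⋃ P ∈ F, P.leaves := by
  refine subset_antisymm (fun x hx => ?_) (iUnion₂_subset fun P hP => h.leaves_subset hP)
  obtain ⟨P, hP, rfl⟩ := mem_rts.1 hx
  exact mem_iUnion₂.2 ⟨P, hP, P.root_mem_leaves⟩

/-- The program of a family. -/
structure IsProg (Φ : E3 → ℝ) (ε T : ℝ) (F : Finset CTree) (G : List Gh) (P : List (Ev Src)) :
    Prop where
  run : Run Φ ε T 0 (pl T P) (fun x => x.1) (fun x => x.2.1)
  wf : Wf (pl T P)
  len : 2 * P.length = (nl F).card + 2 * G.length
  node : ∀ a b, node a b ∈ F → Ev.sc a.root b.root ∈ P ∨ Ev.sc b.root a.root ∈ P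
  ghost : ∀ g ∈ G, Ev.gh g.1.root g.2.1.root ∈ P
  lab : ∀ e ∈ P, e.fst ∈ rts F ∧ e.snd ∈ rts F

theorem wf_of_pairwise : ∀ Q : List Cev,
    (Q.Pairwise fun e e' => ∀ A B r, e = Cev.gh A B r → e'.fst ≠ A.root ∧ e'.snd ≠ A.root) →
    Wf (pl T (Q.map Cev.ev))
  | [], _ => trivial
  | e :: Q, h => by
    rw [List.pairwise_cons] at h
    refine ⟨fun i k hik e' he' => ?_, wf_of_pairwise Q h.2⟩
    obtain ⟨e1, he1, rfl⟩ := List.mem_map.1 he'
    obtain ⟨e2, he2, rfl⟩ := List.mem_map.1 he1
    cases e with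
    | nd a b =>
      have h1 : Ev.sc a.root b.root = Ev.gh i k := hik
      exact absurd h1 (by simp)
    | gh A B r =>
      have h1 : Ev.gh A.root B.root = Ev.gh i k := hik
      injection h1 with h2 h3
      have h4 := h.1 e2 he2 A B r rfl
      simp only [Cev.ev_fst, Cev.ev_snd]
      rw [← h2]
      exact h4

/-- **The program of a family** of histories with births `≥ 0`. -/
theorem Fam.exists_prog (hΦ : IsPotential Φ) (hε : 0 < ε) {F : Finset CTree} {G : List Gh}
    (h : Fam Φ ε T F G) : ∃ P, IsProg Φ ε T F G P := by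
  obtain ⟨Q, hQ⟩ := h.exists_val hΦ hε (s := 0)
    (fun P hP => sig_nonneg hΦ hε (h.ok P (mem_nl.1 hP).1))
    (fun g hg => (ext_nonneg hΦ hε (h.ok _ (h.gh g hg).1)).trans (h.gh g hg).2.2.2.1)
  have hlab : ∀ e ∈ Q, e.fst ∈ rts F ∧ e.snd ∈ rts F := by
    intro e he
    rcases hQ.mem e he with ⟨a, b, rfl, hab⟩ | ⟨g, hg, rfl⟩
    · have h1 := h.sub a b hab
      exact ⟨root_mem_rts h1.1, root_mem_rts h1.2.1⟩
    · have h1 := h.gh g hg
      exact ⟨root_mem_rts h1.1, root_mem_rts h1.2.1⟩
  refine ⟨Q.map Cev.ev, ?_, wf_of_pairwise Q hQ.wf, ?_, ?_, ?_, ?_⟩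
  · have h1 := Val.run hΦ hε (rts F : Set Src) Q leaf 0 (fun e he => hlab e he)
      (fun x hx => by
        obtain ⟨P, hP, rfl⟩ := mem_rts.1 hx
        exact h.ok _ (h.spine_mem (Spine.leaf P) hP)) hQ.val
    rw [cB_leaf, cZ_leaf] at h1
    exact h1
  · rw [List.length_map]; exact hQ.len
  · intro a b hab
    rcases hQ.node a b hab with h1 | h1
    · exact Or.inl (List.mem_map.2 ⟨_, h1, rfl⟩)
    · exact Or.inr (List.mem_map.2 ⟨_, h1, rfl⟩)
  · intro g hg
    exact List.mem_map.2 ⟨_, hQ.ghost g hg, rfl⟩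
  · intro e he
    obtain ⟨e', he', rfl⟩ := List.mem_map.1 he
    rw [Cev.ev_fst, Cev.ev_snd]
    exact hlab e' he'

namespace IsProg

variable {F : Finset CTree} {G : List Gh} {P : List (Ev Src)}

theorem jn_ghost (h : IsProg Φ ε T F G P) {g : Gh} (hg : g ∈ G) :
    Jn (pl T P) g.1.root g.2.1.root :=
  jn_of_mem (e := (Ev.gh g.1.root g.2.1.root, T)) (List.mem_map.2 ⟨_, h.ghost g hg, rfl⟩)

theorem jn_node (h : IsProg Φ ε T F G P) {a b : CTree} (hab : CTree.node a b ∈ F) :
    Jn (pl T P) a.root b.root := by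
  rcases h.node a b hab with h1 | h1
  · exact jn_of_mem (e := (Ev.sc a.root b.root, T)) (List.mem_map.2 ⟨_, h1, rfl⟩)
  · exact (jn_of_mem (e := (Ev.sc b.root a.root, T)) (List.mem_map.2 ⟨_, h1, rfl⟩)).symm

/-- The sources of one history are joined. -/
theorem jn_root (hF : Fam Φ ε T F G) (h : IsProg Φ ε T F G P) {S : CTree} (hS : S ∈ F) :
    ∀ x ∈ S.leaves, Jn (pl T P) x S.root := by
  induction S with
  | leaf σ =>
    intro x hx
    rw [mem_singleton_iff.1 hx]
    exact Jn.refl _ _
  | node a b iha ihb =>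
    have h1 := hF.sub a b hS
    rintro x (hx | hx)
    · exact iha h1.1 x hx
    · exact (ihb h1.2.1 x hx).trans (h.jn_node hS).symm

theorem jn_leaves (hF : Fam Φ ε T F G) (h : IsProg Φ ε T F G P) {S : CTree} (hS : S ∈ F)
    {x y : Src} (hx : x ∈ S.leaves) (hy : y ∈ S.leaves) : Jn (pl T P) x y :=
  (h.jn_root hF hS x hx).trans (h.jn_root hF hS y hy).symm

/-- **Counting**: a family with at least as many events as labels gives a closed program. -/
theorem closed (h : IsProg Φ ε T F G P) (hne : F.Nonempty)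
    (hc : 2 * (rts F).card ≤ (nl F).card + 2 * G.length) : Closed (pl T P) := by
  refine closed_of_edges (Edg.closed_of_card_le_finset (S := rts F) ?_ ?_ ?_)
  · intro e he
    obtain ⟨e', he', rfl⟩ := List.mem_map.1 he
    obtain ⟨e'', he'', rfl⟩ := List.mem_map.1 he'
    exact h.lab e'' he''
  · obtain ⟨S, hS⟩ := hne
    exact ⟨_, root_mem_rts hS⟩
  · have h1 := h.len
    have h2 : (edges (pl T P)).length = P.length := by unfold edges pl; simp
    omega

/-- The program on a set of labels which contains all the sources of the family. -/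
theorem relabel {ι : Type} [DecidableEq ι] (h : IsProg Φ ε T F G P) {z : ι → Src}
    (hz : Function.Injective z) (hr : (rts F : Set Src) ⊆ range z) :
    ∃ P' : List (Ev ι), P'.map (Ev.map z) = P ∧ P'.length = P.length ∧
      Run Φ ε T 0 (pl T P') (fun i => (z i).1) (fun i => (z i).2.1) ∧ Wf (pl T P') ∧
      (∀ i k, Jn (pl T P') i k ↔ Jn (pl T P) (z i) (z k)) ∧
      (Closed (pl T P') ↔ Closed (pl T P)) := by
  obtain ⟨P', hP'⟩ := exists_map_list (f := z) P fun e he => ⟨hr (h.lab e he).1, hr (h.lab e he).2⟩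
  have e1 : pl T P = mapP z (pl T P') := by rw [mapP_pl, hP']
  refine ⟨P', hP', by rw [← hP', List.length_map], ?_, ?_, fun i k => ?_, ?_⟩
  · have h1 := h.run
    rw [e1, run_map hz] at h1
    exact h1
  · have h1 := h.wf
    rw [e1, wf_map hz] at h1
    exact h1
  · rw [e1, jn_map hz]
  · rw [e1, closed_map hz]

end IsProg

/-- Counting of the histories of a family. -/
theorem Fam.card_eq {F : Finset CTree} {G : List Gh} (h : Fam Φ ε T F G) :
    F.card = (rts F).card + (nl F).card := by
  classical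
  have h1 : F = (rts F).image leaf ∪ nl F := by
    ext P
    rw [Finset.mem_union, Finset.mem_image, mem_nl]
    constructor
    · intro hP
      cases P with
      | leaf σ => exact Or.inl ⟨σ, root_mem_rts hP, rfl⟩
      | node a b => exact Or.inr ⟨hP, a, b, rfl⟩
    · rintro (⟨x, hx, rfl⟩ | ⟨hP, -⟩)
      · obtain ⟨P, hP, rfl⟩ := mem_rts.1 hx
        exact h.spine_mem (Spine.leaf P) hP
      · exact hP
  have h2 : Disjoint ((rts F).image leaf) (nl F) := by
    rw [Finset.disjoint_left]
    intro P hP hP'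
    obtain ⟨x, -, rfl⟩ := Finset.mem_image.1 hP
    obtain ⟨a, b, hab⟩ := (mem_nl.1 hP').2
    exact absurd hab (by simp)
  conv_lhs => rw [h1]
  rw [Finset.card_union_of_disjoint h2, Finset.card_image_of_injective _ fun x y h => by
    injection h]

end Prog

end Vale.Agent.P119.IND
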