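import Vale.Agent.P119.IND.Extract2

/-!
# P119, block IND: the final state of the program of a family (`helper350`)

* `IsLast F S`: `S` is the last history of its label in `F`;
* `Fam.exists_prog_last`: the program of a family; its final lines and births are those of the last
  histories;
* `finZ_map`, `finB_map`, `IsProg.relabel_last`: the same after relabelling.
-/

open MeasureTheory Filter Topology Set
open scoped ENNReal NNReal

set_option linter.unusedSectionVars false

noncomputable section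

namespace Vale.Agent.P119.IND

open KU M M.CTree TL

variable {Φ : E3 → ℝ} {ε T : ℝ}

section

variable [DecidableEq Src]

/-- The final lines and births of a valid list. -/
theorem Val.fin (hΦ : IsPotential Φ) : ∀ (Q : List Cev) (c : Src → CTree) (s : ℝ),
    Val Φ ε T c s Q →
    finZ Φ ε (pl T (Q.map Cev.ev)) (cZ Φ ε c) = cZ Φ ε (fin c Q) ∧
      finB Φ ε (pl T (Q.map Cev.ev)) (cB Φ ε c) (cZ Φ ε c) = cB Φ ε (IND.fin c Q)
  | [], _, _, _ => ⟨rfl, rfl⟩
  | .nd a b :: Q, c, s, h => by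
    obtain ⟨h1, ⟨h2, h3, h4, h5⟩, h6⟩ := h
    have hab : a.root ≠ b.root := by
      intro hr
      exact Set.disjoint_left.1 h2.2.2.1 a.root_mem_leaves (hr ▸ b.root_mem_leaves)
    have ih := Val.fin hΦ Q _ _ h6
    rw [← lineApp_nd hΦ c hab h4 h5, ← birthApp_nd hΦ c hab h4 h5] at ih
    exact ih
  | .gh A B r :: Q, c, s, h => by
    obtain ⟨h1, h2, h9⟩ := h
    exact Val.fin hΦ Q _ _ h9

end

/-- `S` is the last history of its label. -/
structure IsLast (F : Finset CTree) (S : CTree) : Prop where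
  mem : S ∈ F
  last : ∀ P ∈ F, P.root = S.root → Spine P S

section

variable [DecidableEq Src]

/-- The final lines and births of the program are those of the last histories. -/
def FinSt (Φ : E3 → ℝ) (ε T : ℝ) (F : Finset CTree) (P : List (Ev Src)) : Prop :=
  ∀ S, IsLast F S → finZ Φ ε (pl T P) (fun x => x.2.1) S.root = ln Φ ε S ∧
    finB Φ ε (pl T P) (fun x => x.1) (fun x => x.2.1) S.root = ext Φ ε S

/-- **The program of a family and its final state.** -/
theorem Fam.exists_prog_last (hΦ : IsPotential Φ) (hε : 0 < ε) {F : Finset CTree} {G : List Gh}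
    (h : Fam Φ ε T F G) : ∃ P, IsProg Φ ε T F G P ∧ FinSt Φ ε T F P := by
  obtain ⟨Q, hQ⟩ := h.exists_val hΦ hε (s := 0)
    (fun P hP => sig_nonneg hΦ hε (h.ok P (mem_nl.1 hP).1))
    (fun g hg => (ext_nonneg hΦ hε (h.ok _ (h.gh g hg).1)).trans (h.gh g hg).2.2.2.1)
  have hlab : ∀ e ∈ Q, e.fst ∈ rts F ∧ e.snd ∈ rts F := by
    intro e he
    rcases hQ.mem e he with ⟨a, b, rfl, hab⟩ | ⟨g, hg, rfl⟩
    · have h1 := h.sub a b hab
      exact ⟨root_mem_rts h1.1, root_mem_rts h1.2.1⟩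
    · have h1 := h.gh g hg
      exact ⟨root_mem_rts h1.1, root_mem_rts h1.2.1⟩
  refine ⟨Q.map Cev.ev, ⟨?_, wf_of_pairwise Q hQ.wf, ?_, ?_, ?_, ?_⟩, ?_⟩
  · have h1 := Val.run hΦ hε (rts F : Set Src) Q leaf 0 (fun e he => hlab e he)
      (fun x hx => by
        obtain ⟨P, hP, rfl⟩ := mem_rts.1 hx
        exact h.ok _ (h.spine_mem (Spine.leaf P) hP)) hQ.val
    rw [cB_leaf, cZ_leaf] at h1
    exact h1
  · rw [List.length_map]; exact hQ.len
  · intro a b hab
    rcases hQ.node a b hab with h1 | h1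
    · exact Or.inl (List.mem_map.2 ⟨_, h1, rfl⟩)
    · exact Or.inr (List.mem_map.2 ⟨_, h1, rfl⟩)
  · intro g hg
    exact List.mem_map.2 ⟨_, hQ.ghost g hg, rfl⟩
  · intro e he
    obtain ⟨e', he', rfl⟩ := List.mem_map.1 he
    rw [Cev.ev_fst, Cev.ev_snd]
    exact hlab e' he'
  · intro S hS
    have h1 := Val.fin hΦ Q leaf 0 hQ.val
    rw [cB_leaf, cZ_leaf] at h1
    obtain ⟨h2, h3⟩ := hQ.cur S hS.mem
    have h4 : IND.fin leaf Q S.root = S := Spine.antisymm (hS.last _ h3 (by rw [← h2.root_eq])) h2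
    rw [h1.1, h1.2]
    unfold cZ cB
    rw [h4]
    exact ⟨rfl, rfl⟩

end

section Map

variable {ι κ : Type} [DecidableEq ι] [DecidableEq κ]

theorem finZ_map {f : ι → κ} (hf : Function.Injective f) : ∀ (P : List (Ev ι × ℝ)) (Z : κ → Ph),
    finZ Φ ε (mapP f P) Z ∘ f = finZ Φ ε P (Z ∘ f)
  | [], _ => rfl
  | e :: P, Z => by
    change finZ Φ ε (mapP f P) (lineApp Φ ε (e.1.map f) Z) ∘ f =
      finZ Φ ε P (lineApp Φ ε e.1 (Z ∘ f))
    rw [finZ_map hf P, lineApp_map hf]

theorem finB_map {f : ι → κ} (hf : Function.Injective f) : ∀ (P : List (Ev ι × ℝ)) (β : κ → ℝ)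
    (Z : κ → Ph), finB Φ ε (mapP f P) β Z ∘ f = finB Φ ε P (β ∘ f) (Z ∘ f)
  | [], _, _ => rfl
  | e :: P, β, Z => by
    change finB Φ ε (mapP f P) (birthApp Φ ε (e.1.map f) β Z) (lineApp Φ ε (e.1.map f) Z) ∘ f =
      finB Φ ε P (birthApp Φ ε e.1 (β ∘ f) (Z ∘ f)) (lineApp Φ ε e.1 (Z ∘ f))
    rw [finB_map hf P, birthApp_map hf, lineApp_map hf]

end Map

section

variable [DecidableEq Src]

/-- The final state of a relabelled program. -/
theorem FinSt.map {F : Finset CTree} {P : List (Ev Src)} (h : FinSt Φ ε T F P) {ι : Type}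
    [DecidableEq ι] {z : ι → Src} (hz : Function.Injective z) {P' : List (Ev ι)}
    (hP' : P'.map (Ev.map z) = P) {S : CTree} (hS : IsLast F S) {i : ι} (hi : z i = S.root) :
    finZ Φ ε (pl T P') (fun i => (z i).2.1) i = ln Φ ε S ∧
      finB Φ ε (pl T P') (fun i => (z i).1) (fun i => (z i).2.1) i = ext Φ ε S := by
  have h1 := h S hS
  rw [← hP', ← mapP_pl, ← hi] at h1
  have h2 := congrFun (finZ_map (Φ := Φ) (ε := ε) hz (pl T P') (fun x => x.2.1)) i
  have h3 := congrFun (finB_map (Φ := Φ) (ε := ε) hz (pl T P') (fun x => x.1)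
    (fun x => x.2.1)) i
  simp only [Function.comp_apply] at h2 h3
  refine ⟨?_, ?_⟩
  · rw [← h1.1, h2]; rfl
  · rw [← h1.2, h3]; rfl

end

end Vale.Agent.P119.IND
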