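import Vale.Agent.P119.IND.Mecke
import Vale.Agent.P119.ML.Crude

/-!
# P119, block IND: the law of the root lines of several trees (`helper228`)

`pi_lines_le`: integrals over `m` trees of a function of the root lines are at most
`C^m ∫ wt (b/2) ε m p * G p dp`, uniformly in `ε` (crude bound of `helper776`); `mecke_lines`: the
same for the expected number of `m`-tuples of disjoint trees in the configuration.
-/

open MeasureTheory Filter Topology Set
open scoped ENNReal

noncomputable section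

namespace Vale.Agent.P119.IND

open KU FL M CTree GC MM PB.CT

/-- The exit time of the tree is at most `T₀`. -/
def okT (Φ : E3 → ℝ) (ε T₀ : ℝ) : Set CTree := {T | CTree.ok Φ ε T ∧ CTree.ext Φ ε T ≤ T₀}

theorem measurableSet_okT {Φ : E3 → ℝ} (hΦ : IsPotential Φ) {ε : ℝ} (hε : ε ≠ 0) (T₀ : ℝ) :
    MeasurableSet (okT Φ ε T₀) :=
  (M.measurableSet_ok hΦ hε).inter (measurableSet_le (M.measurable_ext hΦ hε) measurable_const)

/-- The law of the root line of one tree. -/
theorem line_le {Φ : E3 → ℝ} (hΦ : IsPotential Φ) {f₀ : Ph → ℝ} {κ b T₀ M₀ : ℝ}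
    (hg : GoodDatum f₀ κ) (hb : 0 < b) (hT : 0 ≤ T₀) (hM : 0 ≤ M₀)
    (hf : ∀ z, f₀ z ≤ M₀ * Real.exp (-b * ‖z.2‖ ^ 2)) (L : ℕ) :
    ∃ C : ℝ≥0∞, C ≠ ∞ ∧ ∀ ε : ℝ, 0 < ε → ∀ F : Ph → ℝ≥0∞, Measurable F →
      ∫⁻ T in okT Φ ε T₀, F (ln Φ ε T) ∂(tree (GC.inten f₀ ε) L) ≤
        C * ∫⁻ l : Ph, (muE ε * g1 (b / 2) l.2) * F l := by
  obtain ⟨C, hC, h⟩ := ML.crude_tree hΦ hg hb hT hM hf L
  refine ⟨C * (1 + L * ENNReal.ofReal T₀), ENNReal.mul_ne_top hC
    (ENNReal.add_ne_top.2 ⟨ENNReal.one_ne_top, ENNReal.mul_ne_top (ENNReal.natCast_ne_top L)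
      ENNReal.ofReal_ne_top⟩), fun ε hε F hF => ?_⟩
  refine (h ε hε (fun σ => F σ.2.1) (hF.comp (measurable_fst.comp measurable_snd))).trans ?_
  have hm : Measurable fun l : Ph => g1 (b / 2) l.2 * F l := (measurable_g1 (b / 2)).mul hF
  set A := ∫⁻ l : Ph, g1 (b / 2) l.2 * F l with hA
  have h1 : ∫⁻ l : Ph, (muE ε * g1 (b / 2) l.2) * F l = muE ε * A := by
    rw [hA, ← lintegral_const_mul _ hm]
    exact lintegral_congr fun l => by rw [mul_assoc]
  rw [h1]
  have h2 : (∫⁻ _s in Icc (0 : ℝ) T₀, ∫⁻ l : Ph, g1 (b / 2) l.2 * F l) =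
      ENNReal.ofReal T₀ * A := by
    rw [lintegral_const, Measure.restrict_apply MeasurableSet.univ, univ_inter, Real.volume_Icc,
      sub_zero, mul_comm]
  refine le_of_eq ?_
  change ENNReal.ofReal (mu ε) * (C * (A + ∑ d ∈ Finset.Icc 1 L, ∫⁻ _s in Icc (0 : ℝ) T₀,
    ∫⁻ l : Ph, g1 (b / 2) l.2 * F l)) = _
  rw [Finset.sum_congr rfl fun _ _ => h2, Finset.sum_const, Nat.card_Icc, Nat.add_sub_cancel, nsmul_eq_mul]
  unfold muE
  ring

/-- **The law of the root lines of several trees.** -/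
theorem pi_lines_le {Φ : E3 → ℝ} (hΦ : IsPotential Φ) {f₀ : Ph → ℝ} {κ b T₀ M₀ : ℝ}
    (hg : GoodDatum f₀ κ) (hb : 0 < b) (hT : 0 ≤ T₀) (hM : 0 ≤ M₀)
    (hf : ∀ z, f₀ z ≤ M₀ * Real.exp (-b * ‖z.2‖ ^ 2)) (L : ℕ) :
    ∃ C : ℝ≥0∞, C ≠ ∞ ∧ ∀ ε : ℝ, 0 < ε → ∀ (m : ℕ) (G : (Fin m → Ph) → ℝ≥0∞), Measurable G →
      ∫⁻ S, ({S : Fin m → CTree | ∀ k, S k ∈ okT Φ ε T₀}).indicator
          (fun S => G fun k => ln Φ ε (S k)) S
          ∂(Measure.pi fun _ : Fin m => tree (GC.inten f₀ ε) L) ≤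
        C ^ m * ∫⁻ p : Fin m → Ph, FL.wt (b / 2) ε m p * G p := by
  obtain ⟨C, hC, h⟩ := line_le hΦ hg hb hT hM hf L
  refine ⟨C, hC, fun ε hε m => ?_⟩
  have hfin : IsFiniteMeasure (GC.inten f₀ ε) := GC.isFiniteMeasure_inten hg
  have hok := measurableSet_okT hΦ hε.ne' T₀
  have hln : Measurable (ln Φ ε) := M.measurable_ln hΦ hε.ne'
  induction m with
  | zero =>
    intro G hG
    rw [Measure.pi_of_empty (fun _ : Fin 0 => tree (GC.inten f₀ ε) L) Fin.elim0, pow_zero, one_mul]
    have h1 : ∀ p : Fin 0 → Ph, G p = G Fin.elim0 := fun p => congrArg G (Subsingleton.elim _ _)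
    have h2 : ({S : Fin 0 → CTree | ∀ k, S k ∈ okT Φ ε T₀}).indicator
        (fun S => G fun k => ln Φ ε (S k)) = fun _ => G Fin.elim0 := by
      funext S
      rw [indicator_of_mem (show S ∈ {S : Fin 0 → CTree | ∀ k, S k ∈ okT Φ ε T₀} from
        fun k => k.elim0)]
      exact h1 _
    have h3 : Measurable fun p : Fin 0 → Ph => FL.wt (b / 2) ε 0 p * G p :=
      (FL.measurable_wt _ _ _).mul hG
    rw [h2, lintegral_dirac' _ measurable_const, volume_pi,
      Measure.pi_of_empty (fun _ : Fin 0 => (volume : Measure Ph)) Fin.elim0,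
      lintegral_dirac' _ h3]
    simp [FL.wt]
  | succ m ih =>
    intro G hG
    have hE : ∀ m : ℕ, MeasurableSet {S : Fin m → CTree | ∀ k, S k ∈ okT Φ ε T₀} := by
      intro m
      have e : {S : Fin m → CTree | ∀ k, S k ∈ okT Φ ε T₀} = ⋂ k, {S | S k ∈ okT Φ ε T₀} := by
        ext S; simp
      rw [e]
      exact MeasurableSet.iInter fun k => (measurable_pi_apply k) hok
    have hGl : ∀ m (G : (Fin m → Ph) → ℝ≥0∞), Measurable G →
        Measurable (({S : Fin m → CTree | ∀ k, S k ∈ okT Φ ε T₀}).indicator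
          (fun S => G fun k => ln Φ ε (S k))) := fun m G hG =>
      (hG.comp (measurable_pi_iff.2 fun k => hln.comp (measurable_pi_apply k))).indicator (hE m)
    rw [lintegral_fin_cons m (hGl (m + 1) G hG)]
    -- the inner function
    set H : Ph → ℝ≥0∞ := fun l => ∫⁻ p : Fin m → Ph, FL.wt (b / 2) ε m p * G (Fin.cons l p) with hH
    have hGc : Measurable fun q : Ph × (Fin m → Ph) => G (Fin.cons q.1 q.2) :=
      hG.comp (measurable_fin_cons measurable_fst measurable_snd)
    have hHm : Measurable H := by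
      have h1 : Measurable fun q : Ph × (Fin m → Ph) => FL.wt (b / 2) ε m q.2 * G (Fin.cons q.1 q.2) :=
        ((FL.measurable_wt _ _ _).comp measurable_snd).mul hGc
      exact h1.lintegral_prod_right'
    have h1 : ∀ T : CTree, ∫⁻ S, ({S : Fin (m + 1) → CTree | ∀ k, S k ∈ okT Φ ε T₀}).indicator
        (fun S => G fun k => ln Φ ε (S k)) (Fin.cons T S)
          ∂(Measure.pi fun _ : Fin m => tree (GC.inten f₀ ε) L) ≤
        (okT Φ ε T₀).indicator (fun T => C ^ m * H (ln Φ ε T)) T := by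
      intro T
      by_cases hT' : T ∈ okT Φ ε T₀
      · rw [indicator_of_mem hT']
        refine le_trans (le_of_eq ?_) (ih (fun p => G (Fin.cons (ln Φ ε T) p))
          (hG.comp (measurable_fin_cons measurable_const measurable_id)))
        refine lintegral_congr fun S => ?_
        have e1 : (fun k => ln Φ ε ((Fin.cons T S : Fin (m + 1) → CTree) k)) =
            (Fin.cons (ln Φ ε T) fun k => ln Φ ε (S k) : Fin (m + 1) → Ph) := by
          funext k
          refine Fin.cases ?_ (fun k => ?_) k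
          · rfl
          · rfl
        by_cases hS : ∀ k, S k ∈ okT Φ ε T₀
        · rw [indicator_of_mem (show (Fin.cons T S : Fin (m + 1) → CTree) ∈
            {S : Fin (m + 1) → CTree | ∀ k, S k ∈ okT Φ ε T₀} from fun k => by
              refine Fin.cases ?_ (fun k => ?_) k
              · exact hT'
              · exact hS k), indicator_of_mem (show S ∈ {S : Fin m → CTree |
                ∀ k, S k ∈ okT Φ ε T₀} from hS), e1]
        · rw [indicator_of_notMem (show (Fin.cons T S : Fin (m + 1) → CTree) ∉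
            {S : Fin (m + 1) → CTree | ∀ k, S k ∈ okT Φ ε T₀} from fun h => hS fun k => h k.succ),
            indicator_of_notMem (show S ∉ {S : Fin m → CTree | ∀ k, S k ∈ okT Φ ε T₀} from hS)]
      · rw [indicator_of_notMem hT']
        refine le_of_eq ?_
        have e1 : ∀ S : Fin m → CTree, ({S : Fin (m + 1) → CTree |
            ∀ k, S k ∈ okT Φ ε T₀}).indicator (fun S => G fun k => ln Φ ε (S k))
            (Fin.cons T S) = 0 := fun S =>
          indicator_of_notMem (fun h : ∀ k, (Fin.cons T S : Fin (m + 1) → CTree) k ∈ okT Φ ε T₀ =>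
            hT' (h 0)) _
        simp only [e1, lintegral_zero]
    refine (lintegral_mono h1).trans ?_
    have hHl : Measurable fun T : CTree => H (ln Φ ε T) := hHm.comp hln
    rw [lintegral_indicator hok, lintegral_const_mul _ hHl]
    refine (mul_le_mul' le_rfl (h ε hε H hHm)).trans (le_of_eq ?_)
    have h3 : Measurable fun p : Fin (m + 1) → Ph => FL.wt (b / 2) ε (m + 1) p * G p :=
      (FL.measurable_wt _ _ _).mul hG
    rw [FL.lintegral_cons h3, pow_succ, mul_assoc]
    congr 2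
    refine lintegral_congr fun l => ?_
    have h4 : Measurable fun p : Fin m → Ph => FL.wt (b / 2) ε m p * G (Fin.cons l p) :=
      (FL.measurable_wt _ _ _).mul (hG.comp (measurable_fin_cons measurable_const measurable_id))
    rw [hH, ← lintegral_const_mul _ h4]
    refine lintegral_congr fun p => ?_
    rw [FL.wt_cons]
    unfold g1
    ring

end Vale.Agent.P119.IND
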