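import Vale.Agent.P119.IND.Labels
import Vale.Agent.P119.IND.Lines
import Vale.Agent.P119.TL.Comb

/-!
# P119, block IND: structure laws (`helper228`)

The base structures are `m` collision trees (law `(tree (inten f₀ ε) L)^m`) and `q` free lines with
Gaussian velocities and fixed births.

* `enT T`: the sum of `|v|²` over the leaves of `T`;
* `lintegral_pi_tree`: integration over several trees is a sum over the shapes of integrals over the
  leaves;
* `law_le`: if a bad event implies that some labelling of the particles (all the particles of the base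
  structure being labelled) satisfies one of finitely many relations `R d`, and the relations have
  small mass, then the bad event has small probability, integrated over the base structure.
-/

open MeasureTheory Filter Topology Set
open scoped ENNReal

noncomputable section

namespace Vale.Agent.P119.IND

open KU FL M CTree GC MM AU PB.CT

/-! ### The energy of the leaves -/

/-- The sum of `|v|²` over the leaves. -/
def enT : CTree → ℝ
  | leaf σ => ‖σ.2.1.2‖ ^ 2
  | node a b => enT a + enT b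

theorem enT_nonneg (T : CTree) : 0 ≤ enT T := by
  induction T with
  | leaf σ => exact sq_nonneg _
  | node a b iha ihb => exact add_nonneg iha ihb

theorem measurable_enT : Measurable enT :=
  measurable_rec (f := enT) (g := fun q => q.1 + q.2) (h := fun σ => ‖σ.2.1.2‖ ^ 2)
    (measurable_fst.add measurable_snd) (by fun_prop) (fun _ => rfl) fun _ _ => rfl

theorem enT_mk : ∀ (τ : Shape) (z : Fin τ.card → Src), enT (τ.mk z) = ∑ i, ‖(z i).2.1.2‖ ^ 2
  | Shape.leaf, z => by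
    change ‖(z ⟨0, one_pos⟩).2.1.2‖ ^ 2 = ∑ i : Fin 1, ‖(z i).2.1.2‖ ^ 2
    rw [Fin.sum_univ_one]
    rfl
  | Shape.node a b, z => by
    have h1 := enT_mk a fun i => z (Fin.castAdd b.card i)
    have h2 := enT_mk b fun i => z (Fin.natAdd a.card i)
    change enT (a.mk _) + enT (b.mk _) = ∑ i : Fin (a.card + b.card), ‖(z i).2.1.2‖ ^ 2
    rw [h1, h2, Fin.sum_univ_add]

theorem enT_ord (τ : Shape) (z : Fin τ.card → Ph) : enT (τ.ord z) = ∑ i, ‖(z i).2‖ ^ 2 :=
  enT_mk τ _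

/-- The energy of the root line is at most the energy of the leaves. -/
theorem ln_sq_le_enT {Φ : E3 → ℝ} (hΦ : IsPotential Φ) {ε : ℝ} (hε : ε ≠ 0) (T : CTree) :
    ‖(ln Φ ε T).2‖ ^ 2 ≤ enT T := by
  induction T with
  | leaf σ => exact le_rfl
  | node a b iha ihb =>
    have h := energy_sc2 (Φ := Φ) hΦ hε (ln Φ ε a, ln Φ ε b)
    change ‖(sc2 Φ ε (ln Φ ε a, ln Φ ε b)).1.2‖ ^ 2 ≤ enT a + enT b
    have h2 := sq_nonneg ‖(sc2 Φ ε (ln Φ ε a, ln Φ ε b)).2.2‖
    simp only at h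
    linarith

theorem enT_sub {X T : CTree} (h : TL.Sub X T) : enT X ≤ enT T := by
  induction h with
  | refl => exact le_rfl
  | left b _ ih => exact ih.trans (le_add_of_nonneg_right (enT_nonneg b))
  | right a _ ih => exact ih.trans (le_add_of_nonneg_left (enT_nonneg a))

theorem enT_outs {T x : CTree} (h : x ∈ TL.outs T) : enT x ≤ enT T := by
  rcases h with rfl | h
  · exact le_rfl
  · obtain ⟨a, b, h', rfl⟩ := TL.exs_iff.1 h
    exact (le_of_eq (add_comm (enT b) (enT a))).trans (enT_sub h')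

/-- The energy of the lines of the histories of `T`. -/
theorem ln_sq_le_enT_outs {Φ : E3 → ℝ} (hΦ : IsPotential Φ) {ε : ℝ} (hε : ε ≠ 0) {T x : CTree}
    (h : x ∈ TL.outs T) : ‖(ln Φ ε x).2‖ ^ 2 ≤ enT T :=
  (ln_sq_le_enT hΦ hε x).trans (enT_outs h)

theorem ln_sq_le_enT_sub {Φ : E3 → ℝ} (hΦ : IsPotential Φ) {ε : ℝ} (hε : ε ≠ 0) {T x : CTree}
    (h : TL.Sub x T) : ‖(ln Φ ε x).2‖ ^ 2 ≤ enT T :=
  (ln_sq_le_enT hΦ hε x).trans (enT_sub h)

/-! ### Several trees -/

/-- The trees with given shapes and leaves. -/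
def mkT {m : ℕ} (τ : Fin m → Shape) (z : (Σ i, Fin (τ i).card) → Ph) (i : Fin m) : CTree :=
  (τ i).ord fun j => z ⟨i, j⟩

theorem measurable_mkT {m : ℕ} (τ : Fin m → Shape) : Measurable (mkT τ) :=
  measurable_pi_iff.2 fun i => (M.measurable_ord (τ i)).comp
    (measurable_pi_iff.2 fun _ => measurable_pi_apply _)

/-- The leaves of `m + 1` trees. -/
def sigE {m : ℕ} (τ₀ : Shape) (τ : Fin m → Shape) :
    Fin τ₀.card ⊕ (Σ i, Fin (τ i).card) ≃ Σ i, Fin ((Fin.cons τ₀ τ : Fin (m + 1) → Shape) i).card where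
  toFun := Sum.elim (fun j => ⟨0, j⟩) fun p => ⟨p.1.succ, p.2⟩
  invFun p := Fin.cases (motive := fun i => Fin ((Fin.cons τ₀ τ : Fin (m + 1) → Shape) i).card →
      Fin τ₀.card ⊕ (Σ i, Fin (τ i).card)) (fun j => Sum.inl j) (fun i j => Sum.inr ⟨i, j⟩) p.1 p.2
  left_inv := by rintro (j | ⟨i, j⟩) <;> rfl
  right_inv := by
    have h : ∀ (i : Fin (m + 1)) (j : Fin ((Fin.cons τ₀ τ : Fin (m + 1) → Shape) i).card),
        Sum.elim (fun j => (⟨0, j⟩ : Σ i, Fin ((Fin.cons τ₀ τ : Fin (m + 1) → Shape) i).card))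
          (fun p : (Σ i, Fin (τ i).card) => ⟨p.1.succ, p.2⟩)
          (Fin.cases (motive := fun i => Fin ((Fin.cons τ₀ τ : Fin (m + 1) → Shape) i).card →
            Fin τ₀.card ⊕ (Σ i, Fin (τ i).card)) (fun j => Sum.inl j)
            (fun i j => Sum.inr ⟨i, j⟩) i j) = ⟨i, j⟩ := by
      intro i
      refine Fin.cases ?_ (fun i => ?_) i
      · intro j; rfl
      · intro j; rfl
    rintro ⟨i, j⟩
    exact h i j

theorem mkT_cons {m : ℕ} (τ₀ : Shape) (τ : Fin m → Shape) (z₀ : Fin τ₀.card → Ph)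
    (z : (Σ i, Fin (τ i).card) → Ph) :
    mkT (Fin.cons τ₀ τ : Fin (m + 1) → Shape) (Sum.elim z₀ z ∘ (sigE τ₀ τ).symm) =
      Fin.cons (τ₀.ord z₀) (mkT τ z) := by
  funext i
  refine Fin.cases ?_ (fun i => ?_) i
  · rfl
  · rfl

/-- **Integration over several trees.** -/
theorem lintegral_pi_tree {ν : Measure Ph} [IsFiniteMeasure ν] (L : ℕ) : ∀ (m : ℕ)
    {F : (Fin m → CTree) → ℝ≥0∞}, Measurable F →
    ∫⁻ T, F T ∂(Measure.pi fun _ : Fin m => tree ν L) =
      ∑ τ ∈ Fintype.piFinset fun _ : Fin m => shapes L,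
        ∫⁻ z, F (mkT τ z) ∂(Measure.pi fun _ : (Σ i, Fin (τ i).card) => ν)
  | 0, F, hF => by
    have h1 : (Fintype.piFinset fun _ : Fin 0 => shapes L) = {Fin.elim0} := by
      ext τ
      simp only [Fintype.mem_piFinset, Finset.mem_singleton]
      exact ⟨fun _ => Subsingleton.elim _ _, fun _ i => i.elim0⟩
    rw [h1, Finset.sum_singleton, Measure.pi_of_empty (fun _ : Fin 0 => tree ν L) Fin.elim0,
      lintegral_dirac' _ hF]
    rw [Measure.pi_of_empty (fun _ : (Σ i : Fin 0, Fin (Fin.elim0 i : Shape).card) => ν)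
      (fun p => p.1.elim0)]
    have h2 : Measurable fun z : (Σ i : Fin 0, Fin (Fin.elim0 i : Shape).card) → Ph =>
        F (mkT Fin.elim0 z) := hF.comp (measurable_mkT _)
    rw [lintegral_dirac' _ h2]
    exact congrArg F (Subsingleton.elim _ _)
  | m + 1, F, hF => by
    rw [lintegral_fin_cons m hF]
    have hm : Measurable fun T : CTree => ∫⁻ S, F (Fin.cons T S)
        ∂(Measure.pi fun _ : Fin m => tree ν L) :=
      Measurable.lintegral_prod_right' (f := fun p : CTree × (Fin m → CTree) => F (Fin.cons p.1 p.2))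
        (hF.comp (measurable_fin_cons measurable_fst measurable_snd))
    rw [lintegral_tree L hm]
    have h1 : ∀ (τ₀ : Shape) (z₀ : Fin τ₀.card → Ph),
        ∫⁻ S, F (Fin.cons (τ₀.ord z₀) S) ∂(Measure.pi fun _ : Fin m => tree ν L) =
        ∑ τ ∈ Fintype.piFinset fun _ : Fin m => shapes L,
          ∫⁻ z, F (Fin.cons (τ₀.ord z₀) (mkT τ z))
            ∂(Measure.pi fun _ : (Σ i, Fin (τ i).card) => ν) := fun τ₀ z₀ =>
      lintegral_pi_tree L m (hF.comp (measurable_fin_cons measurable_const measurable_id))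
    simp only [h1]
    have h2 : ∀ τ₀ : Shape, ∀ τ : Fin m → Shape, Measurable fun p : (Fin τ₀.card → Ph) ×
        ((Σ i, Fin (τ i).card) → Ph) => F (Fin.cons (τ₀.ord p.1) (mkT τ p.2)) := fun τ₀ τ =>
      hF.comp (measurable_fin_cons ((M.measurable_ord τ₀).comp measurable_fst)
        ((measurable_mkT τ).comp measurable_snd))
    have h3 : ∀ τ₀ : Shape, ∫⁻ z₀, ∑ τ ∈ Fintype.piFinset fun _ : Fin m => shapes L,
          ∫⁻ z, F (Fin.cons (τ₀.ord z₀) (mkT τ z)) ∂(Measure.pi fun _ : (Σ i, Fin (τ i).card) => ν)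
          ∂(Measure.pi fun _ : Fin τ₀.card => ν) =
        ∑ τ ∈ Fintype.piFinset fun _ : Fin m => shapes L,
          ∫⁻ z, F (mkT (Fin.cons τ₀ τ : Fin (m + 1) → Shape) z)
            ∂(Measure.pi fun _ : (Σ i, Fin ((Fin.cons τ₀ τ : Fin (m + 1) → Shape) i).card) => ν) := by
      intro τ₀
      rw [lintegral_finsetSum _ fun τ _ => (h2 τ₀ τ).lintegral_prod_right']
      refine Finset.sum_congr rfl fun τ _ => ?_
      rw [lintegral_pi_equiv ν (sigE τ₀ τ), lintegral_pi_sum ν]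
      · refine lintegral_congr fun z₀ => lintegral_congr fun z => ?_
        rw [mkT_cons]
      · exact hF.comp ((measurable_mkT _).comp (measurable_comp_left measurable_id _))
    simp only [h3]
    rw [← Finset.sum_product']
    refine Finset.sum_bij' (fun p _ => (Fin.cons p.1 p.2 : Fin (m + 1) → Shape))
      (fun τ _ => (τ 0, Fin.tail τ)) ?_ ?_ ?_ ?_ ?_
    · rintro ⟨τ₀, τ⟩ hp
      rw [Finset.mem_product, Fintype.mem_piFinset] at hp
      rw [Fintype.mem_piFinset]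
      intro i
      refine Fin.cases ?_ (fun i => ?_) i
      · exact hp.1
      · exact hp.2 i
    · intro τ hτ
      rw [Fintype.mem_piFinset] at hτ
      rw [Finset.mem_product, Fintype.mem_piFinset]
      exact ⟨hτ 0, fun i => hτ i.succ⟩
    · rintro ⟨τ₀, τ⟩ _
      simp only [Fin.cons_zero, Fin.tail_cons]
    · intro τ _
      exact Fin.cons_self_tail τ
    · rintro ⟨τ₀, τ⟩ _
      rfl

/-! ### The base structure and its labels -/

/-- The base structure: `m` disjoint `ok` trees and `q` further sources. -/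
structure Base (Φ : E3 → ℝ) (ε : ℝ) {m q : ℕ} (T : Fin m → CTree) (l : Fin q → Src) : Prop where
  ok : ∀ j, CTree.ok Φ ε (T j)
  disj : ∀ i j, i ≠ j → Disjoint (T i).leaves (T j).leaves
  inj : Function.Injective l
  notMem : ∀ i j, l j ∉ (T i).leaves

/-- Labellings of particles of the base structure and of the world `w`; all the particles of the base
structure are labelled. -/
structure LabT {ι : Type*} {m q : ℕ} (T : Fin m → CTree) (l : Fin q → Src) (w : Finset Ph)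
    (z : ι → Src) : Prop where
  inj : Function.Injective z
  mem : ∀ i, (∃ j, z i ∈ (T j).leaves) ∨ z i ∈ range l ∨ z i ∈ wS w
  trees : ∀ j, (T j).leaves ⊆ range z
  lines : ∀ j, l j ∈ range z

/-- The free lines as sources. -/
def lns {q : ℕ} (s : Fin q → ℝ) (dl : Fin q → ℕ) (l : Fin q → Ph) (j : Fin q) : Src :=
  (s j, l j, dl j)

/-- The base labels. -/
def bas {m q : ℕ} {τ : Fin m → Shape} (s : Fin q → ℝ) (dl : Fin q → ℕ)
    (z : (Σ i, Fin (τ i).card) → Ph) (l : Fin q → Ph) : (Σ i, Fin (τ i).card) ⊕ Fin q → Src :=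
  Sum.elim (src ∘ z) (lns s dl l)

variable {Φ : E3 → ℝ} {ε : ℝ} {m q : ℕ}

theorem mem_leaves_mkT {τ : Fin m → Shape} {z : (Σ i, Fin (τ i).card) → Ph} {j : Fin m} {σ : Src} :
    σ ∈ (mkT τ z j).leaves ↔ ∃ i : Fin (τ j).card, src (z ⟨j, i⟩) = σ := by
  unfold mkT
  rw [Shape.leaves_ord]
  simp

theorem Base.injective {τ : Fin m → Shape} {s : Fin q → ℝ} {dl : Fin q → ℕ}
    {z : (Σ i, Fin (τ i).card) → Ph} {l : Fin q → Ph} (h : Base Φ ε (mkT τ z) (lns s dl l)) :
    Function.Injective (bas s dl z l) := by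
  have h1 : ∀ i, Function.Injective fun j : Fin (τ i).card => src (z ⟨i, j⟩) := fun i =>
    Shape.injective_of_ok (τ i) _ (h.ok i)
  rintro (⟨i, j⟩ | j) (⟨i', j'⟩ | j') he
  · have he' : src (z ⟨i, j⟩) = src (z ⟨i', j'⟩) := he
    rcases eq_or_ne i i' with rfl | hi
    · rw [h1 i he']
    · have h2 := Set.disjoint_left.1 (h.disj i i' hi) (mem_leaves_mkT.2 ⟨j, rfl⟩)
      exact absurd (mem_leaves_mkT.2 ⟨j', he'.symm⟩) h2
  · have he' : src (z ⟨i, j⟩) = lns s dl l j' := he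
    exact absurd (mem_leaves_mkT.2 ⟨j, he'⟩) (h.notMem i j')
  · have he' : lns s dl l j = src (z ⟨i', j'⟩) := he
    exact absurd (mem_leaves_mkT.2 ⟨j', he'.symm⟩) (h.notMem i' j)
  · have he' : lns s dl l j = lns s dl l j' := he
    rw [h.inj he']

theorem LabT.lab {ι : Type*} {τ : Fin m → Shape} {s : Fin q → ℝ} {dl : Fin q → ℕ}
    {z : (Σ i, Fin (τ i).card) → Ph} {l : Fin q → Ph} {w : Finset Ph} {y : ι → Src}
    (h : LabT (mkT τ z) (lns s dl l) w y) : Lab (bas s dl z l) w y := by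
  refine ⟨h.inj, fun i => ?_, ?_⟩
  · rcases h.mem i with ⟨j, hj⟩ | ⟨j, hj⟩ | hi
    · obtain ⟨j', hj'⟩ := mem_leaves_mkT.1 hj
      exact Or.inl ⟨Sum.inl ⟨j, j'⟩, hj'⟩
    · exact Or.inl ⟨Sum.inr j, hj⟩
    · exact Or.inr hi
  · rintro (⟨j, j'⟩ | j)
    · exact h.trees j (mem_leaves_mkT.2 ⟨j', rfl⟩)
    · exact h.lines j

/-! ### The weights -/

/-- The mass bound for a relation `R` between the states (birth, line) of `n` particles: one particle
has the density `f₀ e^{c|v|²}`, the others are Gaussian. -/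
def MassLe (f₀ : Ph → ℝ) (ε b c : ℝ) {n : ℕ} (R : Set (Fin n → ℝ × Ph)) (δ : ℝ≥0∞) : Prop :=
  ∀ (r : Fin n) (β : Fin n → ℝ), (∀ i, 0 ≤ β i) →
    muE ε ^ (n - 1) * ∫⁻ Z : Fin n → Ph, ({Z : Fin n → Ph | (fun i => (β i, Z i)) ∈ R}).indicator
      (fun Z => ENNReal.ofReal (f₀ (Z r)) * g1 (-c) (Z r).2 *
        ∏ i ∈ Finset.univ.erase r, g1 (b - c) (Z i).2) Z ≤ δ

theorem g1_mul (a b : ℝ) (v : E3) : g1 a v * g1 b v = g1 (a + b) v := by
  unfold g1
  rw [← ENNReal.ofReal_mul (Real.exp_nonneg _), ← Real.exp_add]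
  congr 2
  ring

theorem ofReal_exp_sum {ι : Type*} (s : Finset ι) (x : ι → ℝ) :
    ENNReal.ofReal (Real.exp (∑ i ∈ s, x i)) = ∏ i ∈ s, ENNReal.ofReal (Real.exp (x i)) := by
  rw [Real.exp_sum, ENNReal.ofReal_prod_of_nonneg fun i _ => Real.exp_nonneg _]

/-- The density of the intensity. -/
def dn (f₀ : Ph → ℝ) (ε : ℝ) (z : Ph) : ℝ≥0∞ := muE ε * ENNReal.ofReal (f₀ z)

variable {f₀ : Ph → ℝ} {κ₀ : ℝ}

theorem measurable_dn (h : GoodDatum f₀ κ₀) : Measurable (dn f₀ ε) :=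
  h.meas.ennreal_ofReal.const_mul _

theorem inten_eq (h : GoodDatum f₀ κ₀) : inten f₀ ε = volume.withDensity (dn f₀ ε) := by
  unfold inten law
  rw [← withDensity_smul _ h.meas.ennreal_ofReal]
  rfl

theorem lintegral_pi_inten (h : GoodDatum f₀ κ₀) {ι : Type*} [Fintype ι] {F : (ι → Ph) → ℝ≥0∞}
    (hF : Measurable F) :
    ∫⁻ z, F z ∂(Measure.pi fun _ : ι => inten f₀ ε) = ∫⁻ z : ι → Ph, (∏ i, dn f₀ ε (z i)) * F z := by
  have := isFiniteMeasure_inten (ε := ε) h
  have e := Fintype.equivFin ι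
  have hm : Measurable fun z : Fin (Fintype.card ι) → Ph => F (z ∘ e) :=
    hF.comp (measurable_comp_left measurable_id _)
  rw [lintegral_pi_equiv (inten f₀ ε) e.symm F]
  have h1 := lintegral_pi_withDensity (n := Fintype.card ι) (volume : Measure Ph)
    (g := dn f₀ ε) (measurable_dn h) (fun a => ENNReal.mul_ne_top muE_ne_top ENNReal.ofReal_ne_top)
    (F := fun z => F (z ∘ e)) hm
  rw [← inten_eq h] at h1
  have h2 : ∀ z : Fin (Fintype.card ι) → Ph, F (z ∘ e.symm.symm) = F (z ∘ e) := fun z => rfl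
  simp only [h2]
  rw [h1]
  have h3 := lintegral_pi_equiv (volume : Measure Ph) e.symm
    fun z : ι → Ph => (∏ i, dn f₀ ε (z i)) * F z
  rw [volume_pi, h3]
  refine lintegral_congr fun z => ?_
  congr 1
  exact (Equiv.prod_comp e fun i => dn f₀ ε (z i)).symm

variable {b c M₀ : ℝ}

theorem dn_le (hf : ∀ z, f₀ z ≤ M₀ * Real.exp (-b * ‖z.2‖ ^ 2)) (z : Ph) :
    dn f₀ ε z ≤ muE ε * (ENNReal.ofReal (max 1 M₀) * g1 b z.2) := by
  unfold dn g1
  rw [← ENNReal.ofReal_mul (by positivity)]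
  refine mul_le_mul_right (ENNReal.ofReal_le_ofReal ((hf z).trans ?_)) _
  exact mul_le_mul_of_nonneg_right (le_max_right _ _) (Real.exp_nonneg _)

/-- The weights of the labels. -/
def om (f₀ : Ph → ℝ) (ε b c : ℝ) {κ : Type*} {q k : ℕ} : (κ ⊕ Fin q) ⊕ Fin k → Ph → ℝ≥0∞ :=
  Sum.elim (Sum.elim (fun _ z => dn f₀ ε z * g1 (-c) z.2)
    (fun _ z => muE ε * (g1 b z.2 * g1 (-c) z.2))) fun _ z => dn f₀ ε z

theorem om_le (hc : 0 ≤ c) (hf : ∀ z, f₀ z ≤ M₀ * Real.exp (-b * ‖z.2‖ ^ 2)) {κ : Type*} {q k : ℕ}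
    (u : (κ ⊕ Fin q) ⊕ Fin k) (z : Ph) :
    om f₀ ε b c u z ≤ muE ε * (ENNReal.ofReal (max 1 M₀) * g1 (b - c) z.2) := by
  have h1 : (1 : ℝ≥0∞) ≤ ENNReal.ofReal (max 1 M₀) := by
    rw [← ENNReal.ofReal_one]
    exact ENNReal.ofReal_le_ofReal (le_max_left _ _)
  have hg : g1 b z.2 * g1 (-c) z.2 = g1 (b - c) z.2 := g1_mul b (-c) z.2
  rcases u with (u | u) | u
  · calc dn f₀ ε z * g1 (-c) z.2 ≤ muE ε * (ENNReal.ofReal (max 1 M₀) * g1 b z.2) * g1 (-c) z.2 :=
        mul_le_mul_left (dn_le hf z) _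
      _ = _ := by rw [← hg]; ring
  · change muE ε * (g1 b z.2 * g1 (-c) z.2) ≤ _
    rw [hg]
    refine mul_le_mul_right ?_ _
    calc g1 (b - c) z.2 = 1 * g1 (b - c) z.2 := (one_mul _).symm
      _ ≤ _ := mul_le_mul_left h1 _
  · refine (dn_le hf z).trans (mul_le_mul_right (mul_le_mul_right ?_ _) _)
    exact ML.g1_anti (by linarith) _

theorem prod_om {κ : Type*} [Fintype κ] {q k : ℕ} (Z : (κ ⊕ Fin q) ⊕ Fin k → Ph) :
    ∏ u, om f₀ ε b c u (Z u) = (∏ p, dn f₀ ε (Z (Sum.inl (Sum.inl p)))) *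
      (muE ε ^ q * ∏ j, g1 b (Z (Sum.inl (Sum.inr j))).2) *
      ((∏ p, g1 (-c) (Z (Sum.inl (Sum.inl p))).2) * ∏ j, g1 (-c) (Z (Sum.inl (Sum.inr j))).2) *
      ∏ y, dn f₀ ε (Z (Sum.inr y)) := by
  rw [Fintype.prod_sum_type, Fintype.prod_sum_type]
  simp only [om, Sum.elim_inl, Sum.elim_inr]
  rw [Finset.prod_mul_distrib, Finset.prod_mul_distrib, Finset.prod_mul_distrib,
    Finset.prod_const, Finset.card_univ, Fintype.card_fin]
  ring

/-- Integration over three groups of particles. -/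
theorem merge3 {A B C : Type*} [Fintype A] [Fintype B] [Fintype C]
    {H : ((A ⊕ B) ⊕ C → Ph) → ℝ≥0∞} (hH : Measurable H) :
    ∫⁻ Z, H Z = ∫⁻ z : A → Ph, ∫⁻ l : B → Ph, ∫⁻ y : C → Ph, H (Sum.elim (Sum.elim z l) y) := by
  have hs : SigmaFinite (Measure.pi fun _ : C => (volume : Measure Ph)) := Measure.pi.sigmaFinite _
  have h0 : Measurable fun p : (A ⊕ B → Ph) × (C → Ph) => H (Sum.elim p.1 p.2) :=
    hH.comp (measurable_sum_elim measurable_fst measurable_snd)
  have h1 : Measurable fun x : A ⊕ B → Ph =>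
      ∫⁻ y, H (Sum.elim x y) ∂(Measure.pi fun _ : C => (volume : Measure Ph)) :=
    h0.lintegral_prod_right'
  have h2 := lintegral_pi_sum (ι := A ⊕ B) (ι' := C) (volume : Measure Ph) hH
  have h3 := lintegral_pi_sum (ι := A) (ι' := B) (volume : Measure Ph) h1
  exact h2.trans h3

/-- Pulling factors out of the integrals. -/
theorem pull3 {A B C : Type*} [MeasurableSpace A] [MeasurableSpace B] [MeasurableSpace C]
    {ma : Measure A} {mb : Measure B} {mc : Measure C} [SFinite mc] [SFinite mb]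
    {a : A → ℝ≥0∞} {g : A → B → ℝ≥0∞}
    {f : A → B → C → ℝ≥0∞} (hg : Measurable fun p : A × B => g p.1 p.2)
    (hf : Measurable fun p : (A × B) × C => f p.1.1 p.1.2 p.2) :
    ∫⁻ z, a z * ∫⁻ l, g z l * ∫⁻ y, f z l y ∂mc ∂mb ∂ma =
      ∫⁻ z, ∫⁻ l, ∫⁻ y, a z * (g z l * f z l y) ∂mc ∂mb ∂ma := by
  refine lintegral_congr fun z => ?_
  have h1 : Measurable fun l => g z l * ∫⁻ y, f z l y ∂mc :=
    (hg.comp (measurable_const.prodMk measurable_id)).mul
      (hf.lintegral_prod_right'.comp (measurable_const.prodMk measurable_id))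
  rw [← lintegral_const_mul _ h1]
  refine lintegral_congr fun l => ?_
  have h2 : Measurable fun y => f z l y :=
    hf.comp (measurable_prodMk_left (x := (z, l)))
  rw [← lintegral_const_mul _ h2, ← lintegral_const_mul _ (h2.const_mul _)]

/-- **One splitting**: the integral over the base structure and the new particles. -/
theorem one_split (h : GoodDatum f₀ κ₀) (hc : 0 ≤ c)
    (hf : ∀ z, f₀ z ≤ M₀ * Real.exp (-b * ‖z.2‖ ^ 2)) {n k : ℕ} {R : Set (Fin n → ℝ × Ph)}
    (hR : MeasurableSet R) {δ : ℝ≥0∞} (hmass : MassLe f₀ ε b c R δ) {τ : Fin m → Shape}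
    (p₀ : Σ i, Fin (τ i).card) {s : Fin q → ℝ} (hs : ∀ j, 0 ≤ s j) (dl : Fin q → ℕ)
    (e : Fin n ≃ ((Σ i, Fin (τ i).card) ⊕ Fin q) ⊕ Fin k)
    {W : ((Σ i, Fin (τ i).card) → Ph) → (Fin q → Ph) → ℝ≥0∞}
    (hW : Measurable fun p : ((Σ i, Fin (τ i).card) → Ph) × (Fin q → Ph) => W p.1 p.2)
    {CW : ℝ≥0∞} (hWb : ∀ z l, W z l ≤ CW * ((∏ p, g1 (-c) (z p).2) * ∏ j, g1 (-c) (l j).2)) :
    muE ε ^ q * ∫⁻ z, ∫⁻ l : Fin q → Ph, (∏ j, g1 b (l j).2) * W z l *
      (Measure.pi fun _ : Fin k => inten f₀ ε) {y | (fun i =>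
        ((Sum.elim (bas s dl z l) (src ∘ y) (e i)).1,
          (Sum.elim (bas s dl z l) (src ∘ y) (e i)).2.1)) ∈ R} ∂volume
      ∂(Measure.pi fun _ : (Σ i, Fin (τ i).card) => inten f₀ ε) ≤
      CW * ENNReal.ofReal (max 1 M₀) ^ n * (muE ε * δ) := by
  have := isFiniteMeasure_inten (ε := ε) h
  set β : Fin n → ℝ := fun i => Sum.elim (Sum.elim (fun _ => 0) s) (fun _ => 0) (e i) with hβ
  set S : Set (Fin n → Ph) := {Z : Fin n → Ph | (fun i => (β i, Z i)) ∈ R} with hS
  have hSm : MeasurableSet S := (measurable_pi_iff.2 fun i =>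
    (measurable_const.prodMk (measurable_pi_apply i) : Measurable fun Z : Fin n → Ph =>
      (β i, Z i))) hR
  have hst : ∀ (z : (Σ i, Fin (τ i).card) → Ph) (l : Fin q → Ph) (y : Fin k → Ph),
      (fun i => ((Sum.elim (bas s dl z l) (src ∘ y) (e i)).1,
          (Sum.elim (bas s dl z l) (src ∘ y) (e i)).2.1)) =
        fun i => (β i, (Sum.elim (Sum.elim z l) y ∘ e) i) := by
    intro z l y
    funext i
    simp only [hβ, Function.comp_apply]
    rcases e i with (u | u) | u <;> rfl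
  set H : (((Σ i, Fin (τ i).card) ⊕ Fin q) ⊕ Fin k → Ph) → ℝ≥0∞ := fun Z =>
    (∏ p, dn f₀ ε (Z (Sum.inl (Sum.inl p)))) * ((∏ j, g1 b (Z (Sum.inl (Sum.inr j))).2) *
      W (fun p => Z (Sum.inl (Sum.inl p))) (fun j => Z (Sum.inl (Sum.inr j))) *
      ((∏ y, dn f₀ ε (Z (Sum.inr y))) * S.indicator 1 (Z ∘ e))) with hH
  have hdn := measurable_dn (ε := ε) h
  have hHm : Measurable H := by
    refine (Finset.measurable_prod _ fun p _ => hdn.comp (measurable_pi_apply _)).mul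
      (((Finset.measurable_prod _ fun j _ => (measurable_g1 b).comp (measurable_pi_apply _)).mul
      (hW.comp (Measurable.prodMk (measurable_pi_iff.2 fun p => measurable_pi_apply _)
        (measurable_pi_iff.2 fun p => measurable_pi_apply _)))).mul
      ((Finset.measurable_prod _ fun y _ => hdn.comp (measurable_pi_apply _)).mul
      ((measurable_one.indicator hSm).comp (measurable_comp_left measurable_id _))))
  have hmel : Measurable fun p : (((Σ i, Fin (τ i).card) → Ph) × (Fin q → Ph)) × (Fin k → Ph) =>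
      (Sum.elim (Sum.elim p.1.1 p.1.2) p.2) :=
    measurable_sum_elim (measurable_sum_elim (measurable_fst.comp measurable_fst)
      (measurable_snd.comp measurable_fst)) measurable_snd
  have hH3 : Measurable fun p : (((Σ i, Fin (τ i).card) → Ph) × (Fin q → Ph)) × (Fin k → Ph) =>
      H (Sum.elim (Sum.elim p.1.1 p.1.2) p.2) := hHm.comp hmel
  have hS3 : Measurable fun p : (((Σ i, Fin (τ i).card) → Ph) × (Fin q → Ph)) × (Fin k → Ph) =>
      (∏ y, dn f₀ ε (p.2 y)) * S.indicator (1 : (Fin n → Ph) → ℝ≥0∞)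
        (Sum.elim (Sum.elim p.1.1 p.1.2) p.2 ∘ e) :=
    (Finset.measurable_prod _ fun y _ => hdn.comp ((measurable_pi_apply _).comp
      measurable_snd)).mul ((measurable_one.indicator hSm).comp
      (measurable_comp_left hmel _))
  -- the new particles
  have hA : ∀ (z : (Σ i, Fin (τ i).card) → Ph) (l : Fin q → Ph),
      (Measure.pi fun _ : Fin k => inten f₀ ε) {y | (fun i =>
        ((Sum.elim (bas s dl z l) (src ∘ y) (e i)).1,
          (Sum.elim (bas s dl z l) (src ∘ y) (e i)).2.1)) ∈ R} =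
      ∫⁻ y : Fin k → Ph, (∏ i, dn f₀ ε (y i)) *
        S.indicator 1 (Sum.elim (Sum.elim z l) y ∘ e) := by
    intro z l
    have e1 : {y : Fin k → Ph | (fun i => ((Sum.elim (bas s dl z l) (src ∘ y) (e i)).1,
          (Sum.elim (bas s dl z l) (src ∘ y) (e i)).2.1)) ∈ R} =
        {y | Sum.elim (Sum.elim z l) y ∘ e ∈ S} := by
      ext y
      rw [mem_ofPred_eq, hst z l y]
      rfl
    have hm1 : Measurable fun y : Fin k → Ph => Sum.elim (Sum.elim z l) y ∘ e :=
      measurable_comp_left (measurable_sum_elim measurable_const measurable_id) _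
    have e2 : ∀ y : Fin k → Ph, ({y | Sum.elim (Sum.elim z l) y ∘ e ∈ S}).indicator
        (1 : (Fin k → Ph) → ℝ≥0∞) y = S.indicator 1 (Sum.elim (Sum.elim z l) y ∘ e) := by
      intro y
      by_cases hy : Sum.elim (Sum.elim z l) y ∘ e ∈ S
      · rw [indicator_of_mem hy, indicator_of_mem (show y ∈ {y : Fin k → Ph |
          Sum.elim (Sum.elim z l) y ∘ e ∈ S} from hy)]
        rfl
      · rw [indicator_of_notMem hy, indicator_of_notMem (show y ∉ {y : Fin k → Ph |
          Sum.elim (Sum.elim z l) y ∘ e ∈ S} from hy)]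
    have hmS : MeasurableSet {y : Fin k → Ph | Sum.elim (Sum.elim z l) y ∘ e ∈ S} := hm1 hSm
    rw [e1, ← lintegral_indicator_one hmS]
    simp only [e2]
    exact lintegral_pi_inten h ((measurable_one.indicator hSm).comp hm1)
  simp only [hA]
  -- the trees
  have hF1 : Measurable fun p : ((Σ i, Fin (τ i).card) → Ph) × (Fin q → Ph) =>
      (∏ j, g1 b (p.2 j).2) * W p.1 p.2 * ∫⁻ y : Fin k → Ph, (∏ i, dn f₀ ε (y i)) *
        S.indicator 1 (Sum.elim (Sum.elim p.1 p.2) y ∘ e) :=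
    ((Finset.measurable_prod _ fun j _ => (measurable_g1 b).comp ((measurable_pi_apply _).comp
      measurable_snd)).mul hW).mul hS3.lintegral_prod_right'
  rw [lintegral_pi_inten h hF1.lintegral_prod_right']
  have hgW : Measurable fun p : ((Σ i, Fin (τ i).card) → Ph) × (Fin q → Ph) =>
      (∏ j, g1 b (p.2 j).2) * W p.1 p.2 :=
    (Finset.measurable_prod _ fun j _ => (measurable_g1 b).comp ((measurable_pi_apply _).comp
      measurable_snd)).mul hW
  rw [pull3 (a := fun z : (Σ i, Fin (τ i).card) → Ph => ∏ p, dn f₀ ε (z p)) hgW hS3]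
  have hB := merge3 hHm
  have hB' : (∫⁻ z : (Σ i, Fin (τ i).card) → Ph, ∫⁻ l : Fin q → Ph, ∫⁻ y : Fin k → Ph,
      (∏ p, dn f₀ ε (z p)) * ((∏ j, g1 b (l j).2) * W z l *
        ((∏ i, dn f₀ ε (y i)) * S.indicator 1 (Sum.elim (Sum.elim z l) y ∘ e)))) =
      ∫⁻ Z : ((Σ i, Fin (τ i).card) ⊕ Fin q) ⊕ Fin k → Ph, H Z := hB.symm
  rw [hB', volume_pi, lintegral_pi_equiv volume e H, ← lintegral_const_mul]
  swap
  · exact hHm.comp (measurable_comp_left measurable_id _)
  set r : Fin n := e.symm (Sum.inl (Sum.inl p₀)) with hr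
  set M' := ENNReal.ofReal (max 1 M₀) with hM'
  have hm := hmass r β fun i => by
    simp only [hβ]
    rcases e i with (u | u) | u
    · exact le_rfl
    · exact hs u
    · exact le_rfl
  have hM1 : (1 : ℝ≥0∞) ≤ M' := by
    rw [← ENNReal.ofReal_one]
    exact ENNReal.ofReal_le_ofReal (le_max_left _ _)
  have hZe : ∀ Z : Fin n → Ph, (Z ∘ e.symm) ∘ e = Z := fun Z => by
    funext i
    simp
  have key : ∀ Z : Fin n → Ph, muE ε ^ q * H (Z ∘ e.symm) ≤
      (CW * M' ^ n * muE ε * muE ε ^ (n - 1)) * S.indicator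
      (fun Z => ENNReal.ofReal (f₀ (Z r)) * g1 (-c) (Z r).2 *
        ∏ i ∈ Finset.univ.erase r, g1 (b - c) (Z i).2) Z := by
    intro Z
    by_cases hZ : Z ∈ S
    swap
    · have e0 : H (Z ∘ e.symm) = 0 := by
        simp only [hH]
        rw [hZe, indicator_of_notMem hZ, mul_zero, mul_zero, mul_zero]
      rw [e0, mul_zero]
      exact zero_le
    rw [indicator_of_mem hZ]
    set Y := Z ∘ e.symm with hY
    have e1 : H Y = (∏ p, dn f₀ ε (Y (Sum.inl (Sum.inl p)))) *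
        ((∏ j, g1 b (Y (Sum.inl (Sum.inr j))).2) *
          W (fun p => Y (Sum.inl (Sum.inl p))) (fun j => Y (Sum.inl (Sum.inr j))) *
          ∏ y, dn f₀ ε (Y (Sum.inr y))) := by
      simp only [hH]
      rw [hY, hZe, indicator_of_mem hZ, Pi.one_apply, mul_one]
    have e2 : muE ε ^ q * H Y ≤ CW * ∏ u, om f₀ ε b c u (Y u) := by
      rw [prod_om, e1]
      calc muE ε ^ q * ((∏ p, dn f₀ ε (Y (Sum.inl (Sum.inl p)))) *
            ((∏ j, g1 b (Y (Sum.inl (Sum.inr j))).2) *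
              W (fun p => Y (Sum.inl (Sum.inl p))) (fun j => Y (Sum.inl (Sum.inr j))) *
              ∏ y, dn f₀ ε (Y (Sum.inr y))))
          ≤ muE ε ^ q * ((∏ p, dn f₀ ε (Y (Sum.inl (Sum.inl p)))) *
            ((∏ j, g1 b (Y (Sum.inl (Sum.inr j))).2) *
              (CW * ((∏ p, g1 (-c) (Y (Sum.inl (Sum.inl p))).2) *
                ∏ j, g1 (-c) (Y (Sum.inl (Sum.inr j))).2)) *
              ∏ y, dn f₀ ε (Y (Sum.inr y)))) :=
            mul_le_mul_right (mul_le_mul_right (mul_le_mul_left (mul_le_mul_right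
              (hWb (fun p => Y (Sum.inl (Sum.inl p))) (fun j => Y (Sum.inl (Sum.inr j)))) _) _) _) _
        _ = _ := by ring
    have e3 : ∏ u, om f₀ ε b c u (Y u) = ∏ i, om f₀ ε b c (e i) (Z i) := by
      rw [← Equiv.prod_comp e]
      refine Finset.prod_congr rfl fun i _ => ?_
      rw [hY, Function.comp_apply, Equiv.symm_apply_apply]
    have e4 : ∏ i, om f₀ ε b c (e i) (Z i) = om f₀ ε b c (e r) (Z r) *
        ∏ i ∈ Finset.univ.erase r, om f₀ ε b c (e i) (Z i) :=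
      (Finset.mul_prod_erase _ _ (Finset.mem_univ r)).symm
    have e5 : om f₀ ε b c (e r) (Z r) = dn f₀ ε (Z r) * g1 (-c) (Z r).2 := by
      rw [hr, Equiv.apply_symm_apply]
      rfl
    have e6 : ∏ i ∈ Finset.univ.erase r, om f₀ ε b c (e i) (Z i) ≤
        ∏ i ∈ Finset.univ.erase r, (muE ε * (M' * g1 (b - c) (Z i).2)) :=
      Finset.prod_le_prod' fun i _ => om_le hc hf _ _
    have e7 : ∏ i ∈ Finset.univ.erase r, (muE ε * (M' * g1 (b - c) (Z i).2)) =
        muE ε ^ (n - 1) * (M' ^ (n - 1) * ∏ i ∈ Finset.univ.erase r, g1 (b - c) (Z i).2) := by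
      rw [Finset.prod_mul_distrib, Finset.prod_mul_distrib, Finset.prod_const, Finset.prod_const,
        Finset.card_erase_of_mem (Finset.mem_univ r), Finset.card_univ, Fintype.card_fin]
    have e8 : M' ^ (n - 1) ≤ M' ^ n := pow_le_pow_right₀ hM1 (Nat.sub_le n 1)
    calc muE ε ^ q * H Y ≤ CW * (dn f₀ ε (Z r) * g1 (-c) (Z r).2 * (muE ε ^ (n - 1) *
          (M' ^ (n - 1) * ∏ i ∈ Finset.univ.erase r, g1 (b - c) (Z i).2))) := by
          refine e2.trans ?_
          rw [e3, e4, e5, ← e7]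
          exact mul_le_mul_right (mul_le_mul_right e6 _) _
      _ ≤ CW * (dn f₀ ε (Z r) * g1 (-c) (Z r).2 * (muE ε ^ (n - 1) *
          (M' ^ n * ∏ i ∈ Finset.univ.erase r, g1 (b - c) (Z i).2))) :=
          mul_le_mul_right (mul_le_mul_right (mul_le_mul_right (mul_le_mul_left e8 _) _) _) _
      _ = _ := by
          unfold dn
          ring
  refine (lintegral_mono key).trans ?_
  rw [lintegral_const_mul]
  · calc CW * M' ^ n * muE ε * muE ε ^ (n - 1) * ∫⁻ Z : Fin n → Ph, S.indicator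
          (fun Z => ENNReal.ofReal (f₀ (Z r)) * g1 (-c) (Z r).2 *
            ∏ i ∈ Finset.univ.erase r, g1 (b - c) (Z i).2) Z
        = CW * M' ^ n * (muE ε * (muE ε ^ (n - 1) * ∫⁻ Z : Fin n → Ph, S.indicator
          (fun Z => ENNReal.ofReal (f₀ (Z r)) * g1 (-c) (Z r).2 *
            ∏ i ∈ Finset.univ.erase r, g1 (b - c) (Z i).2) Z)) := by ring
      _ ≤ _ := mul_le_mul_right (mul_le_mul_right hm _) _
  · exact (((h.meas.ennreal_ofReal.comp (measurable_pi_apply r)).mul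
      ((measurable_g1 (-c)).comp (measurable_pi_apply r))).mul
      (Finset.measurable_prod _ fun i _ =>
        (measurable_g1 (b - c)).comp (measurable_pi_apply i))).indicator hSm

/-! ### All the splittings -/

theorem shape_card_pos : ∀ τ : Shape, 0 < τ.card
  | Shape.leaf => one_pos
  | Shape.node a b => Nat.add_pos_left (shape_card_pos a) b.card

theorem pi_tree_eq {ν : Measure Ph} [IsFiniteMeasure ν] (L m : ℕ) :
    (Measure.pi fun _ : Fin m => tree ν L) = ∑ τ ∈ Fintype.piFinset fun _ : Fin m => shapes L,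
      (Measure.pi fun _ : (Σ i, Fin (τ i).card) => ν).map (mkT τ) := by
  refine Measure.ext fun s hs => ?_
  rw [← lintegral_indicator_one hs, lintegral_pi_tree L m (measurable_one.indicator hs),
    Measure.coe_finsetSum, Finset.sum_apply]
  refine Finset.sum_congr rfl fun τ _ => ?_
  rw [← lintegral_indicator_one hs, lintegral_map (measurable_one.indicator hs) (measurable_mkT τ)]

/-- Upper bound, for functions which need not be measurable. -/
theorem lintegral_pi_tree_le {ν : Measure Ph} [IsFiniteMeasure ν] (L m : ℕ)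
    (F : (Fin m → CTree) → ℝ≥0∞) :
    ∫⁻ T, F T ∂(Measure.pi fun _ : Fin m => tree ν L) ≤
      ∑ τ ∈ Fintype.piFinset fun _ : Fin m => shapes L,
        ∫⁻ z, F (mkT τ z) ∂(Measure.pi fun _ : (Σ i, Fin (τ i).card) => ν) := by
  rw [pi_tree_eq L m, lintegral_finsetSum_measure]
  exact Finset.sum_le_sum fun τ _ => lintegral_map_le _ _

theorem exp_enT (τ : Fin m → Shape) (z : (Σ i, Fin (τ i).card) → Ph) (l : Fin q → Ph) :
    ENNReal.ofReal (Real.exp (c * (∑ j, enT (mkT τ z j) + ∑ j, ‖(l j).2‖ ^ 2))) =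
      (∏ p, g1 (-c) (z p).2) * ∏ j, g1 (-c) (l j).2 := by
  have h1 : ∑ j, enT (mkT τ z j) = ∑ p : (Σ i, Fin (τ i).card), ‖(z p).2‖ ^ 2 := by
    rw [Fintype.sum_sigma]
    exact Finset.sum_congr rfl fun j _ => enT_ord _ _
  unfold g1
  rw [← ofReal_exp_sum, ← ofReal_exp_sum, ← ENNReal.ofReal_mul (Real.exp_nonneg _), ← Real.exp_add,
    h1, mul_add, Finset.mul_sum, Finset.mul_sum]
  congr 3
  · exact Finset.sum_congr rfl fun p _ => by ring
  · exact Finset.sum_congr rfl fun p _ => by ring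

theorem card_equiv_le {α β : Type*} [Fintype α] [Fintype β] [DecidableEq α] [DecidableEq β] :
    Fintype.card (α ≃ β) ≤ (Fintype.card α).factorial := by
  rcases isEmpty_or_nonempty (α ≃ β) with h | ⟨⟨e⟩⟩
  · rw [Fintype.card_eq_zero]
    exact Nat.zero_le _
  · exact (Fintype.card_equiv e).le

/-- The state (birth, line) of a source. -/
def sta (σ : Src) : ℝ × Ph := (σ.1, σ.2.1)

theorem measurable_sta : Measurable sta :=
  measurable_fst.prodMk (measurable_fst.comp measurable_snd)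

/-- The measure of the new particles which satisfy the relation `R`. -/
def pm (f₀ : Ph → ℝ) (ε : ℝ) (s : Fin q → ℝ) (dl : Fin q → ℕ) {n k : ℕ} {τ : Fin m → Shape}
    (R : Set (Fin n → ℝ × Ph)) (e : Fin n ≃ ((Σ i, Fin (τ i).card) ⊕ Fin q) ⊕ Fin k)
    (z : (Σ i, Fin (τ i).card) → Ph) (l : Fin q → Ph) : ℝ≥0∞ :=
  (Measure.pi fun _ : Fin k => inten f₀ ε) {y | (fun i =>
    sta (Sum.elim (bas s dl z l) (src ∘ y) (e i))) ∈ R}

theorem measurable_pm (h : GoodDatum f₀ κ₀) {s : Fin q → ℝ} {dl : Fin q → ℕ} {n k : ℕ}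
    {τ : Fin m → Shape} {R : Set (Fin n → ℝ × Ph)} (hR : MeasurableSet R)
    (e : Fin n ≃ ((Σ i, Fin (τ i).card) ⊕ Fin q) ⊕ Fin k) :
    Measurable fun p : ((Σ i, Fin (τ i).card) → Ph) × (Fin q → Ph) =>
      pm f₀ ε s dl R e p.1 p.2 := by
  have := isFiniteMeasure_inten (ε := ε) h
  have hRm : MeasurableSet {z : Fin n → Src | (fun i => sta (z i)) ∈ R} :=
    (measurable_pi_iff.2 fun i => measurable_sta.comp (measurable_pi_apply i)) hR
  have hbm : Measurable fun p : ((Σ i, Fin (τ i).card) → Ph) × (Fin q → Ph) =>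
      bas s dl p.1 p.2 := by
    refine measurable_sum_elim ?_ ?_
    · exact measurable_pi_iff.2 fun i => MM.measurable_src.comp
        ((measurable_pi_apply i).comp measurable_fst)
    · exact measurable_pi_iff.2 fun i => measurable_const.prodMk
        (((measurable_pi_apply i).comp measurable_snd).prodMk measurable_const)
  have h5 : MeasurableSet {q' : (((Σ i, Fin (τ i).card) → Ph) × (Fin q → Ph)) ×
      (Fin k → Ph) | Sum.elim (bas s dl q'.1.1 q'.1.2) (src ∘ q'.2) ∘ e ∈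
        {z : Fin n → Src | (fun i => sta (z i)) ∈ R}} :=
    ((hbm.comp measurable_fst).prodMk measurable_snd) (measurableSet_split hRm e)
  exact measurable_measure_prodMk_left h5

open Classical in
/-- The bound of the probability for given shapes. -/
theorem prob_shape_le (h : GoodDatum f₀ κ₀) (hε : 0 ≤ ε) {D : Type*} [Fintype D] {n : D → ℕ}
    {R : ∀ d, Set (Fin (n d) → ℝ × Ph)} (hR : ∀ d, MeasurableSet (R d)) {s : Fin q → ℝ}
    {dl : Fin q → ℕ} {τ : Fin m → Shape} {z : (Σ i, Fin (τ i).card) → Ph} {l : Fin q → Ph}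
    (hbase : Base Φ ε (mkT τ z) (lns s dl l)) {bad : Conf Ph → Prop}
    (hbad : ∀ᵐ w ∂(PP f₀ ε), bad w → ∃ d, ∃ y : Fin (n d) → Src,
      LabT (mkT τ z) (lns s dl l) (pts w) y ∧ (fun i => sta (y i)) ∈ R d) :
    (PP f₀ ε) {w | bad w} ≤ ∑ d, ∑ e : Fin (n d) ≃ ((Σ i, Fin (τ i).card) ⊕ Fin q) ⊕
      Fin (n d - Fintype.card ((Σ i, Fin (τ i).card) ⊕ Fin q)), pm f₀ ε s dl (R d) e z l := by
  have hRm : ∀ d, MeasurableSet {z : Fin (n d) → Src | (fun i => sta (z i)) ∈ R d} := fun d =>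
    (measurable_pi_iff.2 fun i => measurable_sta.comp (measurable_pi_apply i)) (hR d)
  have hinj := hbase.injective
  have h3 : (PP f₀ ε) {w | bad w} ≤ (PP f₀ ε) (⋃ d, {w | ∃ y ∈
      {y : Fin (n d) → Src | (fun i => sta (y i)) ∈ R d}, Lab (bas s dl z l) (pts w) y}) := by
    refine measure_mono_ae ?_
    filter_upwards [hbad] with w hw hb
    obtain ⟨d, y, hy, hy'⟩ := hw hb
    exact mem_iUnion.2 ⟨d, y, hy', hy.lab⟩
  refine h3.trans ((measure_iUnion_fintype_le _ _).trans (Finset.sum_le_sum fun d _ => ?_))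
  by_cases hd : Fintype.card ((Σ i, Fin (τ i).card) ⊕ Fin q) ≤ n d
  · have hk : Fintype.card (Fin (n d)) = Fintype.card ((Σ i, Fin (τ i).card) ⊕ Fin q) +
        (n d - Fintype.card ((Σ i, Fin (τ i).card) ⊕ Fin q)) := by
      rw [Fintype.card_fin]
      omega
    exact prob_labels_le h hε hk (hRm d) hinj
  · have h4 : {w : Conf Ph | ∃ y ∈ {y : Fin (n d) → Src | (fun i => sta (y i)) ∈ R d},
        Lab (bas s dl z l) (pts w) y} = ∅ := by
      refine eq_empty_of_forall_notMem fun w hw => hd ?_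
      obtain ⟨y, -, hy⟩ := hw
      have h5 := hy.card_le hinj
      rwa [Fintype.card_fin] at h5
    rw [h4, measure_empty]
    exact zero_le

/-- Finite sums and double integrals. -/
theorem lintegral2_sum2 {X Y : Type*} [MeasurableSpace X] [MeasurableSpace Y] {μ : Measure X}
    {ν : Measure Y} [SFinite ν] {D : Type*} [Fintype D] {E : D → Type*} [∀ d, Fintype (E d)]
    {F : ∀ d, E d → X → Y → ℝ≥0∞} (hF : ∀ d e, Measurable fun p : X × Y => F d e p.1 p.2) :
    ∫⁻ x, ∫⁻ y, ∑ d, ∑ e, F d e x y ∂ν ∂μ = ∑ d, ∑ e, ∫⁻ x, ∫⁻ y, F d e x y ∂ν ∂μ := by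
  have h1 : ∀ d e x, Measurable fun y => F d e x y := fun d e x =>
    (hF d e).comp measurable_prodMk_left
  have h2 : ∀ x, ∫⁻ y, ∑ d, ∑ e, F d e x y ∂ν = ∑ d, ∑ e, ∫⁻ y, F d e x y ∂ν := by
    intro x
    rw [lintegral_finsetSum _ fun d _ => Finset.measurable_sum _ fun e _ => h1 d e x]
    exact Finset.sum_congr rfl fun d _ => lintegral_finsetSum _ fun e _ => h1 d e x
  simp only [h2]
  have h3 : ∀ d e, Measurable fun x => ∫⁻ y, F d e x y ∂ν := fun d e =>
    (hF d e).lintegral_prod_right'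
  rw [lintegral_finsetSum _ fun d _ => Finset.measurable_sum _ fun e _ => h3 d e]
  exact Finset.sum_congr rfl fun d _ => lintegral_finsetSum _ fun e _ => h3 d e

open Classical in
/-- The structure laws, for given shapes. -/
theorem shape_law_le (h : GoodDatum f₀ κ₀) (hε : 0 ≤ ε) (hc : 0 ≤ c)
    (hf : ∀ z, f₀ z ≤ M₀ * Real.exp (-b * ‖z.2‖ ^ 2)) (hm : 0 < m)
    {D : Type*} [Fintype D] {n : D → ℕ} {R : ∀ d, Set (Fin (n d) → ℝ × Ph)}
    (hR : ∀ d, MeasurableSet (R d)) {δ : D → ℝ≥0∞} (hmass : ∀ d, MassLe f₀ ε b c (R d) (δ d))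
    {s : Fin q → ℝ} (hs : ∀ j, 0 ≤ s j) (dl : Fin q → ℕ)
    {W : (Fin m → CTree) → (Fin q → Ph) → ℝ≥0∞}
    (hW : Measurable fun p : (Fin m → CTree) × (Fin q → Ph) => W p.1 p.2) {CW : ℝ≥0∞}
    (hWb : ∀ T l, W T l ≤
      CW * ENNReal.ofReal (Real.exp (c * (∑ j, enT (T j) + ∑ j, ‖(l j).2‖ ^ 2))))
    (hbase : ∀ T l, W T l ≠ 0 → Base Φ ε T (lns s dl l))
    {bad : (Fin m → CTree) → (Fin q → Ph) → Conf Ph → Prop}
    (hbad : ∀ T l, W T l ≠ 0 → ∀ᵐ w ∂(PP f₀ ε), bad T l w → ∃ d, ∃ z : Fin (n d) → Src,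
      LabT T (lns s dl l) (pts w) z ∧ (fun i => sta (z i)) ∈ R d) (τ : Fin m → Shape) :
    muE ε ^ q * ∫⁻ z, ∫⁻ l : Fin q → Ph, (∏ j, g1 b (l j).2) * (W (mkT τ z) l *
        (PP f₀ ε) {w | bad (mkT τ z) l w}) ∂volume
        ∂(Measure.pi fun _ : (Σ i, Fin (τ i).card) => inten f₀ ε) ≤
      CW * muE ε * ∑ d, ((n d).factorial * (ENNReal.ofReal (max 1 M₀) ^ n d * δ d)) := by
  have := isFiniteMeasure_inten (ε := ε) h
  set p₀ : Σ i, Fin (τ i).card := ⟨⟨0, hm⟩, ⟨0, shape_card_pos _⟩⟩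
  have hWm : Measurable fun p : ((Σ i, Fin (τ i).card) → Ph) × (Fin q → Ph) =>
      W (mkT τ p.1) p.2 :=
    hW.comp (((measurable_mkT τ).comp measurable_fst).prodMk measurable_snd)
  have hgm : Measurable fun p : ((Σ i, Fin (τ i).card) → Ph) × (Fin q → Ph) =>
      ∏ j, g1 b (p.2 j).2 :=
    Finset.measurable_prod _ fun j _ => (measurable_g1 b).comp
      ((measurable_pi_apply j).comp measurable_snd)
  have h2 : ∀ (z : (Σ i, Fin (τ i).card) → Ph) (l : Fin q → Ph),
      (∏ j, g1 b (l j).2) * (W (mkT τ z) l * (PP f₀ ε) {w | bad (mkT τ z) l w}) ≤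
      ∑ d, ∑ e : Fin (n d) ≃ ((Σ i, Fin (τ i).card) ⊕ Fin q) ⊕
        Fin (n d - Fintype.card ((Σ i, Fin (τ i).card) ⊕ Fin q)),
        (∏ j, g1 b (l j).2) * W (mkT τ z) l * pm f₀ ε s dl (R d) e z l := by
    intro z l
    by_cases hW0 : W (mkT τ z) l = 0
    · rw [hW0, zero_mul, mul_zero]
      exact zero_le
    have h3 := prob_shape_le h hε hR (hbase _ _ hW0) (hbad _ _ hW0)
    refine (mul_le_mul_right (mul_le_mul_right h3 _) _).trans (le_of_eq ?_)
    rw [← mul_assoc, Finset.mul_sum]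
    exact Finset.sum_congr rfl fun d _ => Finset.mul_sum _ _ _
  refine (mul_le_mul_right (lintegral_mono fun z => lintegral_mono fun l => h2 z l) _).trans ?_
  rw [lintegral2_sum2 fun d e => (hgm.mul hWm).mul (measurable_pm h (hR d) e), Finset.mul_sum,
    Finset.mul_sum]
  refine Finset.sum_le_sum fun d _ => ?_
  rw [Finset.mul_sum]
  have h4 : ∀ e : Fin (n d) ≃ ((Σ i, Fin (τ i).card) ⊕ Fin q) ⊕
        Fin (n d - Fintype.card ((Σ i, Fin (τ i).card) ⊕ Fin q)),
      muE ε ^ q * ∫⁻ z, ∫⁻ l : Fin q → Ph, (∏ j, g1 b (l j).2) * W (mkT τ z) l *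
        pm f₀ ε s dl (R d) e z l ∂volume
        ∂(Measure.pi fun _ : (Σ i, Fin (τ i).card) => inten f₀ ε) ≤
      CW * ENNReal.ofReal (max 1 M₀) ^ n d * (muE ε * δ d) := fun e =>
    one_split h hc hf (hR d) (hmass d) p₀ hs dl e hWm fun z l =>
      (hWb _ _).trans (le_of_eq (by rw [exp_enT]))
  refine (Finset.sum_le_sum fun e _ => h4 e).trans ?_
  rw [Finset.sum_const, nsmul_eq_mul, Finset.card_univ]
  have h9 := card_equiv_le (α := Fin (n d)) (β := ((Σ i, Fin (τ i).card) ⊕ Fin q) ⊕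
    Fin (n d - Fintype.card ((Σ i, Fin (τ i).card) ⊕ Fin q)))
  rw [Fintype.card_fin] at h9
  calc (Fintype.card (Fin (n d) ≃ ((Σ i, Fin (τ i).card) ⊕ Fin q) ⊕
        Fin (n d - Fintype.card ((Σ i, Fin (τ i).card) ⊕ Fin q))) : ℝ≥0∞) *
        (CW * ENNReal.ofReal (max 1 M₀) ^ n d * (muE ε * δ d))
      ≤ ((n d).factorial : ℝ≥0∞) * (CW * ENNReal.ofReal (max 1 M₀) ^ n d * (muE ε * δ d)) :=
        mul_le_mul_left (by exact_mod_cast h9) _
    _ = _ := by ring

/-- **The structure laws.** The base structure consists of `m ≥ 1` trees and of `q` free lines with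
Gaussian velocities and fixed births `s` and depths `dl`; `W` is a weight, supported by the disjoint
`ok` structures.  If a bad event implies that one of the relations `R d` holds for some labelling of
particles, all the particles of the base structure being labelled, and if the relation `R d` has mass
`≤ δ d`, then the bad event has measure `≤ C μ^{1-q} ∑ δ d`. -/
theorem law_le (h : GoodDatum f₀ κ₀) (hε : 0 ≤ ε) (hc : 0 ≤ c)
    (hf : ∀ z, f₀ z ≤ M₀ * Real.exp (-b * ‖z.2‖ ^ 2)) (hm : 0 < m) (L : ℕ)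
    {D : Type*} [Fintype D] {n : D → ℕ} {R : ∀ d, Set (Fin (n d) → ℝ × Ph)}
    (hR : ∀ d, MeasurableSet (R d)) {δ : D → ℝ≥0∞} (hmass : ∀ d, MassLe f₀ ε b c (R d) (δ d))
    {s : Fin q → ℝ} (hs : ∀ j, 0 ≤ s j) (dl : Fin q → ℕ)
    {W : (Fin m → CTree) → (Fin q → Ph) → ℝ≥0∞}
    (hW : Measurable fun p : (Fin m → CTree) × (Fin q → Ph) => W p.1 p.2) {CW : ℝ≥0∞}
    (hWb : ∀ T l, W T l ≤
      CW * ENNReal.ofReal (Real.exp (c * (∑ j, enT (T j) + ∑ j, ‖(l j).2‖ ^ 2))))
    (hbase : ∀ T l, W T l ≠ 0 → Base Φ ε T (lns s dl l))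
    {bad : (Fin m → CTree) → (Fin q → Ph) → Conf Ph → Prop}
    (hbad : ∀ T l, W T l ≠ 0 → ∀ᵐ w ∂(PP f₀ ε), bad T l w → ∃ d, ∃ z : Fin (n d) → Src,
      LabT T (lns s dl l) (pts w) z ∧ (fun i => sta (z i)) ∈ R d) :
    muE ε ^ q * ∫⁻ T, ∫⁻ l : Fin q → Ph, (∏ j, g1 b (l j).2) * (W T l *
      (PP f₀ ε) {w | bad T l w}) ∂volume ∂(Measure.pi fun _ : Fin m => tree (inten f₀ ε) L) ≤
      CW * muE ε * (((shapes L).card ^ m : ℕ) *
        ∑ d, ((n d).factorial * (ENNReal.ofReal (max 1 M₀) ^ n d * δ d))) := by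
  have := isFiniteMeasure_inten (ε := ε) h
  refine (mul_le_mul_right (lintegral_pi_tree_le L m _) _).trans ?_
  rw [Finset.mul_sum]
  refine (Finset.sum_le_sum fun τ _ =>
    shape_law_le h hε hc hf hm hR hmass hs dl hW hWb hbase hbad τ).trans (le_of_eq ?_)
  rw [Finset.sum_const, Fintype.card_piFinset, Finset.prod_const, Finset.card_univ,
    Fintype.card_fin, nsmul_eq_mul]
  ring

end Vale.Agent.P119.IND
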