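import Vale.Agent.P119.IND.FJ
import Vale.Agent.P119.IND.Laws

/-!
# P119, block IND: closed programs over the structure laws (`helper350`)

* `PrgBad Φ ε t N T l w`: the particles of the base structure (trees `T`, lines `l`) and at most `N`
  particles in all, the others in the world `w`, run a connected closed program with `≤ N` events;
* `PrgBad.of_fintype` (any finite set of labels), `PrgBad.of_fam` (a connected closed family of
  histories);
* `prg_law_le`: integrated over the structure law the probability is `≤ C δ` if all the closed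
  programs have mass `≤ δ`.
-/

open MeasureTheory Filter Topology Set
open scoped ENNReal NNReal

set_option linter.unusedSectionVars false

noncomputable section

namespace Vale.Agent.P119.IND

open KU FL M M.CTree GC MM AU PB.CT TL

variable {Φ : E3 → ℝ} {ε t : ℝ} {m q : ℕ}

/-- The particles of the base structure and at most `N` particles in all, the others in the world
`w`, run a connected closed program with `≤ N` events. -/
def PrgBad (Φ : E3 → ℝ) (ε t : ℝ) (N : ℕ) (T : Fin m → CTree) (l : Fin q → Src) (w : Finset Ph) :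
    Prop :=
  ∃ n ≤ N, ∃ (z : Fin n → Src) (P : List (Ev (Fin n))), P.length ≤ N ∧ LabT T l w z ∧ PrgOK t P ∧
    (fun i => sta (z i)) ∈ relP Φ ε t P

theorem PrgBad.mono {N N' : ℕ} (hN : N ≤ N') {T : Fin m → CTree} {l : Fin q → Src} {w : Finset Ph}
    (h : PrgBad Φ ε t N T l w) : PrgBad Φ ε t N' T l w := by
  obtain ⟨n, hn, z, P, h1, h2⟩ := h
  exact ⟨n, hn.trans hN, z, P, h1.trans hN, h2⟩

/-- Any finite set of labels. -/
theorem PrgBad.of_fintype {N : ℕ} {T : Fin m → CTree} {l : Fin q → Src} {w : Finset Ph}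
    {ι : Type} [Fintype ι] [DecidableEq ι] (hι : Fintype.card ι ≤ N) {z : ι → Src}
    {P : List (Ev ι)} (hP : P.length ≤ N) (hz : LabT T l w z) (hw : Wf (pl t P))
    (hj : ∀ i k, Jn (pl t P) i k) (hc : Closed (pl t P))
    (hr : Run Φ ε t 0 (pl t P) (fun i => (z i).1) fun i => (z i).2.1) :
    PrgBad Φ ε t N T l w := by
  set e := (Fintype.equivFin ι).symm with he
  obtain ⟨P', hP'⟩ := exists_map_list (f := e) P fun ev _ =>
    ⟨⟨e.symm ev.fst, by simp⟩, ⟨e.symm ev.snd, by simp⟩⟩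
  have e1 : pl t P = mapP e (pl t P') := by rw [mapP_pl, hP']
  have hinj : Function.Injective e := e.injective
  refine ⟨Fintype.card ι, hι, z ∘ e, P', ?_, ⟨hz.inj.comp hinj, fun i => hz.mem (e i),
    fun j => ?_, fun j => ?_⟩, ⟨?_, fun i k => ?_, ?_⟩, ?_⟩
  · rw [← hP', List.length_map] at hP
    exact hP
  · rw [e.surjective.range_comp]; exact hz.trees j
  · rw [e.surjective.range_comp]; exact hz.lines j
  · rw [e1, wf_map hinj] at hw; exact hw
  · have h1 := hj (e i) (e k)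
    rw [e1, jn_map hinj] at h1
    exact h1
  · rw [e1, closed_map hinj] at hc; exact hc
  · rw [e1, run_map hinj] at hr
    exact hr

/-- A connected closed family of histories. -/
theorem PrgBad.of_fam (hΦ : IsPotential Φ) (hε : 0 < ε) {N : ℕ} {T : Fin m → CTree}
    {l : Fin q → Src} {w : Finset Ph} {F : Finset CTree} {G : List Gh} (h : Fam Φ ε t F G)
    (hne : F.Nonempty) (hF : F.card ≤ N) (hG : G.length ≤ N)
    (hT : ∀ j, (T j).leaves ⊆ (lab F : Set Src)) (hl : ∀ j, l j ∈ lab F)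
    (hmem : ∀ x ∈ lab F, (∃ j, x ∈ (T j).leaves) ∨ x ∈ range l ∨ x ∈ wS w)
    (hJ : ∀ x ∈ lab F, ∀ y ∈ lab F, FJ F G x y)
    (hc : 2 * (lab F).card ≤ (nl F).card + 2 * G.length) : PrgBad Φ ε t (2 * N) T l w := by
  obtain ⟨n, z, P, h1, h2, h3, h4, h5, h6⟩ := h.exists_label hΦ hε hne hJ hc
  have h7 := card_lab_le F
  have h8 := card_nl_le F
  refine ⟨n, by omega, z, P, by omega, ⟨h3, fun i => ?_, fun j => ?_, fun j => ?_⟩, h5, h6⟩
  · refine hmem _ ?_
    rw [← Finset.mem_coe, ← h4]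
    exact ⟨i, rfl⟩
  · rw [h4]; exact hT j
  · rw [h4]; exact hl j

/-- The number of labels and the relation of a closed program. -/
def Prg.n {T : ℝ} {N : ℕ} (d : Prg T N) : ℕ := d.1

theorem Prg.n_le {T : ℝ} {N : ℕ} (d : Prg T N) : d.n ≤ N := Nat.lt_succ_iff.1 d.1.2

/-- The relation. -/
def Prg.R (Φ : E3 → ℝ) (ε : ℝ) {T : ℝ} {N : ℕ} (d : Prg T N) : Set (Fin d.n → ℝ × Ph) :=
  relP Φ ε T d.2.1

theorem PrgBad.exists_prg {N : ℕ} {T : Fin m → CTree} {l : Fin q → Src} {w : Finset Ph}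
    (h : PrgBad Φ ε t N T l w) :
    ∃ d : Prg t N, ∃ z : Fin d.n → Src, LabT T l w z ∧ (fun i => sta (z i)) ∈ d.R Φ ε := by
  obtain ⟨n, hn, z, P, h1, h2, h3, h4⟩ := h
  exact ⟨⟨⟨n, Nat.lt_succ_iff.2 hn⟩, ⟨P, h1, h3⟩⟩, z, h2, h4⟩

variable {f₀ : Ph → ℝ} {κ₀ b c M₀ : ℝ}

/-- **Closed programs over the structure laws.** -/
theorem prg_law_le (h : GoodDatum f₀ κ₀) (hΦ : IsPotential Φ) (hε : 0 < ε) (hc : 0 ≤ c)
    (hf : ∀ z, f₀ z ≤ M₀ * Real.exp (-b * ‖z.2‖ ^ 2)) (hm : 0 < m) (L N : ℕ) {δ : ℝ≥0∞}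
    (hmass : ∀ n ≤ N, ∀ P : List (Ev (Fin n)), P.length ≤ N → PrgOK t P →
      MassLe f₀ ε b c (relP Φ ε t P) δ)
    {s : Fin q → ℝ} (hs : ∀ j, 0 ≤ s j) (dl : Fin q → ℕ)
    {W : (Fin m → CTree) → (Fin q → Ph) → ℝ≥0∞}
    (hW : Measurable fun p : (Fin m → CTree) × (Fin q → Ph) => W p.1 p.2) {CW : ℝ≥0∞}
    (hWb : ∀ T l, W T l ≤
      CW * ENNReal.ofReal (Real.exp (c * (∑ j, enT (T j) + ∑ j, ‖(l j).2‖ ^ 2))))
    (hbase : ∀ T l, W T l ≠ 0 → Base Φ ε T (lns s dl l))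
    {bad : (Fin m → CTree) → (Fin q → Ph) → Conf Ph → Prop}
    (hbad : ∀ T l, W T l ≠ 0 → ∀ᵐ w ∂(PP f₀ ε), bad T l w →
      PrgBad Φ ε t N T (lns s dl l) (pts w)) :
    muE ε ^ q * ∫⁻ T, ∫⁻ l : Fin q → Ph, (∏ j, g1 b (l j).2) * (W T l *
      (PP f₀ ε) {w | bad T l w}) ∂volume ∂(Measure.pi fun _ : Fin m => tree (inten f₀ ε) L) ≤
      CW * muE ε * (((shapes L).card ^ m : ℕ) *
        (Fintype.card (Prg t N) * (N.factorial * (ENNReal.ofReal (max 1 M₀) ^ N * δ)))) := by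
  refine (law_le h hε.le hc hf hm L (D := Prg t N) (n := fun d => d.n) (R := fun d => d.R Φ ε)
    (fun d => measurableSet_relP hΦ hε.ne' d.2.1) (δ := fun _ => δ)
    (fun d => hmass d.n d.n_le d.2.1 d.2.2.1 d.2.2.2) hs dl hW hWb hbase (bad := bad)
    (fun T l hTl => ?_)).trans ?_
  · filter_upwards [hbad T l hTl] with w hw hb
    exact (hw hb).exists_prg
  · have h1 : ∑ d : Prg t N, ((d.n).factorial * (ENNReal.ofReal (max 1 M₀) ^ d.n * δ)) ≤
        Fintype.card (Prg t N) * (N.factorial * (ENNReal.ofReal (max 1 M₀) ^ N * δ)) := by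
      rw [← nsmul_eq_mul, ← Finset.card_univ, ← Finset.sum_const]
      refine Finset.sum_le_sum fun d _ => ?_
      have h2 : (1 : ℝ≥0∞) ≤ ENNReal.ofReal (max 1 M₀) := by
        rw [← ENNReal.ofReal_one]
        exact ENNReal.ofReal_le_ofReal (le_max_left _ _)
      have h3 : ENNReal.ofReal (max 1 M₀) ^ d.n ≤ ENNReal.ofReal (max 1 M₀) ^ N :=
        pow_le_pow_right₀ h2 d.n_le
      have h4 : ((d.n).factorial : ℝ≥0∞) ≤ (N.factorial : ℝ≥0∞) := by
        exact_mod_cast Nat.factorial_le d.n_le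
      exact mul_le_mul' h4 (mul_le_mul_left h3 _)
    exact mul_le_mul_right (mul_le_mul_right h1 _) _

end Vale.Agent.P119.IND
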