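import Vale.Agent.P119.FL.Pair
import Vale.Agent.P119.FL.OneLine

/-!
# P119: flux in the velocity variable on a general window (`helper76`)

`flux_win` is `FL.flux_vel` on a time window `[α, ω]` all of whose times have lag `≥ δ` from the
event time `s`, before or after `s`.
-/

open MeasureTheory Set Filter Topology Metric
open scoped ENNReal

namespace Vale.Agent.P119.RA

open FL

theorem vol_near_smul' (z : E3) {r c : ℝ} (hr : 0 ≤ r) (hc : c ≠ 0) :
    volume {u : E3 | ‖c • u + z‖ ≤ r} = ENNReal.ofReal ((r / |c|) ^ 3) * bv := by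
  rcases lt_or_gt_of_ne hc with h | h
  · have h1 : {u : E3 | ‖c • u + z‖ ≤ r} = {u : E3 | ‖(-c) • u + -z‖ ≤ r} := by
      ext u
      simp only [mem_ofPred_eq]
      rw [neg_smul, ← neg_add, norm_neg]
    rw [h1, vol_near_smul _ hr (by linarith), abs_of_neg h]
  · rw [vol_near_smul _ hr h, abs_of_pos h]

/-- **Flux in the velocity variable, on a window of lag `≥ δ`** (before or after `s`). -/
theorem flux_win {ζ : ℝ → E3} {g : E3 → ℝ → ℝ≥0∞} {h : ℝ → ℝ≥0∞} {s δ α ω ε r : ℝ}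
    (hε : 0 < ε) (hδ : 0 < δ) (hr : 0 < r) {W V : E3 → ℝ≥0∞} (hVm : Measurable V)
    (hlag : ∀ τ ∈ Icc α ω, δ ≤ |τ - s|)
    (hc : ContinuousOn ζ (Icc α ω))
    (hg : ∀ u, W u ≠ 0 → SpeedOn (fun τ => (τ - s) • u + ζ τ) (g u) α ω)
    (hhm : AEMeasurable h (volume.restrict (Icc α ω)))
    (hW : ∀ u u', ‖u - u'‖ ≤ r → W u ≤ V u')
    (hWg : ∀ τ ∈ Icc α ω, ∀ u u', ‖u - u'‖ ≤ r → W u * g u τ ≤ h τ * V u')
    {Ψ : E3 → ℝ≥0∞} (hΨ : ∀ u, Ψ u ≠ 0 →
      (∃ τ₀ ∈ Icc α ω, ‖(τ₀ - s) • u + ζ τ₀‖ ≤ ε) ∧ Ψ u ≤ W u) :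
    ∫⁻ u, Ψ u ≤ ENNReal.ofReal ((2 * ε / (δ * r)) ^ 3) *
      (1 + (ENNReal.ofReal ε)⁻¹ * ∫⁻ τ in Icc α ω, h τ) * ∫⁻ u, V u := by
  set M : ℝ≥0∞ := (ENNReal.ofReal (r ^ 3) * bv)⁻¹ * ∫⁻ u, V u with hM
  have hball0 : ENNReal.ofReal (r ^ 3) * bv ≠ 0 :=
    mul_ne_zero (by simpa using pow_pos hr 3) bv_ne_zero
  have hballt : ENNReal.ofReal (r ^ 3) * bv ≠ ∞ :=
    ENNReal.mul_ne_top ENNReal.ofReal_ne_top bv_ne_top
  -- averaging over a ball
  have havg : ∀ (u : E3) (c d : ℝ≥0∞), (∀ u', ‖u - u'‖ ≤ r → c ≤ d * V u') → c ≤ d * M := by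
    intro u c d hcd
    have h1 : c * volume (closedBall u r) ≤ d * ∫⁻ u', V u' := by
      calc c * volume (closedBall u r) = ∫⁻ _ in closedBall u r, c := by
            rw [setLIntegral_const]
        _ ≤ ∫⁻ u' in closedBall u r, d * V u' := by
            refine setLIntegral_mono' measurableSet_closedBall fun u' hu' => hcd u' ?_
            rw [← dist_eq_norm, dist_comm]
            exact hu'
        _ ≤ ∫⁻ u', d * V u' := setLIntegral_le_lintegral _ _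
        _ = _ := lintegral_const_mul _ hVm
    rw [vol_closedBall _ hr.le] at h1
    calc c = (ENNReal.ofReal (r ^ 3) * bv)⁻¹ * (c * (ENNReal.ofReal (r ^ 3) * bv)) := by
          rw [mul_comm c, ← mul_assoc, ENNReal.inv_mul_cancel hball0 hballt, one_mul]
      _ ≤ (ENNReal.ofReal (r ^ 3) * bv)⁻¹ * (d * ∫⁻ u', V u') := by gcongr
      _ = _ := by rw [hM]; ring
  rcases lt_or_ge ω α with hts | hts
  · have : ∀ u, Ψ u = 0 := by
      intro u
      by_contra h0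
      obtain ⟨⟨τ₀, hτ, -⟩, -⟩ := hΨ u h0
      exact absurd (hτ.1.trans hτ.2) (not_le.2 hts)
    simp [this]
  have hne : ∀ τ ∈ Icc α ω, τ - s ≠ 0 := by
    intro τ hτ h0
    have := hlag τ hτ
    rw [h0, abs_zero] at this
    linarith
  have hvn : ∀ τ ∈ Icc α ω, volume {u : E3 | ‖(τ - s) • u + ζ τ‖ ≤ 2 * ε} ≤
      ENNReal.ofReal ((2 * ε / δ) ^ 3) * bv := by
    intro τ hτ
    have h1 := hlag τ hτ
    rw [vol_near_smul' _ (by positivity) (hne τ hτ)]
    gcongr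
  have hαI : α ∈ Icc α ω := ⟨le_rfl, hts⟩
  have hpt : ∀ u, Ψ u ≤
      {y : E3 | ‖y‖ ≤ 2 * ε}.indicator (fun _ => 1) ((α - s) • u + ζ α) * M +
      (ENNReal.ofReal ε)⁻¹ * ∫⁻ τ in Icc α ω,
        {y : E3 | ‖y‖ ≤ 2 * ε}.indicator (fun _ => h τ * M) ((τ - s) • u + ζ τ) := by
    intro u
    by_cases h0 : Ψ u = 0
    · rw [h0]; exact zero_le
    obtain ⟨⟨τ₀, hτ, hh⟩, hle⟩ := hΨ u h0
    have hW0 : W u ≠ 0 := fun h => h0 (le_antisymm (h ▸ hle) zero_le)
    have h1 := contact_weight_le hε (F := fun _ => (1 : ℝ≥0∞)) (Z := fun τ => (τ - s) • u + ζ τ)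
      (((continuous_id.sub continuous_const).smul continuous_const).continuousOn.add hc)
      (hg u hW0) (antitoneOn_const) hτ hh
    have hWM : W u ≤ M := by
      have := havg u (W u) 1 (fun u' hu' => by rw [one_mul]; exact hW u u' hu')
      rwa [one_mul] at this
    calc Ψ u ≤ W u * 1 := by rw [mul_one]; exact hle
      _ ≤ W u * ({y : E3 | ‖y‖ ≤ 2 * ε}.indicator (fun _ => 1) ((α - s) • u + ζ α) +
          (ENNReal.ofReal ε)⁻¹ * ∫⁻ τ in Icc α ω,
            {y : E3 | ‖y‖ ≤ 2 * ε}.indicator (fun _ => g u τ * 1) ((τ - s) • u + ζ τ)) := by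
          gcongr
      _ = {y : E3 | ‖y‖ ≤ 2 * ε}.indicator (fun _ => 1) ((α - s) • u + ζ α) * W u +
          (ENNReal.ofReal ε)⁻¹ * (W u * ∫⁻ τ in Icc α ω,
            {y : E3 | ‖y‖ ≤ 2 * ε}.indicator (fun _ => g u τ * 1) ((τ - s) • u + ζ τ)) := by ring
      _ ≤ _ := by
          gcongr
          refine (lintegral_const_mul_le _ _).trans ?_
          refine setLIntegral_mono' measurableSet_Icc fun τ hτ' => ?_
          by_cases hin : ((τ - s) • u + ζ τ) ∈ {y : E3 | ‖y‖ ≤ 2 * ε}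
          · rw [indicator_of_mem hin, indicator_of_mem hin, mul_one]
            exact havg u _ _ (fun u' hu' => hWg τ hτ' u u' hu')
          · rw [indicator_of_notMem hin, indicator_of_notMem hin, mul_zero]
  have hmeas := aemeasurable_near (ν := (volume : Measure E3)) (ε := ε) hc
    (L := fun u τ => (τ - s) • u)
    ((measurable_snd.sub_const s).smul measurable_fst) (hhm.mul (aemeasurable_const (b := M)))
  have hmeasb : Measurable fun u : E3 =>
      {y : E3 | ‖y‖ ≤ 2 * ε}.indicator (fun _ => (1 : ℝ≥0∞)) ((α - s) • u + ζ α) := by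
    exact (measurable_const.indicator (measurableSet_near (2 * ε))).comp
      (measurable_lin (α - s) (ζ α))
  have hb : ∀ τ ∈ Icc α ω, ∀ (c : ℝ≥0∞),
      ∫⁻ u : E3, {y : E3 | ‖y‖ ≤ 2 * ε}.indicator (fun _ => c) ((τ - s) • u + ζ τ) ≤
        c * (ENNReal.ofReal ((2 * ε / δ) ^ 3) * bv) := by
    intro τ hτ c
    have e : (fun u : E3 => {y : E3 | ‖y‖ ≤ 2 * ε}.indicator (fun _ => c) ((τ - s) • u + ζ τ)) =
        {u : E3 | ‖(τ - s) • u + ζ τ‖ ≤ 2 * ε}.indicator (fun _ => c) := rfl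
    have hms : MeasurableSet {u : E3 | ‖(τ - s) • u + ζ τ‖ ≤ 2 * ε} :=
      measurable_lin (τ - s) (ζ τ) (measurableSet_near (2 * ε))
    rw [e, lintegral_indicator_const hms]
    gcongr
    exact hvn τ hτ
  have hεt : (ENNReal.ofReal ε)⁻¹ ≠ ∞ := ENNReal.inv_ne_top.2 (by simpa using hε)
  calc ∫⁻ u, Ψ u ≤ ∫⁻ u, ({y : E3 | ‖y‖ ≤ 2 * ε}.indicator (fun _ => 1)
        ((α - s) • u + ζ α) * M +
      (ENNReal.ofReal ε)⁻¹ * ∫⁻ τ in Icc α ω,
        {y : E3 | ‖y‖ ≤ 2 * ε}.indicator (fun _ => h τ * M) ((τ - s) • u + ζ τ)) :=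
        lintegral_mono hpt
    _ = (∫⁻ u, {y : E3 | ‖y‖ ≤ 2 * ε}.indicator (fun _ => 1) ((α - s) • u + ζ α)) * M +
        (ENNReal.ofReal ε)⁻¹ * ∫⁻ τ in Icc α ω, ∫⁻ u : E3,
          {y : E3 | ‖y‖ ≤ 2 * ε}.indicator (fun _ => h τ * M) ((τ - s) • u + ζ τ) := by
        rw [lintegral_add_left (hmeasb.mul_const _), lintegral_mul_const _ hmeasb,
          lintegral_const_mul' _ _ hεt, lintegral_lintegral_swap hmeas]
    _ ≤ (1 * (ENNReal.ofReal ((2 * ε / δ) ^ 3) * bv)) * M +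
        (ENNReal.ofReal ε)⁻¹ * ∫⁻ τ in Icc α ω,
          (h τ * M) * (ENNReal.ofReal ((2 * ε / δ) ^ 3) * bv) := by
        refine add_le_add (mul_le_mul' (hb α hαI 1) le_rfl)
          (mul_le_mul' le_rfl ?_)
        exact setLIntegral_mono' measurableSet_Icc fun τ hτ => hb τ hτ _
    _ = _ := by
        have h1 : ∀ τ, (h τ * M) * (ENNReal.ofReal ((2 * ε / δ) ^ 3) * bv) =
            h τ * (M * (ENNReal.ofReal ((2 * ε / δ) ^ 3) * bv)) := fun τ => by ring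
        simp_rw [h1]
        have h2 : ENNReal.ofReal ((2 * ε / δ) ^ 3) =
            ENNReal.ofReal ((2 * ε / (δ * r)) ^ 3) * ENNReal.ofReal (r ^ 3) := by
          rw [← ENNReal.ofReal_mul (by positivity)]
          congr 1
          field_simp
        have h3 : M * (ENNReal.ofReal ((2 * ε / δ) ^ 3) * bv) =
            ENNReal.ofReal ((2 * ε / (δ * r)) ^ 3) * ∫⁻ u, V u := by
          rw [hM, h2]
          calc (ENNReal.ofReal (r ^ 3) * bv)⁻¹ * (∫⁻ u, V u) *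
              (ENNReal.ofReal ((2 * ε / (δ * r)) ^ 3) * ENNReal.ofReal (r ^ 3) * bv)
              = ((ENNReal.ofReal (r ^ 3) * bv)⁻¹ * (ENNReal.ofReal (r ^ 3) * bv)) *
                (ENNReal.ofReal ((2 * ε / (δ * r)) ^ 3) * ∫⁻ u, V u) := by ring
            _ = _ := by rw [ENNReal.inv_mul_cancel hball0 hballt, one_mul]
        rw [h3, lintegral_mul_const'' _ hhm, one_mul, mul_comm _ M, h3]
        ring

end Vale.Agent.P119.RA
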