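import Vale.Agent.P119.IND.GraftIrr

/-!
# P119, block IND: the exits of the grafting (`helper810`)

* `BLab T l z`: the labels are the particles of the trees `T` and the lines `l`;
* `BaseP.prgBad`: a family which is connected and closed relative to a connected base: `PrgBad`;
* `BaseP.irrBad`: a family with an irregular final contact: `IrrBad`;
* `BaseP.of_detOut`: the outputs of the deterministic analysis (`DetOut` of `helper498`).
-/

open Set
open scoped ENNReal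

set_option linter.unusedSectionVars false

noncomputable section

namespace Vale.Agent.P119.IND

open KU M M.CTree TL GC AU

variable {Φ : E3 → ℝ} {ε T : ℝ} {κ : Type} [DecidableEq κ]

/-- The labels `κ` are the particles of the trees `T` and the lines `l`. -/
structure BLab {m q : ℕ} (T : Fin m → CTree) (l : Fin q → Src) (z : κ → Src) : Prop where
  mem : ∀ i, (∃ j, z i ∈ (T j).leaves) ∨ z i ∈ range l
  trees : ∀ j, (T j).leaves ⊆ range z
  lines : ∀ j, l j ∈ range z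

theorem BLab.labT {m q : ℕ} {T : Fin m → CTree} {l : Fin q → Src} {z : κ → Src}
    (h : BLab T l z) (hz : Function.Injective z) {w : Finset Ph} (hw : ∀ i, z i ∉ wS w)
    (F : Finset CTree) : LabT T l w (zAll z F (wS w : Set Src)) := by
  refine ⟨zAll_inj hz fun i hi => hw i hi, ?_, fun j σ hσ => ?_, fun j => ?_⟩
  · rintro (i | ⟨σ, h1, h2⟩)
    · rcases h.mem i with h3 | h3
      · exact Or.inl h3
      · exact Or.inr (Or.inl h3)
    · exact Or.inr (Or.inr h2)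
  · obtain ⟨i, hi⟩ := h.trees j hσ
    exact ⟨Sum.inl i, hi⟩
  · obtain ⟨i, hi⟩ := h.lines j
    exact ⟨Sum.inl i, hi⟩

theorem card_frl_le (F : Finset CTree) (V : Set Src) [Fintype (Frl F V)] :
    Fintype.card (Frl F V) ≤ F.card := by
  classical
  refine le_trans ?_ (card_lab_le F)
  rw [← Fintype.card_coe (lab F)]
  exact Fintype.card_le_of_injective (fun σ : Frl F V => (⟨σ.1, σ.2.1⟩ : {σ // σ ∈ lab F}))
    fun a b hab => Subtype.ext (congrArg (fun c : {σ // σ ∈ lab F} => c.1) hab)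

/-! ### Connectedness -/

namespace Grf

variable {z x : κ → Src} {D : Set κ} {Q : List (Ev κ × ℝ)} {F : Finset CTree} {G : List Gh}
  {V : Set Src} [DecidableEq (κ ⊕ Frl F V)] {M Q₁ : List (Ev (κ ⊕ Frl F V) × ℝ)}

theorem length_eq (h : Grf Φ ε T z x D Q F G V M Q₁) : M.length = Q.length + Q₁.length := by
  rw [h.perm.length_eq, List.length_append]
  unfold mapP
  rw [List.length_map]

/-- The base edges. -/
theorem joined_base (h : Grf Φ ε T z x D Q F G V M Q₁)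
    {es₀ : List (κ × κ)} {es' : List ((κ ⊕ Frl F V) × (κ ⊕ Frl F V))}
    (hes : ∀ p ∈ es₀, (Sum.inl p.1, Sum.inl p.2) ∈ es') {i k : κ}
    (hJ : Edg.Joined (edges Q ++ es₀) i k) :
    Edg.Joined (edges M ++ es') (Sum.inl i) (Sum.inl k) := by
  refine (hJ.map (Sum.inl : κ → κ ⊕ Frl F V)).mono fun p hp => ?_
  rw [List.map_append] at hp
  rcases List.mem_append.1 hp with h1 | h1
  · refine List.mem_append_left _ ?_
    obtain ⟨p₀, h2, rfl⟩ := List.mem_map.1 h1
    obtain ⟨e, he, rfl⟩ := List.mem_map.1 h2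
    refine List.mem_map.2 ⟨(e.1.map Sum.inl, e.2), ?_, ?_⟩
    · exact h.perm.symm.subset (List.mem_append_left _ (List.mem_map.2 ⟨e, he, rfl⟩))
    · simp only [Ev.map_fst, Ev.map_snd]
      rfl
  · obtain ⟨p₀, h2, rfl⟩ := List.mem_map.1 h1
    exact List.mem_append_right _ (hes p₀ h2)

/-- The trail edges. -/
theorem joined_trail (hB : BaseP Φ ε T z x D Q) (h : Grf Φ ε T z x D Q F G V M Q₁)
    (hF : Fam Φ ε T F G)
    (hV : ∀ σ ∈ lab F, σ ∈ V ∨ ∃ i ∉ D, x i = σ) (hVx : ∀ i ∉ D, x i ∉ V)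
    {es : List (Src × Src)} {es' : List ((κ ⊕ Frl F V) × (κ ⊕ Frl F V))}
    (hes : ∀ p ∈ es, ∃ i k, i ∉ Sum.inl '' D ∧ k ∉ Sum.inl '' D ∧ zAll x F V i = p.1 ∧
        zAll x F V k = p.2 ∧ (i, k) ∈ es')
    {i k : κ ⊕ Frl F V} (hi : i ∉ Sum.inl '' D) (hk : k ∉ Sum.inl '' D)
    (hJ : FX F G es (zAll x F V i) (zAll x F V k)) : Edg.Joined (edges M ++ es') i k := by
  have key : ∀ σ τ : Src, FX F G es σ τ → σ = τ ∨ ∃ i k : κ ⊕ Frl F V, i ∉ Sum.inl '' D ∧
      k ∉ Sum.inl '' D ∧ zAll x F V i = σ ∧ zAll x F V k = τ ∧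
      Edg.Joined (edges M ++ es') i k := by
    intro σ τ hστ
    induction hστ with
    | rel σ τ hr =>
      right
      rcases hr with hr | hr
      · have hlab : σ ∈ lab F ∧ τ ∈ lab F := by
          rcases hr with ⟨a, b, hab, rfl, rfl⟩ | ⟨g, hg, rfl, rfl⟩
          · exact ⟨root_mem_lab (hF.sub a b hab).1, root_mem_lab (hF.sub a b hab).2.1⟩
          · exact ⟨root_mem_lab (hF.gh g hg).1, root_mem_lab (hF.gh g hg).2.1⟩
        obtain ⟨i, hi, rfl⟩ := exists_lbl hV hlab.1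
        obtain ⟨k, hk, rfl⟩ := exists_lbl hV hlab.2
        refine ⟨i, k, hi, hk, rfl, rfl, ?_⟩
        have h1 : Jn M i k := jn_right h.perm (h.jn i k hi hk (Relation.EqvGen.rel _ _ hr))
        exact (jn_iff_joined.1 h1).append_right es'
      · obtain ⟨i, k, hi, hk, h1, h2, h3⟩ := hes _ hr
        exact ⟨i, k, hi, hk, h1, h2, Edg.joined_of_mem (List.mem_append_right _ h3)⟩
    | refl σ => exact Or.inl rfl
    | symm σ τ _ ih =>
      rcases ih with h1 | ⟨i, k, hi, hk, h1, h2, h3⟩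
      · exact Or.inl h1.symm
      · exact Or.inr ⟨k, i, hk, hi, h2, h1, h3.symm⟩
    | trans σ τ υ _ _ ih1 ih2 =>
      rcases ih1 with h1 | ⟨i, k, hi, hk, h1, h2, h3⟩
      · rw [h1]; exact ih2
      · rcases ih2 with h4 | ⟨i', k', hi', hk', h4, h5, h6⟩
        · rw [← h4]; exact Or.inr ⟨i, k, hi, hk, h1, h2, h3⟩
        · have h7 : k = i' := zAll_injOn hB.xinj hVx hk hi' (h2.trans h4.symm)
          subst h7
          exact Or.inr ⟨i, k', hi, hk', h1, h5, h3.trans h6⟩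
  rcases key _ _ hJ with h1 | ⟨i', k', hi', hk', h1, h2, h3⟩
  · rw [zAll_injOn hB.xinj hVx hi hk h1]
  · have e1 := zAll_injOn hB.xinj hVx hi' hi h1
    have e2 := zAll_injOn hB.xinj hVx hk' hk h2
    subst e1 e2
    exact h3

/-- **The grafted program is connected.** -/
theorem joined_all (hB : BaseP Φ ε T z x D Q) (h : Grf Φ ε T z x D Q F G V M Q₁)
    (hF : Fam Φ ε T F G)
    (hV : ∀ σ ∈ lab F, σ ∈ V ∨ ∃ i ∉ D, x i = σ) (hVx : ∀ i ∉ D, x i ∉ V)
    {es : List (Src × Src)} {es' : List ((κ ⊕ Frl F V) × (κ ⊕ Frl F V))}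
    (hes : ∀ p ∈ es, ∃ i k, i ∉ Sum.inl '' D ∧ k ∉ Sum.inl '' D ∧ zAll x F V i = p.1 ∧
        zAll x F V k = p.2 ∧ (i, k) ∈ es')
    (hc : ∀ σ ∈ lab F, σ ∈ V → ∃ i ∉ D, FX F G es (x i) σ)
    (hbase : ∀ i k : κ, Edg.Joined (edges M ++ es') (Sum.inl i) (Sum.inl k))
    (i k : κ ⊕ Frl F V) : Edg.Joined (edges M ++ es') i k := by
  have key : ∀ i : κ ⊕ Frl F V, ∃ a : κ, Edg.Joined (edges M ++ es') (Sum.inl a) i := by
    rintro (a | ⟨σ, h1, h2⟩)
    · exact ⟨a, Edg.Joined.refl _ _⟩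
    · obtain ⟨a, ha, hJ⟩ := hc σ h1 h2
      exact ⟨a, h.joined_trail hB hF hV hVx hes (inl_notMem ha) inr_notMem hJ⟩
  obtain ⟨a, ha⟩ := key i
  obtain ⟨b, hb⟩ := key k
  exact ha.symm.trans ((hbase a b).trans hb)

end Grf

/-- The conditions on a family which is grafted on a base over the world `w`. -/
structure GrOn {κ : Type} (x : κ → Src) (D : Set κ) (w : Finset Ph) (F : Finset CTree)
    (G : List Gh) (es : List (Src × Src)) : Prop where
  /-- the labels -/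
  mem : ∀ σ ∈ lab F, σ ∈ wS w ∨ ∃ i ∉ D, x i = σ
  /-- the fresh labels are joined to the base -/
  con : ∀ σ ∈ lab F, σ ∈ wS w → ∃ i ∉ D, FX F G es (x i) σ

/-- **A family which is connected and closed relative to a connected base.** -/
theorem BaseP.prgBad [Fintype κ] (hΦ : IsPotential Φ) (hε : 0 < ε) {z x : κ → Src} {D : Set κ}
    {Q : List (Ev κ × ℝ)} (hB : BaseP Φ ε T z x D Q) (hQ : ∀ i k, Jn Q i k) {m q : ℕ}
    {T₀ : Fin m → CTree} {l : Fin q → Src} (hL : BLab T₀ l z) {w : Finset Ph}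
    (hzw : ∀ i, z i ∉ wS w) (hxw : ∀ i ∉ D, x i ∉ wS w) {F : Finset CTree} {G : List Gh}
    (hF : Fam Φ ε T F G) (hG : GrOn x D w F G [])
    (hcl : FCl F G ∨ ∃ i ∉ D, ∃ k ∉ D, i ≠ k ∧ FJ F G (x i) (x k)) {N : ℕ}
    (h1 : Fintype.card κ + F.card ≤ N) (h2 : Q.length + F.card + G.length ≤ N) :
    PrgBad Φ ε T N T₀ l w := by
  classical
  obtain ⟨M, Q₁, h⟩ := hB.graft_fam hΦ hε hF (V := (wS w : Set Src)) hG.mem fun i hi => hxw i hi
  have : Fintype (Frl F (wS w : Set Src)) := Fintype.ofFinite _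
  have hlen : M.length ≤ N := by
    have e1 := h.length_eq
    have e2 := h.len
    have e3 := card_nl_le F
    omega
  have hjn : ∀ i k, Jn M i k := by
    intro i k
    have h3 := h.joined_all hB hF hG.mem (fun i hi => hxw i hi) (es' := [])
      (fun p hp => absurd hp List.not_mem_nil) hG.con (fun a b => h.joined_base (es₀ := [])
        (fun p hp => absurd hp List.not_mem_nil) (by
          rw [List.append_nil]
          exact jn_iff_joined.1 (hQ a b))) i k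
    rw [List.append_nil] at h3
    exact jn_iff_joined.2 h3
  have hc : Closed M := by
    refine closed_graft h.perm ?_
    rcases hcl with hcl | ⟨i, hi, k, hk, hik, hJ⟩
    · exact Or.inl (h.cl hcl)
    · refine Or.inr ⟨Sum.inl i, Sum.inl k, fun h' => hik (Sum.inl_injective h'), ?_, ?_⟩
      · exact (hQ i k).map Sum.inl
      · exact h.jn _ _ (inl_notMem hi) (inl_notMem hk) hJ
  refine PrgBad.of_fintype (ι := κ ⊕ Frl F (wS w : Set Src)) (P := M.map Prod.fst) ?_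
    (by rw [List.length_map]; exact hlen) (hL.labT hB.inj hzw F) (wf_pl T h.wf)
    (fun i k => (jn_pl T M).2 (hjn i k)) ((closed_pl T M).2 hc) ?_
  · rw [Fintype.card_sum]
    have := card_frl_le F (wS w : Set Src)
    omega
  · refine h.run.run hΦ hε ?_
    rintro (k | ⟨σ, h3, h4⟩)
    · exact hB.nonneg k
    · obtain ⟨p, -, rfl⟩ := mem_wS.1 h4
      exact le_rfl

/-- **A family with an irregular final contact.** -/
theorem BaseP.irrBad [Fintype κ] (hΦ : IsPotential Φ) (hε : 0 < ε) {z x : κ → Src} {D : Set κ}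
    {Q : List (Ev κ × ℝ)} (hB : BaseP Φ ε T z x D Q) (hQ : ∀ i k, Jn Q i k) {m q : ℕ}
    {T₀ : Fin m → CTree} {l : Fin q → Src} (hL : BLab T₀ l z) {w : Finset Ph}
    (hzw : ∀ i, z i ∉ wS w) (hxw : ∀ i ∉ D, x i ∉ wS w) {F : Finset CTree} {G : List Gh}
    {s : ℝ} (hs : s ≤ T) (hF : Fam Φ ε s F G) {es : List (Src × Src)} (hG : GrOn x D w F G es)
    (hb : ∀ k ∉ D, finB Φ ε Q (fun i => (z i).1) (fun i => (z i).2.1) k = (x k).1 ∨
      s ≠ (x k).1) {Lg : Bool → Gh → Prop} (hI : Irr Φ ε Lg F G s es) {N : ℕ}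
    (h1 : Fintype.card κ + F.card ≤ N) (h2 : Q.length + F.card + G.length ≤ N) :
    IrrBad Φ ε T N T₀ l w := by
  classical
  have hFT := hF.mono_T hs
  obtain ⟨M, Q₁, h⟩ := hB.graft_fam hΦ hε hFT (V := (wS w : Set Src)) hG.mem fun i hi => hxw i hi
  have : Fintype (Frl F (wS w : Set Src)) := Fintype.ofFinite _
  have hlen : M.length ≤ N := by
    have e1 := h.length_eq
    have e2 := h.len
    have e3 := card_nl_le F
    omega
  obtain ⟨es', h3, h4⟩ := h.irrP hΦ hε hB hFT hG.mem (fun g hg => (hF.gh g hg).2.2.2.2.2.1) hb hI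
  refine IrrBad.of_fintype (ι := κ ⊕ Frl F (wS w : Set Src)) (M := M) (s := s) (es := es') ?_
    hlen (hL.labT hB.inj hzw F) ⟨h.wf, h.run, hs, h3, fun i k => ?_⟩
  · rw [Fintype.card_sum]
    have := card_frl_le F (wS w : Set Src)
    omega
  · exact h.joined_all hB hFT hG.mem (fun i hi => hxw i hi) h4 hG.con
      (fun a b => h.joined_base (es₀ := []) (fun p hp => absurd hp List.not_mem_nil) (by
          rw [List.append_nil]
          exact jn_iff_joined.1 (hQ a b))) i k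

/-- The three alternatives of the laws. -/
def LawOut (hΦ : IsPotential Φ) (hε : 0 < ε) (L : ℕ) (T : ℝ) (J N : ℕ) {m q : ℕ}
    (T₀ : Fin m → CTree) (l : Fin q → Src) (w : Finset Ph) (A : Set Src) : Prop :=
  (∃ σ ∈ A, HasClean hΦ hε.ne' L T (T + 1) J (wS w) σ.1 σ.2.1) ∨ PrgBad Φ ε T N T₀ l w ∨
    IrrBad Φ ε T N T₀ l w

/-- **The outputs of the deterministic analysis over a connected base.** -/
theorem BaseP.of_detOut [Fintype κ] (hΦ : IsPotential Φ) (hε : 0 < ε) {z x : κ → Src}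
    {D : Set κ} {Q : List (Ev κ × ℝ)} (hB : BaseP Φ ε T z x D Q) (hQ : ∀ i k, Jn Q i k)
    {m q : ℕ} {T₀ : Fin m → CTree} {l : Fin q → Src} (hL : BLab T₀ l z) {w : Finset Ph}
    (hzw : ∀ i, z i ∉ wS w) (hxw : ∀ i ∉ D, x i ∉ wS w) {L J N : ℕ} {ins all : Set Src}
    {Lv : CTree → Prop} {Lg : Bool → Gh → Prop} {s : ℝ} (hs : s ≤ T) (hall : ∀ σ ∈ all, σ ∈ wS w ∨ ∃ i ∉ D, x i = σ)
    (hins : ∀ σ ∈ ins, σ ∈ all ∧ σ ∉ wS w)
    (hb : ∀ k ∉ D, finB Φ ε Q (fun i => (z i).1) (fun i => (z i).2.1) k = (x k).1 ∨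
      s ≠ (x k).1)
    (h : DetOut hΦ hε L (wS w : Set Src) ins all Lv Lg T J N s) :
    LawOut hΦ hε L T J (Fintype.card κ + Q.length + 2 * N) T₀ l w ins := by
  have hfind : ∀ σ ∈ all, σ ∉ wS w → ∃ i ∉ D, x i = σ := fun σ h1 h2 =>
    (hall σ h1).resolve_left h2
  cases h with
  | clean σ hσ h => exact Or.inl ⟨σ, hσ, h⟩
  | closed F G hBF σ hσ hσF hJ hc =>
    right; left
    obtain ⟨i₀, hi₀, rfl⟩ := hfind σ (hins σ hσ).1 (hins σ hσ).2
    have hF := hBF.fam.mono_T hs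
    have hG : GrOn x D w F G [] := by
      refine ⟨fun τ hτ => hall τ (hBF.sub τ hτ), fun τ hτ _ => ⟨i₀, hi₀, ?_⟩⟩
      exact FX.of_FJ (hJ τ hτ).symm
    refine hB.prgBad hΦ hε hQ hL hzw hxw hF hG ?_ ?_ ?_
    · rcases hc with ⟨y, hy, hyV, hne⟩ | ⟨G₁, g, G₂, hG', hJ'⟩
      · obtain ⟨k₀, hk₀, rfl⟩ := hfind y (hBF.sub y hy) hyV
        exact Or.inr ⟨k₀, hk₀, i₀, hi₀, fun h => hne (h ▸ rfl), hJ _ hy⟩
      · exact Or.inl (.ghost G₁ g G₂ hG' hJ')
    · have := hBF.cardF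
      omega
    · have := hBF.cardF
      have := hBF.lenG
      omega
  | irr F G es hBF σ hσ hσF hJ hI =>
    right; right
    obtain ⟨i₀, hi₀, rfl⟩ := hfind σ (hins σ hσ).1 (hins σ hσ).2
    have hG : GrOn x D w F G es :=
      ⟨fun τ hτ => hall τ (hBF.sub τ hτ), fun τ hτ _ => ⟨i₀, hi₀, (hJ τ hτ).symm⟩⟩
    refine hB.irrBad hΦ hε hQ hL hzw hxw hs hBF.fam hG hb hI ?_ ?_
    · have := hBF.cardF
      omega
    · have := hBF.cardF
      have := hBF.lenG
      omega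

end Vale.Agent.P119.IND
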