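import Vale.Agent.P119.IND.Prog3
import Vale.Agent.P119.M.Alive

/-!
# P119, block IND: the bounded lemma (`helper295`)

`mass Φ ε T b R P`: the Gaussian mass of the runs of `P`, one label of every class (of `R`) being
localised in the unit ball.  `mass_le`: it is at most `C ε^(2 (card ι - card R))`, times
`ε + d` for every bridge.
-/

open MeasureTheory Filter Topology Set
open scoped ENNReal

set_option linter.unusedSectionVars false

noncomputable section

namespace Vale.Agent.P119.IND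

open KU MM

variable {ι : Type} [DecidableEq ι] [Fintype ι] {Φ : E3 → ℝ} {ε T b : ℝ}

/-! ### Energy -/

/-- The sum of the squares of the velocities. -/
def En (Z : ι → Ph) : ℝ := ∑ i, ‖(Z i).2‖ ^ 2

theorem En_nonneg (Z : ι → Ph) : 0 ≤ En Z := Finset.sum_nonneg fun _ _ => by positivity

theorem measurable_En : Measurable (En : (ι → Ph) → ℝ) := by
  unfold En
  exact Finset.measurable_sum _ fun i _ => ((measurable_pi_apply i).snd.norm.pow_const 2)

theorem sum_two (f : ι → ℝ) {i k : ι} (hik : i ≠ k) :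
    ∑ j, f j = f i + (f k + ∑ j ∈ (Finset.univ.erase i).erase k, f j) := by
  rw [← Finset.add_sum_erase _ f (Finset.mem_univ i), ← Finset.add_sum_erase _ f
    (Finset.mem_erase.2 ⟨hik.symm, Finset.mem_univ k⟩)]

theorem sq_le_En (Z : ι → Ph) (i : ι) : ‖(Z i).2‖ ^ 2 ≤ En Z :=
  Finset.single_le_sum (f := fun i => ‖(Z i).2‖ ^ 2) (fun _ _ => by positivity)
    (Finset.mem_univ i)

theorem two_sq_le_En (Z : ι → Ph) {i k : ι} (hik : i ≠ k) :
    ‖(Z i).2‖ ^ 2 + ‖(Z k).2‖ ^ 2 ≤ En Z := by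
  unfold En
  rw [sum_two (fun j => ‖(Z j).2‖ ^ 2) hik]
  have : 0 ≤ ∑ j ∈ (Finset.univ.erase i).erase k, ‖(Z j).2‖ ^ 2 :=
    Finset.sum_nonneg fun _ _ => by positivity
  linarith

theorem speed_le (Z : ι → Ph) {i k : ι} (hik : i ≠ k) : ‖(Z i).2 - (Z k).2‖ ≤ 1 + En Z := by
  have h1 := two_sq_le_En Z hik
  have h2 := norm_sub_le (Z i).2 (Z k).2
  nlinarith [sq_nonneg (‖(Z i).2‖ - 1), sq_nonneg (‖(Z k).2‖ - 1)]

theorem vel_le (Z : ι → Ph) (i : ι) : ‖(Z i).2‖ ≤ 1 + En Z := by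
  have h1 := sq_le_En Z i
  nlinarith [sq_nonneg (‖(Z i).2‖ - 1)]

theorem En_lineApp (hΦ : IsPotential Φ) (hε : ε ≠ 0) {e : Ev ι} (he : e.fst ≠ e.snd)
    (Z : ι → Ph) : En (lineApp Φ ε e Z) = En Z := by
  cases e with
  | gh i k => rfl
  | sc i k =>
    change i ≠ k at he
    unfold En
    rw [sum_two (fun j => ‖(lineApp Φ ε (Ev.sc i k) Z j).2‖ ^ 2) he,
      sum_two (fun j => ‖(Z j).2‖ ^ 2) he]
    have h1 : lineApp Φ ε (Ev.sc i k) Z i = (sc2 Φ ε (Z i, Z k)).1 := by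
      simp only [lineApp]
      rw [Function.update_of_ne he, Function.update_self]
    have h2 : lineApp Φ ε (Ev.sc i k) Z k = (sc2 Φ ε (Z i, Z k)).2 := by
      simp only [lineApp]
      rw [Function.update_self]
    have h3 := energy_sc2 hΦ hε (Z i, Z k)
    have h4 : ∑ j ∈ (Finset.univ.erase i).erase k, ‖(lineApp Φ ε (Ev.sc i k) Z j).2‖ ^ 2 =
        ∑ j ∈ (Finset.univ.erase i).erase k, ‖(Z j).2‖ ^ 2 := by
      refine Finset.sum_congr rfl fun j hj => ?_
      rw [Finset.mem_erase, Finset.mem_erase] at hj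
      simp only [lineApp]
      rw [Function.update_of_ne hj.1, Function.update_of_ne hj.2.1]
    simp only [h1, h2, h4]
    simp only at h3
    linarith

theorem at_ne {e : Ev ι} {d : ℝ} {β : ι → ℝ} {Z : ι → Ph} {s : ℝ} (h : At Φ ε T e d β Z s) :
    e.fst ≠ e.snd := by
  cases e with
  | gh i k => exact h.1
  | sc i k => exact h.1

theorem En_finZ (hΦ : IsPotential Φ) (hε : ε ≠ 0) {P : List (Ev ι × ℝ)} {r : ℝ} {β : ι → ℝ}
    {Z : ι → Ph} (h : Run Φ ε T r P β Z) : En (finZ Φ ε P Z) = En Z := by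
  induction P generalizing r β Z with
  | nil => rfl
  | cons e P ih =>
    obtain ⟨s, -, -, h3, h4⟩ := h
    have h5 := ih h4
    unfold finZ
    rw [h5, En_lineApp hΦ hε (at_ne h3)]

/-- At the time of an event the two lines are within `ε`. -/
theorem at_dist (hε : 0 < ε) {e : Ev ι} {d : ℝ} {β : ι → ℝ} {Z : ι → Ph} {s : ℝ}
    (h : At Φ ε T e d β Z s) : max (β e.fst) (β e.snd) ≤ s ∧ s ≤ max (β e.fst) (β e.snd) + d ∧
      ‖(free s (Z e.fst)).1 - (free s (Z e.snd)).1‖ ≤ ε := by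
  cases e with
  | gh i k =>
    obtain ⟨-, h1, h2, h3, h4⟩ := h
    exact ⟨max_le h1 h2, h4, h3.1⟩
  | sc i k =>
    obtain ⟨-, h1, -, rfl, h2, h3, -, h4⟩ := h
    exact ⟨(max_lt h2 h3).le, h4, (M.dist_hitT hε h1).le⟩

/-! ### Weights -/

/-- The Gaussian weight. -/
def wgt (b : ℝ) (Z : ι → Ph) : ℝ≥0∞ := ENNReal.ofReal (Real.exp (-(b * En Z)))

theorem measurable_wgt (b : ℝ) : Measurable (wgt b : (ι → Ph) → ℝ≥0∞) :=
  ((measurable_En.const_mul b).neg.exp).ennreal_ofReal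

/-- The localisation. -/
def φ₁ : E3 → ℝ≥0∞ := (Metric.closedBall (0 : E3) 1).indicator 1

theorem measurable_φ₁ : Measurable φ₁ :=
  measurable_const.indicator Metric.isClosed_closedBall.measurableSet

theorem lintegral_φ₁ : ∫⁻ x, φ₁ x = ω₃ := by
  unfold φ₁ ω₃
  rw [lintegral_indicator_one Metric.isClosed_closedBall.measurableSet]

/-- The localisation of the labels of `R`. -/
def spat (R : Finset ι) (Z : ι → Ph) : ℝ≥0∞ := ∏ r ∈ R, φ₁ (Z r).1

theorem measurable_spat (R : Finset ι) : Measurable (spat R : (ι → Ph) → ℝ≥0∞) :=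
  Finset.measurable_prod _ fun r _ => measurable_φ₁.comp (measurable_pi_apply r).fst

theorem spat_insert {R : Finset ι} {k : ι} (h : k ∉ R) (Z : ι → Ph) :
    spat (insert k R) Z = φ₁ (Z k).1 * spat R Z := Finset.prod_insert h

theorem spat_erase {R : Finset ι} {k : ι} (h : k ∈ R) (Z : ι → Ph) :
    spat R Z = φ₁ (Z k).1 * spat (R.erase k) Z := (Finset.mul_prod_erase R _ h).symm

theorem spat_mv {B R : Finset ι} (h : ∀ r ∈ R, r ∉ B) (c : Ph) (Z : ι → Ph) :
    spat R (mv B c Z) = spat R Z :=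
  Finset.prod_congr rfl fun r hr => by rw [mv_of_notMem (h r hr)]

theorem wgt_mv (B : Finset ι) (a : E3) (Z : ι → Ph) : wgt b (mv B (a, 0) Z) = wgt b Z := by
  have h : En (mv B (a, 0) Z) = En Z := by
    unfold En
    refine Finset.sum_congr rfl fun i _ => ?_
    by_cases hi : i ∈ B
    · rw [mv_of_mem hi]
      unfold boost
      simp
    · rw [mv_of_notMem hi]
  unfold wgt
  rw [h]

variable (Φ ε T) in
/-- The indicator of the runs, all births being `0`. -/
def runI (P : List (Ev ι × ℝ)) (Z : ι → Ph) : ℝ≥0∞ :=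
  {Z : ι → Ph | Run Φ ε T 0 P (fun _ => 0) Z}.indicator 1 Z

theorem measurable_runI (hΦ : IsPotential Φ) (hε : ε ≠ 0) (P : List (Ev ι × ℝ)) :
    Measurable (runI Φ ε T P) :=
  measurable_const.indicator
    (measurableSet_run hΦ hε P (β := fun _ _ => 0) measurable_const measurable_id 0)

theorem runI_of (P : List (Ev ι × ℝ)) {Z : ι → Ph} (h : Run Φ ε T 0 P (fun _ => 0) Z) :
    runI Φ ε T P Z = 1 := indicator_of_mem (s := {Z : ι → Ph | Run Φ ε T 0 P (fun _ => 0) Z}) h 1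

theorem runI_not (P : List (Ev ι × ℝ)) {Z : ι → Ph} (h : ¬Run Φ ε T 0 P (fun _ => 0) Z) :
    runI Φ ε T P Z = 0 :=
  indicator_of_notMem (s := {Z : ι → Ph | Run Φ ε T 0 P (fun _ => 0) Z}) h 1

theorem runI_le {P Q : List (Ev ι × ℝ)} {Z : ι → Ph}
    (h : Run Φ ε T 0 P (fun _ => 0) Z → Run Φ ε T 0 Q (fun _ => 0) Z) :
    runI Φ ε T P Z ≤ runI Φ ε T Q Z := by
  by_cases hP : Run Φ ε T 0 P (fun _ => 0) Z
  · rw [runI_of _ hP, runI_of _ (h hP)]
  · rw [runI_not _ hP]
    exact zero_le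

theorem runI_mv {B : Finset ι} {P : List (Ev ι × ℝ)} (h : Cl B P) (c : Ph) (Z : ι → Ph) :
    runI Φ ε T P (mv B c Z) = runI Φ ε T P Z := by
  by_cases hP : Run Φ ε T 0 P (fun _ => 0) Z
  · rw [runI_of _ hP, runI_of _ ((run_mv h c 0 _ Z).2 hP)]
  · rw [runI_not _ hP, runI_not _ fun h' => hP ((run_mv h c 0 _ Z).1 h')]

variable (Φ ε T) in
/-- The Gaussian mass of the runs, localised at the labels of `R`. -/
def mass (b : ℝ) (R : Finset ι) (P : List (Ev ι × ℝ)) : ℝ≥0∞ :=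
  ∫⁻ Z, spat R Z * (wgt b Z * runI Φ ε T P Z)

theorem mass_mono {R : Finset ι} {P Q : List (Ev ι × ℝ)}
    (h : ∀ Z, Run Φ ε T 0 P (fun _ => 0) Z → Run Φ ε T 0 Q (fun _ => 0) Z) :
    mass Φ ε T b R P ≤ mass Φ ε T b R Q :=
  lintegral_mono fun Z => mul_le_mul' le_rfl (mul_le_mul' le_rfl (runI_le (h Z)))

/-- Gaussian absorption. -/
theorem absorb (hb : 0 < b) {E : ℝ} (hE : 0 ≤ E) :
    (1 + E) * Real.exp (-(b * E)) ≤ (1 + 2 / b) * Real.exp (-(b / 2 * E)) := by
  have h1 : Real.exp (-(b * E)) = Real.exp (-(b / 2 * E)) * Real.exp (-(b / 2 * E)) := by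
    rw [← Real.exp_add]; congr 1; ring
  have h2 : (b / 2 * E) * Real.exp (-(b / 2 * E)) ≤ 1 := by
    have h3 : b / 2 * E ≤ Real.exp (b / 2 * E) := by
      have := Real.add_one_le_exp (b / 2 * E); linarith
    calc _ ≤ Real.exp (b / 2 * E) * Real.exp (-(b / 2 * E)) :=
          mul_le_mul_of_nonneg_right h3 (Real.exp_pos _).le
      _ = 1 := by rw [← Real.exp_add, add_neg_cancel, Real.exp_zero]
  have h4 : Real.exp (-(b / 2 * E)) ≤ 1 := by
    rw [Real.exp_le_one_iff]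
    have : 0 ≤ b / 2 * E := by positivity
    linarith
  have h5 : (1 + E) * Real.exp (-(b / 2 * E)) ≤ 1 + 2 / b := by
    have h6 : E * Real.exp (-(b / 2 * E)) = 2 / b * ((b / 2 * E) * Real.exp (-(b / 2 * E))) := by
      field_simp
    have h7 : 0 < 2 / b := by positivity
    rw [add_mul, one_mul, h6]
    have := mul_le_mul_of_nonneg_left h2 h7.le
    linarith
  calc _ = ((1 + E) * Real.exp (-(b / 2 * E))) * Real.exp (-(b / 2 * E)) := by rw [h1]; ring
    _ ≤ _ := mul_le_mul_of_nonneg_right h5 (Real.exp_pos _).le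

theorem wgt_absorb (hb : 0 < b) (Z : ι → Ph) :
    ENNReal.ofReal (1 + En Z) * wgt b Z ≤ ENNReal.ofReal (1 + 2 / b) * wgt (b / 2) Z := by
  unfold wgt
  have hE := En_nonneg Z
  rw [← ENNReal.ofReal_mul (by linarith), ← ENNReal.ofReal_mul (by positivity)]
  exact ENNReal.ofReal_le_ofReal (absorb hb hE)

/-! ### Peeling a bridge -/

/-- **Peeling**: the class `B` of `k'` is translated until the two lines are in contact. -/
theorem peel_tube (hε : 0 < ε) {B : Finset ι} {k' : ι} (hk' : k' ∈ B) {R : Finset ι}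
    (hR : ∀ r ∈ R, r ∉ B) {F : (ι → Ph) → ℝ≥0∞} (hF : Measurable F)
    (hFi : ∀ a : E3, ∀ Z, F (mv B (a, 0) Z) = F Z) {p q : (ι → Ph) → Ph} (hp : Measurable p)
    (hq : Measurable q) (hpi : ∀ a : E3, ∀ Z, p (mv B (a, 0) Z) = p Z)
    (hqi : ∀ a : E3, ∀ Z, q (mv B (a, 0) Z) = boost (a, 0) (q Z)) {m : (ι → Ph) → ℝ}
    (hm : Measurable m) (hmi : ∀ a : E3, ∀ Z, m (mv B (a, 0) Z) = m Z) {d : ℝ} (hd : 0 ≤ d) :
    ∫⁻ Z, spat R Z * F Z * {Z : ι → Ph | ∃ s, m Z ≤ s ∧ s ≤ m Z + d ∧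
      ‖(free s (p Z)).1 - (free s (q Z)).1‖ ≤ ε}.indicator 1 Z ≤
    ∫⁻ Z, spat (insert k' R) Z * F Z *
      ENNReal.ofReal (32 * ε ^ 2 * (ε + d * ‖(p Z).2 - (q Z).2‖)) := by
  have hk'R : k' ∉ R := fun h => hR k' h hk'
  set S : Set (ι → Ph) := {Z : ι → Ph | ∃ s, m Z ≤ s ∧ s ≤ m Z + d ∧
      ‖(free s (p Z)).1 - (free s (q Z)).1‖ ≤ ε} with hS
  have hSm : MeasurableSet S := by
    have h1 : SC fun Z : ι → Ph => {s | ‖(free s (p Z)).1 - (free s (q Z)).1‖ - ε ≤ 0} := by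
      refine SC.closed (F := fun (Z : ι → Ph) s => ‖(free s (p Z)).1 - (free s (q Z)).1‖ - ε)
        (fun s => ?_) (fun Z => ?_)
      · unfold free
        exact (((hp.fst.add (hp.snd.const_smul s)).sub
          (hq.fst.add (hq.snd.const_smul s))).norm.sub_const ε)
      · unfold free
        fun_prop
    refine (h1.meet hm (hm.add_const d)).congr ?_
    ext Z
    refine exists_congr fun s => and_congr_right fun _ => and_congr_right fun _ => ?_
    change ‖(free s (p Z)).1 - (free s (q Z)).1‖ - ε ≤ 0 ↔ ‖(free s (p Z)).1 - (free s (q Z)).1‖ ≤ ε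
    exact sub_nonpos
  have hH : Measurable (S.indicator (1 : (ι → Ph) → ℝ≥0∞)) := measurable_const.indicator hSm
  have h1 := lintegral_avg B (F := fun Z => spat R Z * F Z) (H := S.indicator 1)
    ((measurable_spat R).mul hF) hH (fun a Z => by rw [spat_mv hR, hFi])
    (U := fun Z => (Z k').1) (measurable_pi_apply k').fst
    (fun a Z => by rw [mv_of_mem hk']; rfl) measurable_φ₁
  rw [lintegral_φ₁] at h1
  rw [← ENNReal.mul_le_mul_iff_right ω₃_ne_zero ω₃_ne_top, h1,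
    ← lintegral_const_mul _ ?_]
  swap
  · refine ((measurable_spat _).mul hF).mul ?_
    exact ((((hp.snd.sub hq.snd).norm.const_mul d).const_add ε).const_mul _).ennreal_ofReal
  refine lintegral_mono fun Z => ?_
  have h2 : ∫⁻ a : E3, S.indicator (1 : (ι → Ph) → ℝ≥0∞) (mv B (a, 0) Z) ≤
      ENNReal.ofReal (32 * ε ^ 2 * (ε + d * ‖(p Z).2 - (q Z).2‖)) * ω₃ := by
    have h3 := vol_tube_le hε ((q Z).1 - (p Z).1) ((q Z).2 - (p Z).2) (m Z) hd
    rw [norm_sub_rev (q Z).2] at h3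
    refine le_trans ?_ h3
    refine le_trans (le_of_eq ?_) (lintegral_indicator_one_le _)
    refine lintegral_congr fun a => ?_
    have h4 : mv B (a, 0) Z ∈ S ↔ a ∈ {a : E3 | ∃ s, m Z ≤ s ∧ s ≤ m Z + d ∧
        ‖(q Z).1 - (p Z).1 + s • ((q Z).2 - (p Z).2) + a‖ ≤ ε} := by
      simp only [hS, mem_ofPred_eq, hpi, hqi, hmi]
      refine exists_congr fun s => and_congr_right fun _ => and_congr_right fun _ => ?_
      have h5 : (free s (p Z)).1 - (free s (boost (a, 0) (q Z))).1 =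
          -((q Z).1 - (p Z).1 + s • ((q Z).2 - (p Z).2) + a) := by
        unfold free boost
        simp only [add_zero]
        rw [smul_sub]; abel
      rw [h5, norm_neg]
    by_cases h6 : mv B (a, 0) Z ∈ S
    · rw [indicator_of_mem h6, indicator_of_mem (h4.1 h6)]; rfl
    · rw [indicator_of_notMem h6, indicator_of_notMem fun h => h6 (h4.2 h)]
  rw [spat_insert hk'R]
  calc spat R Z * F Z * φ₁ (Z k').1 * ∫⁻ a : E3, S.indicator (1 : (ι → Ph) → ℝ≥0∞)
        (mv B (a, 0) Z)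
      ≤ spat R Z * F Z * φ₁ (Z k').1 *
        (ENNReal.ofReal (32 * ε ^ 2 * (ε + d * ‖(p Z).2 - (q Z).2‖)) * ω₃) :=
        mul_le_mul' le_rfl h2
    _ = _ := by ring

/-- The last event of a run. -/
theorem Run.last {P : List (Ev ι × ℝ)} {e : Ev ι × ℝ} {r : ℝ} {β : ι → ℝ} {Z : ι → Ph}
    (h : Run Φ ε T r (P ++ [e]) β Z) :
    ∃ s, r ≤ s ∧ s ≤ T ∧ At Φ ε T e.1 e.2 (finB Φ ε P β Z) (finZ Φ ε P Z) s := by
  have h1 : Run Φ ε T r [e] (finB Φ ε P β Z) (finZ Φ ε P Z) := Run.right h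
  obtain ⟨s, h2, h3, h4, -⟩ := h1
  exact ⟨s, h2, h3, h4⟩

/-- **Peeling the last event**, if it is a bridge. -/
theorem mass_bridge (hΦ : IsPotential Φ) (hε : 0 < ε) (hb : 0 < b) {P : List (Ev ι × ℝ)}
    {e : Ev ι × ℝ} (hd : 0 ≤ e.2) {R : Finset ι} {i k k' : ι}
    (hik : (i = e.1.fst ∧ k = e.1.snd) ∨ (i = e.1.snd ∧ k = e.1.fst)) (hbr : ¬Jn P i k)
    (hk' : Jn P k k') (hR : ∀ r ∈ R, ¬Jn P k r) :
    mass Φ ε T b R (P ++ [e]) ≤
      ENNReal.ofReal (32 * (1 + 2 / b)) * (ENNReal.ofReal (ε ^ 2) * ENNReal.ofReal (ε + e.2)) *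
        mass Φ ε T (b / 2) (insert k' R) P := by
  set B : Finset ι := cls P k with hB
  have hcl : Cl B P := cl_cls P k
  have hkB : k ∈ B := self_mem_cls P k
  have hiB : i ∉ B := fun h => hbr (mem_cls.1 h).symm
  have hk'B : k' ∈ B := mem_cls.2 hk'
  have hRB : ∀ r ∈ R, r ∉ B := fun r hr h => hR r hr (mem_cls.1 h)
  have hne : i ≠ k := fun h => hbr (h ▸ Jn.refl _ _)
  set F : (ι → Ph) → ℝ≥0∞ := fun Z => wgt b Z * runI Φ ε T P Z with hF
  have hFm : Measurable F := (measurable_wgt b).mul (measurable_runI hΦ hε.ne' P)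
  set m : (ι → Ph) → ℝ := fun Z => max (finB Φ ε P (fun _ => 0) Z i)
    (finB Φ ε P (fun _ => 0) Z k) with hm
  have hfB : Measurable fun Z : ι → Ph => finB Φ ε P (fun _ => 0) Z :=
    measurable_finB hΦ hε.ne' P (β := fun _ _ => 0) measurable_const measurable_id
  have hfZ : Measurable fun Z : ι → Ph => finZ Φ ε P Z :=
    measurable_finZ hΦ hε.ne' P measurable_id
  have hmm : Measurable m :=
    ((measurable_pi_apply i).comp hfB).max ((measurable_pi_apply k).comp hfB)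
  have h1 := peel_tube hε hk'B hRB hFm
    (fun a Z => by simp only [hF]; rw [wgt_mv, runI_mv hcl])
    (p := fun Z => finZ Φ ε P Z i) (q := fun Z => finZ Φ ε P Z k)
    ((measurable_pi_apply i).comp hfZ) ((measurable_pi_apply k).comp hfZ)
    (fun a Z => by rw [finZ_mv hcl, mv_of_notMem hiB])
    (fun a Z => by rw [finZ_mv hcl, mv_of_mem hkB]) hmm
    (fun a Z => by simp only [hm]; rw [finB_mv hcl]) hd
  have h2 : mass Φ ε T b R (P ++ [e]) ≤ ∫⁻ Z, spat R Z * F Z * {Z : ι → Ph | ∃ s, m Z ≤ s ∧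
      s ≤ m Z + e.2 ∧ ‖(free s (finZ Φ ε P Z i)).1 - (free s (finZ Φ ε P Z k)).1‖ ≤ ε}.indicator
      1 Z := by
    unfold mass
    refine lintegral_mono fun Z => ?_
    simp only [hF]
    rw [mul_assoc, mul_assoc]
    refine mul_le_mul' le_rfl (mul_le_mul' le_rfl ?_)
    by_cases hP : Run Φ ε T 0 (P ++ [e]) (fun _ => 0) Z
    · rw [runI_of _ hP, runI_of _ hP.left, one_mul, indicator_of_mem]
      · rfl
      obtain ⟨s, -, -, h3⟩ := hP.last
      obtain ⟨h4, h5, h6⟩ := at_dist hε h3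
      refine ⟨s, ?_⟩
      rcases hik with ⟨rfl, rfl⟩ | ⟨rfl, rfl⟩
      · exact ⟨h4, h5, h6⟩
      · simp only [hm]
        rw [max_comm, norm_sub_rev]
        exact ⟨h4, h5, h6⟩
    · rw [runI_not _ hP]
      exact zero_le
  refine h2.trans (h1.trans ?_)
  have hGm : Measurable fun Z : ι → Ph =>
      spat (insert k' R) Z * (wgt (b / 2) Z * runI Φ ε T P Z) :=
    (measurable_spat _).mul ((measurable_wgt _).mul (measurable_runI hΦ hε.ne' P))
  unfold mass
  rw [← lintegral_const_mul _ hGm]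
  refine lintegral_mono fun Z => ?_
  simp only [hF]
  by_cases hP : Run Φ ε T 0 P (fun _ => 0) Z
  swap
  · rw [runI_not _ hP]; simp
  have hE := En_nonneg Z
  have h3 : ‖(finZ Φ ε P Z i).2 - (finZ Φ ε P Z k).2‖ ≤ 1 + En Z := by
    rw [← En_finZ hΦ hε.ne' hP]
    exact speed_le _ hne
  have h4 : ENNReal.ofReal (32 * ε ^ 2 * (ε + e.2 * ‖(finZ Φ ε P Z i).2 -
      (finZ Φ ε P Z k).2‖)) ≤ 32 * (ENNReal.ofReal (ε ^ 2) * ENNReal.ofReal (ε + e.2)) *
        ENNReal.ofReal (1 + En Z) := by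
    have h32 : (32 : ℝ≥0∞) = ENNReal.ofReal 32 := by simp
    rw [h32, ← ENNReal.ofReal_mul (by positivity), ← ENNReal.ofReal_mul (by positivity),
      ← ENNReal.ofReal_mul (by positivity)]
    refine ENNReal.ofReal_le_ofReal ?_
    have h5 : ε + e.2 * ‖(finZ Φ ε P Z i).2 - (finZ Φ ε P Z k).2‖ ≤ (ε + e.2) * (1 + En Z) := by
      have := mul_le_mul_of_nonneg_left h3 hd
      nlinarith [mul_nonneg hε.le hE]
    calc _ ≤ 32 * ε ^ 2 * ((ε + e.2) * (1 + En Z)) :=
          mul_le_mul_of_nonneg_left h5 (by positivity)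
      _ = _ := by ring
  have h32 : ENNReal.ofReal (32 * (1 + 2 / b)) = 32 * ENNReal.ofReal (1 + 2 / b) := by
    rw [ENNReal.ofReal_mul (by norm_num)]
    congr 1
    simp
  calc spat (insert k' R) Z * (wgt b Z * runI Φ ε T P Z) * ENNReal.ofReal (32 * ε ^ 2 *
        (ε + e.2 * ‖(finZ Φ ε P Z i).2 - (finZ Φ ε P Z k).2‖))
      ≤ spat (insert k' R) Z * (wgt b Z * runI Φ ε T P Z) *
        (32 * (ENNReal.ofReal (ε ^ 2) * ENNReal.ofReal (ε + e.2)) * ENNReal.ofReal (1 + En Z)) :=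
        mul_le_mul' le_rfl h4
    _ = 32 * (ENNReal.ofReal (ε ^ 2) * ENNReal.ofReal (ε + e.2)) *
        (spat (insert k' R) Z * runI Φ ε T P Z) * (ENNReal.ofReal (1 + En Z) * wgt b Z) := by ring
    _ ≤ 32 * (ENNReal.ofReal (ε ^ 2) * ENNReal.ofReal (ε + e.2)) *
        (spat (insert k' R) Z * runI Φ ε T P Z) *
          (ENNReal.ofReal (1 + 2 / b) * wgt (b / 2) Z) := mul_le_mul' le_rfl (wgt_absorb hb Z)
    _ = _ := by rw [h32]; ring

/-! ### The cost of a program -/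

open Classical in
/-- Every bridge with delay at most `d` costs `ε + d`. -/
def cost (ε : ℝ) : List (Ev ι × ℝ) → List (Ev ι × ℝ) → ℝ≥0∞
  | _, [] => 1
  | Q, e :: P => (if Jn Q e.1.fst e.1.snd then 1 else ENNReal.ofReal (ε + e.2)) *
      cost ε (Q ++ [e]) P

theorem cost_append (Q P P' : List (Ev ι × ℝ)) :
    cost ε Q (P ++ P') = cost ε Q P * cost ε (Q ++ P) P' := by
  induction P generalizing Q with
  | nil => simp [cost]
  | cons e P ih =>
    simp only [cost, List.cons_append]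
    rw [ih, mul_assoc, List.append_assoc]
    rfl

open Classical in
theorem cost_concat (P : List (Ev ι × ℝ)) (e : Ev ι × ℝ) :
    cost ε [] (P ++ [e]) = cost ε [] P *
      (if Jn P e.1.fst e.1.snd then 1 else ENNReal.ofReal (ε + e.2)) := by
  rw [cost_append]
  simp [cost]

theorem cost_le (hT : 0 ≤ T) (hε1 : ε ≤ 1) (Q : List (Ev ι × ℝ))
    {P : List (Ev ι × ℝ)} (h : ∀ e ∈ P, e.2 ≤ T) :
    cost ε Q P ≤ ENNReal.ofReal (1 + T) ^ P.length := by
  induction P generalizing Q with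
  | nil => simp [cost]
  | cons e P ih =>
    simp only [cost, List.length_cons]
    rw [pow_succ, mul_comm]
    refine mul_le_mul' (ih _ fun e' he' => h e' (List.mem_cons_of_mem _ he')) ?_
    split_ifs
    · rw [← ENNReal.ofReal_one]
      exact ENNReal.ofReal_le_ofReal (by linarith)
    · exact ENNReal.ofReal_le_ofReal (by linarith [h e List.mem_cons_self])

/-- The product of the masses of the labels. -/
theorem lintegral_prod_pi' {g : ι → Ph → ℝ≥0∞} (hg : ∀ i, Measurable (g i)) :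
    ∫⁻ Z : ι → Ph, ∏ i, g i (Z i) = ∏ i, ∫⁻ z, g i z := by
  have e := Fintype.equivFin ι
  have h := volume_measurePreserving_piCongrLeft (fun _ : ι => Ph) e.symm
  have hm : Measurable fun Z : ι → Ph => ∏ i, g i (Z i) :=
    Finset.measurable_prod _ fun i _ => (hg i).comp (measurable_pi_apply i)
  rw [← h.lintegral_comp hm]
  have h1 : ∀ Z : Fin (Fintype.card ι) → Ph, ∏ i, g i
      ((MeasurableEquiv.piCongrLeft (fun _ : ι => Ph) e.symm) Z i) =
        ∏ j, g (e.symm j) (Z j) := by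
    intro Z
    rw [← Equiv.prod_comp e.symm]
    refine Finset.prod_congr rfl fun j _ => ?_
    have h2 : (MeasurableEquiv.piCongrLeft (fun _ : ι => Ph) e.symm) Z (e.symm j) = Z j := by
      have := Equiv.piCongrLeft_apply_apply (P := fun _ : ι => Ph) e.symm Z j
      exact this
    rw [h2]
  simp only [h1]
  rw [← Equiv.prod_comp e.symm]
  exact lintegral_prod_pi (volume : Measure Ph) (fun j => g (e.symm j)) fun j => hg _

theorem int_gauss (hb : 0 < b) : Integrable (fun v : E3 => Real.exp (-b * ‖v‖ ^ 2)) := by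
  have h := GaussianFourier.integrable_cexp_neg_mul_sq_norm_add (V := E3) (b := (b : ℂ))
    (by simpa using hb) 0 0
  have h2 := h.norm
  refine h2.congr (Eventually.of_forall fun v => ?_)
  simp only [Complex.norm_exp]
  congr 1
  simp [← Complex.ofReal_pow]

theorem mass_nil_ne_top (hb : 0 < b) : mass Φ ε T b (Finset.univ : Finset ι) [] ≠ ∞ := by
  have h1 : ∀ Z : ι → Ph, spat Finset.univ Z * (wgt b Z * runI Φ ε T [] Z) =
      ∏ i, φ₁ (Z i).1 * ENNReal.ofReal (Real.exp (-(b * ‖(Z i).2‖ ^ 2))) := by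
    intro Z
    rw [runI_of (P := []) trivial, mul_one, Finset.prod_mul_distrib]
    congr 1
    unfold wgt
    rw [← ENNReal.ofReal_prod_of_nonneg fun _ _ => (Real.exp_pos _).le, ← Real.exp_sum]
    congr 2
    unfold En
    rw [Finset.mul_sum, Finset.sum_neg_distrib]
  have hm : ∀ _ : ι, Measurable fun z : Ph =>
      φ₁ z.1 * ENNReal.ofReal (Real.exp (-(b * ‖z.2‖ ^ 2))) := fun _ =>
    (measurable_φ₁.comp measurable_fst).mul
      (((measurable_snd.norm.pow_const 2).const_mul b).neg.exp).ennreal_ofReal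
  unfold mass
  simp only [h1]
  rw [lintegral_prod_pi' (g := fun _ z => φ₁ z.1 * ENNReal.ofReal (Real.exp (-(b * ‖z.2‖ ^ 2))))
    hm]
  refine ENNReal.prod_ne_top fun i _ => ?_
  have h2 : ∫⁻ z : Ph, φ₁ z.1 * ENNReal.ofReal (Real.exp (-(b * ‖z.2‖ ^ 2))) =
      (∫⁻ x, φ₁ x) * ∫⁻ v : E3, ENNReal.ofReal (Real.exp (-(b * ‖v‖ ^ 2))) := by
    rw [Measure.volume_eq_prod]
    exact lintegral_prod_mul measurable_φ₁.aemeasurable
      (((measurable_norm.pow_const 2).const_mul b).neg.exp).ennreal_ofReal.aemeasurable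
  rw [h2, lintegral_φ₁]
  refine ENNReal.mul_ne_top ω₃_ne_top ?_
  have h3 := (int_gauss hb).lintegral_lt_top
  simp only [neg_mul] at h3
  exact h3.ne

/-! ### The bounded lemma -/

/-- **The bounded lemma.** -/
theorem mass_le (hΦ : IsPotential Φ) (T : ℝ) (n : ℕ) : ∀ b : ℝ, 0 < b → ∃ C : ℝ≥0∞, C ≠ ∞ ∧
    ∀ P : List (Ev ι × ℝ), P.length = n → (∀ e ∈ P, 0 ≤ e.2) → ∀ ε : ℝ, 0 < ε →
    ∀ R : Finset ι, Trv P R → mass Φ ε T b R P ≤
      C * ENNReal.ofReal (ε ^ 2) ^ (Fintype.card ι - R.card) * cost ε [] P := by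
  classical
  induction n with
  | zero =>
    intro b hb
    refine ⟨mass Φ 1 T b (Finset.univ : Finset ι) [], mass_nil_ne_top hb, ?_⟩
    intro P hP _ ε hε R hR
    rw [List.length_eq_zero_iff] at hP
    subst hP
    have h1 := trv_nil hR
    subst h1
    have h2 : mass Φ ε T b (Finset.univ : Finset ι) [] =
        mass Φ 1 T b (Finset.univ : Finset ι) [] := by
      unfold mass
      refine lintegral_congr fun Z => ?_
      rw [runI_of (P := []) trivial, runI_of (P := []) trivial]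
    rw [h2]
    simp [cost, Finset.card_univ]
  | succ n ih =>
    intro b hb
    obtain ⟨C₁, hC₁, h1⟩ := ih b hb
    obtain ⟨C₂, hC₂, h2⟩ := ih (b / 2) (by positivity)
    refine ⟨C₁ + ENNReal.ofReal (32 * (1 + 2 / b)) * C₂,
      ENNReal.add_ne_top.2 ⟨hC₁, ENNReal.mul_ne_top ENNReal.ofReal_ne_top hC₂⟩, ?_⟩
    intro P' hP' hd ε hε R hR
    obtain ⟨P, e, rfl⟩ : ∃ P e, P' = P ++ [e] := by
      rcases P'.eq_nil_or_concat with h | ⟨P, e, h⟩
      · rw [h] at hP'; simp at hP'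
      · exact ⟨P, e, by rw [h, List.concat_eq_append]⟩
    have hP : P.length = n := by simpa using hP'
    have hdP : ∀ e' ∈ P, 0 ≤ e'.2 := fun e' he' => hd e' (List.mem_append_left _ he')
    have hde : 0 ≤ e.2 := hd e (by simp)
    rw [cost_concat]
    by_cases hJ : Jn P e.1.fst e.1.snd
    · rw [if_pos hJ, mul_one]
      have hR' : Trv P R := hR.congr fun i k => jn_concat_of_jn hJ i k
      refine (mass_mono fun Z h => h.left).trans ((h1 P hP hdP ε hε R hR').trans ?_)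
      exact mul_le_mul' (mul_le_mul' le_self_add le_rfl) le_rfl
    · rw [if_neg hJ]
      -- the representative of the class of `e`
      obtain ⟨r, hr, hJr⟩ := hR.cov e.1.fst
      have hcase : ∃ i k, ((i = e.1.fst ∧ k = e.1.snd) ∨ (i = e.1.snd ∧ k = e.1.fst)) ∧
          Jn P r i ∧ ¬Jn P i k := by
        rcases jn_concat.1 hJr with h3 | ⟨-, h3⟩ | ⟨h3, -⟩
        · exact ⟨_, _, Or.inl ⟨rfl, rfl⟩, h3.symm, hJ⟩
        · exact ⟨_, _, Or.inr ⟨rfl, rfl⟩, h3.symm, fun h => hJ h.symm⟩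
        · exact absurd h3 hJ
      obtain ⟨i, k, hik, hri, hbr⟩ := hcase
      obtain ⟨h3, h4, h5⟩ := hR.split (fun c d => jn_concat) hik hbr hr hri (Jn.refl P k)
      have h6 := mass_bridge (T := T) hΦ hε hb hde hik hbr (Jn.refl P k) h4
      refine h6.trans ?_
      have h7 := h2 P hP hdP ε hε _ h5
      rw [Finset.card_insert_of_notMem h3] at h7
      have hc : R.card + 1 ≤ Fintype.card ι := by
        rw [← Finset.card_insert_of_notMem h3]
        exact Finset.card_le_univ _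
      have h8 : ENNReal.ofReal (ε ^ 2) ^ (Fintype.card ι - R.card) =
          ENNReal.ofReal (ε ^ 2) ^ (Fintype.card ι - (R.card + 1)) * ENNReal.ofReal (ε ^ 2) := by
        rw [← pow_succ]; congr 1; omega
      calc ENNReal.ofReal (32 * (1 + 2 / b)) * (ENNReal.ofReal (ε ^ 2) *
            ENNReal.ofReal (ε + e.2)) * mass Φ ε T (b / 2) (insert k R) P
          ≤ ENNReal.ofReal (32 * (1 + 2 / b)) * (ENNReal.ofReal (ε ^ 2) *
            ENNReal.ofReal (ε + e.2)) * (C₂ * ENNReal.ofReal (ε ^ 2) ^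
              (Fintype.card ι - (R.card + 1)) * cost ε [] P) := mul_le_mul' le_rfl h7
        _ = (ENNReal.ofReal (32 * (1 + 2 / b)) * C₂) * ENNReal.ofReal (ε ^ 2) ^
              (Fintype.card ι - R.card) * (cost ε [] P * ENNReal.ofReal (ε + e.2)) := by
            rw [h8]; ring
        _ ≤ _ := mul_le_mul' (mul_le_mul' le_add_self le_rfl) le_rfl

end Vale.Agent.P119.IND
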