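import Vale.Agent.P119.IND.Laws
import Vale.Agent.P119.IND.Prog4

/-!
# P119, block IND: from localised Gaussian masses to `MassLe` (`helper350`)

`massLe_of_loc`: for a relation which is invariant under global translations, the bound of the Gaussian
mass localised at one label gives `MassLe`: the density `f₀ e^{c|v|²}` of this label is averaged over
the translations.
-/

open MeasureTheory Filter Topology Set
open scoped ENNReal NNReal

set_option linter.unusedSectionVars false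

noncomputable section

namespace Vale.Agent.P119.IND

open KU FL GC MM PB.CT

variable {Φ : E3 → ℝ} {ε b c : ℝ}

theorem wgt_eq_g1 {ι : Type} [DecidableEq ι] [Fintype ι] (b : ℝ) (Z : ι → Ph) :
    wgt b Z = ∏ i, g1 b (Z i).2 := by
  unfold wgt En g1
  rw [← ENNReal.ofReal_prod_of_nonneg fun _ _ => (Real.exp_pos _).le, ← Real.exp_sum,
    Finset.mul_sum, ← Finset.sum_neg_distrib]
  congr 2
  exact Finset.sum_congr rfl fun i _ => by ring

theorem muE_pow_mul (hε : 0 < ε) (k : ℕ) (x : ℝ≥0∞) :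
    muE ε ^ k * (ENNReal.ofReal (ε ^ 2) ^ k * x) = x := by
  rw [← mul_assoc, ← mul_pow, muE_mul hε, one_pow, one_mul]

/-- **From localised masses to `MassLe`.** -/
theorem massLe_of_loc {f₀ : Ph → ℝ} (hf : Measurable f₀) {M₁ : ℝ} (hM₁ : 0 ≤ M₁)
    (hmarg : ∀ v, ∫⁻ x, ENNReal.ofReal (f₀ (x, v)) ≤ ENNReal.ofReal (M₁ * Real.exp (-b * ‖v‖ ^ 2)))
    (hε : 0 < ε) {n : ℕ} {R : Set (Fin n → ℝ × Ph)} (hR : MeasurableSet R)
    (hinv : ∀ (β : Fin n → ℝ) (a : E3) (Z : Fin n → Ph),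
      (fun i => (β i, mv Finset.univ ((a, 0) : Ph) Z i)) ∈ R ↔ (fun i => (β i, Z i)) ∈ R)
    {δ : ℝ≥0∞} (h : ∀ (r : Fin n) (β : Fin n → ℝ), (∀ i, 0 ≤ β i) →
      ∫⁻ Z : Fin n → Ph, spat {r} Z * (wgt (b - c) Z *
        ({Z : Fin n → Ph | (fun i => (β i, Z i)) ∈ R}).indicator 1 Z) ≤
      ENNReal.ofReal (ε ^ 2) ^ (n - 1) * δ) :
    MassLe f₀ ε b c R (ENNReal.ofReal M₁ * ω₃⁻¹ * δ) := by
  intro r β hβ
  set S : Set (Fin n → Ph) := {Z : Fin n → Ph | (fun i => (β i, Z i)) ∈ R} with hS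
  have hSm : MeasurableSet S := by
    have h1 : Measurable fun Z : Fin n → Ph => fun i => (β i, Z i) :=
      measurable_pi_iff.2 fun i => measurable_const.prodMk (measurable_pi_apply i)
    exact h1 hR
  have hI : Measurable (S.indicator (1 : (Fin n → Ph) → ℝ≥0∞)) := measurable_const.indicator hSm
  have hgm : Measurable fun Z : Fin n → Ph => ∏ i ∈ Finset.univ.erase r, g1 (b - c) (Z i).2 :=
    Finset.measurable_prod _ fun i _ => (measurable_g1 (b - c)).comp (measurable_pi_apply i)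
  have hH : Measurable fun z : Ph => ENNReal.ofReal (f₀ z) * g1 (-c) z.2 :=
    hf.ennreal_ofReal.mul (measurable_g1 (-c))
  have hSi : ∀ (a : E3) (Z : Fin n → Ph), S.indicator (1 : (Fin n → Ph) → ℝ≥0∞)
      (mv Finset.univ ((a, 0) : Ph) Z) = S.indicator (1 : (Fin n → Ph) → ℝ≥0∞) Z := by
    intro a Z
    by_cases hZ : Z ∈ S
    · have hZ' : mv Finset.univ ((a, 0) : Ph) Z ∈ S := (hinv β a Z).2 hZ
      rw [indicator_of_mem hZ, indicator_of_mem hZ']; rfl
    · have hZ' : mv Finset.univ ((a, 0) : Ph) Z ∉ S := fun h' => hZ ((hinv β a Z).1 h')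
      rw [indicator_of_notMem hZ, indicator_of_notMem hZ']
  have hvel : ∀ (a : E3) (Z : Fin n → Ph) (i : Fin n),
      (mv Finset.univ ((a, 0) : Ph) Z i).2 = (Z i).2 := by
    intro a Z i
    rw [mv_of_mem (Finset.mem_univ i)]
    unfold boost
    simp
  have hpos : ∀ (a : E3) (Z : Fin n → Ph) (i : Fin n),
      (mv Finset.univ ((a, 0) : Ph) Z i).1 = (Z i).1 + a := by
    intro a Z i
    rw [mv_of_mem (Finset.mem_univ i)]
    rfl
  have key := lintegral_avg (Finset.univ : Finset (Fin n))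
    (F := fun Z => (∏ i ∈ Finset.univ.erase r, g1 (b - c) (Z i).2) * S.indicator 1 Z)
    (H := fun Z => ENNReal.ofReal (f₀ (Z r)) * g1 (-c) (Z r).2) (hgm.mul hI)
    (hH.comp (measurable_pi_apply r)) (fun a Z => by
      rw [hSi]
      congr 1
      exact Finset.prod_congr rfl fun i _ => by rw [hvel])
    (U := fun Z => (Z r).1) (measurable_fst.comp (measurable_pi_apply r))
    (fun a Z => hpos a Z r) measurable_φ₁
  rw [lintegral_φ₁] at key
  have h1 : ∀ Z : Fin n → Ph, ∫⁻ a : E3, ENNReal.ofReal (f₀ (mv Finset.univ ((a, 0) : Ph) Z r)) *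
      g1 (-c) (mv Finset.univ ((a, 0) : Ph) Z r).2 ≤
      ENNReal.ofReal M₁ * g1 (b - c) (Z r).2 := by
    intro Z
    have e1 : ∀ a : E3, mv Finset.univ ((a, 0) : Ph) Z r = ((Z r).1 + a, (Z r).2) := fun a =>
      Prod.ext (hpos a Z r) (hvel a Z r)
    simp only [e1]
    have hm1 : Measurable fun a : E3 => ENNReal.ofReal (f₀ ((Z r).1 + a, (Z r).2)) :=
      (hf.comp ((measurable_const_add _).prodMk measurable_const)).ennreal_ofReal
    rw [lintegral_mul_const _ hm1,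
      lintegral_add_left_eq_self (fun x => ENNReal.ofReal (f₀ (x, (Z r).2))) (Z r).1]
    refine (mul_le_mul' (hmarg (Z r).2) le_rfl).trans (le_of_eq ?_)
    rw [ENNReal.ofReal_mul hM₁, mul_assoc]
    congr 1
    have h2 := g1_mul b (-c) (Z r).2
    rw [show b + -c = b - c by ring] at h2
    rw [← h2]
    rfl
  have h2 : ω₃ * ∫⁻ Z : Fin n → Ph, (∏ i ∈ Finset.univ.erase r, g1 (b - c) (Z i).2) *
      S.indicator 1 Z * (ENNReal.ofReal (f₀ (Z r)) * g1 (-c) (Z r).2) ≤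
      ENNReal.ofReal M₁ * (ENNReal.ofReal (ε ^ 2) ^ (n - 1) * δ) := by
    rw [key]
    refine le_trans (lintegral_mono fun Z => mul_le_mul' le_rfl (h1 Z)) ?_
    have h3 : ∀ Z : Fin n → Ph, (∏ i ∈ Finset.univ.erase r, g1 (b - c) (Z i).2) *
        S.indicator 1 Z * φ₁ (Z r).1 * (ENNReal.ofReal M₁ * g1 (b - c) (Z r).2) =
        ENNReal.ofReal M₁ * (spat {r} Z * (wgt (b - c) Z * S.indicator 1 Z)) := by
      intro Z
      unfold spat
      rw [Finset.prod_singleton, wgt_eq_g1, ← Finset.mul_prod_erase _ _ (Finset.mem_univ r)]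
      ring
    simp only [h3]
    rw [lintegral_const_mul' _ _ ENNReal.ofReal_ne_top]
    exact mul_le_mul' le_rfl (h r β hβ)
  have h4 : ∀ Z : Fin n → Ph, S.indicator (fun Z => ENNReal.ofReal (f₀ (Z r)) *
      g1 (-c) (Z r).2 * ∏ i ∈ Finset.univ.erase r, g1 (b - c) (Z i).2) Z =
      (∏ i ∈ Finset.univ.erase r, g1 (b - c) (Z i).2) * S.indicator 1 Z *
        (ENNReal.ofReal (f₀ (Z r)) * g1 (-c) (Z r).2) := by
    intro Z
    by_cases hZ : Z ∈ S
    · rw [indicator_of_mem hZ, indicator_of_mem hZ]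
      simp only [Pi.one_apply, mul_one]
      ring
    · rw [indicator_of_notMem hZ, indicator_of_notMem hZ]
      simp
  simp only [h4]
  have h5 : ∫⁻ Z : Fin n → Ph, (∏ i ∈ Finset.univ.erase r, g1 (b - c) (Z i).2) *
      S.indicator 1 Z * (ENNReal.ofReal (f₀ (Z r)) * g1 (-c) (Z r).2) ≤
      ω₃⁻¹ * (ENNReal.ofReal M₁ * (ENNReal.ofReal (ε ^ 2) ^ (n - 1) * δ)) := by
    rw [← ENNReal.div_eq_inv_mul, ENNReal.le_div_iff_mul_le (Or.inl ω₃_ne_zero)
      (Or.inl ω₃_ne_top), mul_comm]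
    exact h2
  calc _ ≤ muE ε ^ (n - 1) * (ω₃⁻¹ * (ENNReal.ofReal M₁ *
        (ENNReal.ofReal (ε ^ 2) ^ (n - 1) * δ))) := mul_le_mul' le_rfl h5
    _ = ENNReal.ofReal M₁ * ω₃⁻¹ * (muE ε ^ (n - 1) * (ENNReal.ofReal (ε ^ 2) ^ (n - 1) * δ)) := by
        ring
    _ = _ := by rw [muE_pow_mul hε]

end Vale.Agent.P119.IND
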