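import Vale.Agent.P119.IND.Prog7

/-!
# P119, block IND: the program theorem (`helper295`)

`small_le`: closed plain programs are small, one label of every class being localised.

`program_le`, `program_small`: **the program theorem**: for a connected program, with the weight
`g` of the label `r` and Gaussian weights of all the other ones, and arbitrary non-negative births,
`∫ g (Z r) ∏ exp(-b |v|²) 1{Run} ≤ C ε^(2 (card ι - 1))`, and `≤ C ε^(2 (card ι - 1)) ε^{1/2}` if
the program is closed.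
-/

open MeasureTheory Filter Topology Set
open scoped ENNReal

set_option linter.unusedSectionVars false

noncomputable section

namespace Vale.Agent.P119.IND

open KU MM

variable {ι : Type} [DecidableEq ι] [Fintype ι] {Φ : E3 → ℝ} {ε T b : ℝ}

/-- **The small lemma.** -/
theorem small_le (hΦ : IsPotential Φ) (hT : 0 ≤ T) (n : ℕ) : ∀ b : ℝ, 0 < b →
    ∃ C : ℝ≥0∞, C ≠ ∞ ∧ ∀ P : List (Ev ι × ℝ), P.length = n → (∀ e ∈ P, e.2 = T) → Wf P →
    Closed P → ∀ ε : ℝ, 0 < ε → ε ≤ 1 → ∀ R : Finset ι, Trv P R →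
    mass Φ ε T b R P ≤
      C * ENNReal.ofReal (ε ^ 2) ^ (Fintype.card ι - R.card) * ENNReal.ofReal (√ε) := by
  induction n with
  | zero =>
    intro b hb
    refine ⟨0, by simp, ?_⟩
    intro P hP _ _ hcl
    rw [List.length_eq_zero_iff] at hP
    subst hP
    exact absurd hcl not_closed_nil
  | succ n ih =>
    intro b hb
    obtain ⟨C₁, hC₁, H₁⟩ := ih b hb
    obtain ⟨C₂, hC₂, H₂⟩ := ih (b / 2) (by positivity)
    obtain ⟨C₃, hC₃, H₃⟩ := cycle_le (ι := ι) hΦ hT (n - 1) hb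
    set K : ℝ≥0∞ := ENNReal.ofReal (32 * (1 + 2 / b)) * ENNReal.ofReal (1 + T) with hK
    set K' : ℝ≥0∞ := ENNReal.ofReal (32 * (1 + T) * (1 + 2 / b)) with hK'
    have hKt : K ≠ ∞ := ENNReal.mul_ne_top ENNReal.ofReal_ne_top ENNReal.ofReal_ne_top
    refine ⟨C₁ + K * C₂ + K' * C₂ + C₃, ?_, ?_⟩
    · refine ENNReal.add_ne_top.2 ⟨ENNReal.add_ne_top.2 ⟨ENNReal.add_ne_top.2 ⟨hC₁,
        ENNReal.mul_ne_top hKt hC₂⟩, ENNReal.mul_ne_top ENNReal.ofReal_ne_top hC₂⟩, hC₃⟩
    have hle1 : C₁ ≤ C₁ + K * C₂ + K' * C₂ + C₃ := by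
      rw [add_assoc, add_assoc]; exact le_self_add
    have hle2 : K * C₂ ≤ C₁ + K * C₂ + K' * C₂ + C₃ := by
      rw [add_assoc (C₁ + K * C₂), add_comm C₁, add_assoc]; exact le_self_add
    have hle3 : K' * C₂ ≤ C₁ + K * C₂ + K' * C₂ + C₃ :=
      (le_add_self (a := K' * C₂) (b := C₁ + K * C₂)).trans le_self_add
    have hle4 : C₃ ≤ C₁ + K * C₂ + K' * C₂ + C₃ := le_add_self
    intro P' hP' hpl hwf hclo ε hε hε1 R hR
    obtain ⟨P, e, rfl⟩ : ∃ P e, P' = P ++ [e] := by
      rcases P'.eq_nil_or_concat with h | ⟨P, e, h⟩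
      · rw [h] at hP'; simp at hP'
      · exact ⟨P, e, by rw [h, List.concat_eq_append]⟩
    have hP : P.length = n := by simpa using hP'
    have hplP : ∀ e' ∈ P, e'.2 = T := fun e' he' => hpl e' (List.mem_append_left _ he')
    have hple : e.2 = T := hpl e (by simp)
    by_cases hcP : Closed P
    · -- the last event is not needed
      by_cases hJ : Jn P e.1.fst e.1.snd
      · have hR' : Trv P R := hR.congr fun i k => jn_concat_of_jn hJ i k
        refine (mass_mono fun Z h => h.left).trans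
          ((H₁ P hP hplP hwf.left hcP ε hε hε1 R hR').trans ?_)
        exact mul_le_mul' (mul_le_mul' hle1 le_rfl) le_rfl
      · obtain ⟨r, hr, hJr⟩ := hR.cov e.1.fst
        have hcase : ∃ i k, ((i = e.1.fst ∧ k = e.1.snd) ∨ (i = e.1.snd ∧ k = e.1.fst)) ∧
            Jn P r i ∧ ¬Jn P i k := by
          rcases jn_concat.1 hJr with h3 | ⟨-, h3⟩ | ⟨h3, -⟩
          · exact ⟨_, _, Or.inl ⟨rfl, rfl⟩, h3.symm, hJ⟩
          · exact ⟨_, _, Or.inr ⟨rfl, rfl⟩, h3.symm, fun h => hJ h.symm⟩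
          · exact absurd h3 hJ
        obtain ⟨i, k, hik, hri, hbr⟩ := hcase
        obtain ⟨h3, h4, h5⟩ := hR.split (fun c d => jn_concat) hik hbr hr hri (Jn.refl P k)
        have h6 := mass_bridge (T := T) (R := R) hΦ hε hb (e := e) (by rw [hple]; exact hT) hik
          hbr (Jn.refl P k) h4
        refine h6.trans ?_
        have h7 := H₂ P hP hplP hwf.left hcP ε hε hε1 _ h5
        rw [Finset.card_insert_of_notMem h3] at h7
        have hc : R.card + 1 ≤ Fintype.card ι := by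
          rw [← Finset.card_insert_of_notMem h3]
          exact Finset.card_le_univ _
        have h8 : ENNReal.ofReal (ε ^ 2) ^ (Fintype.card ι - R.card) =
            ENNReal.ofReal (ε ^ 2) ^ (Fintype.card ι - (R.card + 1)) *
              ENNReal.ofReal (ε ^ 2) := by
          rw [← pow_succ]; congr 1; omega
        have h9 : ENNReal.ofReal (ε + e.2) ≤ ENNReal.ofReal (1 + T) :=
          ENNReal.ofReal_le_ofReal (by rw [hple]; linarith)
        calc ENNReal.ofReal (32 * (1 + 2 / b)) * (ENNReal.ofReal (ε ^ 2) *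
              ENNReal.ofReal (ε + e.2)) * mass Φ ε T (b / 2) (insert k R) P
            ≤ ENNReal.ofReal (32 * (1 + 2 / b)) * (ENNReal.ofReal (ε ^ 2) *
              ENNReal.ofReal (1 + T)) * (C₂ * ENNReal.ofReal (ε ^ 2) ^
              (Fintype.card ι - (R.card + 1)) * ENNReal.ofReal (√ε)) :=
              mul_le_mul' (mul_le_mul' le_rfl (mul_le_mul' le_rfl h9)) h7
          _ = (K * C₂) * ENNReal.ofReal (ε ^ 2) ^ (Fintype.card ι - R.card) *
              ENNReal.ofReal (√ε) := by rw [h8, hK]; ring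
          _ ≤ _ := mul_le_mul' (mul_le_mul' hle2 le_rfl) le_rfl
    · -- the last event closes the program
      have hJ : Jn P e.1.fst e.1.snd := (closed_concat.1 hclo).resolve_left hcP
      cases P with
      | nil =>
        rw [jn_nil] at hJ
        rw [mass_zero]
        · exact zero_le
        · rintro Z ⟨s, -, -, h3, -⟩
          exact at_ne h3 hJ
      | cons f P₀ =>
        rw [List.cons_append] at hpl hwf hR ⊢
        have hplQ : ∀ e' ∈ P₀ ++ [e], e'.2 = T := fun e' he' => hpl e' (List.mem_cons_of_mem _ he')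
        have hf : f.2 = T := hpl f List.mem_cons_self
        by_cases hbr : Jn (P₀ ++ [e]) f.1.fst f.1.snd
        · -- the cycle
          have hfne : f.1.fst ≠ f.1.snd :=
            (forest_of_not_closed hcP).ne List.mem_cons_self
          obtain ⟨f₁, f₂⟩ := f
          cases f₁ with
          | gh a c =>
            exfalso
            have h1 : ∀ e' ∈ P₀ ++ [e], e'.1.fst ≠ a ∧ e'.1.snd ≠ a := hwf.1 a c rfl
            exact hfne ((jn_unused h1 hbr).1 rfl).symm
          | sc a c =>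
            have hf' : f₂ = T := hf
            subst hf'
            have hn : P₀.length = n - 1 := by
              rw [← hP]; simp
            refine (H₃ a c P₀ e hn (fun e' he' => hplQ e' (List.mem_append_left _ he')) hple
              hcP hJ hbr ε hε hε1 R hR).trans ?_
            exact mul_le_mul' (mul_le_mul' hle4 le_rfl) le_rfl
        · -- a bridge
          have hclQ : Closed (P₀ ++ [e]) := by
            rw [closed_concat]
            right
            have he : Jn (P₀ ++ [e]) e.1.fst e.1.snd := jn_of_mem (by simp)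
            have hm : ∀ {i k : ι}, Jn P₀ i k → Jn (P₀ ++ [e]) i k :=
              fun h => h.mono fun e' he' => List.mem_append_left _ he'
            rcases jn_cons.1 hJ with h1 | ⟨h1, h2⟩ | ⟨h1, h2⟩
            · exact h1
            · exact absurd (((hm h1).symm.trans he).trans (hm h2).symm) hbr
            · exact absurd (((hm h2).trans he.symm).trans (hm h1)) hbr
          obtain ⟨R', hR', hcR, h1⟩ := peel_first hΦ hT hε hε1 hb hplQ hR hbr
          refine h1.trans ?_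
          have hlen : (P₀ ++ [e]).length = n := by
            rw [← hP]; simp
          have h2 := H₂ (P₀ ++ [e]) hlen hplQ hwf.2 hclQ ε hε hε1 R' hR'
          have hc : R.card + 1 ≤ Fintype.card ι := by
            rw [← hcR]; exact Finset.card_le_univ _
          have h8 : ENNReal.ofReal (ε ^ 2) ^ (Fintype.card ι - R.card) =
              ENNReal.ofReal (ε ^ 2) ^ (Fintype.card ι - R'.card) *
                ENNReal.ofReal (ε ^ 2) := by
            rw [← pow_succ]; congr 1; omega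
          calc K' * ENNReal.ofReal (ε ^ 2) * mass Φ ε T (b / 2) R' (P₀ ++ [e])
              ≤ K' * ENNReal.ofReal (ε ^ 2) * (C₂ * ENNReal.ofReal (ε ^ 2) ^
                (Fintype.card ι - R'.card) * ENNReal.ofReal (√ε)) := mul_le_mul' le_rfl h2
            _ = (K' * C₂) * ENNReal.ofReal (ε ^ 2) ^ (Fintype.card ι - R.card) *
                ENNReal.ofReal (√ε) := by rw [h8]; ring
            _ ≤ _ := mul_le_mul' (mul_le_mul' hle3 le_rfl) le_rfl

/-! ### The program theorem -/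

/-- The Gaussian weight of one label. -/
def gau (b : ℝ) (v : E3) : ℝ≥0∞ := ENNReal.ofReal (Real.exp (-(b * ‖v‖ ^ 2)))

theorem measurable_gau (b : ℝ) : Measurable (gau b) :=
  (((measurable_norm.pow_const 2).const_mul b).neg.exp).ennreal_ofReal

theorem wgt_eq_prod (b : ℝ) (Z : ι → Ph) : wgt b Z = ∏ i, gau b (Z i).2 := by
  unfold wgt gau
  rw [← ENNReal.ofReal_prod_of_nonneg fun _ _ => (Real.exp_pos _).le, ← Real.exp_sum]
  congr 2
  unfold En
  rw [Finset.mul_sum, Finset.sum_neg_distrib]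

theorem pl_snd {P : List (Ev ι)} {e : Ev ι × ℝ} (he : e ∈ pl T P) : e.2 = T := by
  unfold pl at he
  obtain ⟨x, -, rfl⟩ := List.mem_map.1 he
  rfl

/-- The reduction to the localised mass. -/
theorem program_red (hΦ : IsPotential Φ) (hε : 0 < ε) {r : ι} {g : Ph → ℝ≥0∞}
    (hg : Measurable g) (hgb : ∀ v, ∫⁻ x : E3, g (x, v) ≤ gau b v) {P : List (Ev ι × ℝ)}
    (hP : ∀ e ∈ P, e.2 = T) {β : (ι → Ph) → ι → ℝ} (hβ : ∀ Z i, 0 ≤ β Z i) :
    ω₃ * ∫⁻ Z, {Z : ι → Ph | Run Φ ε T 0 P (β Z) Z}.indicator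
      (fun Z => g (Z r) * ∏ i ∈ Finset.univ.erase r, gau b (Z i).2) Z ≤
    mass Φ ε T b {r} P := by
  classical
  set F : (ι → Ph) → ℝ≥0∞ := fun Z =>
    (∏ i ∈ Finset.univ.erase r, gau b (Z i).2) * runI Φ ε T P Z with hF
  have hFm : Measurable F := (Finset.measurable_prod _ fun i _ =>
    (measurable_gau b).comp (measurable_pi_apply i).snd).mul (measurable_runI hΦ hε.ne' P)
  have hcl : Cl (Finset.univ : Finset ι) P := fun e _ => by simp
  have hFi : ∀ x : E3, ∀ Z, F (mv Finset.univ (x, 0) Z) = F Z := by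
    intro x Z
    simp only [hF]
    rw [runI_mv hcl]
    congr 1
    refine Finset.prod_congr rfl fun i _ => ?_
    rw [mv_of_mem (Finset.mem_univ i)]
    unfold boost
    simp
  have h1 : ∫⁻ Z, {Z : ι → Ph | Run Φ ε T 0 P (β Z) Z}.indicator
      (fun Z => g (Z r) * ∏ i ∈ Finset.univ.erase r, gau b (Z i).2) Z ≤
      ∫⁻ Z, F Z * g (Z r) := by
    refine lintegral_mono fun Z => ?_
    by_cases hZ : Z ∈ {Z : ι → Ph | Run Φ ε T 0 P (β Z) Z}
    · rw [indicator_of_mem hZ]
      have h2 : Run Φ ε T 0 P (fun _ => 0) Z := run_zero hΦ hε hP le_rfl (hβ Z) hZ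
      simp only [hF]
      rw [runI_of _ h2, mul_one, mul_comm]
    · rw [indicator_of_notMem hZ]
      exact zero_le
  have h2 := base_change (Finset.mem_univ r) hFm hFi hg (U := fun Z => (Z r).1)
    (measurable_pi_apply r).fst (fun x Z => by rw [mv_of_mem (Finset.mem_univ r)]; rfl)
  refine (mul_le_mul' le_rfl h1).trans ?_
  rw [h2]
  refine lintegral_mono fun Z => ?_
  refine (mul_le_mul' le_rfl (hgb (Z r).2)).trans (le_of_eq ?_)
  simp only [hF]
  have h3 : spat {r} Z = φ₁ (Z r).1 := Finset.prod_singleton _ _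
  rw [h3, wgt_eq_prod, ← Finset.mul_prod_erase _ _ (Finset.mem_univ r)]
  ring

theorem trv_single {P : List (Ev ι × ℝ)} (h : ∀ i k, Jn P i k) (r : ι) : Trv P {r} :=
  ⟨fun i => ⟨r, Finset.mem_singleton_self r, h i r⟩, fun r₁ h1 r₂ h2 _ => by
    rw [Finset.mem_singleton.1 h1, Finset.mem_singleton.1 h2]⟩

/-- **The program theorem**, bounded part. -/
theorem program_le (hΦ : IsPotential Φ) (hT : 0 ≤ T) (hb : 0 < b) {P : List (Ev ι)}
    (hconn : ∀ i k, Jn (pl T P) i k) :
    ∃ C : ℝ≥0∞, C ≠ ∞ ∧ ∀ ε : ℝ, 0 < ε → ε ≤ 1 → ∀ (r : ι) (g : Ph → ℝ≥0∞), Measurable g →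
    (∀ v, ∫⁻ x : E3, g (x, v) ≤ gau b v) → ∀ β : (ι → Ph) → ι → ℝ, (∀ Z i, 0 ≤ β Z i) →
    ∫⁻ Z, {Z : ι → Ph | Run Φ ε T 0 (pl T P) (β Z) Z}.indicator
      (fun Z => g (Z r) * ∏ i ∈ Finset.univ.erase r, gau b (Z i).2) Z ≤
    C * ENNReal.ofReal (ε ^ 2) ^ (Fintype.card ι - 1) := by
  obtain ⟨C, hC, H⟩ := mass_le (ι := ι) hΦ T (pl T P).length b hb
  refine ⟨ω₃⁻¹ * (C * ENNReal.ofReal (1 + T) ^ (pl T P).length),
    ENNReal.mul_ne_top (ENNReal.inv_ne_top.2 ω₃_ne_zero)
      (ENNReal.mul_ne_top hC (ENNReal.pow_ne_top ENNReal.ofReal_ne_top)), ?_⟩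
  intro ε hε hε1 r g hg hgb β hβ
  have h1 := program_red (b := b) hΦ hε (r := r) hg hgb (P := pl T P) (fun e he => pl_snd he) hβ
  have h2 := H (pl T P) rfl (fun e he => by rw [pl_snd he]; exact hT) ε hε {r}
    (trv_single hconn r)
  have h3 := cost_le (P := pl T P) hT hε1 [] fun e he => (pl_snd he).le
  rw [Finset.card_singleton] at h2
  rw [← ENNReal.mul_le_mul_iff_right ω₃_ne_zero ω₃_ne_top]
  calc _ ≤ _ := h1
    _ ≤ _ := h2
    _ ≤ C * ENNReal.ofReal (ε ^ 2) ^ (Fintype.card ι - 1) *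
        ENNReal.ofReal (1 + T) ^ (pl T P).length := mul_le_mul' le_rfl h3
    _ = (ω₃ * ω₃⁻¹) * (C * ENNReal.ofReal (ε ^ 2) ^ (Fintype.card ι - 1) *
        ENNReal.ofReal (1 + T) ^ (pl T P).length) := by
        rw [ENNReal.mul_inv_cancel ω₃_ne_zero ω₃_ne_top, one_mul]
    _ = _ := by ring

/-- **The program theorem**, small part. -/
theorem program_small (hΦ : IsPotential Φ) (hT : 0 ≤ T) (hb : 0 < b) {P : List (Ev ι)}
    (hconn : ∀ i k, Jn (pl T P) i k) (hwf : Wf (pl T P)) (hcl : Closed (pl T P)) :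
    ∃ C : ℝ≥0∞, C ≠ ∞ ∧ ∀ ε : ℝ, 0 < ε → ε ≤ 1 → ∀ (r : ι) (g : Ph → ℝ≥0∞), Measurable g →
    (∀ v, ∫⁻ x : E3, g (x, v) ≤ gau b v) → ∀ β : (ι → Ph) → ι → ℝ, (∀ Z i, 0 ≤ β Z i) →
    ∫⁻ Z, {Z : ι → Ph | Run Φ ε T 0 (pl T P) (β Z) Z}.indicator
      (fun Z => g (Z r) * ∏ i ∈ Finset.univ.erase r, gau b (Z i).2) Z ≤
    C * ENNReal.ofReal (ε ^ 2) ^ (Fintype.card ι - 1) * ENNReal.ofReal (√ε) := by
  obtain ⟨C, hC, H⟩ := small_le (ι := ι) hΦ hT (pl T P).length b hb
  refine ⟨ω₃⁻¹ * C, ENNReal.mul_ne_top (ENNReal.inv_ne_top.2 ω₃_ne_zero) hC, ?_⟩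
  intro ε hε hε1 r g hg hgb β hβ
  have h1 := program_red (b := b) hΦ hε (r := r) hg hgb (P := pl T P) (fun e he => pl_snd he) hβ
  have h2 := H (pl T P) rfl (fun e he => pl_snd he) hwf hcl ε hε hε1 {r} (trv_single hconn r)
  rw [Finset.card_singleton] at h2
  rw [← ENNReal.mul_le_mul_iff_right ω₃_ne_zero ω₃_ne_top]
  calc _ ≤ _ := h1
    _ ≤ _ := h2
    _ = (ω₃ * ω₃⁻¹) * (C * ENNReal.ofReal (ε ^ 2) ^ (Fintype.card ι - 1) *
        ENNReal.ofReal (√ε)) := by
        rw [ENNReal.mul_inv_cancel ω₃_ne_zero ω₃_ne_top, one_mul]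
    _ = _ := by ring

end Vale.Agent.P119.IND
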