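import Vale.Agent.P119.IND.LawsR
import Vale.Agent.P119.IND.MassLe
import Vale.Agent.P119.IND.FJ
import Vale.Agent.P119.IND.Prog8

/-!
# P119, block IND: the mass of the programs, several components (`helper228`)

* `run_horizon`: a run for the horizon `T` and the births `β` is a run for a larger horizon and smaller
  births `≥ 0`;
* `massR_of_loc`: from the localised Gaussian mass to `MassR`: the density `f₀ e^{c|v|²}` of one label of
  every class is averaged over the translations of the class;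
* `massR_open`: **the mass of the programs** (with any transversal set of labels): bounded, uniformly
  in `ε ≤ 1`; `massR_closed`: `≤ C √ε` if the program is closed.
-/

open MeasureTheory Filter Topology Set
open scoped ENNReal NNReal

set_option linter.unusedSectionVars false

noncomputable section

namespace Vale.Agent.P119.IND

open KU FL GC MM PB.CT

variable {Φ : E3 → ℝ} {ε T b c : ℝ}

/-! ### Horizons and births -/

/-- A larger horizon, smaller births. -/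
theorem run_horizon {ι : Type} [DecidableEq ι] (hΦ : IsPotential Φ) (hε : 0 < ε) {T T' : ℝ}
    (hT : T ≤ T') {P : List (Ev ι)} {r : ℝ} (hr : 0 ≤ r) {β β' : ι → ℝ} {Z : ι → Ph}
    (hβ' : ∀ i, 0 ≤ β' i) (hβ : ∀ i, β' i ≤ β i) (h : Run Φ ε T r (pl T P) β Z) :
    Run Φ ε T' r (pl T' P) β' Z := by
  induction P generalizing r β β' Z with
  | nil => trivial
  | cons e P ih =>
    obtain ⟨s, h1, h2, h3, h4⟩ := h
    have h5 : 0 ≤ s := hr.trans h1
    cases e with
    | sc i k =>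
      obtain ⟨a1, a2, a3, a4, a5, a6, a7, a8⟩ := h3
      have h6 : 0 ≤ sepT Φ ε (Z i, Z k) := by
        have h7 := hitT_lt_sepT hΦ hε a3 a2.2
        rw [a4] at h7
        linarith
      refine ⟨s, h1, h2.trans hT, ⟨a1, a2, a3, a4, (hβ i).trans_lt a5, (hβ k).trans_lt a6,
        a7.trans hT, ?_⟩, ih h5 (fun j => ?_) (fun j => ?_) h4⟩
      · have := le_max_left (β' i) (β' k)
        have := hβ' i
        change s ≤ max (β' i) (β' k) + T'
        linarith
      · simp only [birthApp]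
        by_cases hk : j = k
        · subst hk; rw [Function.update_self]; exact h6
        · rw [Function.update_of_ne hk]
          by_cases hi : j = i
          · subst hi; rw [Function.update_self]; exact h6
          · rw [Function.update_of_ne hi]; exact hβ' j
      · simp only [birthApp]
        by_cases hk : j = k
        · subst hk; rw [Function.update_self, Function.update_self]
        · rw [Function.update_of_ne hk, Function.update_of_ne hk]
          by_cases hi : j = i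
          · subst hi; rw [Function.update_self, Function.update_self]
          · rw [Function.update_of_ne hi, Function.update_of_ne hi]; exact hβ j
    | gh i k =>
      obtain ⟨a1, a2, a3, a4, a5⟩ := h3
      refine ⟨s, h1, h2.trans hT, ⟨a1, (hβ i).trans a2, (hβ k).trans a3, a4, ?_⟩,
        ih h5 hβ' hβ h4⟩
      have := le_max_left (β' i) (β' k)
      have := hβ' i
      change s ≤ max (β' i) (β' k) + T'
      linarith

theorem relP_horizon (hΦ : IsPotential Φ) (hε : 0 < ε) {T T' : ℝ} (hT : T ≤ T') {n : ℕ}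
    {P : List (Ev (Fin n))} {y : Fin n → ℝ × Ph} (hy : ∀ i, 0 ≤ (y i).1)
    (h : y ∈ relP Φ ε T P) : y ∈ relP Φ ε T' P :=
  run_horizon hΦ hε hT le_rfl hy (fun _ => le_rfl) h

/-! ### From localised masses to `MassR` -/

section Loc

variable {n : ℕ}

/-- The densities: `f₀ e^{c|v|²}` on `A`, localised Gaussian on `Rs \ A`, Gaussian elsewhere. -/
def dens (f₀ : Ph → ℝ) (b c : ℝ) (Rs A : Finset (Fin n)) (Z : Fin n → Ph) (i : Fin n) : ℝ≥0∞ :=
  if i ∈ A then ENNReal.ofReal (f₀ (Z i)) * g1 (-c) (Z i).2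
  else if i ∈ Rs then φ₁ (Z i).1 * g1 (b - c) (Z i).2 else g1 (b - c) (Z i).2

theorem measurable_dens {f₀ : Ph → ℝ} (hf : Measurable f₀) (Rs A : Finset (Fin n)) (i : Fin n) :
    Measurable fun Z : Fin n → Ph => dens f₀ b c Rs A Z i := by
  unfold dens
  by_cases h1 : i ∈ A
  · simp only [if_pos h1]
    exact (hf.ennreal_ofReal.comp (measurable_pi_apply i)).mul
      ((measurable_g1 (-c)).comp (measurable_pi_apply i))
  · simp only [if_neg h1]
    by_cases h2 : i ∈ Rs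
    · simp only [if_pos h2]
      exact (measurable_φ₁.comp (measurable_pi_apply i).fst).mul
        ((measurable_g1 (b - c)).comp (measurable_pi_apply i))
    · simp only [if_neg h2]
      exact (measurable_g1 (b - c)).comp (measurable_pi_apply i)

theorem prod_dens_empty (f₀ : Ph → ℝ) (Rs : Finset (Fin n)) (Z : Fin n → Ph) :
    ∏ i, dens f₀ b c Rs ∅ Z i = spat Rs Z * wgt (b - c) Z := by
  have h1 : ∀ i, dens f₀ b c Rs ∅ Z i = (if i ∈ Rs then φ₁ (Z i).1 else 1) *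
      g1 (b - c) (Z i).2 := by
    intro i
    unfold dens
    rw [if_neg (Finset.notMem_empty i)]
    split_ifs
    · rfl
    · rw [one_mul]
  rw [Finset.prod_congr rfl fun i _ => h1 i, Finset.prod_mul_distrib, wgt_eq_g1]
  congr 1
  unfold spat
  rw [Finset.prod_ite_mem, Finset.univ_inter]

theorem prod_dens_self (f₀ : Ph → ℝ) (Rs : Finset (Fin n)) (Z : Fin n → Ph) :
    ∏ i, dens f₀ b c Rs Rs Z i =
      (∏ r ∈ Rs, (ENNReal.ofReal (f₀ (Z r)) * g1 (-c) (Z r).2)) *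
        ∏ i ∈ Rsᶜ, g1 (b - c) (Z i).2 := by
  rw [← Finset.prod_mul_prod_compl Rs]
  congr 1
  · refine Finset.prod_congr rfl fun i hi => ?_
    unfold dens
    rw [if_pos hi]
  · refine Finset.prod_congr rfl fun i hi => ?_
    unfold dens
    rw [if_neg (Finset.mem_compl.1 hi), if_neg (Finset.mem_compl.1 hi)]

/-- One label of `Rs`: its density is averaged over the translations of its class. -/
theorem dens_step {f₀ : Ph → ℝ} (hf : Measurable f₀) {M₁ : ℝ} (hM₁ : 0 ≤ M₁)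
    (hmarg : ∀ v, ∫⁻ x, ENNReal.ofReal (f₀ (x, v)) ≤ ENNReal.ofReal (M₁ * Real.exp (-b * ‖v‖ ^ 2)))
    {P : List (Ev (Fin n) × ℝ)} {Rs A : Finset (Fin n)} (hRs : Trv P Rs) (hA : A ⊆ Rs) {r : Fin n}
    (hr : r ∈ Rs) (hrA : r ∉ A) {S : Set (Fin n → Ph)} (hSm : MeasurableSet S)
    (hS : ∀ (a : E3) (Z : Fin n → Ph), mv (cls P r) ((a, 0) : Ph) Z ∈ S ↔ Z ∈ S) :
    ∫⁻ Z, S.indicator 1 Z * ∏ i, dens f₀ b c Rs (insert r A) Z i ≤
      ENNReal.ofReal M₁ * ω₃⁻¹ * ∫⁻ Z, S.indicator 1 Z * ∏ i, dens f₀ b c Rs A Z i := by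
  set B := cls P r with hB
  have hrB : r ∈ B := self_mem_cls P r
  have hI : Measurable (S.indicator (1 : (Fin n → Ph) → ℝ≥0∞)) := measurable_const.indicator hSm
  have hSi : ∀ (a : E3) (Z : Fin n → Ph), S.indicator (1 : (Fin n → Ph) → ℝ≥0∞)
      (mv B ((a, 0) : Ph) Z) = S.indicator (1 : (Fin n → Ph) → ℝ≥0∞) Z := by
    intro a Z
    by_cases hZ : Z ∈ S
    · rw [indicator_of_mem hZ, indicator_of_mem ((hS a Z).2 hZ)]; rfl
    · rw [indicator_of_notMem hZ, indicator_of_notMem fun h' => hZ ((hS a Z).1 h')]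
  have hd : ∀ (a : E3) (Z : Fin n → Ph), ∀ i ∈ Finset.univ.erase r,
      dens f₀ b c Rs A (mv B ((a, 0) : Ph) Z) i = dens f₀ b c Rs A Z i := by
    intro a Z i hi
    by_cases hiB : i ∈ B
    · have h1 : i ∉ Rs := by
        intro h2
        have h3 := hRs.uni r hr i h2 (mem_cls.1 hiB)
        exact (Finset.mem_erase.1 hi).1 h3.symm
      have h2 : i ∉ A := fun h => h1 (hA h)
      unfold dens
      rw [if_neg h2, if_neg h2, if_neg h1, if_neg h1, mv_of_mem hiB]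
      unfold boost
      simp
    · unfold dens
      rw [mv_of_notMem hiB]
  have hFm : Measurable fun Z : Fin n → Ph => S.indicator (1 : (Fin n → Ph) → ℝ≥0∞) Z *
      ∏ i ∈ Finset.univ.erase r, dens f₀ b c Rs A Z i :=
    hI.mul (Finset.measurable_prod _ fun i _ => measurable_dens hf Rs A i)
  have hHm : Measurable fun z : Ph => ENNReal.ofReal (f₀ z) * g1 (-c) z.2 :=
    hf.ennreal_ofReal.mul (measurable_g1 (-c))
  have key := lintegral_avg B
    (F := fun Z => S.indicator (1 : (Fin n → Ph) → ℝ≥0∞) Z *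
      ∏ i ∈ Finset.univ.erase r, dens f₀ b c Rs A Z i)
    (H := fun Z => ENNReal.ofReal (f₀ (Z r)) * g1 (-c) (Z r).2) hFm
    (hHm.comp (measurable_pi_apply r)) (fun a Z => by
      rw [hSi, Finset.prod_congr rfl (hd a Z)])
    (U := fun Z => (Z r).1) (measurable_fst.comp (measurable_pi_apply r))
    (fun a Z => by rw [mv_of_mem hrB]; rfl) measurable_φ₁
  rw [lintegral_φ₁] at key
  have h1 : ∀ Z : Fin n → Ph, ∫⁻ a : E3, ENNReal.ofReal (f₀ (mv B ((a, 0) : Ph) Z r)) *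
      g1 (-c) (mv B ((a, 0) : Ph) Z r).2 ≤ ENNReal.ofReal M₁ * g1 (b - c) (Z r).2 := by
    intro Z
    have e1 : ∀ a : E3, mv B ((a, 0) : Ph) Z r = ((Z r).1 + a, (Z r).2) := fun a => by
      rw [mv_of_mem hrB]
      unfold boost
      simp
    simp only [e1]
    have hm1 : Measurable fun a : E3 => ENNReal.ofReal (f₀ ((Z r).1 + a, (Z r).2)) :=
      (hf.comp ((measurable_const_add _).prodMk measurable_const)).ennreal_ofReal
    rw [lintegral_mul_const _ hm1,
      lintegral_add_left_eq_self (fun x => ENNReal.ofReal (f₀ (x, (Z r).2))) (Z r).1]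
    refine (mul_le_mul' (hmarg (Z r).2) le_rfl).trans (le_of_eq ?_)
    rw [ENNReal.ofReal_mul hM₁, mul_assoc]
    congr 1
    have h2 := g1_mul b (-c) (Z r).2
    rw [show b + -c = b - c by ring] at h2
    rw [← h2]
    rfl
  have e1 : ∀ Z : Fin n → Ph, S.indicator (1 : (Fin n → Ph) → ℝ≥0∞) Z *
      ∏ i, dens f₀ b c Rs (insert r A) Z i =
      S.indicator (1 : (Fin n → Ph) → ℝ≥0∞) Z * (∏ i ∈ Finset.univ.erase r, dens f₀ b c Rs A Z i) *
        (ENNReal.ofReal (f₀ (Z r)) * g1 (-c) (Z r).2) := by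
    intro Z
    rw [← Finset.mul_prod_erase _ _ (Finset.mem_univ r)]
    have h2 : dens f₀ b c Rs (insert r A) Z r = ENNReal.ofReal (f₀ (Z r)) * g1 (-c) (Z r).2 := by
      unfold dens
      rw [if_pos (Finset.mem_insert_self r A)]
    have h3 : ∏ i ∈ Finset.univ.erase r, dens f₀ b c Rs (insert r A) Z i =
        ∏ i ∈ Finset.univ.erase r, dens f₀ b c Rs A Z i := by
      refine Finset.prod_congr rfl fun i hi => ?_
      have h4 : i ≠ r := (Finset.mem_erase.1 hi).1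
      unfold dens
      by_cases h5 : i ∈ A
      · rw [if_pos h5, if_pos (Finset.mem_insert_of_mem h5)]
      · rw [if_neg h5, if_neg fun h => (Finset.mem_insert.1 h).elim h4 h5]
    rw [h2, h3]
    ring
  have e2 : ∀ Z : Fin n → Ph, S.indicator (1 : (Fin n → Ph) → ℝ≥0∞) Z *
      ∏ i, dens f₀ b c Rs A Z i =
      S.indicator (1 : (Fin n → Ph) → ℝ≥0∞) Z * (∏ i ∈ Finset.univ.erase r, dens f₀ b c Rs A Z i) *
        φ₁ (Z r).1 * g1 (b - c) (Z r).2 := by
    intro Z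
    rw [← Finset.mul_prod_erase _ _ (Finset.mem_univ r)]
    have h2 : dens f₀ b c Rs A Z r = φ₁ (Z r).1 * g1 (b - c) (Z r).2 := by
      unfold dens
      rw [if_neg hrA, if_pos hr]
    rw [h2]
    ring
  have h2 : ω₃ * ∫⁻ Z, S.indicator 1 Z * ∏ i, dens f₀ b c Rs (insert r A) Z i ≤
      ENNReal.ofReal M₁ * ∫⁻ Z, S.indicator 1 Z * ∏ i, dens f₀ b c Rs A Z i := by
    simp only [e1, e2]
    rw [key, ← lintegral_const_mul' _ _ ENNReal.ofReal_ne_top]
    refine lintegral_mono fun Z => (mul_le_mul' le_rfl (h1 Z)).trans (le_of_eq ?_)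
    ring
  rw [mul_comm (ENNReal.ofReal M₁), mul_assoc, ← ENNReal.div_eq_inv_mul,
    ENNReal.le_div_iff_mul_le (Or.inl ω₃_ne_zero) (Or.inl ω₃_ne_top), mul_comm]
  exact h2

/-- **From localised masses to `MassR`.** -/
theorem massR_of_loc {f₀ : Ph → ℝ} (hf : Measurable f₀) {M₁ : ℝ} (hM₁ : 0 ≤ M₁)
    (hmarg : ∀ v, ∫⁻ x, ENNReal.ofReal (f₀ (x, v)) ≤ ENNReal.ofReal (M₁ * Real.exp (-b * ‖v‖ ^ 2)))
    (hε : 0 < ε) {P : List (Ev (Fin n) × ℝ)} {Rs : Finset (Fin n)} (hRs : Trv P Rs)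
    {R : Set (Fin n → ℝ × Ph)} (hR : MeasurableSet R)
    (hinv : ∀ r ∈ Rs, ∀ (β : Fin n → ℝ) (a : E3) (Z : Fin n → Ph),
      (fun i => (β i, mv (cls P r) ((a, 0) : Ph) Z i)) ∈ R ↔ (fun i => (β i, Z i)) ∈ R)
    {δ : ℝ≥0∞} (h : ∀ β : Fin n → ℝ, (∀ i, 0 ≤ β i) →
      ∫⁻ Z : Fin n → Ph, spat Rs Z * (wgt (b - c) Z *
        ({Z : Fin n → Ph | (fun i => (β i, Z i)) ∈ R}).indicator 1 Z) ≤
      ENNReal.ofReal (ε ^ 2) ^ (n - Rs.card) * δ) :
    MassR f₀ ε b c R Rs ((ENNReal.ofReal M₁ * ω₃⁻¹) ^ Rs.card * δ) := by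
  intro β hβ
  set S : Set (Fin n → Ph) := {Z : Fin n → Ph | (fun i => (β i, Z i)) ∈ R} with hS
  have hSm : MeasurableSet S := by
    have h1 : Measurable fun Z : Fin n → Ph => fun i => (β i, Z i) :=
      measurable_pi_iff.2 fun i => measurable_const.prodMk (measurable_pi_apply i)
    exact h1 hR
  have key : ∀ A : Finset (Fin n), A ⊆ Rs →
      ∫⁻ Z, S.indicator 1 Z * ∏ i, dens f₀ b c Rs A Z i ≤
        (ENNReal.ofReal M₁ * ω₃⁻¹) ^ A.card *
          ∫⁻ Z, S.indicator 1 Z * ∏ i, dens f₀ b c Rs ∅ Z i := by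
    intro A
    induction A using Finset.induction_on with
    | empty => intro _; simp
    | insert r A hrA ih =>
      intro hA
      have h1 := ih ((Finset.subset_insert r A).trans hA)
      have hr : r ∈ Rs := hA (Finset.mem_insert_self r A)
      refine (dens_step hf hM₁ hmarg hRs ((Finset.subset_insert r A).trans hA) hr hrA hSm
        (hinv r hr β)).trans ?_
      rw [Finset.card_insert_of_notMem hrA, pow_succ', mul_assoc (ENNReal.ofReal M₁ * ω₃⁻¹)]
      exact mul_le_mul_right h1 _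
  have h1 := key Rs Finset.Subset.rfl
  simp only [prod_dens_empty, prod_dens_self] at h1
  have e1 : ∀ Z : Fin n → Ph, S.indicator (fun Z => (∏ r ∈ Rs, (ENNReal.ofReal (f₀ (Z r)) *
      g1 (-c) (Z r).2)) * ∏ i ∈ Rsᶜ, g1 (b - c) (Z i).2) Z = S.indicator 1 Z *
      ((∏ r ∈ Rs, (ENNReal.ofReal (f₀ (Z r)) * g1 (-c) (Z r).2)) *
        ∏ i ∈ Rsᶜ, g1 (b - c) (Z i).2) := by
    intro Z
    by_cases hZ : Z ∈ S
    · rw [indicator_of_mem hZ, indicator_of_mem hZ, Pi.one_apply, one_mul]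
    · rw [indicator_of_notMem hZ, indicator_of_notMem hZ, zero_mul]
  have e2 : ∀ Z : Fin n → Ph, S.indicator (1 : (Fin n → Ph) → ℝ≥0∞) Z *
      (spat Rs Z * wgt (b - c) Z) = spat Rs Z * (wgt (b - c) Z * S.indicator 1 Z) := by
    intro Z
    ring
  simp only [e1]
  simp only [e2] at h1
  calc _ ≤ muE ε ^ (n - Rs.card) * ((ENNReal.ofReal M₁ * ω₃⁻¹) ^ Rs.card *
        (ENNReal.ofReal (ε ^ 2) ^ (n - Rs.card) * δ)) :=
        mul_le_mul_right (h1.trans (mul_le_mul_right (h β hβ) _)) _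
    _ = (ENNReal.ofReal M₁ * ω₃⁻¹) ^ Rs.card * (muE ε ^ (n - Rs.card) *
        (ENNReal.ofReal (ε ^ 2) ^ (n - Rs.card) * δ)) := by ring
    _ = _ := by rw [muE_pow_mul hε]

end Loc

/-- A program is invariant under the translations of its classes. -/
theorem relP_inv {n : ℕ} (P : List (Ev (Fin n))) (r : Fin n) (β : Fin n → ℝ) (a : E3)
    (Z : Fin n → Ph) : (fun i => (β i, mv (cls (pl T P) r) ((a, 0) : Ph) Z i)) ∈ relP Φ ε T P ↔
      (fun i => (β i, Z i)) ∈ relP Φ ε T P :=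
  run_mv (cl_cls (pl T P) r) _ 0 β Z

/-- The localised mass with births `β ≥ 0`. -/
theorem locR_le_mass (hΦ : IsPotential Φ) (hε : 0 < ε) {n : ℕ} (P : List (Ev (Fin n)))
    (Rs : Finset (Fin n)) {β : Fin n → ℝ} (hβ : ∀ i, 0 ≤ β i) :
    ∫⁻ Z : Fin n → Ph, spat Rs Z * (wgt b Z *
        ({Z : Fin n → Ph | (fun i => (β i, Z i)) ∈ relP Φ ε T P}).indicator 1 Z) ≤
      mass Φ ε T b Rs (pl T P) := by
  refine lintegral_mono fun Z => mul_le_mul' le_rfl (mul_le_mul' le_rfl ?_)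
  by_cases hZ : Z ∈ {Z : Fin n → Ph | (fun i => (β i, Z i)) ∈ relP Φ ε T P}
  · have h1 : Run Φ ε T 0 (pl T P) (fun _ => 0) Z :=
      run_horizon hΦ hε le_rfl le_rfl (fun _ => le_rfl) hβ hZ
    rw [indicator_of_mem hZ, runI_of _ h1]
    exact le_rfl
  · rw [indicator_of_notMem hZ]
    exact zero_le

/-- **The mass of the programs**, any transversal set of labels. -/
theorem massR_open (hΦ : IsPotential Φ) {f₀ : Ph → ℝ} (hf : Measurable f₀) {M₁ : ℝ} (hM₁ : 0 ≤ M₁)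
    (hmarg : ∀ v, ∫⁻ x, ENNReal.ofReal (f₀ (x, v)) ≤ ENNReal.ofReal (M₁ * Real.exp (-b * ‖v‖ ^ 2)))
    (hbc : c < b) {T : ℝ} (hT : 0 ≤ T) (N : ℕ) :
    ∃ C : ℝ≥0∞, C ≠ ∞ ∧ ∀ ε : ℝ, 0 < ε → ε ≤ 1 → ∀ n ≤ N, ∀ P : List (Ev (Fin n)), P.length ≤ N →
      ∀ Rs, Trv (pl T P) Rs → MassR f₀ ε b c (relP Φ ε T P) Rs C := by
  have h1 : ∀ n k : ℕ, ∃ C : ℝ≥0∞, C ≠ ∞ ∧ ∀ P : List (Ev (Fin n) × ℝ), P.length = k →
      (∀ e ∈ P, 0 ≤ e.2) → ∀ ε : ℝ, 0 < ε → ∀ R : Finset (Fin n), Trv P R →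
      mass Φ ε T (b - c) R P ≤
        C * ENNReal.ofReal (ε ^ 2) ^ (Fintype.card (Fin n) - R.card) * cost ε [] P := fun n k =>
    mass_le hΦ T k (b - c) (by linarith)
  choose C hC h using h1
  set K : ℝ≥0∞ := 1 + ENNReal.ofReal M₁ * ω₃⁻¹ with hK
  have hK1 : 1 ≤ K := le_self_add
  have hKt : K ≠ ∞ := by
    rw [hK]
    exact ENNReal.add_ne_top.2 ⟨ENNReal.one_ne_top, ENNReal.mul_ne_top ENNReal.ofReal_ne_top
      (ENNReal.inv_ne_top.2 ω₃_ne_zero)⟩
  set A : ℝ≥0∞ := ENNReal.ofReal (1 + T) with hA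
  have hA1 : 1 ≤ A := by
    rw [hA, ← ENNReal.ofReal_one]
    exact ENNReal.ofReal_le_ofReal (by linarith)
  refine ⟨K ^ N * ((∑ n ∈ Finset.range (N + 1), ∑ k ∈ Finset.range (N + 1), C n k) * A ^ N),
    ENNReal.mul_ne_top (ENNReal.pow_ne_top hKt) (ENNReal.mul_ne_top (ENNReal.sum_ne_top.2
      fun n _ => ENNReal.sum_ne_top.2 fun k _ => hC n k) (ENNReal.pow_ne_top
      ENNReal.ofReal_ne_top)), ?_⟩
  intro ε hε hε1 n hn P hP Rs hRs
  have h2 : MassR f₀ ε b c (relP Φ ε T P) Rs ((ENNReal.ofReal M₁ * ω₃⁻¹) ^ Rs.card *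
      (C n P.length * A ^ P.length)) := by
    refine massR_of_loc hf hM₁ hmarg hε hRs (measurableSet_relP hΦ hε.ne' P)
      (fun r _ β a Z => relP_inv P r β a Z) fun β hβ => ?_
    refine (locR_le_mass hΦ hε P Rs hβ).trans ?_
    have h3 := h n P.length (pl T P) (by simp [pl]) (fun e he => by
      obtain ⟨e', -, rfl⟩ := List.mem_map.1 he
      exact hT) ε hε Rs hRs
    rw [Fintype.card_fin] at h3
    have h4 : cost ε [] (pl T P) ≤ A ^ P.length := by
      have h5 := cost_le hT hε1 [] (P := pl T P) fun e he => by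
        obtain ⟨e', -, rfl⟩ := List.mem_map.1 he
        exact le_rfl
      rwa [show (pl T P).length = P.length by simp [pl]] at h5
    calc _ ≤ C n P.length * ENNReal.ofReal (ε ^ 2) ^ (n - Rs.card) * cost ε [] (pl T P) := h3
      _ ≤ C n P.length * ENNReal.ofReal (ε ^ 2) ^ (n - Rs.card) * A ^ P.length :=
        mul_le_mul_right h4 _
      _ = _ := by ring
  intro β hβ
  refine (h2 β hβ).trans ?_
  have h3 : (ENNReal.ofReal M₁ * ω₃⁻¹) ^ Rs.card ≤ K ^ N := by
    have h4 : Rs.card ≤ N := by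
      have := Finset.card_le_univ Rs
      rw [Fintype.card_fin] at this
      omega
    calc (ENNReal.ofReal M₁ * ω₃⁻¹) ^ Rs.card ≤ K ^ Rs.card :=
          pow_le_pow_left' le_add_self _
      _ ≤ K ^ N := pow_le_pow_right₀ hK1 h4
  have h5 : C n P.length ≤ ∑ n ∈ Finset.range (N + 1), ∑ k ∈ Finset.range (N + 1), C n k := by
    refine le_trans ?_ (Finset.single_le_sum (f := fun n => ∑ k ∈ Finset.range (N + 1), C n k)
      (fun _ _ => zero_le) (Finset.mem_range.2 (Nat.lt_succ_of_le hn)))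
    exact Finset.single_le_sum (f := fun k => C n k) (fun _ _ => zero_le)
      (Finset.mem_range.2 (Nat.lt_succ_of_le hP))
  have h6 : A ^ P.length ≤ A ^ N := pow_le_pow_right₀ hA1 hP
  exact mul_le_mul' h3 (mul_le_mul' h5 h6)

/-- **The mass of the closed programs**, any transversal set of labels. -/
theorem massR_closed (hΦ : IsPotential Φ) {f₀ : Ph → ℝ} (hf : Measurable f₀) {M₁ : ℝ}
    (hM₁ : 0 ≤ M₁)
    (hmarg : ∀ v, ∫⁻ x, ENNReal.ofReal (f₀ (x, v)) ≤ ENNReal.ofReal (M₁ * Real.exp (-b * ‖v‖ ^ 2)))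
    (hbc : c < b) {T : ℝ} (hT : 0 ≤ T) (N : ℕ) :
    ∃ C : ℝ≥0∞, C ≠ ∞ ∧ ∀ ε : ℝ, 0 < ε → ε ≤ 1 → ∀ n ≤ N, ∀ P : List (Ev (Fin n)), P.length ≤ N →
      Wf (pl T P) → Closed (pl T P) → ∀ Rs, Trv (pl T P) Rs →
      MassR f₀ ε b c (relP Φ ε T P) Rs (C * ENNReal.ofReal (√ε)) := by
  have h1 : ∀ n k : ℕ, ∃ C : ℝ≥0∞, C ≠ ∞ ∧ ∀ P : List (Ev (Fin n) × ℝ), P.length = k →
      (∀ e ∈ P, e.2 = T) → Wf P → Closed P → ∀ ε : ℝ, 0 < ε → ε ≤ 1 → ∀ R : Finset (Fin n),
      Trv P R → mass Φ ε T (b - c) R P ≤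
        C * ENNReal.ofReal (ε ^ 2) ^ (Fintype.card (Fin n) - R.card) * ENNReal.ofReal (√ε) :=
    fun n k => small_le hΦ hT k (b - c) (by linarith)
  choose C hC h using h1
  set K : ℝ≥0∞ := 1 + ENNReal.ofReal M₁ * ω₃⁻¹ with hK
  have hK1 : 1 ≤ K := le_self_add
  have hKt : K ≠ ∞ := by
    rw [hK]
    exact ENNReal.add_ne_top.2 ⟨ENNReal.one_ne_top, ENNReal.mul_ne_top ENNReal.ofReal_ne_top
      (ENNReal.inv_ne_top.2 ω₃_ne_zero)⟩
  refine ⟨K ^ N * ∑ n ∈ Finset.range (N + 1), ∑ k ∈ Finset.range (N + 1), C n k,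
    ENNReal.mul_ne_top (ENNReal.pow_ne_top hKt) (ENNReal.sum_ne_top.2
      fun n _ => ENNReal.sum_ne_top.2 fun k _ => hC n k), ?_⟩
  intro ε hε hε1 n hn P hP hwf hcl Rs hRs
  have h2 : MassR f₀ ε b c (relP Φ ε T P) Rs ((ENNReal.ofReal M₁ * ω₃⁻¹) ^ Rs.card *
      (C n P.length * ENNReal.ofReal (√ε))) := by
    refine massR_of_loc hf hM₁ hmarg hε hRs (measurableSet_relP hΦ hε.ne' P)
      (fun r _ β a Z => relP_inv P r β a Z) fun β hβ => ?_
    refine (locR_le_mass hΦ hε P Rs hβ).trans ?_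
    have h3 := h n P.length (pl T P) (by simp [pl]) (fun e he => pl_snd he) hwf hcl ε hε hε1 Rs hRs
    rw [Fintype.card_fin] at h3
    calc _ ≤ _ := h3
      _ = _ := by ring
  intro β hβ
  refine (h2 β hβ).trans ?_
  have h3 : (ENNReal.ofReal M₁ * ω₃⁻¹) ^ Rs.card ≤ K ^ N := by
    have h4 : Rs.card ≤ N := by
      have := Finset.card_le_univ Rs
      rw [Fintype.card_fin] at this
      omega
    calc (ENNReal.ofReal M₁ * ω₃⁻¹) ^ Rs.card ≤ K ^ Rs.card :=
          pow_le_pow_left' le_add_self _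
      _ ≤ K ^ N := pow_le_pow_right₀ hK1 h4
  have h5 : C n P.length ≤ ∑ n ∈ Finset.range (N + 1), ∑ k ∈ Finset.range (N + 1), C n k := by
    refine le_trans ?_ (Finset.single_le_sum (f := fun n => ∑ k ∈ Finset.range (N + 1), C n k)
      (fun _ _ => zero_le) (Finset.mem_range.2 (Nat.lt_succ_of_le hn)))
    exact Finset.single_le_sum (f := fun k => C n k) (fun _ _ => zero_le)
      (Finset.mem_range.2 (Nat.lt_succ_of_le hP))
  rw [mul_assoc]
  exact mul_le_mul' h3 (mul_le_mul_left h5 _)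

end Vale.Agent.P119.IND
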