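import Vale.Agent.P119.IND.Ig
import Vale.Agent.P119.IND.FamLaw2
import Vale.Agent.P119.IND.Timed
import Vale.Agent.P119.IND.MassOpen

/-!
# P119, block IND: irregular contacts of two labels, timed programs and `MassR` (`helper350`)

* `RunT.exists_ig`: a timed program with a contact of the final lines of two labels at the time `s`,
  which is at the later one of the two births, or tangential, gives `IgRun`;
* `relIg`, `measurableSet_relIg`, `relIg_inv`;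
* `massR_ig`: `MassR` with `C √ε`, uniformly in `ε ∈ (0, 1]`.
-/

open MeasureTheory Filter Topology Set
open scoped ENNReal NNReal

set_option linter.unusedSectionVars false

noncomputable section

namespace Vale.Agent.P119.IND

open KU MM FL GC PB.CT

variable {Φ : E3 → ℝ} {ε T b c : ℝ}

/-! ### From timed programs -/

theorem map_fst_pl {ι : Type} (T : ℝ) (P : List (Ev ι)) : (pl T P).map Prod.fst = P := by
  unfold pl
  rw [List.map_map]
  exact List.map_id' _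

/-- **A timed program with an irregular contact at the time `s`.** -/
theorem RunT.exists_ig {ι : Type} [DecidableEq ι] (hΦ : IsPotential Φ) (hε : 0 < ε)
    {Q : List (Ev ι × ℝ)} {β : ι → ℝ} {Z : ι → Ph} (hβ : ∀ j, 0 ≤ β j)
    (h : RunT Φ ε T 0 Q β Z) (hw : Wf Q) {i k : ι} (hik : i ≠ k) {s : ℝ} (h0 : 0 ≤ s) (hsT : s ≤ T)
    (hi : ∀ e ∈ Q, e.1.fst = i ∨ e.1.snd = i → e.2 ≤ s)
    (hk : ∀ e ∈ Q, e.1.fst = k ∨ e.1.snd = k → e.2 ≤ s)
    (nd : ∀ e ∈ Q, ∀ a d, e.1 = Ev.gh a d → a ≠ i ∧ a ≠ k)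
    (hBi : finB Φ ε Q β Z i ≤ s) (hBk : finB Φ ε Q β Z k ≤ s)
    (hc : Ctc ε (KU.free s (finZ Φ ε Q Z i)) (KU.free s (finZ Φ ε Q Z k)))
    (hI : Ig ε (finB Φ ε Q β Z i, finZ Φ ε Q Z i) (finB Φ ε Q β Z k, finZ Φ ε Q Z k)) :
    ∃ P₁ P₂ : List (Ev ι), P₁ ++ P₂ = Q.map Prod.fst ∧ Fin2OK T P₁ i k P₂ ∧
      IgRun Φ ε T P₁ i k P₂ β Z := by
  obtain ⟨Q₁, Q₂, hQ, h1, h2, h3⟩ := h.insert_ghost h0 hsT hik hi hk hBi hBk hc
  subst hQ
  have hni : ∀ e ∈ Q₂, e.1.fst ≠ i ∧ e.1.snd ≠ i := by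
    intro e he
    have h4 := h2 e he
    exact ⟨fun h5 => absurd (hi e (List.mem_append_right _ he) (Or.inl h5)) (not_le.2 h4),
      fun h5 => absurd (hi e (List.mem_append_right _ he) (Or.inr h5)) (not_le.2 h4)⟩
  have hnk : ∀ e ∈ Q₂, e.1.fst ≠ k ∧ e.1.snd ≠ k := by
    intro e he
    have h4 := h2 e he
    exact ⟨fun h5 => absurd (hk e (List.mem_append_right _ he) (Or.inl h5)) (not_le.2 h4),
      fun h5 => absurd (hk e (List.mem_append_right _ he) (Or.inr h5)) (not_le.2 h4)⟩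
  have hwf : Wf (Q₁ ++ (Ev.gh i k, s) :: Q₂) :=
    wf_insert hw (fun e he a d had => nd e (List.mem_append_left _ he) a d had) hni
  have e1 : (Q₁ ++ (Ev.gh i k, s) :: Q₂).map Prod.fst =
      Q₁.map Prod.fst ++ Ev.gh i k :: Q₂.map Prod.fst := by simp
  have e2 : (pl T (Q₁.map Prod.fst ++ Q₂.map Prod.fst)).map Prod.fst =
      (Q₁ ++ Q₂).map Prod.fst := by
    rw [map_fst_pl, List.map_append]
  refine ⟨Q₁.map Prod.fst, Q₂.map Prod.fst, by rw [List.map_append], ⟨?_, hik, ?_, ?_⟩, ?_, ?_⟩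
  · refine wf_fst ?_ hwf
    rw [map_fst_pl, e1]
  · intro e he
    obtain ⟨e', he', rfl⟩ := List.mem_map.1 he
    exact hni e' he'
  · intro e he
    obtain ⟨e', he', rfl⟩ := List.mem_map.1 he
    exact hnk e' he'
  · have h5 := h3.run hΦ hε hβ
    rw [e1] at h5
    exact h5
  · rw [finB_fst e2, finZ_fst e2]
    exact hI

/-! ### The relation -/

/-- The relation of a program with an irregular contact. -/
def relIg (Φ : E3 → ℝ) (ε T : ℝ) {n : ℕ} (P₁ : List (Ev (Fin n))) (i k : Fin n)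
    (P₂ : List (Ev (Fin n))) : Set (Fin n → ℝ × Ph) :=
  {y | IgRun Φ ε T P₁ i k P₂ (fun i => (y i).1) fun i => (y i).2}

theorem measurableSet_relIg (hΦ : IsPotential Φ) (hε : ε ≠ 0) {n : ℕ} (P₁ : List (Ev (Fin n)))
    (i k : Fin n) (P₂ : List (Ev (Fin n))) : MeasurableSet (relIg Φ ε T P₁ i k P₂) := by
  refine (measurableSet_relP hΦ hε (T := T) (P₁ ++ Ev.gh i k :: P₂)).inter ?_
  have h := (measurable_finS hΦ hε (pl T (P₁ ++ P₂)) i).prodMk
    (measurable_finS hΦ hε (pl T (P₁ ++ P₂)) k)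
  exact h measurableSet_ig

/-- `Ig` is invariant under the motions of both lines. -/
theorem ig_boost (c' : Ph) (β₁ β₂ : ℝ) (p q : Ph) :
    Ig ε (β₁, boost c' p) (β₂, boost c' q) ↔ Ig ε (β₁, p) (β₂, q) := by
  unfold Ig
  simp only
  rw [free_boost, free_boost, ctc_boost]
  have e : (((boost c' p).1 - (boost c' q).1, (boost c' p).2 - (boost c' q).2) : Ph) =
      (p.1 - q.1, p.2 - q.2) := by
    unfold boost
    simp only [add_sub_add_right_eq_sub]
  rw [e]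

/-- The relation is invariant under the motions of a set of labels which is closed for the whole
program. -/
theorem igRun_mv {ι : Type} [DecidableEq ι] {P₁ P₂ : List (Ev ι)} {i k : ι}
    {B : Finset ι} (hB : Cl B (pl T (P₁ ++ Ev.gh i k :: P₂))) (c' : Ph) (β : ι → ℝ) (Z : ι → Ph) :
    IgRun Φ ε T P₁ i k P₂ β (mv B c' Z) ↔ IgRun Φ ε T P₁ i k P₂ β Z := by
  have hcl : Cl B (pl T (P₁ ++ P₂)) := by
    refine hB.mono fun e he => ?_
    obtain ⟨e', he', rfl⟩ := List.mem_map.1 he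
    refine List.mem_map.2 ⟨e', ?_, rfl⟩
    rcases List.mem_append.1 he' with h | h
    · exact List.mem_append_left _ h
    · exact List.mem_append_right _ (List.mem_cons_of_mem _ h)
  have hik : i ∈ B ↔ k ∈ B :=
    hB (Ev.gh i k, T) (List.mem_map.2 ⟨_, List.mem_append_right _ List.mem_cons_self, rfl⟩)
  unfold IgRun
  rw [run_mv hB, finB_mv hcl, finZ_mv hcl]
  refine and_congr_right fun _ => ?_
  by_cases hi : i ∈ B
  · rw [mv_of_mem hi, mv_of_mem (hik.1 hi)]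
    exact ig_boost c' _ _ _ _
  · rw [mv_of_notMem hi, mv_of_notMem fun h => hi (hik.2 h)]

/-- **The mass of the programs with an irregular contact**, any transversal set of labels. -/
theorem massR_ig (hΦ : IsPotential Φ) {f₀ : Ph → ℝ} (hf : Measurable f₀) {M₁ : ℝ}
    (hM₁ : 0 ≤ M₁)
    (hmarg : ∀ v, ∫⁻ x, ENNReal.ofReal (f₀ (x, v)) ≤ ENNReal.ofReal (M₁ * Real.exp (-b * ‖v‖ ^ 2)))
    (hbc : c < b) {T : ℝ} (hT : 0 ≤ T) (N : ℕ) :
    ∃ C : ℝ≥0∞, C ≠ ∞ ∧ ∀ ε : ℝ, 0 < ε → ε ≤ 1 → ∀ n ≤ N, ∀ (P₁ : List (Ev (Fin n)))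
      (i k : Fin n) (P₂ : List (Ev (Fin n))), (P₁ ++ P₂).length ≤ N → Fin2OK T P₁ i k P₂ →
      ∀ Rs, Trv (pl T (P₁ ++ Ev.gh i k :: P₂)) Rs →
      MassR f₀ ε b c (relIg Φ ε T P₁ i k P₂) Rs (C * ENNReal.ofReal (√ε)) := by
  have hb' : 0 < b - c := by linarith
  have h1 := fun n k : ℕ => ig_mass_le (ι := Fin n) hΦ hT k hb'
  choose C hC h using h1
  set K : ℝ≥0∞ := 1 + ENNReal.ofReal M₁ * ω₃⁻¹ with hK
  have hK1 : 1 ≤ K := le_self_add
  have hKt : K ≠ ∞ := by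
    rw [hK]
    exact ENNReal.add_ne_top.2 ⟨ENNReal.one_ne_top, ENNReal.mul_ne_top ENNReal.ofReal_ne_top
      (ENNReal.inv_ne_top.2 ω₃_ne_zero)⟩
  refine ⟨K ^ N * ∑ n ∈ Finset.range (N + 1), ∑ k ∈ Finset.range (N + 1), C n k,
    ENNReal.mul_ne_top (ENNReal.pow_ne_top hKt) (ENNReal.sum_ne_top.2
      fun n _ => ENNReal.sum_ne_top.2 fun k _ => hC n k), ?_⟩
  intro ε hε hε1 n hn P₁ i k P₂ hP hOK Rs hRs
  have h2 : MassR f₀ ε b c (relIg Φ ε T P₁ i k P₂) Rs ((ENNReal.ofReal M₁ * ω₃⁻¹) ^ Rs.card *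
      (C n (P₁ ++ P₂).length * ENNReal.ofReal (√ε))) := by
    refine massR_of_loc hf hM₁ hmarg hε hRs (measurableSet_relIg hΦ hε.ne' P₁ i k P₂)
      (fun r _ β a Z => igRun_mv (cl_cls _ r) _ β Z) fun β hβ => ?_
    have h3 := h n (P₁ ++ P₂).length P₁ i k P₂ rfl hOK ε hε hε1 Rs hRs β hβ
    rw [Fintype.card_fin] at h3
    calc _ ≤ _ := h3
      _ = _ := by ring
  intro β hβ
  refine (h2 β hβ).trans ?_
  have h3 : (ENNReal.ofReal M₁ * ω₃⁻¹) ^ Rs.card ≤ K ^ N := by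
    have h4 : Rs.card ≤ N := by
      have := Finset.card_le_univ Rs
      rw [Fintype.card_fin] at this
      omega
    calc (ENNReal.ofReal M₁ * ω₃⁻¹) ^ Rs.card ≤ K ^ Rs.card :=
          pow_le_pow_left' le_add_self _
      _ ≤ K ^ N := pow_le_pow_right₀ hK1 h4
  have h5 : C n (P₁ ++ P₂).length ≤
      ∑ n ∈ Finset.range (N + 1), ∑ k ∈ Finset.range (N + 1), C n k := by
    refine le_trans ?_ (Finset.single_le_sum (f := fun n => ∑ k ∈ Finset.range (N + 1), C n k)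
      (fun _ _ => zero_le) (Finset.mem_range.2 (Nat.lt_succ_of_le hn)))
    exact Finset.single_le_sum (f := fun k => C n k) (fun _ _ => zero_le)
      (Finset.mem_range.2 (Nat.lt_succ_of_le hP))
  rw [mul_assoc]
  exact mul_le_mul' h3 (mul_le_mul_left h5 _)

end Vale.Agent.P119.IND
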