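import Vale.Agent.P119.IND.IrrP
import Vale.Agent.P119.IND.IgLaw
import Vale.Agent.P119.IND.ExcProg

/-!
# P119, block IND: irregular contacts at an intermediate time (`helper350`)

* `IrrX Φ ε A B β Z s es`: an irregular contact at the time `s`, after the events of `A` and before
  those of `B`, with its edges `es` (the colliding labels are not used in `B`, a flying third label
  may be used in `B`); `IrrP.split`: the contacts `IrrP` of `helper810` are of this form;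
* `IrrO Φ ε t c₀ N T l w`: labelled programs with an irregular contact and at most `c₀` classes;
  `IrrO.of_fintype`: any finite type of labels; `IrrO.mono_t`; `IrrBad.irrO`: connected programs;
* `igs Φ T N c₀`: the finite set of relations of the irregular contacts of two flying labels;
  `igs_finite`, `igs_small`, `igs_sbad`.
-/

open MeasureTheory Filter Topology Set
open scoped ENNReal

set_option linter.unusedSectionVars false

noncomputable section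

namespace Vale.Agent.P119.IND

open KU FL M M.CTree TL GC MM AU PB.CT

variable {Φ : E3 → ℝ} {ε T T' t : ℝ} {ι : Type} [DecidableEq ι]

/-- `j` is not used. -/
def NoUse (M : List (Ev ι × ℝ)) (j : ι) : Prop := ∀ e ∈ M, e.1.fst ≠ j ∧ e.1.snd ≠ j

/-- The labels `x`, `y`, with the births `β` and the lines `Z`, are colliding at the time `s`. -/
structure ColS (Φ : E3 → ℝ) (ε : ℝ) (β : ι → ℝ) (Z : ι → Ph) (x y : ι) (s : ℝ) : Prop where
  ne : x ≠ y
  meets : Meets ε (Z x, Z y)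
  exits : Exits Φ (rel ε (Z x, Z y))
  bx : β x < hitT ε (Z x, Z y)
  by' : β y < hitT ε (Z x, Z y)
  h1 : hitT ε (Z x, Z y) ≤ s
  h2 : s ≤ sepT Φ ε (Z x, Z y)

/-- The irregular contacts at the time `s`, after the events of `A` and before those of `B`, with
their edges. -/
inductive IrrX (Φ : E3 → ℝ) (ε : ℝ) (A B : List (Ev ι × ℝ)) (β : ι → ℝ) (Z : ι → Ph) (s : ℝ) :
    List (ι × ι) → Prop
  /-- the label `C` is in contact with one of the particles of the colliding pair `x`, `y`, or with the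
  undisturbed line of `x` -/
  | tri (x y C : ι) (hcol : ColS Φ ε (finB Φ ε A β Z) (finZ Φ ε A Z) x y s)
      (hCx : C ≠ x) (hCy : C ≠ y) (bC : finB Φ ε A β Z C ≤ s)
      (hc : Ctc ε (pairLine Φ ε (finZ Φ ε A Z x, finZ Φ ε A Z y) s).1
          (KU.free s (finZ Φ ε A Z C)) ∨
        Ctc ε (pairLine Φ ε (finZ Φ ε A Z x, finZ Φ ε A Z y) s).2 (KU.free s (finZ Φ ε A Z C)) ∨
        Ctc ε (KU.free s (finZ Φ ε A Z x)) (KU.free s (finZ Φ ε A Z C)))
      (nx : NotDr (A ++ B) x) (ny : NotDr (A ++ B) y) (nC : NotDr (A ++ B) C)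
      (ux : UseLe A x (hitT ε (finZ Φ ε A Z x, finZ Φ ε A Z y)))
      (uy : UseLe A y (hitT ε (finZ Φ ε A Z x, finZ Φ ε A Z y)))
      (vx : NoUse B x) (vy : NoUse B y) :
      IrrX Φ ε A B β Z s [(x, y), (x, C)]
  /-- the colliding pairs `x`, `y` and `u`, `v` are in contact -/
  | quad (x y u v : ι) (hcol : ColS Φ ε (finB Φ ε A β Z) (finZ Φ ε A Z) x y s)
      (hcol' : ColS Φ ε (finB Φ ε A β Z) (finZ Φ ε A Z) u v s)
      (r1 : x ≠ u) (r2 : x ≠ v) (r3 : y ≠ u) (r4 : y ≠ v)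
      (hc : Ctc ε (pairLine Φ ε (finZ Φ ε A Z x, finZ Φ ε A Z y) s).1
        (pairLine Φ ε (finZ Φ ε A Z u, finZ Φ ε A Z v) s).1)
      (nx : NotDr (A ++ B) x) (ny : NotDr (A ++ B) y) (nu : NotDr (A ++ B) u)
      (nv : NotDr (A ++ B) v)
      (ux : UseLe A x (hitT ε (finZ Φ ε A Z x, finZ Φ ε A Z y)))
      (uy : UseLe A y (hitT ε (finZ Φ ε A Z x, finZ Φ ε A Z y)))
      (uu : UseLe A u (hitT ε (finZ Φ ε A Z u, finZ Φ ε A Z v)))
      (uv : UseLe A v (hitT ε (finZ Φ ε A Z u, finZ Φ ε A Z v)))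
      (vx : NoUse B x) (vy : NoUse B y) (vu : NoUse B u) (vv : NoUse B v) :
      IrrX Φ ε A B β Z s [(x, y), (u, v), (x, u)]
  /-- three labels, at the entrance of the first two -/
  | trip (x y C : ι) (hxy : x ≠ y) (hCx : C ≠ x) (hCy : C ≠ y)
      (bx : finB Φ ε A β Z x < s) (by' : finB Φ ε A β Z y < s) (bC : finB Φ ε A β Z C ≤ s)
      (hm : Meets ε (finZ Φ ε A Z x, finZ Φ ε A Z y))
      (hh : hitT ε (finZ Φ ε A Z x, finZ Φ ε A Z y) = s)
      (hc : Ctc ε (KU.free s (finZ Φ ε A Z y)) (KU.free s (finZ Φ ε A Z C)))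
      (nx : NotDr (A ++ B) x) (ny : NotDr (A ++ B) y) (nC : NotDr (A ++ B) C)
      (vx : NoUse B x) (vy : NoUse B y) :
      IrrX Φ ε A B β Z s [(x, y), (y, C)]
  /-- contact of two labels, at the last birth or tangential -/
  | two (i k : ι) (hik : i ≠ k) (bi : finB Φ ε A β Z i ≤ s) (bk : finB Φ ε A β Z k ≤ s)
      (hc : Ctc ε (KU.free s (finZ Φ ε A Z i)) (KU.free s (finZ Φ ε A Z k)))
      (hI : Ig ε (finB Φ ε A β Z i, finZ Φ ε A Z i) (finB Φ ε A β Z k, finZ Φ ε A Z k))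
      (ni : NotDr (A ++ B) i) (nk : NotDr (A ++ B) k) (vi : NoUse B i) (vk : NoUse B k) :
      IrrX Φ ε A B β Z s [(i, k)]

theorem UseLe.left {A B : List (Ev ι × ℝ)} {j : ι} {s : ℝ} (h : UseLe (A ++ B) j s) :
    UseLe A j s := fun e he hj => h e (List.mem_append_left _ he) hj

theorem UseLe.noUse {A B : List (Ev ι × ℝ)} {j : ι} {r s : ℝ} (h : UseLe (A ++ B) j r)
    (hrs : r ≤ s) (hB : ∀ e ∈ B, s < e.2) : NoUse B j := by
  intro e he
  refine ⟨fun h1 => ?_, fun h1 => ?_⟩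
  · exact absurd ((h e (List.mem_append_right _ he) (Or.inl h1)).trans hrs) (not_le.2 (hB e he))
  · exact absurd ((h e (List.mem_append_right _ he) (Or.inr h1)).trans hrs) (not_le.2 (hB e he))

theorem NoUse.finZ {A B : List (Ev ι × ℝ)} {j : ι} (h : NoUse B j) (Z : ι → Ph) :
    IND.finZ Φ ε (A ++ B) Z j = IND.finZ Φ ε A Z j := finZ_left h

theorem NoUse.finB {A B : List (Ev ι × ℝ)} {j : ι} (h : NoUse B j) (β : ι → ℝ) (Z : ι → Ph) :
    IND.finB Φ ε (A ++ B) β Z j = IND.finB Φ ε A β Z j := finB_left h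

/-- **The irregular final contacts are irregular contacts at an intermediate time.** -/
theorem IrrP.split {A B : List (Ev ι × ℝ)} {β : ι → ℝ} {Z : ι → Ph} {s : ℝ}
    {es : List (ι × ι)} (h : IrrP Φ ε (A ++ B) β Z s es) (hB : ∀ e ∈ B, s < e.2) :
    IrrX Φ ε A B β Z s es := by
  cases h with
  | tri x y C hxy hCx hCy hm he bx by' h1 h2 bC hc nx ny nC ux uy uC =>
    have vx := ux.noUse h1 hB
    have vy := uy.noUse h1 hB
    have vC := uC.noUse le_rfl hB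
    rw [vx.finZ, vy.finZ] at hm he bx by' h1 h2 ux uy
    rw [vx.finB] at bx
    rw [vy.finB] at by'
    rw [vC.finB] at bC
    rw [vx.finZ, vy.finZ, vC.finZ] at hc
    exact .tri x y C ⟨hxy, hm, he, bx, by', h1, h2⟩ hCx hCy bC hc nx ny nC ux.left uy.left vx vy
  | quad x y u v hxy huv r1 r2 r3 r4 hm he bx by' h1 h2 hm' he' bu bv h1' h2' hc nx ny nu nv
      ux uy uu uv =>
    have vx := ux.noUse h1 hB
    have vy := uy.noUse h1 hB
    have vu := uu.noUse h1' hB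
    have vv := uv.noUse h1' hB
    rw [vx.finZ, vy.finZ] at hm he bx by' h1 h2 ux uy
    rw [vx.finB] at bx
    rw [vy.finB] at by'
    rw [vu.finZ, vv.finZ] at hm' he' bu bv h1' h2' uu uv
    rw [vu.finB] at bu
    rw [vv.finB] at bv
    rw [vx.finZ, vy.finZ, vu.finZ, vv.finZ] at hc
    exact .quad x y u v ⟨hxy, hm, he, bx, by', h1, h2⟩ ⟨huv, hm', he', bu, bv, h1', h2'⟩ r1 r2 r3
      r4 hc nx ny nu nv ux.left uy.left uu.left uv.left vx vy vu vv
  | trip x y C hxy hCx hCy bx by' bC hm hh hc nx ny nC ux uy uC =>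
    have vx := ux.noUse le_rfl hB
    have vy := uy.noUse le_rfl hB
    have vC := uC.noUse le_rfl hB
    rw [vx.finZ, vy.finZ] at hm hh
    rw [vx.finB] at bx
    rw [vy.finB] at by'
    rw [vC.finB] at bC
    rw [vy.finZ, vC.finZ] at hc
    exact .trip x y C hxy hCx hCy bx by' bC hm hh hc nx ny nC vx vy
  | born i k hik hs hc ni nk ui uk =>
    have vi := ui.noUse le_rfl hB
    have vk := uk.noUse le_rfl hB
    rw [vi.finB, vk.finB] at hs
    rw [vi.finZ, vk.finZ] at hc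
    have b1 : IND.finB Φ ε A β Z i ≤ s := by rw [hs]; exact le_max_left _ _
    have b2 : IND.finB Φ ε A β Z k ≤ s := by rw [hs]; exact le_max_right _ _
    refine .two i k hik b1 b2 hc (ig_of_born b1 b2 ?_ hc) ni nk vi vk
    rcases max_choice (IND.finB Φ ε A β Z i) (IND.finB Φ ε A β Z k) with h4 | h4
    · exact Or.inl (hs.trans h4)
    · exact Or.inr (hs.trans h4)
  | graze i k hik bi bk hd hi hc ni nk ui uk =>
    have vi := ui.noUse le_rfl hB
    have vk := uk.noUse le_rfl hB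
    rw [vi.finB] at bi
    rw [vk.finB] at bk
    rw [vi.finZ, vk.finZ] at hd hi hc
    exact .two i k hik bi bk hc (ig_of_graze hd hi) ni nk vi vk

/-! ### Horizons -/

theorem AtS.mono_T {e : Ev ι} {β : ι → ℝ} {Z : ι → Ph} {s : ℝ} (hT : T ≤ T')
    (h : AtS Φ ε T e β Z s) : AtS Φ ε T' e β Z s := by
  obtain ⟨d, h⟩ := h
  cases e with
  | gh i k => exact ⟨d, h⟩
  | sc i k =>
    obtain ⟨h1, h2, h3, h4, h5, h6, h7, h8⟩ := h
    exact ⟨d, h1, h2, h3, h4, h5, h6, h7.trans hT, h8⟩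

theorem RunT.mono_T {Q : List (Ev ι × ℝ)} {r : ℝ} {β : ι → ℝ} {Z : ι → Ph} (hT : T ≤ T')
    (h : RunT Φ ε T r Q β Z) : RunT Φ ε T' r Q β Z := by
  induction Q generalizing r β Z with
  | nil => trivial
  | cons e Q ih =>
    obtain ⟨h1, h2, h3, h4⟩ := h
    exact ⟨h1, h2.trans hT, h3.mono_T hT, ih h4⟩

/-! ### Labelled programs -/

/-- The edges as ghosts. -/
def evs (es : List (ι × ι)) : List (Ev ι) := es.map fun p => Ev.gh p.1 p.2

theorem edges_evs (T : ℝ) (M : List (Ev ι × ℝ)) (es : List (ι × ι)) :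
    edges (pl T (M.map Prod.fst ++ evs es)) = edges M ++ es := by
  unfold edges pl evs
  rw [List.map_append, List.map_append, List.map_map, List.map_map, List.map_map, List.map_map]
  congr 1
  conv_rhs => rw [← List.map_id es]
  exact List.map_congr_left fun p _ => rfl

theorem jn_evs {M : List (Ev ι × ℝ)} {es : List (ι × ι)} {i k : ι} :
    Jn (pl T (M.map Prod.fst ++ evs es)) i k ↔ Edg.Joined (edges M ++ es) i k := by
  rw [jn_iff_joined, edges_evs]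

variable {m q : ℕ}

/-- The particles of the base structure and at most `N` particles in all, the others in the world
`w`, run a timed program with an irregular contact; the edges of the program and of the contact have at
most `c₀` classes, and every class contains a particle which is not a free line. -/
def IrrO (Φ : E3 → ℝ) (ε t : ℝ) (c₀ N : ℕ) (T : Fin m → CTree) (l : Fin q → Src)
    (w : Finset Ph) : Prop :=
  ∃ n ≤ N, ∃ (z : Fin n → Src) (A B : List (Ev (Fin n) × ℝ)) (s : ℝ)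
    (es : List (Fin n × Fin n)) (Rs : Finset (Fin n)), (A ++ B).length ≤ N ∧ LabT T l w z ∧
    Trv (pl t ((A ++ B).map Prod.fst ++ evs es)) Rs ∧ Rs.card ≤ c₀ ∧
    (∀ i ∈ Rs, z i ∉ range l) ∧ (∀ i, 0 ≤ (z i).1) ∧ Wf (A ++ B) ∧
    RunT Φ ε t 0 (A ++ B) (fun i => (z i).1) (fun i => (z i).2.1) ∧ 0 ≤ s ∧ s ≤ t ∧
    (∀ e ∈ A, e.2 ≤ s) ∧ (∀ e ∈ B, s ≤ e.2) ∧
    IrrX Φ ε A B (fun i => (z i).1) (fun i => (z i).2.1) s es

section Ev

variable {c₀ c₁ N N' : ℕ} {S : Fin m → CTree} {l : Fin q → Src} {w : Finset Ph}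

theorem IrrO.mono (hc : c₀ ≤ c₁) (hN : N ≤ N') (h : IrrO Φ ε t c₀ N S l w) :
    IrrO Φ ε t c₁ N' S l w := by
  obtain ⟨n, hn, z, A, B, s, es, Rs, h1, h2, h3, h4, h5⟩ := h
  exact ⟨n, hn.trans hN, z, A, B, s, es, Rs, h1.trans hN, h2, h3, h4.trans hc, h5⟩

/-- A larger horizon. -/
theorem IrrO.mono_t (ht : t ≤ T) (h : IrrO Φ ε t c₀ N S l w) : IrrO Φ ε T c₀ N S l w := by
  obtain ⟨n, hn, z, A, B, s, es, Rs, h1, h2, h3, h4, h5, h6, h7, h8, h9, h10, h11⟩ := h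
  exact ⟨n, hn, z, A, B, s, es, Rs, h1, h2, trv_hor h3, h4, h5, h6, h7, h8.mono_T ht, h9,
    h10.trans ht, h11⟩

end Ev

/-! ### Relabelling -/

section Map

variable {κ : Type} [DecidableEq κ]

theorem NoUse.of_map {f : ι → κ} {M : List (Ev ι × ℝ)} {j : ι}
    (h : NoUse (mapP f M) (f j)) : NoUse M j := by
  intro e he
  have h1 := h (e.1.map f, e.2) (List.mem_map.2 ⟨e, he, rfl⟩)
  simp only [Ev.map_fst, Ev.map_snd] at h1
  exact ⟨fun h2 => h1.1 (congrArg f h2), fun h2 => h1.2 (congrArg f h2)⟩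

theorem ColS.of_map {f : ι → κ} {β : κ → ℝ} {Z : κ → Ph} {x y : ι} {s : ℝ}
    (h : ColS Φ ε β Z (f x) (f y) s) : ColS Φ ε (β ∘ f) (Z ∘ f) x y s :=
  ⟨fun h' => h.ne (congrArg f h'), h.meets, h.exits, h.bx, h.by', h.h1, h.h2⟩

theorem IrrX.of_map {f : ι → κ} (hf : Function.Bijective f) {A B : List (Ev ι × ℝ)} {β : κ → ℝ}
    {Z : κ → Ph} {s : ℝ} {es : List (κ × κ)} (h : IrrX Φ ε (mapP f A) (mapP f B) β Z s es) :
    ∃ es' : List (ι × ι), es = es'.map (Prod.map f f) ∧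
      IrrX Φ ε A B (β ∘ f) (Z ∘ f) s es' := by
  have hZ : ∀ j, finZ Φ ε (mapP f A) Z (f j) = finZ Φ ε A (Z ∘ f) j := fun j =>
    congrFun (finZ_map hf.1 A Z) j
  have hB : ∀ j, finB Φ ε (mapP f A) β Z (f j) = finB Φ ε A (β ∘ f) (Z ∘ f) j := fun j =>
    congrFun (finB_map hf.1 A β Z) j
  have hZ' : finZ Φ ε (mapP f A) Z ∘ f = finZ Φ ε A (Z ∘ f) := finZ_map hf.1 A Z
  have hB' : finB Φ ε (mapP f A) β Z ∘ f = finB Φ ε A (β ∘ f) (Z ∘ f) := finB_map hf.1 A β Z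
  have hn : ∀ {j : ι}, NotDr (mapP f A ++ mapP f B) (f j) → NotDr (A ++ B) j := by
    intro j h1
    have e1 : mapP f A ++ mapP f B = mapP f (A ++ B) := by
      unfold mapP
      rw [List.map_append]
    rw [e1] at h1
    exact h1.of_map
  have hcol : ∀ {x y : ι}, ColS Φ ε (finB Φ ε (mapP f A) β Z) (finZ Φ ε (mapP f A) Z) (f x) (f y) s →
      ColS Φ ε (finB Φ ε A (β ∘ f) (Z ∘ f)) (finZ Φ ε A (Z ∘ f)) x y s := by
    intro x y h1
    have h2 := h1.of_map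
    rwa [hZ', hB'] at h2
  cases h with
  | tri x y C h1 hCx hCy bC hc nx ny nC ux uy vx vy =>
    obtain ⟨x, rfl⟩ := hf.2 x
    obtain ⟨y, rfl⟩ := hf.2 y
    obtain ⟨C, rfl⟩ := hf.2 C
    simp only [hZ, hB] at bC hc ux uy
    exact ⟨[(x, y), (x, C)], rfl, .tri x y C (hcol h1) (fun h => hCx (h ▸ rfl))
      (fun h => hCy (h ▸ rfl)) bC hc (hn nx) (hn ny) (hn nC) ux.of_map uy.of_map vx.of_map
      vy.of_map⟩
  | quad x y u v h1 h2 r1 r2 r3 r4 hc nx ny nu nv ux uy uu uv vx vy vu vv =>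
    obtain ⟨x, rfl⟩ := hf.2 x
    obtain ⟨y, rfl⟩ := hf.2 y
    obtain ⟨u, rfl⟩ := hf.2 u
    obtain ⟨v, rfl⟩ := hf.2 v
    simp only [hZ] at hc ux uy uu uv
    exact ⟨[(x, y), (u, v), (x, u)], rfl, .quad x y u v (hcol h1) (hcol h2)
      (fun h => r1 (h ▸ rfl)) (fun h => r2 (h ▸ rfl)) (fun h => r3 (h ▸ rfl))
      (fun h => r4 (h ▸ rfl)) hc (hn nx) (hn ny) (hn nu) (hn nv) ux.of_map uy.of_map uu.of_map
      uv.of_map vx.of_map vy.of_map vu.of_map vv.of_map⟩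
  | trip x y C hxy hCx hCy bx by' bC hm hh hc nx ny nC vx vy =>
    obtain ⟨x, rfl⟩ := hf.2 x
    obtain ⟨y, rfl⟩ := hf.2 y
    obtain ⟨C, rfl⟩ := hf.2 C
    simp only [hZ, hB] at bx by' bC hm hh hc
    exact ⟨[(x, y), (y, C)], rfl, .trip x y C (fun h => hxy (h ▸ rfl)) (fun h => hCx (h ▸ rfl))
      (fun h => hCy (h ▸ rfl)) bx by' bC hm hh hc (hn nx) (hn ny) (hn nC) vx.of_map vy.of_map⟩
  | two i k hik bi bk hc hI ni nk vi vk =>
    obtain ⟨i, rfl⟩ := hf.2 i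
    obtain ⟨k, rfl⟩ := hf.2 k
    simp only [hZ, hB] at bi bk hc hI
    exact ⟨[(i, k)], rfl, .two i k (fun h => hik (h ▸ rfl)) bi bk hc hI (hn ni) (hn nk)
      vi.of_map vk.of_map⟩

end Map

section Ev2

variable {c₀ N : ℕ} {S : Fin m → CTree} {l : Fin q → Src} {w : Finset Ph}

/-- Any finite type of labels. -/
theorem IrrO.of_fintype [Fintype ι] (hι : Fintype.card ι ≤ N) {z : ι → Src}
    {A B : List (Ev ι × ℝ)} {s : ℝ} {es : List (ι × ι)} {Rs : Finset ι}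
    (hM : (A ++ B).length ≤ N) (hz : LabT S l w z)
    (hR : Trv (pl t ((A ++ B).map Prod.fst ++ evs es)) Rs) (hRc : Rs.card ≤ c₀)
    (hRl : ∀ i ∈ Rs, z i ∉ range l) (hb : ∀ i, 0 ≤ (z i).1) (hw : Wf (A ++ B))
    (hr : RunT Φ ε t 0 (A ++ B) (fun i => (z i).1) (fun i => (z i).2.1)) (h0 : 0 ≤ s)
    (hst : s ≤ t) (hA : ∀ e ∈ A, e.2 ≤ s) (hB : ∀ e ∈ B, s ≤ e.2)
    (h : IrrX Φ ε A B (fun i => (z i).1) (fun i => (z i).2.1) s es) :
    IrrO Φ ε t c₀ N S l w := by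
  set e := (Fintype.equivFin ι).symm with he
  have hbij : Function.Bijective e := e.bijective
  obtain ⟨A', hA'⟩ := exists_mapP (f := e) A fun ev _ =>
    ⟨⟨e.symm ev.1.fst, by simp⟩, ⟨e.symm ev.1.snd, by simp⟩⟩
  obtain ⟨B', hB'⟩ := exists_mapP (f := e) B fun ev _ =>
    ⟨⟨e.symm ev.1.fst, by simp⟩, ⟨e.symm ev.1.snd, by simp⟩⟩
  subst hA' hB'
  have e1 : mapP e A' ++ mapP e B' = mapP e (A' ++ B') := by
    unfold mapP
    rw [List.map_append]
  rw [e1] at hM hR hw hr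
  obtain ⟨es', h1, h2⟩ := h.of_map hbij
  have hjn : ∀ i k : Fin (Fintype.card ι),
      Jn (pl t ((mapP e (A' ++ B')).map Prod.fst ++ evs es)) (e i) (e k) ↔
      Jn (pl t ((A' ++ B').map Prod.fst ++ evs es')) i k := by
    intro i k
    rw [jn_evs, jn_evs, h1]
    constructor
    · exact joined_of_mapP hbij
    · intro h3
      have h4 := h3.map e
      have e2 : (edges (A' ++ B') ++ es').map (Prod.map e e) =
          edges (mapP e (A' ++ B')) ++ es'.map (Prod.map e e) := by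
        rw [List.map_append]
        congr 1
        unfold edges mapP
        rw [List.map_map, List.map_map]
        refine List.map_congr_left fun ev _ => ?_
        simp only [Function.comp_apply, Prod.map_apply, Ev.map_fst, Ev.map_snd]
      rwa [e2] at h4
  refine ⟨Fintype.card ι, hι, z ∘ e, A', B', s, es', Rs.map e.symm.toEmbedding, ?_,
    ⟨hz.inj.comp e.injective, fun i => hz.mem (e i), fun j => ?_, fun j => ?_⟩,
    ⟨fun i => ?_, ?_⟩, ?_, ?_, fun i => hb (e i), ?_, ?_, h0, hst, ?_, ?_, h2⟩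
  · unfold mapP at hM
    rw [List.length_map] at hM
    exact hM
  · rw [e.surjective.range_comp]; exact hz.trees j
  · rw [e.surjective.range_comp]; exact hz.lines j
  · obtain ⟨r, hr1, hr2⟩ := hR.cov (e i)
    refine ⟨e.symm r, Finset.mem_map.2 ⟨r, hr1, rfl⟩, ?_⟩
    rw [← hjn]
    simpa using hr2
  · intro r₁ h3 r₂ h4 h5
    obtain ⟨r₁, h6, rfl⟩ := Finset.mem_map.1 h3
    obtain ⟨r₂, h7, rfl⟩ := Finset.mem_map.1 h4
    rw [← hjn] at h5
    rw [hR.uni r₁ h6 r₂ h7 (by simpa using h5)]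
  · rw [Finset.card_map]; exact hRc
  · intro j hj
    obtain ⟨r, h3, rfl⟩ := Finset.mem_map.1 hj
    have := hRl r h3
    simpa using this
  · exact (wf_map e.injective _).1 hw
  · exact (runT_map e.injective _ _ _ _).1 hr
  · intro ev hev
    exact hA (ev.1.map e, ev.2) (List.mem_map.2 ⟨ev, hev, rfl⟩)
  · intro ev hev
    exact hB (ev.1.map e, ev.2) (List.mem_map.2 ⟨ev, hev, rfl⟩)

theorem IrrX.exists_birth {A B : List (Ev ι × ℝ)} {β : ι → ℝ} {Z : ι → Ph} {s : ℝ}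
    {es : List (ι × ι)} (h : IrrX Φ ε A B β Z s es) : ∃ i, finB Φ ε A β Z i ≤ s := by
  cases h with
  | tri x y C h1 => exact ⟨x, h1.bx.le.trans h1.h1⟩
  | quad x y u v h1 => exact ⟨x, h1.bx.le.trans h1.h1⟩
  | trip x y C hxy hCx hCy bx => exact ⟨x, bx.le⟩
  | two i k hik bi => exact ⟨i, bi⟩

/-- **Connected programs.** -/
theorem IrrBad.irrO (hΦ : IsPotential Φ) (hε : 0 < ε) (hm : 0 < m) (hBase : Base Φ ε S l)
    (hS : ∀ j, ∀ σ ∈ (S j).leaves, 0 ≤ σ.1) (hl : ∀ j, 0 ≤ (l j).1)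
    (h : IrrBad Φ ε t N S l w) : IrrO Φ ε t 1 N S l w := by
  obtain ⟨n, hn, z, M, s, es, h1, h2, h3⟩ := h
  have hb : ∀ i, 0 ≤ (z i).1 := fun i => h2.birth hS hl i
  obtain ⟨A, B, hAB, h4, h5⟩ := h3.run.exists_split s
  subst hAB
  have h6 := h3.irr.split h5
  obtain ⟨i, hi⟩ := exists_not_line hm hBase h2
  obtain ⟨j, hj⟩ := h6.exists_birth
  have h7 := (h3.run.left).le_finB hΦ hε j
  refine ⟨n, hn, z, A, B, s, es, {i}, h1, h2, trv_single (fun a b => jn_evs.2 (h3.jn a b)) i,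
    le_of_eq (Finset.card_singleton i), ?_, hb, h3.wf, h3.run, (hb j).trans (h7.trans hj),
    h3.le, h4, fun e he => (h5 e he).le, h6⟩
  intro a ha
  rw [Finset.mem_singleton.1 ha]
  exact hi

end Ev2

/-! ### Two flying labels -/

/-- The relations of the programs with an irregular contact of two flying labels. -/
def igs (Φ : E3 → ℝ) (T : ℝ) (N c₀ : ℕ) : Set Rln :=
  {r | ∃ n ≤ N, ∃ (P₁ : List (Ev (Fin n))) (i k : Fin n) (P₂ : List (Ev (Fin n)))
    (Rs : Finset (Fin n)), (P₁ ++ P₂).length ≤ N ∧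
    Trv (pl T (P₁ ++ Ev.gh i k :: P₂)) Rs ∧ Rs.card ≤ c₀ ∧ Fin2OK T P₁ i k P₂ ∧
    r = ⟨n, fun ε => relIg Φ ε T P₁ i k P₂, Rs⟩}

theorem igs_finite (Φ : E3 → ℝ) (T : ℝ) (N c₀ : ℕ) : (igs Φ T N c₀).Finite := by
  have h1 : ∀ n : Fin (N + 1), (({P : List (Ev (Fin n)) | P.length ≤ N} ×ˢ
      {P : List (Ev (Fin n)) | P.length ≤ N}) ×ˢ
      (Set.univ : Set (Fin n × Fin n × Finset (Fin n)))).Finite := fun n =>
    ((List.finite_length_le (Ev (Fin n)) N).prod (List.finite_length_le (Ev (Fin n)) N)).prod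
      Set.finite_univ
  have h2 : (⋃ n : Fin (N + 1), (fun x : (List (Ev (Fin n)) × List (Ev (Fin n))) ×
      (Fin n × Fin n × Finset (Fin n)) =>
      (⟨n, fun ε => relIg Φ ε T x.1.1 x.2.1 x.2.2.1 x.1.2, x.2.2.2⟩ : Rln)) ''
      (({P : List (Ev (Fin n)) | P.length ≤ N} ×ˢ {P : List (Ev (Fin n)) | P.length ≤ N}) ×ˢ
      (Set.univ : Set (Fin n × Fin n × Finset (Fin n))))).Finite :=
    Set.finite_iUnion fun n => (h1 n).image _
  refine h2.subset ?_
  rintro r ⟨n, hn, P₁, i, k, P₂, Rs, h3, -, -, -, rfl⟩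
  rw [List.length_append] at h3
  exact mem_iUnion.2 ⟨⟨n, Nat.lt_succ_of_le hn⟩, ((P₁, P₂), (i, k, Rs)),
    ⟨⟨show P₁.length ≤ N by omega, show P₂.length ≤ N by omega⟩, mem_univ _⟩, rfl⟩

theorem igs_small {f₀ : Ph → ℝ} {b c M₁ : ℝ} (hΦ : IsPotential Φ) (hf : Measurable f₀)
    (hM₁ : 0 ≤ M₁)
    (hmarg : ∀ v, ∫⁻ x, ENNReal.ofReal (f₀ (x, v)) ≤ ENNReal.ofReal (M₁ * Real.exp (-b * ‖v‖ ^ 2)))
    (hbc : c < b) (hT : 0 ≤ T) {N c₀ : ℕ} {r : Rln} (hr : r ∈ igs Φ T N c₀) :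
    r.Small f₀ b c c₀ := by
  obtain ⟨C, hC, h1⟩ := massR_ig hΦ hf hM₁ hmarg hbc hT N
  obtain ⟨n, hn, P₁, i, k, P₂, Rs, h2, h3, h4, h5, rfl⟩ := hr
  exact Rln.small_of (fun ε hε => measurableSet_relIg hΦ hε.ne' P₁ i k P₂) h4
    (tendsto_sqrt_zero C hC) fun ε hε hε1 => h1 ε hε hε1 n hn P₁ i k P₂ h2 h5 Rs h3

theorem trv_perm {P Q : List (Ev ι × ℝ)} (h : P.Perm Q) {R : Finset ι} (hR : Trv P R) :
    Trv Q R := hR.congr fun _ _ => ⟨(jn_perm h).1, (jn_perm h).2⟩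

/-- The irregular contacts of two flying labels. -/
theorem igs_sbad (hΦ : IsPotential Φ) (hε : 0 < ε) {n N c₀ : ℕ} (hn : n ≤ N)
    {S : Fin m → CTree} {l : Fin q → Src} {w : Finset Ph} {z : Fin n → Src}
    {A B : List (Ev (Fin n) × ℝ)} {s : ℝ} {i k : Fin n} {Rs : Finset (Fin n)}
    (hM : (A ++ B).length ≤ N) (hz : LabT S l w z)
    (hR : Trv (pl t ((A ++ B).map Prod.fst ++ evs [(i, k)])) Rs) (hRc : Rs.card ≤ c₀)
    (hRl : ∀ i ∈ Rs, z i ∉ range l) (hb : ∀ i, 0 ≤ (z i).1) (hw : Wf (A ++ B))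
    (hr : RunT Φ ε t 0 (A ++ B) (fun i => (z i).1) (fun i => (z i).2.1)) (h0 : 0 ≤ s)
    (hst : s ≤ t) (hA : ∀ e ∈ A, e.2 ≤ s) (hik : i ≠ k)
    (bi : finB Φ ε A (fun i => (z i).1) (fun i => (z i).2.1) i ≤ s)
    (bk : finB Φ ε A (fun i => (z i).1) (fun i => (z i).2.1) k ≤ s)
    (hc : Ctc ε (KU.free s (finZ Φ ε A (fun i => (z i).2.1) i))
      (KU.free s (finZ Φ ε A (fun i => (z i).2.1) k)))
    (hI : Ig ε (finB Φ ε A (fun i => (z i).1) (fun i => (z i).2.1) i,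
        finZ Φ ε A (fun i => (z i).2.1) i)
      (finB Φ ε A (fun i => (z i).1) (fun i => (z i).2.1) k, finZ Φ ε A (fun i => (z i).2.1) k))
    (ni : NotDr (A ++ B) i) (nk : NotDr (A ++ B) k) (vi : NoUse B i) (vk : NoUse B k) :
    SBad (igs Φ t N c₀) ε S l w := by
  have use : ∀ {j : Fin n}, NoUse B j → ∀ e ∈ A ++ B, e.1.fst = j ∨ e.1.snd = j → e.2 ≤ s := by
    intro j hj e he h1
    rcases List.mem_append.1 he with h2 | h2
    · exact hA e h2
    · rcases h1 with h1 | h1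
      · exact absurd h1 (hj e h2).1
      · exact absurd h1 (hj e h2).2
  rw [← vi.finB (A := A), ← vi.finZ (A := A), ← vk.finB (A := A), ← vk.finZ (A := A)] at hI
  rw [← vi.finB (A := A)] at bi
  rw [← vk.finB (A := A)] at bk
  rw [← vi.finZ (A := A), ← vk.finZ (A := A)] at hc
  obtain ⟨P₁, P₂, h1, h2, h3⟩ := hr.exists_ig hΦ hε hb hw hik h0 hst (use vi) (use vk)
    (fun e he a d had => ⟨ni e he a d had, nk e he a d had⟩) bi bk hc hI
  refine ⟨_, ⟨n, hn, P₁, i, k, P₂, Rs, ?_, ?_, hRc, h2, rfl⟩, z, hz, h3, hRl⟩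
  · rw [h1, List.length_map]; exact hM
  · rw [← h1] at hR
    refine trv_perm ?_ hR
    unfold pl
    refine List.Perm.map _ ?_
    exact (perm_mid P₁ P₂ (Ev.gh i k)).symm

end Vale.Agent.P119.IND
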