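import Vale.Agent.P119.IND.GraftBad
import Vale.Agent.P119.IND.IrrX

/-!
# P119, block IND: the exits of the grafting, several components (`helper810`)

* `exists_trans`: a transversal set inside a covering set;
* `CovB`: the covering set of a base with at most `c₀` components;
* `BaseP.prgC`, `BaseP.prgO`, `BaseP.irrO`: the exits over a base with `c₀` components;
* `LawC`: the four alternatives of the laws, **`BaseP.of_detOutC`**: the outputs of the deterministic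
  analysis (`DetOut` of `helper498`) over a base with `c₀` components.
-/

open Set
open scoped ENNReal

set_option linter.unusedSectionVars false

noncomputable section

namespace Vale.Agent.P119.IND

open KU M M.CTree TL GC AU

variable {Φ : E3 → ℝ} {ε T t : ℝ}

/-- A transversal set inside a covering set. -/
theorem exists_trans {ι : Type*} {r : ι → ι → Prop} (hr : Equivalence r) (R : Finset ι)
    (hR : ∀ i, ∃ j ∈ R, r i j) :
    ∃ R' ⊆ R, (∀ i, ∃ j ∈ R', r i j) ∧ ∀ i ∈ R', ∀ j ∈ R', r i j → i = j := by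
  classical
  induction R using Finset.strongInduction with
  | H R ih =>
    by_cases h : ∀ i ∈ R, ∀ j ∈ R, r i j → i = j
    · exact ⟨R, Finset.Subset.refl R, hR, h⟩
    · push Not at h
      obtain ⟨i, hi, j, hj, hij, hne⟩ := h
      obtain ⟨R', h1, h2, h3⟩ := ih (R.erase j) (Finset.erase_ssubset hj) fun k => by
        obtain ⟨a, ha, hka⟩ := hR k
        by_cases haj : a = j
        · subst haj
          exact ⟨i, Finset.mem_erase.2 ⟨hne, hi⟩, hr.trans hka (hr.symm hij)⟩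
        · exact ⟨a, Finset.mem_erase.2 ⟨haj, ha⟩, hka⟩
      exact ⟨R', h1.trans (Finset.erase_subset _ _), h2, h3⟩

/-- A smaller transversal set, if two elements of the covering set are related. -/
theorem exists_trans_lt {ι : Type*} {r : ι → ι → Prop} (hr : Equivalence r) (R : Finset ι)
    (hR : ∀ i, ∃ j ∈ R, r i j) {i j : ι} (hi : i ∈ R) (hj : j ∈ R) (hne : i ≠ j) (hij : r i j) :
    ∃ R' ⊆ R, R'.card + 1 ≤ R.card ∧ (∀ i, ∃ j ∈ R', r i j) ∧
      ∀ i ∈ R', ∀ j ∈ R', r i j → i = j := by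
  classical
  obtain ⟨R', h1, h2, h3⟩ := exists_trans hr (R.erase j) fun k => by
    obtain ⟨a, ha, hka⟩ := hR k
    by_cases haj : a = j
    · subst haj
      exact ⟨i, Finset.mem_erase.2 ⟨hne, hi⟩, hr.trans hka (hr.symm hij)⟩
    · exact ⟨a, Finset.mem_erase.2 ⟨haj, ha⟩, hka⟩
  refine ⟨R', h1.trans (Finset.erase_subset _ _), ?_, h2, h3⟩
  have h4 := Finset.card_le_card h1
  have h5 := Finset.card_erase_add_one hj
  omega

variable {κ : Type} [DecidableEq κ]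

namespace Grf

variable {z x : κ → Src} {D : Set κ} {Q : List (Ev κ × ℝ)} {F : Finset CTree} {G : List Gh}
  {V : Set Src} [DecidableEq (κ ⊕ Frl F V)] {M Q₁ : List (Ev (κ ⊕ Frl F V) × ℝ)}

/-- **The covering set of the base covers the grafted program.** -/
theorem cover (hB : BaseP Φ ε T z x D Q) (h : Grf Φ ε T z x D Q F G V M Q₁)
    (hF : Fam Φ ε T F G) (hV : ∀ σ ∈ lab F, σ ∈ V ∨ ∃ i ∉ D, x i = σ) (hVx : ∀ i ∉ D, x i ∉ V)
    {es : List (Src × Src)} {es' : List ((κ ⊕ Frl F V) × (κ ⊕ Frl F V))}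
    (hes : ∀ p ∈ es, ∃ i k, i ∉ Sum.inl '' D ∧ k ∉ Sum.inl '' D ∧ zAll x F V i = p.1 ∧
        zAll x F V k = p.2 ∧ (i, k) ∈ es')
    (hc : ∀ σ ∈ lab F, σ ∈ V → ∃ i ∉ D, FX F G es (x i) σ)
    {R₀ : Finset κ} (hR₀ : ∀ i, ∃ r ∈ R₀, Jn Q i r) (i : κ ⊕ Frl F V) :
    ∃ r ∈ R₀.map ⟨Sum.inl, Sum.inl_injective⟩, Edg.Joined (edges M ++ es') i r := by
  have hb : ∀ a : κ, ∃ r ∈ R₀.map ⟨Sum.inl, Sum.inl_injective⟩,
      Edg.Joined (edges M ++ es') (Sum.inl a) r := by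
    intro a
    obtain ⟨r, hr, hJ⟩ := hR₀ a
    refine ⟨Sum.inl r, Finset.mem_map.2 ⟨r, hr, rfl⟩, ?_⟩
    refine h.joined_base (es₀ := []) (fun p hp => absurd hp List.not_mem_nil) ?_
    rw [List.append_nil]
    exact jn_iff_joined.1 hJ
  rcases i with a | ⟨σ, h1, h2⟩
  · exact hb a
  · obtain ⟨a, ha, hJ⟩ := hc σ h1 h2
    obtain ⟨r, hr, hJ'⟩ := hb a
    have h3 := h.joined_trail hB hF hV hVx hes (i := Sum.inl a) (k := Sum.inr ⟨σ, h1, h2⟩)
      (inl_notMem ha) inr_notMem hJ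
    exact ⟨r, hr, h3.symm.trans hJ'⟩

end Grf

/-- The equivalence relation of a program. -/
theorem jn_equivalence {ι : Type} [DecidableEq ι] (P : List (Ev ι × ℝ)) : Equivalence (Jn P) :=
  ⟨Jn.refl P, Jn.symm, Jn.trans⟩

/-- The covering set of a base, whose elements are not free lines. -/
structure CovB (z : κ → Src) (Q : List (Ev κ × ℝ)) {q : ℕ} (l : Fin q → Src) (c₀ : ℕ)
    (R₀ : Finset κ) : Prop where
  cov : ∀ i, ∃ r ∈ R₀, Jn Q i r
  card : R₀.card ≤ c₀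
  ord : ∀ i ∈ R₀, z i ∉ range l

section exits

variable [Fintype κ] {z x : κ → Src} {D : Set κ} {Q : List (Ev κ × ℝ)} {m q c₀ N : ℕ}
  {T₀ : Fin m → CTree} {l : Fin q → Src} {w : Finset Ph} {R₀ : Finset κ} {F : Finset CTree}
  {G : List Gh}

/-- **A closed family**: the base has `c₀` components. -/
theorem BaseP.prgC (hΦ : IsPotential Φ) (hε : 0 < ε) (hB : BaseP Φ ε T z x D Q)
    (hR : CovB z Q l c₀ R₀) (hL : BLab T₀ l z) (hzw : ∀ i, z i ∉ wS w)
    (hxw : ∀ i ∉ D, x i ∉ wS w) (hF : Fam Φ ε T F G) (hG : GrOn x D w F G [])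
    (hcl : FCl F G ∨ ∃ i ∉ D, ∃ k ∉ D, i ≠ k ∧ Jn Q i k ∧ FJ F G (x i) (x k))
    (h1 : Fintype.card κ + F.card ≤ N) (h2 : Q.length + F.card + G.length ≤ N) :
    PrgC Φ ε T c₀ N T₀ l w := by
  classical
  obtain ⟨M, Q₁, h⟩ := hB.graft_fam hΦ hε hF (V := (wS w : Set Src)) hG.mem fun i hi => hxw i hi
  have : Fintype (Frl F (wS w : Set Src)) := Fintype.ofFinite _
  have hlen : M.length ≤ N := by
    have e1 := h.length_eq
    have e2 := h.len
    have e3 := card_nl_le F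
    omega
  have hc : Closed M := by
    refine closed_graft h.perm ?_
    rcases hcl with hcl | ⟨i, hi, k, hk, hik, hJ', hJ⟩
    · exact Or.inl (h.cl hcl)
    · refine Or.inr ⟨Sum.inl i, Sum.inl k, fun h' => hik (Sum.inl_injective h'), ?_, ?_⟩
      · exact hJ'.map Sum.inl
      · exact h.jn _ _ (inl_notMem hi) (inl_notMem hk) hJ
  have hcov : ∀ i : κ ⊕ Frl F (wS w : Set Src), ∃ r ∈ R₀.map ⟨Sum.inl, Sum.inl_injective⟩,
      Jn M i r := by
    intro i
    obtain ⟨r, hr, hJ⟩ := h.cover hB hF hG.mem (fun i hi => hxw i hi) (es' := [])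
      (fun p hp => absurd hp List.not_mem_nil) hG.con hR.cov i
    rw [List.append_nil] at hJ
    exact ⟨r, hr, jn_iff_joined.2 hJ⟩
  obtain ⟨Rs, h3, h4, h5⟩ := exists_trans (jn_equivalence M) _ hcov
  refine PrgC.of_fintype (ι := κ ⊕ Frl F (wS w : Set Src)) (P := M.map Prod.fst) ?_
    (by rw [List.length_map]; exact hlen) (hL.labT hB.inj hzw F) (Rs := Rs)
    ⟨fun i => ?_, fun r hr r' hr' hJ => h5 r hr r' hr' ((jn_pl T M).1 hJ)⟩ ?_ ?_
    (wf_pl T h.wf) ((closed_pl T M).2 hc) ?_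
  · rw [Fintype.card_sum]
    have := card_frl_le F (wS w : Set Src)
    omega
  · obtain ⟨r, hr, hJ⟩ := h4 i
    exact ⟨r, hr, (jn_pl T M).2 hJ⟩
  · refine (Finset.card_le_card h3).trans ?_
    rw [Finset.card_map]
    exact hR.card
  · intro i hi
    obtain ⟨r, hr, rfl⟩ := Finset.mem_map.1 (h3 hi)
    exact hR.ord r hr
  · refine h.run.run hΦ hε ?_
    rintro (k | ⟨σ, h3, h4⟩)
    · exact hB.nonneg k
    · obtain ⟨p, -, rfl⟩ := mem_wS.1 h4
      exact le_rfl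

/-- **A family which joins two components of the base.** -/
theorem BaseP.prgO (hΦ : IsPotential Φ) (hε : 0 < ε) (hB : BaseP Φ ε T z x D Q)
    (hR : CovB z Q l (c₀ + 1) R₀) (hL : BLab T₀ l z) (hzw : ∀ i, z i ∉ wS w)
    (hxw : ∀ i ∉ D, x i ∉ wS w) (hF : Fam Φ ε T F G) (hG : GrOn x D w F G [])
    {i k : κ} (hi : i ∉ D) (hk : k ∉ D) (hik : ¬Jn Q i k) (hJ : FJ F G (x i) (x k))
    (h1 : Fintype.card κ + F.card ≤ N) (h2 : Q.length + F.card + G.length ≤ N) :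
    PrgO Φ ε T c₀ N T₀ l w := by
  classical
  obtain ⟨M, Q₁, h⟩ := hB.graft_fam hΦ hε hF (V := (wS w : Set Src)) hG.mem fun i hi => hxw i hi
  have : Fintype (Frl F (wS w : Set Src)) := Fintype.ofFinite _
  have hlen : M.length ≤ N := by
    have e1 := h.length_eq
    have e2 := h.len
    have e3 := card_nl_le F
    omega
  have hcov : ∀ i : κ ⊕ Frl F (wS w : Set Src), ∃ r ∈ R₀.map ⟨Sum.inl, Sum.inl_injective⟩,
      Jn M i r := by
    intro i
    obtain ⟨r, hr, hJ⟩ := h.cover hB hF hG.mem (fun i hi => hxw i hi) (es' := [])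
      (fun p hp => absurd hp List.not_mem_nil) hG.con hR.cov i
    rw [List.append_nil] at hJ
    exact ⟨r, hr, jn_iff_joined.2 hJ⟩
  obtain ⟨a, ha, hia⟩ := hR.cov i
  obtain ⟨b, hb, hkb⟩ := hR.cov k
  have hab : a ≠ b := by
    rintro rfl
    exact hik (hia.trans hkb.symm)
  have hbase : ∀ {i k : κ}, Jn Q i k → Jn M (Sum.inl i) (Sum.inl k) := by
    intro i k hJ
    have := h.joined_base (es₀ := []) (es' := []) (fun p hp => absurd hp List.not_mem_nil)
      (i := i) (k := k) (by rw [List.append_nil]; exact jn_iff_joined.1 hJ)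
    rw [List.append_nil] at this
    exact jn_iff_joined.2 this
  have hJM : Jn M (Sum.inl a) (Sum.inl b) := by
    refine (hbase hia).symm.trans (Jn.trans ?_ (hbase hkb))
    exact jn_right h.perm (h.jn _ _ (inl_notMem hi) (inl_notMem hk) hJ)
  obtain ⟨Rs, h3, h6, h4, h5⟩ := exists_trans_lt (jn_equivalence M) _ hcov
    (Finset.mem_map.2 ⟨a, ha, rfl⟩) (Finset.mem_map.2 ⟨b, hb, rfl⟩)
    (fun h' => hab (Sum.inl_injective h')) hJM
  refine PrgO.of_fintype (ι := κ ⊕ Frl F (wS w : Set Src)) (P := M.map Prod.fst) ?_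
    (by rw [List.length_map]; exact hlen) (hL.labT hB.inj hzw F) (Rs := Rs)
    ⟨fun i => ?_, fun r hr r' hr' hJ => h5 r hr r' hr' ((jn_pl T M).1 hJ)⟩ ?_ ?_ ?_
  · rw [Fintype.card_sum]
    have := card_frl_le F (wS w : Set Src)
    omega
  · obtain ⟨r, hr, hJ⟩ := h4 i
    exact ⟨r, hr, (jn_pl T M).2 hJ⟩
  · have h7 := hR.card
    rw [Finset.card_map] at h6
    omega
  · intro i hi
    obtain ⟨r, hr, rfl⟩ := Finset.mem_map.1 (h3 hi)
    exact hR.ord r hr
  · refine h.run.run hΦ hε ?_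
    rintro (k | ⟨σ, h3, h4⟩)
    · exact hB.nonneg k
    · obtain ⟨p, -, rfl⟩ := mem_wS.1 h4
      exact le_rfl

/-- **A family with an irregular final contact.** -/
theorem BaseP.irrO (hΦ : IsPotential Φ) (hε : 0 < ε) (hB : BaseP Φ ε T z x D Q)
    (hR : CovB z Q l c₀ R₀) (hL : BLab T₀ l z) (hzw : ∀ i, z i ∉ wS w)
    (hxw : ∀ i ∉ D, x i ∉ wS w) {s : ℝ} (hs : s ≤ T) (hF : Fam Φ ε s F G)
    {es : List (Src × Src)} (hG : GrOn x D w F G es)
    (hb : ∀ k ∉ D, finB Φ ε Q (fun i => (z i).1) (fun i => (z i).2.1) k = (x k).1 ∨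
      s ≠ (x k).1) {Lg : Bool → Gh → Prop} (hI : Irr Φ ε Lg F G s es)
    (h1 : Fintype.card κ + F.card ≤ N) (h2 : Q.length + F.card + G.length ≤ N) :
    IrrO Φ ε T c₀ N T₀ l w := by
  classical
  have hFT := hF.mono_T hs
  obtain ⟨M, Q₁, h⟩ := hB.graft_fam hΦ hε hFT (V := (wS w : Set Src)) hG.mem fun i hi => hxw i hi
  have : Fintype (Frl F (wS w : Set Src)) := Fintype.ofFinite _
  have hlen : M.length ≤ N := by
    have e1 := h.length_eq
    have e2 := h.len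
    have e3 := card_nl_le F
    omega
  obtain ⟨es', h3, h4⟩ := h.irrP hΦ hε hB hFT hG.mem (fun g hg => (hF.gh g hg).2.2.2.2.2.1) hb hI
  have hlT := hL.labT hB.inj hzw F
  have hb0 : ∀ i, 0 ≤ (zAll z F (wS w : Set Src) i).1 := by
    rintro (k | ⟨σ, h5, h6⟩)
    · exact hB.nonneg k
    · obtain ⟨p, -, rfl⟩ := mem_wS.1 h6
      exact le_rfl
  obtain ⟨A, B, hAB, hA, hB'⟩ := h.run.exists_split s
  subst hAB
  have h7 := h3.split hB'
  obtain ⟨j, hj⟩ := h7.exists_birth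
  have h8 := (h.run.left).le_finB hΦ hε j
  obtain ⟨Rs, h9, h10, h11⟩ := exists_trans
    (Edg.joined_equivalence (edges (A ++ B) ++ es')) _
    (h.cover hB hFT hG.mem (fun i hi => hxw i hi) h4 hG.con hR.cov)
  refine IrrO.of_fintype (ι := κ ⊕ Frl F (wS w : Set Src)) (A := A) (B := B) (s := s) (es := es')
    (Rs := Rs) ?_ hlen hlT ⟨fun i => ?_, fun r hr r' hr' hJ => h11 r hr r' hr' (jn_evs.1 hJ)⟩
    ?_ ?_ hb0 h.wf h.run ((hb0 j).trans (h8.trans hj)) hs hA (fun e he => (hB' e he).le) h7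
  · rw [Fintype.card_sum]
    have := card_frl_le F (wS w : Set Src)
    omega
  · obtain ⟨r, hr, hJ⟩ := h10 i
    exact ⟨r, hr, jn_evs.2 hJ⟩
  · refine (Finset.card_le_card h9).trans ?_
    rw [Finset.card_map]
    exact hR.card
  · intro i hi
    obtain ⟨r, hr, rfl⟩ := Finset.mem_map.1 (h9 hi)
    exact hR.ord r hr

/-- **The alternatives of the laws** for a structure with `c₀ + 1` components: a long clean chain, a
closed program, a program with at most `c₀` components, an irregular final contact. -/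
def LawC (hΦ : IsPotential Φ) (hε : 0 < ε) (L : ℕ) (T : ℝ) (J c₀ N : ℕ) {m q : ℕ}
    (T₀ : Fin m → CTree) (l : Fin q → Src) (w : Finset Ph) (A : Set Src) : Prop :=
  (∃ σ ∈ A, HasClean hΦ hε.ne' L T (T + 1) J (wS w) σ.1 σ.2.1) ∨
    PrgC Φ ε T (c₀ + 1) N T₀ l w ∨ PrgO Φ ε T c₀ N T₀ l w ∨ IrrO Φ ε T (c₀ + 1) N T₀ l w

/-- **The outputs of the deterministic analysis over a base with `c₀ + 1` components.** -/
theorem BaseP.of_detOutC (hΦ : IsPotential Φ) (hε : 0 < ε) (hB : BaseP Φ ε T z x D Q)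
    (hR : CovB z Q l (c₀ + 1) R₀) (hL : BLab T₀ l z) (hzw : ∀ i, z i ∉ wS w)
    (hxw : ∀ i ∉ D, x i ∉ wS w) {L J : ℕ} {ins all : Set Src} {Lv : CTree → Prop}
    {Lg : Bool → Gh → Prop} {s : ℝ} (hs : s ≤ T) (hall : ∀ σ ∈ all, σ ∈ wS w ∨ ∃ i ∉ D, x i = σ)
    (hins : ∀ σ ∈ ins, σ ∈ all ∧ σ ∉ wS w)
    (hb : ∀ k ∉ D, finB Φ ε Q (fun i => (z i).1) (fun i => (z i).2.1) k = (x k).1 ∨
      s ≠ (x k).1)
    (h : DetOut hΦ hε L (wS w : Set Src) ins all Lv Lg T J N s) :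
    LawC hΦ hε L T J c₀ (Fintype.card κ + Q.length + 2 * N) T₀ l w ins := by
  have hfind : ∀ σ ∈ all, σ ∉ wS w → ∃ i ∉ D, x i = σ := fun σ h1 h2 =>
    (hall σ h1).resolve_left h2
  cases h with
  | clean σ hσ h => exact Or.inl ⟨σ, hσ, h⟩
  | closed F G hBF σ hσ hσF hJ hc =>
    right
    obtain ⟨i₀, hi₀, rfl⟩ := hfind σ (hins σ hσ).1 (hins σ hσ).2
    have hF := hBF.fam.mono_T hs
    have hG : GrOn x D w F G [] := by
      refine ⟨fun τ hτ => hall τ (hBF.sub τ hτ), fun τ hτ _ => ⟨i₀, hi₀, ?_⟩⟩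
      exact FX.of_FJ (hJ τ hτ).symm
    have hN := hBF.cardF
    have hN' := hBF.lenG
    rcases hc with ⟨y, hy, hyV, hne⟩ | ⟨G₁, g, G₂, hG', hJ'⟩
    · obtain ⟨k₀, hk₀, rfl⟩ := hfind y (hBF.sub y hy) hyV
      by_cases hjn : Jn Q k₀ i₀
      · exact Or.inl (hB.prgC hΦ hε hR hL hzw hxw hF hG
          (Or.inr ⟨k₀, hk₀, i₀, hi₀, fun h => hne (h ▸ rfl), hjn, hJ _ hy⟩) (by omega) (by omega))
      · exact Or.inr (Or.inl (hB.prgO hΦ hε hR hL hzw hxw hF hG hk₀ hi₀ hjn (hJ _ hy) (by omega)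
          (by omega)))
    · exact Or.inl (hB.prgC hΦ hε hR hL hzw hxw hF hG (Or.inl (.ghost G₁ g G₂ hG' hJ'))
        (by omega) (by omega))
  | irr F G es hBF σ hσ hσF hJ hI =>
    right; right; right
    obtain ⟨i₀, hi₀, rfl⟩ := hfind σ (hins σ hσ).1 (hins σ hσ).2
    have hG : GrOn x D w F G es :=
      ⟨fun τ hτ => hall τ (hBF.sub τ hτ), fun τ hτ _ => ⟨i₀, hi₀, (hJ τ hτ).symm⟩⟩
    have hN := hBF.cardF
    have hN' := hBF.lenG
    exact hB.irrO hΦ hε hR hL hzw hxw hs hBF.fam hG hb hI (by omega) (by omega)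

end exits

end Vale.Agent.P119.IND
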