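import Vale.Agent.P119.IND.Timed
import Vale.Agent.P119.IND.FamLaw2

/-!
# P119, block IND: irregular final contacts of timed programs (`helper810`)

* `IrrP Φ ε M β Z s es`: an irregular final contact of the final lines of the timed program `M`, at the
  time `s`, with its edges `es` (`tri`, `quad`, `trip`, `born`, `graze`, as in `Irr` of `helper498`);
* `IrrBad Φ ε t N T l w`: the particles of the base structure (trees `T`, lines `l`) and at most `N`
  particles in all, the others in the world `w`, run a timed program with an irregular final contact,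
  connected together with it;
* `IrrBad.of_fintype`: any finite set of labels.
-/

open Set
open scoped ENNReal

set_option linter.unusedSectionVars false

noncomputable section

namespace Vale.Agent.P119.IND

open KU M M.CTree TL GC AU

variable {Φ : E3 → ℝ} {ε T t : ℝ} {ι : Type} [DecidableEq ι]

/-- The events which use `j` take place at times `≤ s`. -/
def UseLe (M : List (Ev ι × ℝ)) (j : ι) (s : ℝ) : Prop :=
  ∀ e ∈ M, e.1.fst = j ∨ e.1.snd = j → e.2 ≤ s

/-- `j` is not dropped. -/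
def NotDr (M : List (Ev ι × ℝ)) (j : ι) : Prop := ∀ e ∈ M, ∀ i k, e.1 = Ev.gh i k → i ≠ j

/-- The irregular final contacts of a timed program, with their edges. -/
inductive IrrP (Φ : E3 → ℝ) (ε : ℝ) (M : List (Ev ι × ℝ)) (β : ι → ℝ) (Z : ι → Ph) (s : ℝ) :
    List (ι × ι) → Prop
  /-- the label `C` is in contact with one of the particles of the colliding pair `x`, `y`, or with the
  undisturbed line of `x` -/
  | tri (x y C : ι) (hxy : x ≠ y) (hCx : C ≠ x) (hCy : C ≠ y)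
      (hm : Meets ε (finZ Φ ε M Z x, finZ Φ ε M Z y))
      (he : Exits Φ (rel ε (finZ Φ ε M Z x, finZ Φ ε M Z y)))
      (bx : finB Φ ε M β Z x < hitT ε (finZ Φ ε M Z x, finZ Φ ε M Z y))
      (by' : finB Φ ε M β Z y < hitT ε (finZ Φ ε M Z x, finZ Φ ε M Z y))
      (h1 : hitT ε (finZ Φ ε M Z x, finZ Φ ε M Z y) ≤ s)
      (h2 : s ≤ sepT Φ ε (finZ Φ ε M Z x, finZ Φ ε M Z y))
      (bC : finB Φ ε M β Z C ≤ s)
      (hc : Ctc ε (pairLine Φ ε (finZ Φ ε M Z x, finZ Φ ε M Z y) s).1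
          (KU.free s (finZ Φ ε M Z C)) ∨
        Ctc ε (pairLine Φ ε (finZ Φ ε M Z x, finZ Φ ε M Z y) s).2 (KU.free s (finZ Φ ε M Z C)) ∨
        Ctc ε (KU.free s (finZ Φ ε M Z x)) (KU.free s (finZ Φ ε M Z C)))
      (nx : NotDr M x) (ny : NotDr M y) (nC : NotDr M C)
      (ux : UseLe M x (hitT ε (finZ Φ ε M Z x, finZ Φ ε M Z y)))
      (uy : UseLe M y (hitT ε (finZ Φ ε M Z x, finZ Φ ε M Z y))) (uC : UseLe M C s) :
      IrrP Φ ε M β Z s [(x, y), (x, C)]
  /-- the colliding pairs `x`, `y` and `u`, `v` are in contact -/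
  | quad (x y u v : ι) (hxy : x ≠ y) (huv : u ≠ v) (r1 : x ≠ u) (r2 : x ≠ v) (r3 : y ≠ u)
      (r4 : y ≠ v)
      (hm : Meets ε (finZ Φ ε M Z x, finZ Φ ε M Z y))
      (he : Exits Φ (rel ε (finZ Φ ε M Z x, finZ Φ ε M Z y)))
      (bx : finB Φ ε M β Z x < hitT ε (finZ Φ ε M Z x, finZ Φ ε M Z y))
      (by' : finB Φ ε M β Z y < hitT ε (finZ Φ ε M Z x, finZ Φ ε M Z y))
      (h1 : hitT ε (finZ Φ ε M Z x, finZ Φ ε M Z y) ≤ s)
      (h2 : s ≤ sepT Φ ε (finZ Φ ε M Z x, finZ Φ ε M Z y))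
      (hm' : Meets ε (finZ Φ ε M Z u, finZ Φ ε M Z v))
      (he' : Exits Φ (rel ε (finZ Φ ε M Z u, finZ Φ ε M Z v)))
      (bu : finB Φ ε M β Z u < hitT ε (finZ Φ ε M Z u, finZ Φ ε M Z v))
      (bv : finB Φ ε M β Z v < hitT ε (finZ Φ ε M Z u, finZ Φ ε M Z v))
      (h1' : hitT ε (finZ Φ ε M Z u, finZ Φ ε M Z v) ≤ s)
      (h2' : s ≤ sepT Φ ε (finZ Φ ε M Z u, finZ Φ ε M Z v))
      (hc : Ctc ε (pairLine Φ ε (finZ Φ ε M Z x, finZ Φ ε M Z y) s).1
        (pairLine Φ ε (finZ Φ ε M Z u, finZ Φ ε M Z v) s).1)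
      (nx : NotDr M x) (ny : NotDr M y) (nu : NotDr M u) (nv : NotDr M v)
      (ux : UseLe M x (hitT ε (finZ Φ ε M Z x, finZ Φ ε M Z y)))
      (uy : UseLe M y (hitT ε (finZ Φ ε M Z x, finZ Φ ε M Z y)))
      (uu : UseLe M u (hitT ε (finZ Φ ε M Z u, finZ Φ ε M Z v)))
      (uv : UseLe M v (hitT ε (finZ Φ ε M Z u, finZ Φ ε M Z v))) :
      IrrP Φ ε M β Z s [(x, y), (u, v), (x, u)]
  /-- three labels, at the entrance of the first two -/
  | trip (x y C : ι) (hxy : x ≠ y) (hCx : C ≠ x) (hCy : C ≠ y)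
      (bx : finB Φ ε M β Z x < s) (by' : finB Φ ε M β Z y < s) (bC : finB Φ ε M β Z C ≤ s)
      (hm : Meets ε (finZ Φ ε M Z x, finZ Φ ε M Z y))
      (hh : hitT ε (finZ Φ ε M Z x, finZ Φ ε M Z y) = s)
      (hc : Ctc ε (KU.free s (finZ Φ ε M Z y)) (KU.free s (finZ Φ ε M Z C)))
      (nx : NotDr M x) (ny : NotDr M y) (nC : NotDr M C)
      (ux : UseLe M x s) (uy : UseLe M y s) (uC : UseLe M C s) :
      IrrP Φ ε M β Z s [(x, y), (y, C)]
  /-- contact of two labels at the last birth -/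
  | born (A B : ι) (hAB : A ≠ B) (hs : s = max (finB Φ ε M β Z A) (finB Φ ε M β Z B))
      (hc : Ctc ε (KU.free s (finZ Φ ε M Z A)) (KU.free s (finZ Φ ε M Z B)))
      (nA : NotDr M A) (nB : NotDr M B) (uA : UseLe M A s) (uB : UseLe M B s) :
      IrrP Φ ε M β Z s [(A, B)]
  /-- grazing contact of two labels -/
  | graze (A B : ι) (hAB : A ≠ B) (bA : finB Φ ε M β Z A ≤ s) (bB : finB Φ ε M β Z B ≤ s)
      (hd : ‖(KU.free s (finZ Φ ε M Z A)).1 - (KU.free s (finZ Φ ε M Z B)).1‖ = ε)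
      (hi : (inner ℝ ((KU.free s (finZ Φ ε M Z A)).1 - (KU.free s (finZ Φ ε M Z B)).1)
        ((KU.free s (finZ Φ ε M Z A)).2 - (KU.free s (finZ Φ ε M Z B)).2) : ℝ) = 0)
      (hc : Ctc ε (KU.free s (finZ Φ ε M Z A)) (KU.free s (finZ Φ ε M Z B)))
      (nA : NotDr M A) (nB : NotDr M B) (uA : UseLe M A s) (uB : UseLe M B s) :
      IrrP Φ ε M β Z s [(A, B)]

/-! ### Relabelling -/

section Map

variable {κ : Type} [DecidableEq κ]

theorem UseLe.of_map {f : ι → κ} {M : List (Ev ι × ℝ)} {j : ι} {s : ℝ}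
    (h : UseLe (mapP f M) (f j) s) : UseLe M j s := by
  intro e he hj
  refine h (e.1.map f, e.2) (List.mem_map.2 ⟨e, he, rfl⟩) ?_
  simp only [Ev.map_fst, Ev.map_snd]
  exact hj.imp (congrArg f) (congrArg f)

theorem NotDr.of_map {f : ι → κ} {M : List (Ev ι × ℝ)} {j : ι}
    (h : NotDr (mapP f M) (f j)) : NotDr M j := by
  intro e he i k hik hij
  refine h (e.1.map f, e.2) (List.mem_map.2 ⟨e, he, rfl⟩) (f i) (f k) ?_ (congrArg f hij)
  change e.1.map f = _
  rw [hik]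
  rfl

theorem IrrP.of_map {f : ι → κ} (hf : Function.Bijective f) {M : List (Ev ι × ℝ)} {β : κ → ℝ}
    {Z : κ → Ph} {s : ℝ} {es : List (κ × κ)} (h : IrrP Φ ε (mapP f M) β Z s es) :
    ∃ es' : List (ι × ι), es = es'.map (Prod.map f f) ∧ IrrP Φ ε M (β ∘ f) (Z ∘ f) s es' := by
  have hZ : ∀ j, finZ Φ ε (mapP f M) Z (f j) = finZ Φ ε M (Z ∘ f) j := fun j =>
    congrFun (finZ_map hf.1 M Z) j
  have hB : ∀ j, finB Φ ε (mapP f M) β Z (f j) = finB Φ ε M (β ∘ f) (Z ∘ f) j := fun j =>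
    congrFun (finB_map hf.1 M β Z) j
  cases h with
  | tri x y C hxy hCx hCy hm he bx by' h1 h2 bC hc nx ny nC ux uy uC =>
    obtain ⟨x, rfl⟩ := hf.2 x
    obtain ⟨y, rfl⟩ := hf.2 y
    obtain ⟨C, rfl⟩ := hf.2 C
    simp only [hZ, hB] at hm he bx by' h1 h2 bC hc ux uy
    exact ⟨[(x, y), (x, C)], rfl, .tri x y C (fun h => hxy (h ▸ rfl)) (fun h => hCx (h ▸ rfl))
      (fun h => hCy (h ▸ rfl)) hm he bx by' h1 h2 bC hc nx.of_map ny.of_map nC.of_map
      ux.of_map uy.of_map uC.of_map⟩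
  | quad x y u v hxy huv r1 r2 r3 r4 hm he bx by' h1 h2 hm' he' bu bv h1' h2' hc nx ny nu nv
      ux uy uu uv =>
    obtain ⟨x, rfl⟩ := hf.2 x
    obtain ⟨y, rfl⟩ := hf.2 y
    obtain ⟨u, rfl⟩ := hf.2 u
    obtain ⟨v, rfl⟩ := hf.2 v
    simp only [hZ, hB] at hm he bx by' h1 h2 hm' he' bu bv h1' h2' hc ux uy uu uv
    exact ⟨[(x, y), (u, v), (x, u)], rfl, .quad x y u v (fun h => hxy (h ▸ rfl))
      (fun h => huv (h ▸ rfl)) (fun h => r1 (h ▸ rfl)) (fun h => r2 (h ▸ rfl))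
      (fun h => r3 (h ▸ rfl)) (fun h => r4 (h ▸ rfl)) hm he bx by' h1 h2 hm' he' bu bv h1' h2' hc
      nx.of_map ny.of_map nu.of_map nv.of_map ux.of_map uy.of_map uu.of_map uv.of_map⟩
  | trip x y C hxy hCx hCy bx by' bC hm hh hc nx ny nC ux uy uC =>
    obtain ⟨x, rfl⟩ := hf.2 x
    obtain ⟨y, rfl⟩ := hf.2 y
    obtain ⟨C, rfl⟩ := hf.2 C
    simp only [hZ, hB] at bx by' bC hm hh hc
    exact ⟨[(x, y), (y, C)], rfl, .trip x y C (fun h => hxy (h ▸ rfl)) (fun h => hCx (h ▸ rfl))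
      (fun h => hCy (h ▸ rfl)) bx by' bC hm hh hc nx.of_map ny.of_map nC.of_map
      ux.of_map uy.of_map uC.of_map⟩
  | born A B hAB hs hc nA nB uA uB =>
    obtain ⟨A, rfl⟩ := hf.2 A
    obtain ⟨B, rfl⟩ := hf.2 B
    simp only [hZ, hB] at hs hc
    exact ⟨[(A, B)], rfl, .born A B (fun h => hAB (h ▸ rfl)) hs hc nA.of_map nB.of_map
      uA.of_map uB.of_map⟩
  | graze A B hAB bA bB hd hi hc nA nB uA uB =>
    obtain ⟨A, rfl⟩ := hf.2 A
    obtain ⟨B, rfl⟩ := hf.2 B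
    simp only [hZ, hB] at bA bB hd hi hc
    exact ⟨[(A, B)], rfl, .graze A B (fun h => hAB (h ▸ rfl)) bA bB hd hi hc nA.of_map nB.of_map
      uA.of_map uB.of_map⟩

end Map

/-! ### The exit to the laws -/

/-- A timed program on `n` labels with an irregular final contact, connected together with it. -/
structure IrrOK {ι : Type} [DecidableEq ι] (Φ : E3 → ℝ) (ε T : ℝ) (M : List (Ev ι × ℝ))
    (β : ι → ℝ) (Z : ι → Ph) (s : ℝ) (es : List (ι × ι)) : Prop where
  wf : Wf M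
  run : RunT Φ ε T 0 M β Z
  le : s ≤ T
  irr : IrrP Φ ε M β Z s es
  jn : ∀ i k, Edg.Joined (edges M ++ es) i k

/-- The particles of the base structure and at most `N` particles in all, the others in the world
`w`, run a timed program with an irregular final contact, connected together with it. -/
def IrrBad (Φ : E3 → ℝ) (ε t : ℝ) (N : ℕ) {m q : ℕ} (T : Fin m → CTree) (l : Fin q → Src)
    (w : Finset Ph) : Prop :=
  ∃ n ≤ N, ∃ (z : Fin n → Src) (M : List (Ev (Fin n) × ℝ)) (s : ℝ) (es : List (Fin n × Fin n)),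
    M.length ≤ N ∧ LabT T l w z ∧
      IrrOK Φ ε t M (fun i => (z i).1) (fun i => (z i).2.1) s es

theorem IrrBad.mono {N N' : ℕ} (hN : N ≤ N') {m q : ℕ} {T : Fin m → CTree} {l : Fin q → Src}
    {w : Finset Ph} (h : IrrBad Φ ε t N T l w) : IrrBad Φ ε t N' T l w := by
  obtain ⟨n, hn, z, M, s, es, h1, h2⟩ := h
  exact ⟨n, hn.trans hN, z, M, s, es, h1.trans hN, h2⟩

theorem joined_of_mapP {κ : Type} [DecidableEq κ] {f : ι → κ} (hf : Function.Bijective f)
    {M : List (Ev ι × ℝ)} {es : List (ι × ι)} {i k : ι}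
    (h : Edg.Joined (edges (mapP f M) ++ es.map (Prod.map f f)) (f i) (f k)) :
    Edg.Joined (edges M ++ es) i k := by
  obtain ⟨g, hg1, hg2⟩ : ∃ g : κ → ι, (∀ i, g (f i) = i) ∧ ∀ k, f (g k) = k :=
    ⟨(Equiv.ofBijective f hf).symm, fun i => Equiv.ofBijective_symm_apply_apply f hf i,
      fun k => Equiv.ofBijective_apply_symm_apply f hf k⟩
  have h1 := h.map g
  rw [hg1, hg1] at h1
  have e1 : (edges (mapP f M) ++ es.map (Prod.map f f)).map (Prod.map g g) = edges M ++ es := by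
    rw [List.map_append]
    congr 1
    · unfold edges mapP
      rw [List.map_map, List.map_map]
      refine List.map_congr_left fun e _ => ?_
      simp only [Function.comp_apply, Prod.map_apply, Ev.map_fst, Ev.map_snd, hg1]
    · rw [List.map_map]
      conv_rhs => rw [← List.map_id es]
      refine List.map_congr_left fun e _ => ?_
      obtain ⟨a, b⟩ := e
      change (g (f a), g (f b)) = (a, b)
      rw [hg1, hg1]
  rwa [e1] at h1

/-- Any finite set of labels. -/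
theorem IrrBad.of_fintype [Fintype ι] {N : ℕ} {m q : ℕ} {T : Fin m → CTree} {l : Fin q → Src}
    {w : Finset Ph} (hι : Fintype.card ι ≤ N) {z : ι → Src} {M : List (Ev ι × ℝ)} {s : ℝ}
    {es : List (ι × ι)} (hM : M.length ≤ N) (hz : LabT T l w z)
    (h : IrrOK Φ ε t M (fun i => (z i).1) (fun i => (z i).2.1) s es) :
    IrrBad Φ ε t N T l w := by
  set e := (Fintype.equivFin ι).symm with he
  have hb : Function.Bijective e := e.bijective
  obtain ⟨M', hM'⟩ := exists_mapP (f := e) M fun ev _ =>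
    ⟨⟨e.symm ev.1.fst, by simp⟩, ⟨e.symm ev.1.snd, by simp⟩⟩
  subst hM'
  obtain ⟨es', h1, h2⟩ := h.irr.of_map hb
  refine ⟨Fintype.card ι, hι, z ∘ e, M', s, es', ?_, ⟨hz.inj.comp e.injective,
    fun i => hz.mem (e i), fun j => ?_, fun j => ?_⟩, ?_, ?_, h.le, h2, fun i k => ?_⟩
  · unfold mapP at hM
    rw [List.length_map] at hM
    exact hM
  · rw [e.surjective.range_comp]; exact hz.trees j
  · rw [e.surjective.range_comp]; exact hz.lines j
  · exact (wf_map e.injective _).1 h.wf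
  · exact (runT_map e.injective _ _ _ _).1 h.run
  · have h3 := h.jn (e i) (e k)
    rw [h1] at h3
    exact joined_of_mapP hb h3

end Vale.Agent.P119.IND
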