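import Vale.Agent.P119.IND.GraftFam
import Vale.Agent.P119.IND.IrrP
import Vale.Agent.P119.IND.DetOut

/-!
# P119, block IND: grafting and irregular final contacts (`helper810`)

* `Grf.useLe`, `Grf.notDr`: the times of the events which use the label of a last history;
* `Grf.irrP`: an irregular final contact of the family is one of the grafted program;
* `Grf.joined`: joined labels, with additional edges.
-/

open Set
open scoped ENNReal

set_option linter.unusedSectionVars false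

noncomputable section

namespace Vale.Agent.P119.IND

open KU M M.CTree TL

variable {Φ : E3 → ℝ} {ε T : ℝ} {κ : Type} [DecidableEq κ]

theorem exists_lbl {x : κ → Src} {D : Set κ} {F : Finset CTree} {V : Set Src}
    (hV : ∀ σ ∈ lab F, σ ∈ V ∨ ∃ i ∉ D, x i = σ) {σ : Src} (hσ : σ ∈ lab F) :
    ∃ i : κ ⊕ Frl F V, i ∉ Sum.inl '' D ∧ zAll x F V i = σ := by
  by_cases h : σ ∈ V
  · exact ⟨Sum.inr ⟨σ, hσ, h⟩, inr_notMem, rfl⟩
  · rcases hV σ hσ with h1 | ⟨i, hi, rfl⟩
    · exact absurd h1 h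
    · exact ⟨Sum.inl i, inl_notMem hi, rfl⟩

theorem IsLast.root_mem {F : Finset CTree} {S : CTree} (h : IsLast F S) : S.root ∈ lab F :=
  root_mem_lab h.mem

namespace Grf

variable {z x : κ → Src} {D : Set κ} {Q : List (Ev κ × ℝ)} {F : Finset CTree} {G : List Gh}
  {V : Set Src} [DecidableEq (κ ⊕ Frl F V)] {M Q₁ : List (Ev (κ ⊕ Frl F V) × ℝ)}

theorem cases_mem (h : Grf Φ ε T z x D Q F G V M Q₁) {e : Ev (κ ⊕ Frl F V) × ℝ} (he : e ∈ M) :
    (∃ e₀ ∈ Q, e = (e₀.1.map Sum.inl, e₀.2)) ∨ e ∈ Q₁ := by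
  rcases List.mem_append.1 (h.perm.subset he) with h1 | h1
  · obtain ⟨e₀, h2, h3⟩ := List.mem_map.1 h1
    exact Or.inl ⟨e₀, h2, h3.symm⟩
  · exact Or.inr h1

theorem notDr (hB : BaseP Φ ε T z x D Q) (h : Grf Φ ε T z x D Q F G V M Q₁)
    {S : CTree} {i : κ ⊕ Frl F V} (hi : i ∉ Sum.inl '' D)
    (hx : zAll x F V i = S.root) (hg : ∀ g ∈ G, g.1.root ≠ S.root) : NotDr M i := by
  intro e he a b hab hai
  subst hai
  rcases h.cases_mem he with ⟨e₀, he₀, h1⟩ | h1
  · rw [h1] at hab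
    cases hev : e₀.1 with
    | sc c d => rw [hev] at hab; exact absurd hab (by simp [Ev.map])
    | gh c d =>
      rw [hev] at hab
      simp only [Ev.map, Ev.gh.injEq] at hab
      exact hi ⟨c, (hB.ghost e₀ he₀ c d hev).1, hab.1⟩
  · have e1 : e.1.fst = a := by rw [hab]; rfl
    rcases h.mem e h1 with ⟨c, d, -, -, -, -, h2⟩ | ⟨g, hgG, h2, -, -, -⟩
    · rw [hab] at h2
      exact absurd h2 (by simp)
    · rw [e1, hx] at h2
      exact hg g hgG h2.symm

/-- **The times of the events which use the label of a last history.** -/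
theorem useLe (hΦ : IsPotential Φ) (hε : 0 < ε) (hB : BaseP Φ ε T z x D Q)
    (h : Grf Φ ε T z x D Q F G V M Q₁) (hF : Fam Φ ε T F G) {S : CTree} (hS : IsLast F S)
    {i : κ ⊕ Frl F V} (hi : i ∉ Sum.inl '' D) (hx : zAll x F V i = S.root) {r : ℝ}
    (hr : ext Φ ε S ≤ r) (hg : ∀ g ∈ G, g.1.root ≠ S.root)
    (hg' : ∀ g ∈ G, g.2.1.root = S.root → g.2.2 ≤ r) : UseLe M i r := by
  intro e he hj
  have hok := hF.ok S hS.mem
  have hbir : S.root.1 ≤ ext Φ ε S :=
    (root_birth_le_sig hΦ hε hok).trans (sig_le_ext hΦ hε hok)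
  rcases h.cases_mem he with ⟨e₀, he₀, h1⟩ | h1
  · rw [h1] at hj ⊢
    simp only [Ev.map_fst, Ev.map_snd] at hj
    change e₀.2 ≤ r
    have key : ∀ k : κ, Sum.inl k = i → e₀.1.fst = k ∨ e₀.1.snd = k → e₀.2 ≤ r := by
      rintro k rfl hk
      have hkD : k ∉ D := fun h => hi ⟨k, h, rfl⟩
      have hxk : x k = S.root := hx
      have h2 : (x k).1 ≤ r := by rw [hxk]; exact hbir.trans hr
      cases hev : e₀.1 with
      | sc c d =>
        rw [hev] at hk
        obtain ⟨h3, h4⟩ := hB.run.lt_finB hΦ hε e₀ he₀ c d hev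
        rcases hk with hk | hk
        · have hk' : c = k := hk
          subst hk'
          exact (h3.trans_le ((hB.bir c hkD).trans h2)).le
        · have hk' : d = k := hk
          subst hk'
          exact (h4.trans_le ((hB.bir d hkD).trans h2)).le
      | gh c d =>
        rw [hev] at hk
        obtain ⟨h3, h4⟩ := hB.ghost e₀ he₀ c d hev
        rcases hk with hk | hk
        · have hk' : c = k := hk
          subst hk'
          exact absurd h3 hkD
        · have hk' : d = k := hk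
          subst hk'
          exact (h4 hkD).trans h2
    rcases hj with hj | hj
    · exact key _ hj (Or.inl rfl)
    · exact key _ hj (Or.inr rfl)
  · rcases h.mem e h1 with ⟨a, b, hab, h2, h3, h4, -⟩ | ⟨g, hgG, h2, h3, h4, -⟩
    · rw [h4]
      have hokn := hF.ok _ hab
      rcases hj with hj | hj
      · rw [hj, hx] at h2
        have h5 := hS.last _ hab h2.symm
        exact (sig_le_ext hΦ hε hokn).trans ((Spine.ext_le hΦ hε h5 hok).trans hr)
      · rw [hj, hx] at h3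
        have h5 := hS.last _ (hF.sub a b hab).2.2 h3.symm
        exact (sig_le_ext hΦ hε hokn).trans ((ext_swap hΦ a b).symm.le.trans
          ((Spine.ext_le hΦ hε h5 hok).trans hr))
    · rw [h4]
      rcases hj with hj | hj
      · rw [hj, hx] at h2
        exact absurd h2.symm (hg g hgG)
      · rw [hj, hx] at h3
        exact hg' g hgG h3.symm

/-! ### The final contacts -/

section irr

variable {s : ℝ}

/-- The state of the label of a last history. -/
structure LSt (Φ : E3 → ℝ) (ε : ℝ) {ι : Type} [DecidableEq ι] (M : List (Ev ι × ℝ)) (β : ι → ℝ)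
    (Z : ι → Ph) (i : ι) (S : CTree) : Prop where
  lin : finZ Φ ε M Z i = ln Φ ε S
  bir : finB Φ ε M β Z i ≤ ext Φ ε S

theorem lst (h : Grf Φ ε T z x D Q F G V M Q₁) {S : CTree} (hS : IsLast F S)
    {i : κ ⊕ Frl F V} (hi : i ∉ Sum.inl '' D) (hx : zAll x F V i = S.root) :
    LSt Φ ε M (fun i => (zAll z F V i).1) (fun i => (zAll z F V i).2.1) i S :=
  ⟨h.linS S hS i hi hx, h.birS S hS i hi hx⟩

/-- The final birth is exact, or it is not the time `s`. -/
theorem bir_cases (h : Grf Φ ε T z x D Q F G V M Q₁) {S : CTree} (hS : IsLast F S)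
    {i : κ ⊕ Frl F V} (hi : i ∉ Sum.inl '' D) (hx : zAll x F V i = S.root)
    (hb : ∀ k ∉ D, finB Φ ε Q (fun i => (z i).1) (fun i => (z i).2.1) k = (x k).1 ∨
      s ≠ (x k).1) :
    finB Φ ε M (fun i => (zAll z F V i).1) (fun i => (zAll z F V i).2.1) i = ext Φ ε S ∨
      ext Φ ε S ≠ s := by
  by_cases hl : S = leaf S.root
  · rcases i with k | τ
    · have hk : k ∉ D := fun h => hi ⟨k, h, rfl⟩
      rcases hb k hk with h1 | h1
      · left
        refine h.birE S hS _ hi hx (Or.inr fun k' hk' => ?_)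
        cases hk'
        exact h1
      · right
        rw [hl]
        change S.root.1 ≠ s
        have h2 : x k = S.root := hx
        rw [← h2]
        exact h1.symm
    · left
      exact h.birE S hS _ hi hx (Or.inr fun k' hk' => by cases hk')
  · left
    exact h.birE S hS _ hi hx (Or.inl hl)

/-- **The irregular final contacts of the grafted program.**  The births of the base have to be exact
for the contacts of two flying labels only. -/
theorem irrP' (hΦ : IsPotential Φ) (hε : 0 < ε) (hB : BaseP Φ ε T z x D Q)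
    (h : Grf Φ ε T z x D Q F G V M Q₁) (hF : Fam Φ ε T F G)
    (hV : ∀ σ ∈ lab F, σ ∈ V ∨ ∃ i ∉ D, x i = σ)
    (hGs : ∀ g ∈ G, g.2.2 ≤ s) {es : List (Src × Src)}
    (hb : (∃ p, es = [p]) → ∀ k ∉ D,
      finB Φ ε Q (fun i => (z i).1) (fun i => (z i).2.1) k = (x k).1 ∨ s ≠ (x k).1)
    {Lg : Bool → Gh → Prop} (hI : Irr Φ ε Lg F G s es) :
    ∃ es' : List ((κ ⊕ Frl F V) × (κ ⊕ Frl F V)),
      IrrP Φ ε M (fun i => (zAll z F V i).1) (fun i => (zAll z F V i).2.1) s es' ∧
      ∀ p ∈ es, ∃ i k, i ∉ Sum.inl '' D ∧ k ∉ Sum.inl '' D ∧ zAll x F V i = p.1 ∧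
        zAll x F V k = p.2 ∧ (i, k) ∈ es' := by
  set β : κ ⊕ Frl F V → ℝ := fun i => (zAll z F V i).1 with hβ
  set Z : κ ⊕ Frl F V → Ph := fun i => (zAll z F V i).2.1 with hZ
  have hlbl : ∀ S, IsLast F S → ∃ i : κ ⊕ Frl F V, i ∉ Sum.inl '' D ∧ zAll x F V i = S.root :=
    fun S hS => exists_lbl hV hS.root_mem
  have hne : ∀ {i k : κ ⊕ Frl F V} {S S' : CTree}, zAll x F V i = S.root →
      zAll x F V k = S'.root → S.root ≠ S'.root → i ≠ k := by
    rintro i k S S' h1 h2 h3 rfl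
    exact h3 (h1.symm.trans h2)
  cases hI with
  | tri X Y C hX hY hC hok h1 h2 eC hCx hCy hc nd tg _ =>
    obtain ⟨iX, dX, xX⟩ := hlbl X hX
    obtain ⟨iY, dY, xY⟩ := hlbl Y hY
    obtain ⟨iC, dC, xC⟩ := hlbl C hC
    have sX := h.lst hX dX xX
    have sY := h.lst hY dY xY
    have sC := h.lst hC dC xC
    rw [← hβ, ← hZ] at sX sY sC
    have hXY : X.root ≠ Y.root := by
      intro hr
      exact Set.disjoint_left.1 hok.2.2.1 X.root_mem_leaves (hr ▸ Y.root_mem_leaves)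
    refine ⟨[(iX, iY), (iX, iC)], .tri iX iY iC (hne xX xY hXY) (hne xC xX hCx)
      (hne xC xY hCy) ?_ ?_ ?_ ?_ ?_ ?_ ?_ ?_ ?_ ?_ ?_ ?_ ?_ ?_, ?_⟩
    · rw [sX.lin, sY.lin]; exact hok.2.2.2.1
    · rw [sX.lin, sY.lin]; exact hok.2.2.2.2.1
    · rw [sX.lin, sY.lin]; exact sX.bir.trans_lt hok.2.2.2.2.2.1
    · rw [sX.lin, sY.lin]; exact sY.bir.trans_lt hok.2.2.2.2.2.2
    · rw [sX.lin, sY.lin]; exact h1
    · rw [sX.lin, sY.lin]; exact h2
    · exact sC.bir.trans eC
    · rw [sX.lin, sY.lin, sC.lin]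
      rw [st_swap hΦ X Y s] at hc
      exact hc.imp_right Or.inl
    · exact h.notDr hB dX xX fun g hg => (nd g hg).1
    · exact h.notDr hB dY xY fun g hg => (nd g hg).2.1
    · exact h.notDr hB dC xC fun g hg => (nd g hg).2.2
    · rw [sX.lin, sY.lin]
      exact h.useLe hΦ hε hB hF hX dX xX hok.2.2.2.2.2.1.le (fun g hg => (nd g hg).1)
        fun g hg hr => tg g hg (Or.inl hr)
    · rw [sX.lin, sY.lin]
      exact h.useLe hΦ hε hB hF hY dY xY hok.2.2.2.2.2.2.le (fun g hg => (nd g hg).2.1)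
        fun g hg hr => tg g hg (Or.inr hr)
    · exact h.useLe hΦ hε hB hF hC dC xC eC (fun g hg => (nd g hg).2.2) fun g hg _ => hGs g hg
    · intro p hp
      simp only [List.mem_cons, List.not_mem_nil, or_false] at hp
      rcases hp with rfl | rfl
      · exact ⟨iX, iY, dX, dY, xX, xY, by simp⟩
      · exact ⟨iX, iC, dX, dC, xX, xC, by simp⟩
  | quad X Y U W hX hY hU hW hok h1 h2 hok' h1' h2' r1 r2 r3 r4 hc nd tg tg' _ _ =>
    obtain ⟨iX, dX, xX⟩ := hlbl X hX
    obtain ⟨iY, dY, xY⟩ := hlbl Y hY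
    obtain ⟨iU, dU, xU⟩ := hlbl U hU
    obtain ⟨iW, dW, xW⟩ := hlbl W hW
    have sX := h.lst hX dX xX
    have sY := h.lst hY dY xY
    have sU := h.lst hU dU xU
    have sW := h.lst hW dW xW
    rw [← hβ, ← hZ] at sX sY sU sW
    have hXY : X.root ≠ Y.root := by
      intro hr
      exact Set.disjoint_left.1 hok.2.2.1 X.root_mem_leaves (hr ▸ Y.root_mem_leaves)
    have hUW : U.root ≠ W.root := by
      intro hr
      exact Set.disjoint_left.1 hok'.2.2.1 U.root_mem_leaves (hr ▸ W.root_mem_leaves)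
    refine ⟨[(iX, iY), (iU, iW), (iX, iU)], .quad iX iY iU iW (hne xX xY hXY) (hne xU xW hUW)
      (hne xX xU r1) (hne xX xW r2) (hne xY xU r3) (hne xY xW r4) ?_ ?_ ?_ ?_ ?_ ?_ ?_ ?_ ?_ ?_ ?_
      ?_ ?_ ?_ ?_ ?_ ?_ ?_ ?_ ?_ ?_, ?_⟩
    · rw [sX.lin, sY.lin]; exact hok.2.2.2.1
    · rw [sX.lin, sY.lin]; exact hok.2.2.2.2.1
    · rw [sX.lin, sY.lin]; exact sX.bir.trans_lt hok.2.2.2.2.2.1
    · rw [sX.lin, sY.lin]; exact sY.bir.trans_lt hok.2.2.2.2.2.2
    · rw [sX.lin, sY.lin]; exact h1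
    · rw [sX.lin, sY.lin]; exact h2
    · rw [sU.lin, sW.lin]; exact hok'.2.2.2.1
    · rw [sU.lin, sW.lin]; exact hok'.2.2.2.2.1
    · rw [sU.lin, sW.lin]; exact sU.bir.trans_lt hok'.2.2.2.2.2.1
    · rw [sU.lin, sW.lin]; exact sW.bir.trans_lt hok'.2.2.2.2.2.2
    · rw [sU.lin, sW.lin]; exact h1'
    · rw [sU.lin, sW.lin]; exact h2'
    · rw [sX.lin, sY.lin, sU.lin, sW.lin]
      exact hc
    · exact h.notDr hB dX xX fun g hg => (nd g hg).1
    · exact h.notDr hB dY xY fun g hg => (nd g hg).2.1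
    · exact h.notDr hB dU xU fun g hg => (nd g hg).2.2.1
    · exact h.notDr hB dW xW fun g hg => (nd g hg).2.2.2
    · rw [sX.lin, sY.lin]
      exact h.useLe hΦ hε hB hF hX dX xX hok.2.2.2.2.2.1.le (fun g hg => (nd g hg).1)
        fun g hg hr => tg g hg (Or.inl hr)
    · rw [sX.lin, sY.lin]
      exact h.useLe hΦ hε hB hF hY dY xY hok.2.2.2.2.2.2.le (fun g hg => (nd g hg).2.1)
        fun g hg hr => tg g hg (Or.inr hr)
    · rw [sU.lin, sW.lin]
      exact h.useLe hΦ hε hB hF hU dU xU hok'.2.2.2.2.2.1.le (fun g hg => (nd g hg).2.2.1)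
        fun g hg hr => tg' g hg (Or.inl hr)
    · rw [sU.lin, sW.lin]
      exact h.useLe hΦ hε hB hF hW dW xW hok'.2.2.2.2.2.2.le (fun g hg => (nd g hg).2.2.2)
        fun g hg hr => tg' g hg (Or.inr hr)
    · intro p hp
      simp only [List.mem_cons, List.not_mem_nil, or_false] at hp
      rcases hp with rfl | rfl | rfl
      · exact ⟨iX, iY, dX, dY, xX, xY, by simp⟩
      · exact ⟨iU, iW, dU, dW, xU, xW, by simp⟩
      · exact ⟨iX, iU, dX, dU, xX, xU, by simp⟩
  | trip X Y C hX hY hC ex ey eC hXY hCx hCy hm hh hc nd _ _ =>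
    obtain ⟨iX, dX, xX⟩ := hlbl X hX
    obtain ⟨iY, dY, xY⟩ := hlbl Y hY
    obtain ⟨iC, dC, xC⟩ := hlbl C hC
    have sX := h.lst hX dX xX
    have sY := h.lst hY dY xY
    have sC := h.lst hC dC xC
    rw [← hβ, ← hZ] at sX sY sC
    refine ⟨[(iX, iY), (iY, iC)], .trip iX iY iC (hne xX xY hXY) (hne xC xX hCx)
      (hne xC xY hCy) (sX.bir.trans_lt ex) (sY.bir.trans_lt ey) (sC.bir.trans eC) ?_ ?_ ?_
      (h.notDr hB dX xX fun g hg => (nd g hg).1) (h.notDr hB dY xY fun g hg => (nd g hg).2.1)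
      (h.notDr hB dC xC fun g hg => (nd g hg).2.2)
      (h.useLe hΦ hε hB hF hX dX xX ex.le (fun g hg => (nd g hg).1) fun g hg _ => hGs g hg)
      (h.useLe hΦ hε hB hF hY dY xY ey.le (fun g hg => (nd g hg).2.1) fun g hg _ => hGs g hg)
      (h.useLe hΦ hε hB hF hC dC xC eC (fun g hg => (nd g hg).2.2) fun g hg _ => hGs g hg), ?_⟩
    · rw [sX.lin, sY.lin]; exact hm
    · rw [sX.lin, sY.lin]; exact hh
    · rw [sY.lin, sC.lin]; exact hc
    · intro p hp
      simp only [List.mem_cons, List.not_mem_nil, or_false] at hp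
      rcases hp with rfl | rfl
      · exact ⟨iX, iY, dX, dY, xX, xY, by simp⟩
      · exact ⟨iY, iC, dY, dC, xY, xC, by simp⟩
  | born A B hA hB' hr hs hc nd _ =>
    obtain ⟨iA, dA, xA⟩ := hlbl A hA
    obtain ⟨iB, dB, xB⟩ := hlbl B hB'
    have sA := h.lst hA dA xA
    have sB := h.lst hB' dB xB
    have cA := h.bir_cases (s := s) hA dA xA (hb ⟨_, rfl⟩)
    have cB := h.bir_cases (s := s) hB' dB xB (hb ⟨_, rfl⟩)
    rw [← hβ, ← hZ] at sA sB cA cB
    have lA : ext Φ ε A ≤ s := by rw [hs]; exact le_max_left _ _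
    have lB : ext Φ ε B ≤ s := by rw [hs]; exact le_max_right _ _
    have hs' : s = max (finB Φ ε M β Z iA) (finB Φ ε M β Z iB) := by
      rcases cA with cA | cA
      · rcases cB with cB | cB
        · rw [cA, cB]; exact hs
        · have h3 : ext Φ ε A = s := by
            rcases max_choice (ext Φ ε A) (ext Φ ε B) with h4 | h4
            · rw [hs, h4]
            · exact absurd (by rw [hs, h4]) cB
          rw [cA, h3, max_eq_left (sB.bir.trans lB)]
      · have h3 : ext Φ ε B = s := by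
          rcases max_choice (ext Φ ε A) (ext Φ ε B) with h4 | h4
          · exact absurd (by rw [hs, h4]) cA
          · rw [hs, h4]
        rcases cB with cB | cB
        · rw [cB, h3, max_eq_right (sA.bir.trans lA)]
        · exact absurd h3 cB
    refine ⟨[(iA, iB)], .born iA iB (hne xA xB hr) hs' ?_
      (h.notDr hB dA xA fun g hg => (nd g hg).1) (h.notDr hB dB xB fun g hg => (nd g hg).2)
      (h.useLe hΦ hε hB hF hA dA xA lA (fun g hg => (nd g hg).1) fun g hg _ => hGs g hg)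
      (h.useLe hΦ hε hB hF hB' dB xB lB (fun g hg => (nd g hg).2) fun g hg _ => hGs g hg), ?_⟩
    · rw [sA.lin, sB.lin]; exact hc
    · intro p hp
      simp only [List.mem_cons, List.not_mem_nil, or_false] at hp
      subst hp
      exact ⟨iA, iB, dA, dB, xA, xB, by simp⟩
  | graze A B hA hB' hr hg nd _ =>
    obtain ⟨iA, dA, xA⟩ := hlbl A hA
    obtain ⟨iB, dB, xB⟩ := hlbl B hB'
    have sA := h.lst hA dA xA
    have sB := h.lst hB' dB xB
    rw [← hβ, ← hZ] at sA sB
    have lA : ext Φ ε A ≤ s := (le_max_left _ _).trans hg.1.le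
    have lB : ext Φ ε B ≤ s := (le_max_right _ _).trans hg.1.le
    have ht := hg.tangent hε
    refine ⟨[(iA, iB)], .graze iA iB (hne xA xB hr) (sA.bir.trans lA) (sB.bir.trans lB) ?_ ?_ ?_
      (h.notDr hB dA xA fun g hg => (nd g hg).1) (h.notDr hB dB xB fun g hg => (nd g hg).2)
      (h.useLe hΦ hε hB hF hA dA xA lA (fun g hg => (nd g hg).1) fun g hg _ => hGs g hg)
      (h.useLe hΦ hε hB hF hB' dB xB lB (fun g hg => (nd g hg).2) fun g hg _ => hGs g hg), ?_⟩
    · rw [sA.lin, sB.lin]; exact ht.1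
    · rw [sA.lin, sB.lin]; exact ht.2
    · rw [sA.lin, sB.lin]; exact hg.2.1
    · intro p hp
      simp only [List.mem_cons, List.not_mem_nil, or_false] at hp
      subst hp
      exact ⟨iA, iB, dA, dB, xA, xB, by simp⟩

/-- **The irregular final contacts of the grafted program.** -/
theorem irrP (hΦ : IsPotential Φ) (hε : 0 < ε) (hB : BaseP Φ ε T z x D Q)
    (h : Grf Φ ε T z x D Q F G V M Q₁) (hF : Fam Φ ε T F G)
    (hV : ∀ σ ∈ lab F, σ ∈ V ∨ ∃ i ∉ D, x i = σ)
    (hGs : ∀ g ∈ G, g.2.2 ≤ s)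
    (hb : ∀ k ∉ D, finB Φ ε Q (fun i => (z i).1) (fun i => (z i).2.1) k = (x k).1 ∨
      s ≠ (x k).1) {es : List (Src × Src)} {Lg : Bool → Gh → Prop}
    (hI : Irr Φ ε Lg F G s es) :
    ∃ es' : List ((κ ⊕ Frl F V) × (κ ⊕ Frl F V)),
      IrrP Φ ε M (fun i => (zAll z F V i).1) (fun i => (zAll z F V i).2.1) s es' ∧
      ∀ p ∈ es, ∃ i k, i ∉ Sum.inl '' D ∧ k ∉ Sum.inl '' D ∧ zAll x F V i = p.1 ∧
        zAll x F V k = p.2 ∧ (i, k) ∈ es' :=
  h.irrP' hΦ hε hB hF hV hGs (fun _ => hb) hI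

end irr

end Grf

end Vale.Agent.P119.IND
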