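import Vale.Agent.P119.IND.GraftC

/-!
# P119, block IND: lines which begin at a ghost contact of the base (`helper810`)

The line `x k` of a label of the base may begin at the time of a ghost contact `gh a k` of the base (the
entrance of the lines of `a` and `k`) instead of the end of the last collision of `k`.  If a particle
`C` is in contact with it exactly at that time, then there is a triple contact `a`, `k`, `C`:

* `IrrP.of_gh`: the triple contact, in the program without the ghost event;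
* `KcT`: the labels of this kind; `Grf.irrP_kc`: the irregular final contacts of the grafted program;
* `BaseP.irrO_kc`, **`BaseP.of_detOut_kc`**: the outputs of the deterministic analysis.
-/

open Set
open scoped ENNReal

set_option linter.unusedSectionVars false

noncomputable section

namespace Vale.Agent.P119.IND

open KU M M.CTree TL GC AU

variable {Φ : E3 → ℝ} {ε T : ℝ}

/-! ### Removing a ghost event -/

section Erase

variable {ι : Type} [DecidableEq ι] {A B : List (Ev ι × ℝ)} {e : Ev ι × ℝ} {i k : ι}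

theorem finZ_erase (he : e.1 = Ev.gh i k) (Z : ι → Ph) :
    finZ Φ ε (A ++ e :: B) Z = finZ Φ ε (A ++ B) Z := by
  rw [finZ_append, finZ_append]
  change finZ Φ ε B (lineApp Φ ε e.1 _) = _
  rw [he]
  rfl

theorem finB_erase (he : e.1 = Ev.gh i k) (β : ι → ℝ) (Z : ι → Ph) :
    finB Φ ε (A ++ e :: B) β Z = finB Φ ε (A ++ B) β Z := by
  rw [finB_append, finB_append]
  change finB Φ ε B (birthApp Φ ε e.1 _ _) (lineApp Φ ε e.1 _) = _
  rw [he]
  rfl

theorem RunT.erase (he : e.1 = Ev.gh i k) {r : ℝ} {β : ι → ℝ} {Z : ι → Ph}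
    (h : RunT Φ ε T r (A ++ e :: B) β Z) : RunT Φ ε T r (A ++ B) β Z := by
  induction A generalizing r β Z with
  | nil =>
    obtain ⟨h1, h2, h3, h4⟩ := h
    rw [he] at h4
    exact RunT.mono h1 h4
  | cons e' A ih =>
    obtain ⟨h1, h2, h3, h4⟩ := h
    exact ⟨h1, h2, h3, ih h4⟩

theorem Wf.erase (h : Wf (A ++ e :: B)) : Wf (A ++ B) := by
  induction A with
  | nil => exact h.2
  | cons e' A ih =>
    refine ⟨fun i k hik e'' he'' => h.1 i k hik e'' ?_, ih h.2⟩
    rcases List.mem_append.1 he'' with h1 | h1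
    · exact List.mem_append_left _ h1
    · exact List.mem_append_right _ (List.mem_cons_of_mem _ h1)

theorem mem_erase_of {e' : Ev ι × ℝ} (h : e' ∈ A ++ B) : e' ∈ A ++ e :: B := by
  rcases List.mem_append.1 h with h1 | h1
  · exact List.mem_append_left _ h1
  · exact List.mem_append_right _ (List.mem_cons_of_mem _ h1)

theorem RunT.le_of_left {r : ℝ} {β : ι → ℝ} {Z : ι → Ph} (h : RunT Φ ε T r (A ++ e :: B) β Z) :
    ∀ e' ∈ A, e'.2 ≤ e.2 := by
  induction A generalizing r β Z with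
  | nil => intro e' he'; exact absurd he' List.not_mem_nil
  | cons a A ih =>
    intro e' he'
    rcases List.mem_cons.1 he' with rfl | he'
    · exact h.2.2.2.times e (List.mem_append_right _ List.mem_cons_self)
    · exact ih h.2.2.2 e' he'

theorem Wf.left_ne (h : Wf (A ++ e :: B)) (he : e.1 = Ev.gh i k) {e' : Ev ι × ℝ} (he' : e' ∈ A)
    {j l : ι} (hj : e'.1 = Ev.gh j l) : j ≠ i := by
  induction A with
  | nil => exact absurd he' List.not_mem_nil
  | cons a A ih =>
    rcases List.mem_cons.1 he' with rfl | he'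
    · have h1 := (h.1 j l hj e (List.mem_append_right _ List.mem_cons_self)).1
      rw [he] at h1
      exact fun h' => h1 h'.symm
    · exact ih h.2 he'

theorem Wf.right_ne (h : Wf (A ++ e :: B)) (he : e.1 = Ev.gh i k) {e' : Ev ι × ℝ} (he' : e' ∈ B) :
    e'.1.fst ≠ i ∧ e'.1.snd ≠ i := by
  induction A with
  | nil => exact h.1 i k he e' he'
  | cons a A ih => exact ih h.2

/-- **A triple contact**: the ghost event `gh a k` takes place at the entrance of the lines of `a` and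
`k`, and the label `C` is in contact with `k` at the same time. -/
theorem IrrP.of_gh {β : ι → ℝ} {Z : ι → Ph} {s : ℝ} {a C : ι}
    (he : e = (Ev.gh a k, s)) (hW : Wf (A ++ e :: B)) (hR : RunT Φ ε T 0 (A ++ e :: B) β Z)
    (hak : a ≠ k) (b1 : finB Φ ε (A ++ e :: B) β Z a < s) (b2 : finB Φ ε (A ++ e :: B) β Z k < s)
    (hm : Meets ε (finZ Φ ε (A ++ e :: B) Z a, finZ Φ ε (A ++ e :: B) Z k))
    (hh : hitT ε (finZ Φ ε (A ++ e :: B) Z a, finZ Φ ε (A ++ e :: B) Z k) = s)
    (hCa : C ≠ a) (hCk : C ≠ k) (bC : finB Φ ε (A ++ e :: B) β Z C ≤ s)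
    (hc : Ctc ε (KU.free s (finZ Φ ε (A ++ e :: B) Z k))
      (KU.free s (finZ Φ ε (A ++ e :: B) Z C)))
    (nk : NotDr (A ++ e :: B) k) (nC : NotDr (A ++ e :: B) C) (uk : UseLe (A ++ e :: B) k s)
    (uC : UseLe (A ++ e :: B) C s) : IrrP Φ ε (A ++ B) β Z s [(a, k), (k, C)] := by
  have he1 : e.1 = Ev.gh a k := by rw [he]
  have he2 : e.2 = s := by rw [he]
  rw [finZ_erase he1] at hm hh hc
  rw [finB_erase he1] at b1 b2 bC
  refine .trip a k C hak hCa hCk b1 b2 bC hm hh hc ?_ (fun e' h => nk e' (mem_erase_of h))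
    (fun e' h => nC e' (mem_erase_of h)) ?_ (fun e' h => uk e' (mem_erase_of h))
    (fun e' h => uC e' (mem_erase_of h))
  · intro e' he' j l hjl
    rcases List.mem_append.1 he' with h1 | h1
    · exact hW.left_ne he1 h1 hjl
    · have h2 := (hW.right_ne he1 h1).1
      rw [hjl] at h2
      exact h2
  · intro e' he' hj
    rcases List.mem_append.1 he' with h1 | h1
    · rw [← he2]
      exact hR.le_of_left e' h1
    · obtain ⟨h2, h3⟩ := hW.right_ne he1 h1
      rcases hj with hj | hj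
      · exact absurd hj h2
      · exact absurd hj h3

end Erase

variable {κ : Type} [DecidableEq κ]

/-- The line of the label `k` begins at the time `s` of a ghost contact of the base, at the entrance of
the two lines. -/
def KcT (Φ : E3 → ℝ) (ε : ℝ) (z : κ → Src) (Q : List (Ev κ × ℝ)) (s : ℝ) (k : κ) : Prop :=
  ∃ a, (Ev.gh a k, s) ∈ Q ∧ finB Φ ε Q (fun i => (z i).1) (fun i => (z i).2.1) a < s ∧
    finB Φ ε Q (fun i => (z i).1) (fun i => (z i).2.1) k < s ∧
    Meets ε (finZ Φ ε Q (fun i => (z i).2.1) a, finZ Φ ε Q (fun i => (z i).2.1) k) ∧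
    hitT ε (finZ Φ ε Q (fun i => (z i).2.1) a, finZ Φ ε Q (fun i => (z i).2.1) k) = s

namespace Grf

variable {z x : κ → Src} {D : Set κ} {Q : List (Ev κ × ℝ)} {F : Finset CTree} {G : List Gh}
  {V : Set Src} [DecidableEq (κ ⊕ Frl F V)] {M Q₁ : List (Ev (κ ⊕ Frl F V) × ℝ)} {s : ℝ}

/-- The triple contact, in the grafted program. -/
theorem of_kc (hB : BaseP Φ ε T z x D Q) (h : Grf Φ ε T z x D Q F G V M Q₁)
    {A : CTree} (hA : IsLast F A) (hAl : A = leaf A.root) {k : κ} (hk : k ∉ D)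
    (hxk : x k = A.root) (hkc : KcT Φ ε z Q s k) {C : CTree} (hC : IsLast F C)
    {iC : κ ⊕ Frl F V} (dC : iC ∉ Sum.inl '' D) (xC : zAll x F V iC = C.root)
    (hr : C.root ≠ A.root) (lC : ext Φ ε C ≤ s)
    (hc : Ctc ε (KU.free s (ln Φ ε A)) (KU.free s (ln Φ ε C)))
    (nk : NotDr M (Sum.inl k)) (nC : NotDr M iC) (uk : UseLe M (Sum.inl k) s)
    (uC : UseLe M iC s) :
    ∃ (A' B' : List (Ev (κ ⊕ Frl F V) × ℝ)) (a : κ),
      M = A' ++ (Ev.gh (Sum.inl a) (Sum.inl k), s) :: B' ∧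
      IrrP Φ ε (A' ++ B') (fun i => (zAll z F V i).1) (fun i => (zAll z F V i).2.1) s
        [(Sum.inl a, Sum.inl k), (Sum.inl k, iC)] := by
  obtain ⟨a, haQ, b1, b2, hm, hh⟩ := hkc
  obtain ⟨haD, -⟩ := hB.ghost _ haQ a k rfl
  have hmem : (Ev.gh (Sum.inl a) (Sum.inl k), s) ∈ M := by
    refine h.perm.symm.subset (List.mem_append_left _ (List.mem_map.2 ⟨_, haQ, rfl⟩))
  obtain ⟨A', B', hAB⟩ := List.append_of_mem hmem
  have hxk' : zAll x F V (Sum.inl k) = A.root := hxk
  have sA := h.lst hA (inl_notMem hk) hxk'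
  have sC := h.lst hC dC xC
  obtain ⟨f1, f2⟩ := h.finD a haD
  have f3 := h.birL k hk (by
    intro P hP hr'
    have h1 := hA.last P hP (by rw [hr', hxk])
    rw [hAl] at h1
    rw [hxk]
    cases h1
    rfl)
  have elin : ln Φ ε A = finZ Φ ε Q (fun i => (z i).2.1) k := by
    rw [hB.lin k hk, hxk, hAl]
    rfl
  have hne : a ≠ k := fun h' => hk (h' ▸ haD)
  refine ⟨A', B', a, hAB, ?_⟩
  have hW := h.wf
  have hR := h.run
  refine IrrP.of_gh (A := A') (B := B') (e := (Ev.gh (Sum.inl a) (Sum.inl k), s)) (a := Sum.inl a)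
    (k := Sum.inl k) rfl (hAB ▸ hW) (hAB ▸ hR) (fun h' => hne (Sum.inl_injective h')) ?_ ?_ ?_ ?_
    (fun h' => dC ⟨a, haD, h'.symm⟩) ?_ ?_ ?_ ?_ ?_ ?_ ?_
  · rw [← hAB, f2]; exact b1
  · rw [← hAB, f3]; exact b2
  · rw [← hAB, f1, sA.lin, elin]; exact hm
  · rw [← hAB, f1, sA.lin, elin]; exact hh
  · rintro rfl
    exact hr (xC.symm.trans hxk')
  · rw [← hAB]; exact sC.bir.trans lC
  · rw [← hAB, sA.lin, sC.lin]; exact hc
  · rw [← hAB]; exact nk
  · rw [← hAB]; exact nC
  · rw [← hAB]; exact uk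
  · rw [← hAB]; exact uC

/-- The final birth is exact, or it is not the time `s`, or the line begins at a ghost contact. -/
theorem bir_cases₃ (h : Grf Φ ε T z x D Q F G V M Q₁) {S : CTree} (hS : IsLast F S)
    {i : κ ⊕ Frl F V} (hi : i ∉ Sum.inl '' D) (hx : zAll x F V i = S.root)
    (hb : ∀ k ∉ D, (finB Φ ε Q (fun i => (z i).1) (fun i => (z i).2.1) k = (x k).1 ∨
      s ≠ (x k).1) ∨ KcT Φ ε z Q s k) :
    (finB Φ ε M (fun i => (zAll z F V i).1) (fun i => (zAll z F V i).2.1) i = ext Φ ε S ∨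
      ext Φ ε S ≠ s) ∨ (S = leaf S.root ∧ ∃ k ∉ D, i = Sum.inl k ∧ KcT Φ ε z Q s k) := by
  by_cases hl : S = leaf S.root
  · rcases i with k | τ
    · have hk : k ∉ D := fun h => hi ⟨k, h, rfl⟩
      rcases hb k hk with (h1 | h1) | h1
      · left; left
        refine h.birE S hS _ hi hx (Or.inr fun k' hk' => ?_)
        cases hk'
        exact h1
      · left; right
        rw [hl]
        change S.root.1 ≠ s
        have h2 : x k = S.root := hx
        rw [← h2]
        exact h1.symm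
      · exact Or.inr ⟨hl, k, hk, rfl, h1⟩
    · left; left
      exact h.birE S hS _ hi hx (Or.inr fun k' hk' => by cases hk')
  · left; left
    exact h.birE S hS _ hi hx (Or.inl hl)

/-- The result: an irregular final contact of the grafted program, maybe without a ghost event. -/
def KcOut (Φ : E3 → ℝ) (ε s : ℝ) {ι : Type} [DecidableEq ι] (M : List (Ev ι × ℝ)) (β : ι → ℝ)
    (Z : ι → Ph) (es₁ : List (ι × ι)) : Prop :=
  ∃ (M' : List (Ev ι × ℝ)) (es' : List (ι × ι)),
    (M' = M ∨ ∃ A' B' a k, M = A' ++ (Ev.gh a k, s) :: B' ∧ M' = A' ++ B') ∧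
    IrrP Φ ε M' β Z s es' ∧ ∀ p ∈ edges M ++ es₁, Edg.Joined (edges M' ++ es') p.1 p.2

theorem KcOut.of_irrP {ι : Type} [DecidableEq ι] {M : List (Ev ι × ℝ)} {β : ι → ℝ} {Z : ι → Ph}
    {es' : List (ι × ι)} (h : IrrP Φ ε M β Z s es') : KcOut Φ ε s M β Z es' :=
  ⟨M, es', Or.inl rfl, h, fun _ hp => Edg.joined_edge hp⟩

theorem KcOut.of_erase {ι : Type} [DecidableEq ι] {A' B' : List (Ev ι × ℝ)} {a k C : ι}
    {β : ι → ℝ} {Z : ι → Ph} {es₁ : List (ι × ι)}
    (h : IrrP Φ ε (A' ++ B') β Z s [(a, k), (k, C)])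
    (hes : ∀ p ∈ es₁, p = (k, C) ∨ p = (C, k)) :
    KcOut Φ ε s (A' ++ (Ev.gh a k, s) :: B') β Z es₁ := by
  refine ⟨A' ++ B', [(a, k), (k, C)], Or.inr ⟨A', B', a, k, rfl, rfl⟩, h, fun p hp => ?_⟩
  rcases List.mem_append.1 hp with h1 | h1
  · obtain ⟨e, he, rfl⟩ := List.mem_map.1 h1
    rcases List.mem_append.1 he with h2 | h2
    · exact Edg.joined_edge (List.mem_append_left _
        (List.mem_map.2 ⟨e, List.mem_append_left _ h2, rfl⟩))
    · rcases List.mem_cons.1 h2 with rfl | h2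
      · exact Edg.joined_of_mem (List.mem_append_right _ (by simp [Ev.fst, Ev.snd]))
      · exact Edg.joined_edge (List.mem_append_left _
          (List.mem_map.2 ⟨e, List.mem_append_right _ h2, rfl⟩))
  · rcases hes p h1 with rfl | rfl
    · exact Edg.joined_of_mem (List.mem_append_right _ (by simp))
    · exact (Edg.joined_of_mem (List.mem_append_right _ (by simp))).symm

/-- **The irregular final contacts of the grafted program**, some lines beginning at ghost contacts. -/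
theorem irrP_kc (hΦ : IsPotential Φ) (hε : 0 < ε) (hB : BaseP Φ ε T z x D Q)
    (h : Grf Φ ε T z x D Q F G V M Q₁) (hF : Fam Φ ε T F G)
    (hV : ∀ σ ∈ lab F, σ ∈ V ∨ ∃ i ∉ D, x i = σ)
    (hGs : ∀ g ∈ G, g.2.2 ≤ s) {es : List (Src × Src)}
    (hb : ∀ k ∉ D, (finB Φ ε Q (fun i => (z i).1) (fun i => (z i).2.1) k = (x k).1 ∨
      s ≠ (x k).1) ∨ KcT Φ ε z Q s k)
    {Lg : Bool → Gh → Prop} (hI : Irr Φ ε Lg F G s es) :
    ∃ es₁ : List ((κ ⊕ Frl F V) × (κ ⊕ Frl F V)),
      (∀ p ∈ es, ∃ i k, i ∉ Sum.inl '' D ∧ k ∉ Sum.inl '' D ∧ zAll x F V i = p.1 ∧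
        zAll x F V k = p.2 ∧ (i, k) ∈ es₁) ∧
      KcOut Φ ε s M (fun i => (zAll z F V i).1) (fun i => (zAll z F V i).2.1) es₁ := by
  by_cases hsing : ∃ p, es = [p]
  swap
  · obtain ⟨es', h1, h2⟩ := h.irrP' hΦ hε hB hF hV hGs (fun h' => absurd h' hsing) hI
    exact ⟨es', h2, .of_irrP h1⟩
  have hlbl : ∀ S, IsLast F S → ∃ i : κ ⊕ Frl F V, i ∉ Sum.inl '' D ∧ zAll x F V i = S.root :=
    fun S hS => exists_lbl hV hS.root_mem
  have hne : ∀ {i k : κ ⊕ Frl F V} {S S' : CTree}, zAll x F V i = S.root →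
      zAll x F V k = S'.root → S.root ≠ S'.root → i ≠ k := by
    rintro i k S S' h1 h2 h3 rfl
    exact h3 (h1.symm.trans h2)
  set β : κ ⊕ Frl F V → ℝ := fun i => (zAll z F V i).1 with hβ
  set Z : κ ⊕ Frl F V → Ph := fun i => (zAll z F V i).2.1 with hZ
  cases hI with
  | tri X Y C => exact absurd hsing (by simp)
  | quad X Y U W => exact absurd hsing (by simp)
  | trip X Y C => exact absurd hsing (by simp)
  | born A B hA hB' hr hs hc nd _ =>
    obtain ⟨iA, dA, xA⟩ := hlbl A hA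
    obtain ⟨iB, dB, xB⟩ := hlbl B hB'
    have sA := h.lst hA dA xA
    have sB := h.lst hB' dB xB
    have cA := h.bir_cases₃ (s := s) hA dA xA hb
    have cB := h.bir_cases₃ (s := s) hB' dB xB hb
    rw [← hβ, ← hZ] at sA sB cA cB
    have lA : ext Φ ε A ≤ s := by rw [hs]; exact le_max_left _ _
    have lB : ext Φ ε B ≤ s := by rw [hs]; exact le_max_right _ _
    have nA := h.notDr hB dA xA fun g hg => (nd g hg).1
    have nB := h.notDr hB dB xB fun g hg => (nd g hg).2
    have uA := h.useLe hΦ hε hB hF hA dA xA lA (fun g hg => (nd g hg).1) fun g hg _ => hGs g hg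
    have uB := h.useLe hΦ hε hB hF hB' dB xB lB (fun g hg => (nd g hg).2) fun g hg _ => hGs g hg
    refine ⟨[(iA, iB)], ?_, ?_⟩
    · intro p hp
      simp only [List.mem_cons, List.not_mem_nil, or_false] at hp
      subst hp
      exact ⟨iA, iB, dA, dB, xA, xB, by simp⟩
    rcases cA with cA | ⟨hAl, k, hk, rfl, hkc⟩
    · rcases cB with cB | ⟨hBl, k, hk, rfl, hkc⟩
      · have hs' : s = max (finB Φ ε M β Z iA) (finB Φ ε M β Z iB) := by
          rcases cA with cA | cA
          · rcases cB with cB | cB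
            · rw [cA, cB]; exact hs
            · have h3 : ext Φ ε A = s := by
                rcases max_choice (ext Φ ε A) (ext Φ ε B) with h4 | h4
                · rw [hs, h4]
                · exact absurd (by rw [hs, h4]) cB
              rw [cA, h3, max_eq_left (sB.bir.trans lB)]
          · have h3 : ext Φ ε B = s := by
              rcases max_choice (ext Φ ε A) (ext Φ ε B) with h4 | h4
              · exact absurd (by rw [hs, h4]) cA
              · rw [hs, h4]
            rcases cB with cB | cB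
            · rw [cB, h3, max_eq_right (sA.bir.trans lA)]
            · exact absurd h3 cB
        refine .of_irrP (.born iA iB (hne xA xB hr) hs' ?_ nA nB uA uB)
        rw [sA.lin, sB.lin]; exact hc
      · obtain ⟨A', B', a, h1, h2⟩ := h.of_kc hB hB' hBl hk xB hkc hA dA xA hr lA hc.symm
          nB nA uB uA
        rw [h1]
        exact .of_erase h2 fun p hp => by
          simp only [List.mem_cons, List.not_mem_nil, or_false] at hp
          exact Or.inr hp
    · obtain ⟨A', B', a, h1, h2⟩ := h.of_kc hB hA hAl hk xA hkc hB' dB xB hr.symm lB hc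
        nA nB uA uB
      rw [h1]
      exact .of_erase h2 fun p hp => by
        simp only [List.mem_cons, List.not_mem_nil, or_false] at hp
        exact Or.inl hp
  | graze A B hA hB' hr hg nd _ =>
    obtain ⟨iA, dA, xA⟩ := hlbl A hA
    obtain ⟨iB, dB, xB⟩ := hlbl B hB'
    have sA := h.lst hA dA xA
    have sB := h.lst hB' dB xB
    rw [← hβ, ← hZ] at sA sB
    have lA : ext Φ ε A ≤ s := (le_max_left _ _).trans hg.1.le
    have lB : ext Φ ε B ≤ s := (le_max_right _ _).trans hg.1.le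
    have ht := hg.tangent hε
    refine ⟨[(iA, iB)], ?_, .of_irrP (.graze iA iB (hne xA xB hr) (sA.bir.trans lA)
      (sB.bir.trans lB) ?_ ?_ ?_
      (h.notDr hB dA xA fun g hg => (nd g hg).1) (h.notDr hB dB xB fun g hg => (nd g hg).2)
      (h.useLe hΦ hε hB hF hA dA xA lA (fun g hg => (nd g hg).1) fun g hg _ => hGs g hg)
      (h.useLe hΦ hε hB hF hB' dB xB lB (fun g hg => (nd g hg).2) fun g hg _ => hGs g hg))⟩
    · intro p hp
      simp only [List.mem_cons, List.not_mem_nil, or_false] at hp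
      subst hp
      exact ⟨iA, iB, dA, dB, xA, xB, by simp⟩
    · rw [sA.lin, sB.lin]; exact ht.1
    · rw [sA.lin, sB.lin]; exact ht.2
    · rw [sA.lin, sB.lin]; exact hg.2.1

end Grf

section exits

variable [Fintype κ] {z x : κ → Src} {D : Set κ} {Q : List (Ev κ × ℝ)} {m q c₀ N : ℕ}
  {T₀ : Fin m → CTree} {l : Fin q → Src} {w : Finset Ph} {R₀ : Finset κ} {F : Finset CTree}
  {G : List Gh}

/-- **A family with an irregular final contact**, some lines beginning at ghost contacts. -/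
theorem BaseP.irrO_kc (hΦ : IsPotential Φ) (hε : 0 < ε) (hB : BaseP Φ ε T z x D Q)
    (hR : CovB z Q l c₀ R₀) (hL : BLab T₀ l z) (hzw : ∀ i, z i ∉ wS w)
    (hxw : ∀ i ∉ D, x i ∉ wS w) {s : ℝ} (hs : s ≤ T) (hF : Fam Φ ε s F G)
    {es : List (Src × Src)} (hG : GrOn x D w F G es)
    (hb : ∀ k ∉ D, (finB Φ ε Q (fun i => (z i).1) (fun i => (z i).2.1) k = (x k).1 ∨
      s ≠ (x k).1) ∨ KcT Φ ε z Q s k)
    {Lg : Bool → Gh → Prop} (hI : Irr Φ ε Lg F G s es)
    (h1 : Fintype.card κ + F.card ≤ N) (h2 : Q.length + F.card + G.length ≤ N) :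
    IrrO Φ ε T c₀ N T₀ l w := by
  classical
  have hFT := hF.mono_T hs
  obtain ⟨M, Q₁, h⟩ := hB.graft_fam hΦ hε hFT (V := (wS w : Set Src)) hG.mem fun i hi => hxw i hi
  have : Fintype (Frl F (wS w : Set Src)) := Fintype.ofFinite _
  have hlen : M.length ≤ N := by
    have e1 := h.length_eq
    have e2 := h.len
    have e3 := card_nl_le F
    omega
  obtain ⟨es₁, h3, M', es', h4, h5, h6⟩ := h.irrP_kc hΦ hε hB hFT hG.mem
    (fun g hg => (hF.gh g hg).2.2.2.2.2.1) hb hI
  have hlT := hL.labT hB.inj hzw F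
  have hb0 : ∀ i, 0 ≤ (zAll z F (wS w : Set Src) i).1 := by
    rintro (k | ⟨σ, h5, h6⟩)
    · exact hB.nonneg k
    · obtain ⟨p, -, rfl⟩ := mem_wS.1 h6
      exact le_rfl
  have hcov := h.cover hB hFT hG.mem (fun i hi => hxw i hi) h3 hG.con hR.cov
  have hM' : RunT Φ ε T 0 M' (fun i => (zAll z F (wS w : Set Src) i).1)
      (fun i => (zAll z F (wS w : Set Src) i).2.1) ∧ Wf M' ∧ M'.length ≤ N := by
    rcases h4 with rfl | ⟨A', B', a, k, rfl, rfl⟩
    · exact ⟨h.run, h.wf, hlen⟩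
    · refine ⟨RunT.erase rfl h.run, Wf.erase h.wf, ?_⟩
      rw [List.length_append, List.length_cons] at hlen
      rw [List.length_append]
      omega
  obtain ⟨hrun, hwf, hlen'⟩ := hM'
  obtain ⟨A, B, hAB, hA, hB'⟩ := hrun.exists_split s
  subst hAB
  have h7 := h5.split hB'
  obtain ⟨j, hj⟩ := h7.exists_birth
  have h8 := (hrun.left).le_finB hΦ hε j
  obtain ⟨Rs, h9, h10, h11⟩ := exists_trans
    (Edg.joined_equivalence (edges (A ++ B) ++ es')) _
    (fun i => by
      obtain ⟨r, hr, hJ⟩ := hcov i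
      exact ⟨r, hr, hJ.of_edges h6⟩)
  refine IrrO.of_fintype (ι := κ ⊕ Frl F (wS w : Set Src)) (A := A) (B := B) (s := s) (es := es')
    (Rs := Rs) ?_ hlen' hlT ⟨fun i => ?_, fun r hr r' hr' hJ => h11 r hr r' hr' (jn_evs.1 hJ)⟩
    ?_ ?_ hb0 hwf hrun ((hb0 j).trans (h8.trans hj)) hs hA (fun e he => (hB' e he).le) h7
  · rw [Fintype.card_sum]
    have := card_frl_le F (wS w : Set Src)
    omega
  · obtain ⟨r, hr, hJ⟩ := h10 i
    exact ⟨r, hr, jn_evs.2 hJ⟩
  · refine (Finset.card_le_card h9).trans ?_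
    rw [Finset.card_map]
    exact hR.card
  · intro i hi
    obtain ⟨r, hr, rfl⟩ := Finset.mem_map.1 (h9 hi)
    exact hR.ord r hr

/-- **The outputs of the deterministic analysis over a base with `c₀ + 1` components**, some lines
beginning at ghost contacts. -/
theorem BaseP.of_detOut_kc (hΦ : IsPotential Φ) (hε : 0 < ε) (hB : BaseP Φ ε T z x D Q)
    (hR : CovB z Q l (c₀ + 1) R₀) (hL : BLab T₀ l z) (hzw : ∀ i, z i ∉ wS w)
    (hxw : ∀ i ∉ D, x i ∉ wS w) {L J : ℕ} {ins all : Set Src} {Lv : CTree → Prop}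
    {Lg : Bool → Gh → Prop} {s : ℝ} (hs : s ≤ T)
    (hall : ∀ σ ∈ all, σ ∈ wS w ∨ ∃ i ∉ D, x i = σ)
    (hins : ∀ σ ∈ ins, σ ∈ all ∧ σ ∉ wS w)
    (hb : ∀ k ∉ D, (finB Φ ε Q (fun i => (z i).1) (fun i => (z i).2.1) k = (x k).1 ∨
      s ≠ (x k).1) ∨ KcT Φ ε z Q s k)
    (h : DetOut hΦ hε L (wS w : Set Src) ins all Lv Lg T J N s) :
    LawC hΦ hε L T J c₀ (Fintype.card κ + Q.length + 2 * N) T₀ l w ins := by
  have hfind : ∀ σ ∈ all, σ ∉ wS w → ∃ i ∉ D, x i = σ := fun σ h1 h2 =>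
    (hall σ h1).resolve_left h2
  cases h with
  | clean σ hσ h => exact Or.inl ⟨σ, hσ, h⟩
  | closed F G hBF σ hσ hσF hJ hc =>
    right
    obtain ⟨i₀, hi₀, rfl⟩ := hfind σ (hins σ hσ).1 (hins σ hσ).2
    have hF := hBF.fam.mono_T hs
    have hG : GrOn x D w F G [] := by
      refine ⟨fun τ hτ => hall τ (hBF.sub τ hτ), fun τ hτ _ => ⟨i₀, hi₀, ?_⟩⟩
      exact FX.of_FJ (hJ τ hτ).symm
    have hN := hBF.cardF
    have hN' := hBF.lenG
    rcases hc with ⟨y, hy, hyV, hne⟩ | ⟨G₁, g, G₂, hG', hJ'⟩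
    · obtain ⟨k₀, hk₀, rfl⟩ := hfind y (hBF.sub y hy) hyV
      by_cases hjn : Jn Q k₀ i₀
      · exact Or.inl (hB.prgC hΦ hε hR hL hzw hxw hF hG
          (Or.inr ⟨k₀, hk₀, i₀, hi₀, fun h => hne (h ▸ rfl), hjn, hJ _ hy⟩) (by omega) (by omega))
      · exact Or.inr (Or.inl (hB.prgO hΦ hε hR hL hzw hxw hF hG hk₀ hi₀ hjn (hJ _ hy) (by omega)
          (by omega)))
    · exact Or.inl (hB.prgC hΦ hε hR hL hzw hxw hF hG (Or.inl (.ghost G₁ g G₂ hG' hJ'))
        (by omega) (by omega))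
  | irr F G es hBF σ hσ hσF hJ hI =>
    right; right; right
    obtain ⟨i₀, hi₀, rfl⟩ := hfind σ (hins σ hσ).1 (hins σ hσ).2
    have hG : GrOn x D w F G es :=
      ⟨fun τ hτ => hall τ (hBF.sub τ hτ), fun τ hτ _ => ⟨i₀, hi₀, (hJ τ hτ).symm⟩⟩
    have hN := hBF.cardF
    have hN' := hBF.lenG
    exact hB.irrO_kc hΦ hε hR hL hzw hxw hs hBF.fam hG hb hI (by omega) (by omega)

end exits

end Vale.Agent.P119.IND
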