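import Vale.Agent.P119.IND.DetOut

/-!
# P119, block IND: an exploration with additional trees at its final time (`helper498`)

* `Env`: the setting (a cube of worlds with the dependence up to the time `s₀`, and the parameters of
  the outputs);
* `PC`: a regular exploration whose trees, except the first one, are disjoint and have the special
  label `σ` only;
* `Hd`: `PC`, for a tree at a time `s ≤ s₀`;
* `Hd.bfam`: the family of an exploration together with trees `𝓔` which are live in all the worlds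
  at the time `s`.
-/

open MeasureTheory Filter Topology Set
open scoped ENNReal NNReal

noncomputable section

namespace Vale.Agent.P119.IND

open KU M M.CTree TL

variable {Φ : E3 → ℝ} {ε : ℝ} {L : ℕ} {ι : Type*} [DecidableEq ι] {W : Finset ι → Set Src}
  {K : Finset ι} {V₀ ins all : Set Src} {Lv : CTree → Prop} {Lg : Bool → Gh → Prop} {s₀ t : ℝ}
  {m : ℕ} {i : ι}

/-- The setting. -/
structure Env (Φ : E3 → ℝ) (ε : ℝ) (L : ℕ) (W : Finset ι → Set Src) (K : Finset ι)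
    (V₀ ins all : Set Src) (Lv : CTree → Prop) (Lg : Bool → Gh → Prop) (s₀ t : ℝ) : Prop where
  pot : IsPotential Φ
  pos : 0 < ε
  cube : CubeW W K
  dep : DepTo Φ ε L W K s₀
  hst : s₀ ≤ t
  sub₀ : V₀ ⊆ W ∅
  hins : ∀ i ∈ K, ∀ σ, σ ∈ W {i} → σ ∉ W ∅ → σ ∈ ins
  hall : ∀ v : Kw K, wd W K v ⊆ all
  hLv : ∀ P (v : Kw K), lives Φ ε L (wd W K v) P (sig Φ ε P) → Lv P
  hLg : ∀ (v : Kw K) A B r, r ≤ s₀ → alive Φ ε L (wd W K v) A r →
    live Φ ε L (wd W K v) B r → Lg false (A, B, r)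
  hLd : ∀ (v : Kw K) A B r, r ≤ s₀ → ¬(live Φ ε L (wd W K v) A r ↔ live Φ ε L (wd W K v) B r) →
    Lg true (A, B, r)

/-- The bound of the sizes. -/
def Nb0 (L m : ℕ) : ℕ := (2 * m + 6) * 2 ^ (L + 2)

/-- There is an output before `s₀`. -/
def Outp (hE : Env Φ ε L W K V₀ ins all Lv Lg s₀ t) (m : ℕ) : Prop :=
  ∃ s ≤ s₀, DetOut hE.pot hE.pos L V₀ ins all Lv Lg t m (Nb0 L m) s

/-- A regular exploration whose trees, except the first one, are disjoint and have the special label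
`σ` only. -/
structure PC (Φ : E3 → ℝ) (ε : ℝ) (L : ℕ) (W : Finset ι → Set Src) (V₀ : Set Src) (i : ι)
    (m : ℕ) (b : Bool) (T : CTree) (s : ℝ) (l : List (CTree × ℝ × CTree)) (σ : Src) : Prop where
  rt : RT Φ ε L (wb W i) b T s l
  len : l.length ≤ m
  src : σ ∈ (lastT T l).leaves
  src₁ : σ ∈ W {i}
  src₀ : σ ∉ W ∅
  disj : (l.map Prod.fst).Pairwise fun a b => Disjoint a.leaves b.leaves
  only : ∀ u ∈ l.map Prod.fst, ∀ x ∈ u.leaves, x ∉ V₀ → x = σ

/-- An exploration from a tree which is altered by `i` at the time `s ≤ s₀`. -/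
structure Hd (Φ : E3 → ℝ) (ε : ℝ) (L : ℕ) (W : Finset ι → Set Src) (K : Finset ι) (V₀ : Set Src)
    (s₀ : ℝ) (i : ι) (m : ℕ) (b : Bool) (T : CTree) (s : ℝ)
    (l : List (CTree × ℝ × CTree)) (σ : Src) : Prop where
  pc : PC Φ ε L W V₀ i m b T s l σ
  hi : i ∈ K
  hs : s ≤ s₀
  bg : Bg Φ ε T s
  nl : ¬live Φ ε L (wb W i !b) T s

/-- Live in all the worlds. -/
structure Fu (Φ : E3 → ℝ) (ε : ℝ) (L : ℕ) (W : Finset ι → Set Src) (K : Finset ι) (P : CTree)
    (s : ℝ) : Prop where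
  bg : Bg Φ ε P s
  live : ∀ v : Kw K, live Φ ε L (wd W K v) P s

/-- The record of a tree which is live in all the worlds. -/
def fr (K : Finset ι) (s : ℝ) (P : CTree) : Rc (Kw K) := ⟨P, s, univ⟩

omit [DecidableEq ι] in
theorem Fu.ok' {P : CTree} {s : ℝ} (h : Fu Φ ε L W K P s) : (fr K s P).Ok Φ ε L (wd W K) :=
  ⟨fun v _ => ⟨h.live v, h.bg⟩, fun v hv => absurd (mem_univ v) hv,
    ⟨⟨∅, Finset.empty_subset _⟩, mem_univ _⟩⟩

omit [DecidableEq ι] in
theorem Fu.ok {P : CTree} {s : ℝ} (h : Fu Φ ε L W K P s) : ok Φ ε P := h.ok'.ok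

omit [DecidableEq ι] in
theorem Fu.sig_le {P : CTree} {s : ℝ} (h : Fu Φ ε L W K P s) : sig Φ ε P ≤ s :=
  (h.live ⟨∅, Finset.empty_subset _⟩).sig_le

omit [DecidableEq ι] in
theorem gp_tr {m₁ m₂ : Rc (Kw K)} {c : Bool} (h₁ : m₁.S = Sb K i c)
    (h₂ : ∀ d, ∃ v, v ∈ m₂.S ∧ v ∈ Sb K i d) (hr : m₁.r ≤ m₂.r) :
    GP Φ ε L (wd W K) m₁ m₂ := by
  have h3 : ∃ v, v ∈ m₂.S ∧ v ∉ m₁.S := by
    obtain ⟨v, h4, h5⟩ := h₂ (!c)
    exact ⟨v, h4, by rw [h₁]; exact Sb_compl.1 h5⟩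
  refine Or.inr (Or.inr ⟨?_, fun _ => h3, fun h => absurd h (not_lt.2 hr), fun _ => ?_⟩)
  · obtain ⟨v, h4, h5⟩ := h₂ c
    exact ⟨v, by rw [h₁]; exact h5, h4⟩
  · left
    obtain ⟨v, h4, h5⟩ := h3
    intro hcon
    exact h5 (hcon ▸ h4)

omit [DecidableEq ι] in
theorem gp_fr (hi : i ∈ K) {m₁ : Rc (Kw K)} {c : Bool} (h₁ : m₁.S = Sb K i c) {s : ℝ}
    {P : CTree} (hr : m₁.r ≤ s) : GP Φ ε L (wd W K) m₁ (fr K s P) :=
  gp_tr h₁ (fun d => ⟨vb K hi d, mem_univ _, vb_mem hi d⟩) hr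

omit [DecidableEq ι] in
theorem gp_fr_fr {s : ℝ} {P Q : CTree} (h : P.root ≠ Q.root) :
    GP Φ ε L (wd W K) (fr K s P) (fr K s Q) := by
  refine Or.inr (Or.inr ⟨⟨⟨∅, Finset.empty_subset _⟩, mem_univ _, mem_univ _⟩,
    fun h => absurd h (lt_irrefl _), fun h => absurd h (lt_irrefl _), fun _ => Or.inr h⟩)

/-- The records of the exploration and of the additional trees. -/
def hrc (K : Finset ι) (i : ι) (b : Bool) (T : CTree) (s : ℝ) (l : List (CTree × ℝ × CTree))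
    (𝓔 : List CTree) : List (Rc (Kw K)) := (rc1 K i b T s :: rcs K i b l) ++ 𝓔.map (fr K s)

omit [DecidableEq ι] in
theorem map_rcs : ∀ {l : List (CTree × ℝ × CTree)} {b : Bool},
    (rcs K i b l).map Rc.R = l.map Prod.fst
  | [], _ => rfl
  | (R, r, Y) :: l, b => by
    rw [rcs_cons, List.map_cons, List.map_cons, map_rcs]
    rfl

omit [DecidableEq ι] in
theorem exists_rc {b : Bool} {T : CTree} {s : ℝ} {l : List (CTree × ℝ × CTree)} {u : CTree} :
    u ∈ T :: l.map Prod.fst ↔ ∃ x ∈ rc1 K i b T s :: rcs K i b l, x.R = u := by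
  rw [← map_rcs (K := K) (i := i) (b := b), List.mem_cons, List.mem_map]
  constructor
  · rintro (rfl | ⟨x, h1, h2⟩)
    · exact ⟨rc1 K i b u s, List.mem_cons_self, rfl⟩
    · exact ⟨x, List.mem_cons_of_mem _ h1, h2⟩
  · rintro ⟨x, h1, h2⟩
    rcases List.mem_cons.1 h1 with rfl | h1
    · exact Or.inl h2.symm
    · exact Or.inr ⟨x, h1, h2⟩

section hd

variable {b : Bool} {T : CTree} {s : ℝ} {l : List (CTree × ℝ × CTree)} {σ : Src}

/-- The facts about the records. -/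
theorem Hd.facts (hE : Env Φ ε L W K V₀ ins all Lv Lg s₀ t)
    (h : Hd Φ ε L W K V₀ s₀ i m b T s l σ) {𝓔 : List CTree} (hF : ∀ P ∈ 𝓔, Fu Φ ε L W K P s)
    (hr : 𝓔.Pairwise fun P Q => P.root ≠ Q.root) :
    (∀ x ∈ hrc K i b T s l 𝓔, x.Ok Φ ε L (wd W K)) ∧ (∀ x ∈ hrc K i b T s l 𝓔, x.r ≤ s) ∧
      (hrc K i b T s l 𝓔).Pairwise (GP Φ ε L (wd W K)) ∧
      (∀ x ∈ lks K i b l, Lk Φ ε L (wd W K) (hrc K i b T s l 𝓔) x.1 x.2 ∧ x.1.r < s) ∧
      (lks K i b l).Pairwise (fun x y => GP Φ ε L (wd W K) x.1 y.1) := by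
  obtain ⟨f1, f2, f3, f4⟩ := h.pc.rt.facts hE.pot hE.pos hE.cube hE.dep h.hi h.hs h.bg h.nl
  have hS : ∀ x ∈ rc1 K i b T s :: rcs K i b l, x.r ≤ s ∧ ∃ d, x.S = Sb K i d := by
    intro x hx
    rcases List.mem_cons.1 hx with rfl | hx
    · exact ⟨le_rfl, b, rfl⟩
    · exact ⟨(f2 x hx).1.le, (f2 x hx).2.2⟩
  refine ⟨?_, ?_, ?_, ?_, ?_⟩
  · intro x hx
    rcases List.mem_append.1 hx with hx | hx
    · exact f1 x hx
    · obtain ⟨P, hP, rfl⟩ := List.mem_map.1 hx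
      exact (hF P hP).ok'
  · intro x hx
    rcases List.mem_append.1 hx with hx | hx
    · exact (hS x hx).1
    · obtain ⟨P, hP, rfl⟩ := List.mem_map.1 hx
      exact le_rfl
  · refine List.pairwise_append.2 ⟨f3, ?_, fun x hx y hy => ?_⟩
    · rw [List.pairwise_map]
      exact hr.imp fun {P Q} h => gp_fr_fr h
    · obtain ⟨P, hP, rfl⟩ := List.mem_map.1 hy
      obtain ⟨h1, d, h2⟩ := hS x hx
      exact gp_fr h.hi h2 h1
  · intro x hx
    have hx' : x.1 ∈ rcs K i b l := List.mem_map.2 ⟨x, hx, rfl⟩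
    obtain ⟨g1, g2, d, g3⟩ := f2 _ hx'
    obtain ⟨k1, ⟨m', k2, k3⟩, k4, k5, k6⟩ := f4 x hx
    refine ⟨⟨List.mem_append_left _ (List.mem_cons_of_mem _ hx'), g2, ?_, k1,
      ⟨m', List.mem_append_left _ k2, k3⟩, k4, k5, k6⟩, g1⟩
    rw [g3]
    exact Sb_ne_univ h.hi d
  · have h1 := (List.pairwise_cons.1 f3).2
    unfold rcs at h1
    rwa [List.pairwise_map] at h1

omit [DecidableEq ι] in
theorem length_hrc {𝓔 : List CTree} :
    (hrc K i b T s l 𝓔).length = l.length + 1 + 𝓔.length := by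
  unfold hrc rcs
  rw [List.length_append, List.length_cons, List.length_map, List.length_map, length_lks]

/-- **The family of an exploration and of additional trees**, without the final ghost. -/
theorem Hd.bfam (hE : Env Φ ε L W K V₀ ins all Lv Lg s₀ t)
    (h : Hd Φ ε L W K V₀ s₀ i m b T s l σ) {𝓔 : List CTree} (hF : ∀ P ∈ 𝓔, Fu Φ ε L W K P s)
    (hr : 𝓔.Pairwise fun P Q => P.root ≠ Q.root) (hlen : 𝓔.length ≤ 3) :
    ∃ G : List Gh, G.Perm (lgs (lks K i b l)) ∧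
      BFam Φ ε s (Nb0 L m) all Lv Lg (famT Φ ε s (hrc K i b T s l 𝓔)) G := by
  obtain ⟨f1, f2, f3, f4, f5⟩ := h.facts hE hF hr
  have hl := h.pc.len
  have e1 := length_hrc (K := K) (i := i) (b := b) (T := T) (s := s) (l := l) (𝓔 := 𝓔)
  obtain ⟨G, h1, h2⟩ := exists_bfam hE.pot hE.pos (wd_finite hE.cube) hE.hall hE.hLv
    (fun v A B r hr hA hB => hE.hLg v A B r (hr.trans h.hs) hA
      ((alive_iff_live hE.pot hE.pos (wd_finite hE.cube v)).1 hB).1)
    (fun v A B r hr => hE.hLd v A B r (hr.trans h.hs))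
    (hrc K i b T s l 𝓔) f1 f2 f3 (lks K i b l) (fun x hx => (f4 x hx).1) f5
    (fun x hx => (f4 x hx).2) [] (fun x hx => absurd hx List.not_mem_nil) List.Pairwise.nil
    List.IsChain.nil List.IsChain.nil (n := 2 * m + 6) (by omega) (by
      rw [length_lks]
      change l.length + 0 ≤ _
      omega)
  exact ⟨G, by simpa [pg] using h1, h2⟩

/-- **The family of an exploration and of additional trees**, with the final ghost. -/
theorem Hd.bfam' (hE : Env Φ ε L W K V₀ ins all Lv Lg s₀ t)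
    (h : Hd Φ ε L W K V₀ s₀ i m b T s l σ) {𝓔 : List CTree} (hF : ∀ P ∈ 𝓔, Fu Φ ε L W K P s)
    (hr : 𝓔.Pairwise fun P Q => P.root ≠ Q.root) (hlen : 𝓔.length ≤ 3) {S : CTree} (hS : S ∈ 𝓔)
    (eT : ext Φ ε T ≤ s) (eS : ext Φ ε S ≤ s)
    (hc : Ctc ε (KU.free s (ln Φ ε T)) (KU.free s (ln Φ ε S))) :
    ∃ G : List Gh, G.Perm ((T, S, s) :: lgs (lks K i b l)) ∧
      BFam Φ ε s (Nb0 L m) all Lv Lg (famT Φ ε s (hrc K i b T s l 𝓔)) G := by
  obtain ⟨f1, f2, f3, f4, f5⟩ := h.facts hE hF hr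
  have hl := h.pc.len
  have e1 := length_hrc (K := K) (i := i) (b := b) (T := T) (s := s) (l := l) (𝓔 := 𝓔)
  obtain ⟨G, h1, h2⟩ := exists_bfam hE.pot hE.pos (wd_finite hE.cube) hE.hall hE.hLv
    (fun v A B r hr hA hB => hE.hLg v A B r (hr.trans h.hs) hA
      ((alive_iff_live hE.pot hE.pos (wd_finite hE.cube v)).1 hB).1)
    (fun v A B r hr => hE.hLd v A B r (hr.trans h.hs))
    (hrc K i b T s l 𝓔) f1 f2 f3 (lks K i b l) (fun x hx => (f4 x hx).1) f5
    (fun x hx => (f4 x hx).2) [rc1 K i b T s, fr K s S] (fun x hx => by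
      rcases List.mem_cons.1 hx with rfl | hx
      · exact ⟨List.mem_append_left _ List.mem_cons_self, rfl, eT⟩
      · rw [List.mem_singleton] at hx
        subst hx
        exact ⟨List.mem_append_right _ (List.mem_map.2 ⟨S, hS, rfl⟩), rfl, eS⟩)
    (List.pairwise_pair.2 (gp_fr h.hi rfl le_rfl))
    (by
      rw [List.isChain_cons_cons]
      exact ⟨hc, List.IsChain.singleton _⟩)
    (by
      rw [List.isChain_cons_cons]
      exact ⟨Sb_ne_univ h.hi b, List.IsChain.singleton _⟩) (n := 2 * m + 6) (by omega) (by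
      rw [length_lks]
      change l.length + 1 ≤ _
      omega)
  refine ⟨G, h1.trans ?_, h2⟩
  change (lgs (lks K i b l) ++ [(T, S, s)]).Perm _
  exact List.perm_append_singleton _ _

end hd

end Vale.Agent.P119.IND
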