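import Vale.Agent.P119.TL.Late
import Vale.Agent.P119.IND.DetKc

/-!
# P119, block IND: inserted sources which are born after the horizon (`helper119`)

* `NI1.late`, `NI2.late_left`, `NI2.late_right`: a source which is born after the horizon does not
  interact;
* **`SBase.not_good_late`**: as `SBase.not_good_kc`, where only the lines which are born before the
  horizon are lines of the base.
-/

open Set
open scoped ENNReal

set_option linter.unusedSectionVars false

noncomputable section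

namespace Vale.Agent.P119.IND

open KU M M.CTree TL GC AU RB

variable {Φ : E3 → ℝ} {ε T t s : ℝ} {L : ℕ} {V : Set Src} {i j a : Src} {R : CTree}

theorem lateW_insert (V : Set Src) (i : Src) : LateW V (V ∪ {i}) i.1 := by
  refine ⟨subset_union_left, fun a ha hV => ?_⟩
  rw [mem_singleton_iff.1 (ha.resolve_left hV)]

theorem late_alive (hΦ : IsPotential Φ) (hε : 0 < ε) (hs : s < i.1) :
    M.alive Φ ε L (V ∪ {i}) R s ↔ M.alive Φ ε L V R s := (lateW_insert V i).alive hΦ hε hs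

theorem late_live (hΦ : IsPotential Φ) (hε : 0 < ε) (hs : s < i.1) :
    M.live Φ ε L (V ∪ {i}) R s ↔ M.live Φ ε L V R s := (lateW_insert V i).live hΦ hε hs

theorem late_lives (hΦ : IsPotential Φ) (hε : 0 < ε) (hs : s < i.1) :
    M.lives Φ ε L (V ∪ {i}) R s ↔ M.lives Φ ε L V R s := by
  have hl := lateW_insert V i
  constructor
  · rintro ⟨h1, h2, h3, h4, h5⟩
    exact ⟨hl.leaves hΦ hε h2 (h4.trans_lt hs) h1, h2, h3, h4, fun X u hu hh hX =>
      h5 X u hu hh ((hl.alive hΦ hε (hu.trans_lt hs)).2 hX)⟩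
  · rintro ⟨h1, h2, h3, h4, h5⟩
    exact ⟨h1.trans hl.sub, h2, h3, h4, fun X u hu hh hX =>
      h5 X u hu hh ((hl.alive hΦ hε (hu.trans_lt hs)).1 hX)⟩

theorem late_stat (hΦ : IsPotential Φ) (hε : 0 < ε) (hs : s < i.1) :
    M.stat Φ ε L (V ∪ {i}) a s = M.stat Φ ε L V a s := by
  have e : (fun R : CTree => R.root = a ∧ M.lives Φ ε L (V ∪ {i}) R s) =
      fun R => R.root = a ∧ M.lives Φ ε L V R s := by
    funext R
    exact propext (and_congr_right fun _ => late_lives hΦ hε hs)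
  have key : ∀ p q : CTree → Prop, p = q → ∀ _ : Decidable (∃ R, p R), ∀ _ : Decidable (∃ R, q R),
      (if h : ∃ R, p R then some h.choose else none) =
        if h : ∃ R, q R then some h.choose else none := by
    rintro p _ rfl i1 i2
    rw [Subsingleton.elim i1 i2]
  exact key _ _ e _ _

theorem late_same (hΦ : IsPotential Φ) (hε : 0 < ε) (hs : s < i.1) (ha : a ≠ i) :
    Same Φ ε L V (V ∪ {i}) a s := by
  refine ⟨⟨Or.inl, fun h => h.resolve_right fun h' => ha h'⟩, fun r hr => ?_⟩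
  exact (late_stat hΦ hε (hr.trans_lt hs)).symm

/-- The inserted source is not yet there. -/
theorem late_root (hΦ : IsPotential Φ) (hε : 0 < ε) (hi : i ∉ V) (hs : s < i.1) {W : Set Src}
    (hW : W = V ∨ W = V ∪ {i}) (hR : M.live Φ ε L W R s) : R.root ≠ i := by
  intro hr
  have h1 : M.live Φ ε L V R s := by
    rcases hW with rfl | rfl
    · exact hR
    · exact (late_live hΦ hε hs).1 hR
  exact hi (hr ▸ h1.sub R.root_mem_leaves)

/-- **A late source does not interact.** -/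
theorem NI1.late (hΦ : IsPotential Φ) (hε : 0 < ε) (hi : i ∉ V) (ht : t < i.1) :
    NI1 Φ ε L V {i} t := by
  refine ⟨Set.disjoint_singleton_right.2 hi, fun s hs a b _ hb => ?_⟩
  have hsi := hs.trans_lt ht
  have hbi : b = i := by
    by_contra hne
    exact hb (late_same hΦ hε hsi hne)
  refine ⟨fun _ h => ?_, fun _ h => ?_⟩
  · obtain ⟨-, P, P', -, h2, -, h4, -⟩ := h
    exact late_root hΦ hε hi hsi (Or.inl rfl) h4 (h2.trans hbi)
  · obtain ⟨-, P, P', -, h2, -, h4, -⟩ := h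
    exact late_root hΦ hε hi hsi (Or.inr rfl) h4 (h2.trans hbi)

theorem NI2.late_left (hΦ : IsPotential Φ) (hε : 0 < ε) (hi : i ∉ V) (hij : i ≠ j)
    (ht : t < i.1) : NI2 Φ ε L V {i} {j} t := by
  refine ⟨Set.disjoint_singleton.2 hij, fun s hs P P' h => ?_, fun s hs P P₁ P₂ _ h => ?_,
    fun s hs a b _ h _ W W' hW _ P P' hP _ hPW => ?_⟩
  · exact absurd (late_live hΦ hε (hs.trans_lt ht)).symm h
  · exact absurd (late_alive hΦ hε (hs.trans_lt ht)).symm h
  · have hsi := hs.trans_lt ht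
    have hai : a = i := by
      by_contra hne
      exact h (late_same hΦ hε hsi hne)
    exact absurd (hP.trans hai) (late_root hΦ hε hi hsi hW hPW)

theorem NI2.late_right (hΦ : IsPotential Φ) (hε : 0 < ε) (hj : j ∉ V) (hij : i ≠ j)
    (ht : t < j.1) : NI2 Φ ε L V {i} {j} t := by
  refine ⟨Set.disjoint_singleton.2 hij, fun s hs P P' _ h => ?_, fun s hs P P₁ P₂ _ _ h => ?_,
    fun s hs a b _ _ h W W' _ hW P P' _ hP _ hPW => ?_⟩
  · exact absurd (late_alive hΦ hε (hs.trans_lt ht)).symm h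
  · exact absurd (late_alive hΦ hε (hs.trans_lt ht)).symm h
  · have hsj := hs.trans_lt ht
    have hbj : b = j := by
      by_contra hne
      exact h (late_same hΦ hε hsj hne)
    exact absurd (hP.trans hbj) (late_root hΦ hε hj hsj hW hPW)

namespace SBase

variable {F₀ : Finset CTree} {G₀ : List Gh} {D₀ : Set Src} {X : Src → Src} {m q c₀ : ℕ}
  {T₀ : Fin m → CTree} {l : Fin q → Src} {R₀ : Finset Src}

/-- **The failures of the good event** over a base structure with `c₀ + 1` components: every line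
begins at the end of the last history or at a ghost contact of the base; the lines which are born
after the horizon need not belong to the base. -/
theorem not_good_late (hΦ : IsPotential Φ) (hε : 0 < ε) (h : SBase Φ ε T F₀ G₀ D₀ X)
    (hl : SLab T₀ l F₀ G₀ (c₀ + 1) R₀) {w : Finset Ph} (hzw : ∀ σ ∈ lab F₀, σ ∉ wS w)
    (hxw : ∀ σ ∈ lab F₀, σ ∉ D₀ → X σ ∉ wS w)
    (hb : ∀ S, IsLast F₀ S → S.root ∉ D₀ →
      (X S.root).1 = ext Φ ε S ∨ SKc Φ ε G₀ (X S.root).1 S) {K : Finset Src}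
    (hK : ∀ σ ∈ K, (0 ≤ σ.1 ∧ σ.2.2 ≤ L) ∧ σ ∉ wS w)
    (hK' : ∀ σ ∈ K, σ.1 ≤ t → ∃ τ ∈ lab F₀, τ ∉ D₀ ∧ X τ = σ) (ht : t ≤ T)
    (hg : ¬M.Good Φ ε L (wS w) PB.sgl K t) (J : ℕ) :
    LawC hΦ hε L T J c₀ (szB F₀ G₀ + 2 * Nb0 L J) T₀ l w {σ | σ ∈ K ∧ σ.1 ≤ t} := by
  have hV : ((wS w : Finset Src) : Set Src).Finite := (wS w).finite_toSet
  have hnot : ∀ σ ∈ K, σ ∉ wS w := fun σ hσ => (hK σ hσ).2
  have hb' : ∀ s : ℝ, ∀ S, IsLast F₀ S → S.root ∉ D₀ →
      ((X S.root).1 = ext Φ ε S ∨ s ≠ (X S.root).1) ∨ SKc Φ ε G₀ s S := by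
    intro s S hS hD
    rcases hb S hS hD with h' | h'
    · exact Or.inl (Or.inl h')
    · by_cases hs : s = (X S.root).1
      · rw [← hs] at h'
        exact Or.inr h'
      · exact Or.inl (Or.inr hs)
  have hmono : ∀ {A : Set Src}, A ⊆ {σ | σ ∈ K ∧ σ.1 ≤ t} → ∀ {N : ℕ},
      LawC hΦ hε L T J c₀ N T₀ l w A → LawC hΦ hε L T J c₀ N T₀ l w {σ | σ ∈ K ∧ σ.1 ≤ t} := by
    intro A hA N hh
    exact hh.imp (fun ⟨σ, hσ, h'⟩ => ⟨σ, hA hσ, h'⟩) id
  rcases not_good_cases (fun a ha => by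
      obtain ⟨p, -, rfl⟩ := mem_wS.1 ha
      exact ⟨le_rfl, Nat.zero_le _⟩)
    (fun i hi a ha => by
      rw [show a = i from Finset.mem_singleton.1 ha]
      exact (hK i hi).1) hg with ⟨i, hi, h1⟩ | ⟨i, hi, j, hj, hij, h1⟩
  · have hs1 : ((PB.sgl i : Finset Src) : Set Src) = {i} := Finset.coe_singleton i
    rw [hs1] at h1
    have hit : i.1 ≤ t := by
      by_contra hcon
      exact h1 (NI1.late hΦ hε (fun h' => hnot i hi (Finset.mem_coe.1 h')) (not_le.1 hcon))
    obtain ⟨s, hs, h2⟩ := exists_detOut_one hΦ hε hV (finite_singleton i)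
      (Set.disjoint_singleton_right.2 fun h' => hnot i hi h') subset_rfl h1 J
    refine hmono (A := {i}) (by rw [Set.singleton_subset_iff]; exact ⟨hi, hit⟩)
      (h.detOut_kc hΦ hε hl hzw hxw ht hs ?_ ?_ subset_union_right (hb' s) h2)
    · rintro σ (hσ | hσ)
      · exact Or.inl hσ
      · rw [mem_singleton_iff.1 hσ]
        exact Or.inr (hK' i hi hit)
    · intro σ hσ
      rw [mem_singleton_iff.1 hσ]
      exact hK' i hi hit
  · have hs1 : ((PB.sgl i : Finset Src) : Set Src) = {i} := Finset.coe_singleton i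
    have hs2 : ((PB.sgl j : Finset Src) : Set Src) = {j} := Finset.coe_singleton j
    rw [hs1, hs2] at h1
    have hit : i.1 ≤ t := by
      by_contra hcon
      exact h1 (NI2.late_left hΦ hε (fun h' => hnot i hi (Finset.mem_coe.1 h')) hij
        (not_le.1 hcon))
    have hjt : j.1 ≤ t := by
      by_contra hcon
      exact h1 (NI2.late_right hΦ hε (fun h' => hnot j hj (Finset.mem_coe.1 h')) hij
        (not_le.1 hcon))
    obtain ⟨s, hs, h2⟩ := exists_detOut_two hΦ hε hV (finite_singleton i) (finite_singleton j)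
      (Set.disjoint_singleton.2 hij) subset_rfl h1 J
    have hsub : ∀ σ ∈ ({i} ∪ {j} : Set Src), σ ∈ K ∧ σ.1 ≤ t := by
      rintro σ (hσ | hσ)
      · rw [mem_singleton_iff.1 hσ]; exact ⟨hi, hit⟩
      · rw [mem_singleton_iff.1 hσ]; exact ⟨hj, hjt⟩
    refine hmono (A := {i} ∪ {j}) hsub (h.detOut_kc hΦ hε hl hzw hxw ht hs ?_
      (fun σ hσ => hK' σ (hsub σ hσ).1 (hsub σ hσ).2) ?_ (hb' s) h2)
    · rintro σ ((hσ | hσ) | hσ)
      · exact Or.inl hσ
      · exact Or.inr (hK' σ (hsub σ (Or.inl hσ)).1 (hsub σ (Or.inl hσ)).2)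
      · exact Or.inr (hK' σ (hsub σ (Or.inr hσ)).1 (hsub σ (Or.inr hσ)).2)
    · rintro σ (hσ | hσ)
      · exact Or.inl (Or.inr hσ)
      · exact Or.inr hσ

end SBase

end Vale.Agent.P119.IND
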