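import Vale.Agent.P119.IND.DetKc
import Vale.Agent.P119.IND.Inj
import Vale.Agent.P119.IND.ChainLaw

/-!
# P119, block IND: marked base structures (`helper228`)

* `Fam.add_node`, `Fam.insert_ghost`: one more collision, one more ghost;
* `MBase Φ ε T F G E S u`: a connected family of histories `F` with ghosts `G`, the last history `E` of
  the first marked particle, the last history `S` of the second marked particle, which is seen by the
  gas from the time `u` on: the end of `S` or the time of a ghost (`SKc`);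
* `MBase.node`, `MBase.swap`, `MBase.ghost`, `MBase.ghost'`: the second marked particle is in contact
  with a new tree;
* `MBase.chain`: chains of hits by free lines;
* `MBase.sbase`: the base structures of `DetLaw`.
-/

open Set
open scoped ENNReal

set_option linter.unusedSectionVars false

noncomputable section

namespace Vale.Agent.P119.IND

open KU M M.CTree TL GC AU

variable {Φ : E3 → ℝ} {ε T t u : ℝ}

/-! ### One more collision -/

section add

variable [DecidableEq CTree] {F : Finset CTree} {G : List Gh} {A B : CTree}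

theorem mem_add {P : CTree} :
    P ∈ F ∪ {node A B, node B A} ↔ P ∈ F ∨ P = node A B ∨ P = node B A := by
  rw [Finset.mem_union, Finset.mem_insert, Finset.mem_singleton]

theorem root_ne_of_ok (h : CTree.ok Φ ε (node A B)) : A.root ≠ B.root := by
  intro hr
  exact Set.disjoint_left.1 h.2.2.1 A.root_mem_leaves (hr ▸ B.root_mem_leaves)

/-- **One more collision.** -/
theorem Fam.add_node (hΦ : IsPotential Φ) (h : Fam Φ ε T F G) (hA : IsLast F A)
    (hB : IsLast F B) (hok : CTree.ok Φ ε (node A B)) (hT : ext Φ ε (node A B) ≤ T)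
    (hg1 : ∀ g ∈ G, g.1.root ≠ A.root ∧ g.1.root ≠ B.root)
    (hg2 : ∀ g ∈ G, g.2.1.root = A.root ∨ g.2.1.root = B.root → g.2.2 ≤ sig Φ ε (node A B)) :
    Fam Φ ε T (F ∪ {node A B, node B A}) G := by
  have hne := root_ne_of_ok hok
  have hok' : CTree.ok Φ ε (node B A) := ok_swap hΦ hok
  have hsp : ∀ P ∈ F, P.root = A.root → Spine P (node A B) := fun P hP hr =>
    Spine.left B (hA.last P hP hr)
  have hsp' : ∀ P ∈ F, P.root = B.root → Spine P (node B A) := fun P hP hr =>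
    Spine.left A (hB.last P hP hr)
  refine ⟨fun P hP => ?_, fun P hP => ?_, fun a b hab => ?_, fun P hP Q hQ hr => ?_,
    fun g hg => ?_, fun g hg P hP hr => ?_, fun g hg y hy => ?_, h.srt⟩
  · rcases mem_add.1 hP with h1 | rfl | rfl
    · exact h.ok P h1
    · exact hok
    · exact hok'
  · rcases mem_add.1 hP with h1 | rfl | rfl
    · exact h.ext_le P h1
    · exact hT
    · rw [ext_swap hΦ]; exact hT
  · rcases mem_add.1 hab with h1 | h1 | h1
    · obtain ⟨h2, h3, h4⟩ := h.sub a b h1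
      exact ⟨mem_add.2 (Or.inl h2), mem_add.2 (Or.inl h3), mem_add.2 (Or.inl h4)⟩
    · injection h1 with h2 h3
      subst h2 h3
      exact ⟨mem_add.2 (Or.inl hA.mem), mem_add.2 (Or.inl hB.mem),
        mem_add.2 (Or.inr (Or.inr rfl))⟩
    · injection h1 with h2 h3
      subst h2 h3
      exact ⟨mem_add.2 (Or.inl hB.mem), mem_add.2 (Or.inl hA.mem),
        mem_add.2 (Or.inr (Or.inl rfl))⟩
  · rcases mem_add.1 hP with h1 | rfl | rfl <;> rcases mem_add.1 hQ with h2 | rfl | rfl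
    · exact h.cmp P h1 Q h2 hr
    · exact Or.inl (hsp P h1 hr)
    · exact Or.inl (hsp' P h1 hr)
    · exact Or.inr (hsp Q h2 hr.symm)
    · exact Or.inl (Spine.refl _)
    · exact absurd hr hne
    · exact Or.inr (hsp' Q h2 hr.symm)
    · exact absurd hr.symm hne
    · exact Or.inl (Spine.refl _)
  · obtain ⟨h1, h2, h3⟩ := h.gh g hg
    exact ⟨mem_add.2 (Or.inl h1), mem_add.2 (Or.inl h2), h3⟩
  · rcases mem_add.1 hP with h1 | rfl | rfl
    · exact h.last g hg P h1 hr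
    · exact absurd hr.symm (hg1 g hg).1
    · exact absurd hr.symm (hg1 g hg).2
  · rcases mem_add.1 hy with h1 | h1 | h1
    · exact h.cur g hg y h1
    · rw [h1]
      injection h1 with h2 h3
      exact hg2 g hg (Or.inl (by rw [h2]))
    · rw [h1, show sig Φ ε (node B A) = sig Φ ε (node A B) from sig_swap A B]
      injection h1 with h2 h3
      exact hg2 g hg (Or.inr (by rw [h2]))

theorem IsLast.add_left (h : CTree.ok Φ ε (node A B)) (hA : IsLast F A) :
    IsLast (F ∪ {node A B, node B A}) (node A B) := by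
  refine ⟨mem_add.2 (Or.inr (Or.inl rfl)), fun P hP hr => ?_⟩
  rcases mem_add.1 hP with h1 | h1 | h1
  · exact Spine.left B (hA.last P h1 hr)
  · rw [h1]; exact Spine.refl _
  · rw [h1] at hr
    exact absurd (show A.root = B.root from hr.symm) (root_ne_of_ok h)

theorem IsLast.add_right (h : CTree.ok Φ ε (node A B)) (hB : IsLast F B) :
    IsLast (F ∪ {node A B, node B A}) (node B A) := by
  refine ⟨mem_add.2 (Or.inr (Or.inr rfl)), fun P hP hr => ?_⟩
  rcases mem_add.1 hP with h1 | h1 | h1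
  · exact Spine.left A (hB.last P h1 hr)
  · rw [h1] at hr
    exact absurd (show A.root = B.root from hr) (root_ne_of_ok h)
  · rw [h1]; exact Spine.refl _

theorem IsLast.add_of_ne {S : CTree} (hS : IsLast F S) (h1 : S.root ≠ A.root)
    (h2 : S.root ≠ B.root) : IsLast (F ∪ {node A B, node B A}) S := by
  refine ⟨mem_add.2 (Or.inl hS.mem), fun P hP hr => ?_⟩
  rcases mem_add.1 hP with h3 | rfl | rfl
  · exact hS.last P h3 hr
  · exact absurd hr.symm h1
  · exact absurd hr.symm h2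

theorem mem_lab_add {σ : Src} (hA : A ∈ F) (hB : B ∈ F) :
    σ ∈ lab (F ∪ {node A B, node B A}) ↔ σ ∈ lab F := by
  rw [mem_lab, mem_lab]
  constructor
  · rintro ⟨P, hP, rfl⟩
    rcases mem_add.1 hP with h1 | rfl | rfl
    · exact ⟨P, h1, rfl⟩
    · exact ⟨A, hA, rfl⟩
    · exact ⟨B, hB, rfl⟩
  · rintro ⟨P, hP, rfl⟩
    exact ⟨P, mem_add.2 (Or.inl hP), rfl⟩

theorem card_nl_add : (nl (F ∪ {node A B, node B A})).card ≤ (nl F).card + 2 := by
  have h1 : nl (F ∪ {node A B, node B A}) ⊆ nl F ∪ {node A B, node B A} := by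
    intro P hP
    obtain ⟨h2, h3⟩ := mem_nl.1 hP
    rcases mem_add.1 h2 with h4 | h4
    · exact Finset.mem_union_left _ (mem_nl.2 ⟨h4, h3⟩)
    · refine Finset.mem_union_right _ ?_
      rw [Finset.mem_insert, Finset.mem_singleton]
      exact h4
  refine (Finset.card_le_card h1).trans ((Finset.card_union_le _ _).trans ?_)
  exact Nat.add_le_add_left (Finset.card_le_two) _

/-- **One more ghost**, at its place in the list. -/
theorem Fam.insert_ghost (h : Fam Φ ε T F G) {r : ℝ} (hA : IsLast F A)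
    (hB : IsLast F B) (hne : A.root ≠ B.root) (h1 : ext Φ ε A ≤ r) (h2 : ext Φ ε B ≤ r)
    (h3 : r ≤ T) (hc : Ctc ε (KU.free r (ln Φ ε A)) (KU.free r (ln Φ ε B)))
    (hg1 : ∀ g ∈ G, g.1.root ≠ A.root ∧ g.1.root ≠ B.root)
    (hg2 : ∀ g ∈ G, g.2.1.root = A.root → g.2.2 ≤ r) :
    ∃ G', G'.Perm ((A, B, r) :: G) ∧ Fam Φ ε T F G' := by
  have hsp : ∀ G₀ : List Gh, (G₀.Pairwise fun g g' : Gh => g.2.2 ≤ g'.2.2 ∧ g.1.root ≠ g'.1.root ∧
      g.1.root ≠ g'.2.1.root) → (∀ g ∈ G₀, g.1.root ≠ A.root ∧ g.1.root ≠ B.root) →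
      (∀ g ∈ G₀, g.2.1.root = A.root → g.2.2 ≤ r) →
      ∃ G' : List Gh, G'.Perm ((A, B, r) :: G₀) ∧ G'.Pairwise fun g g' : Gh => g.2.2 ≤ g'.2.2 ∧
        g.1.root ≠ g'.1.root ∧ g.1.root ≠ g'.2.1.root := by
    intro G₀
    induction G₀ with
    | nil => exact fun _ _ _ => ⟨[(A, B, r)], List.Perm.refl _, List.pairwise_singleton _ _⟩
    | cons a G₀ ih =>
      intro hs hg1 hg2
      rw [List.pairwise_cons] at hs
      by_cases har : a.2.2 ≤ r
      · obtain ⟨G', p1, p2⟩ := ih hs.2 (fun g hg => hg1 g (List.mem_cons_of_mem _ hg))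
          fun g hg => hg2 g (List.mem_cons_of_mem _ hg)
        refine ⟨a :: G', ?_, List.pairwise_cons.2 ⟨fun g hg => ?_, p2⟩⟩
        · exact (p1.cons a).trans (List.Perm.swap _ _ _)
        · rcases List.mem_cons.1 (p1.subset hg) with h4 | h4
          · rw [h4]
            exact ⟨har, (hg1 a List.mem_cons_self).1, (hg1 a List.mem_cons_self).2⟩
          · exact hs.1 g h4
      · refine ⟨(A, B, r) :: a :: G₀, List.Perm.refl _, List.pairwise_cons.2
          ⟨fun g hg => ?_, List.pairwise_cons.2 hs⟩⟩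
        have hgr : r < g.2.2 := by
          rcases List.mem_cons.1 hg with h4 | h4
          · rw [h4]; exact not_le.1 har
          · exact (not_le.1 har).trans_le (hs.1 g h4).1
        exact ⟨hgr.le, (hg1 g hg).1.symm, fun h5 => absurd (hg2 g hg h5.symm) (not_le.2 hgr)⟩
  obtain ⟨G', p1, p2⟩ := hsp G h.srt hg1 hg2
  have hmem : ∀ g, g ∈ G' → g = (A, B, r) ∨ g ∈ G := fun g hg => List.mem_cons.1 (p1.subset hg)
  refine ⟨G', p1, h.ok, h.ext_le, h.sub, h.cmp, fun g hg => ?_, fun g hg P hP hr => ?_,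
    fun g hg y hy => ?_, p2⟩
  · rcases hmem g hg with rfl | h4
    · exact ⟨hA.mem, hB.mem, hne, h1, h2, h3, hc⟩
    · exact h.gh g h4
  · rcases hmem g hg with rfl | h4
    · exact hA.last P hP hr
    · exact h.last g h4 P hP hr
  · rcases hmem g hg with rfl | h4
    · exfalso
      have h5 := hB.last _ hy rfl
      have h6 : (node B y).card ≤ B.card := (sub_of_spine h5).card_le
      have h7 := y.card_pos
      simp only [CTree.card] at h6
      omega
    · exact h.cur g h4 y hy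

end add

/-! ### Marked bases -/

/-- **A marked base**: a connected family of histories, with two marked particles, the last histories
of which are `E` and `S`; the gas sees the line of `S` from the time `u` on. -/
structure MBase (Φ : E3 → ℝ) (ε T : ℝ) (F : Finset CTree) (G : List Gh) (E S : CTree) (u : ℝ) :
    Prop where
  fam : Fam Φ ε T F G
  lastE : IsLast F E
  lastS : IsLast F S
  ne : E.root ≠ S.root
  gE : ∀ g ∈ G, g.1.root ≠ E.root ∧ g.2.1.root ≠ E.root
  gS : ∀ g ∈ G, g.1.root ≠ S.root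
  tS : ∀ g ∈ G, g.2.1.root = S.root → g.2.2 ≤ u
  bir : u = ext Φ ε S ∨ SKc Φ ε G u S
  le : u ≤ T
  jn : ∀ σ ∈ lab F, ∀ τ ∈ lab F, FJ F G σ τ

namespace MBase

variable {F : Finset CTree} {G : List Gh} {E S R : CTree}

theorem root_mem_S (h : MBase Φ ε T F G E S u) : S.root ∈ lab F := root_mem_lab h.lastS.mem

theorem root_mem_E (h : MBase Φ ε T F G E S u) : E.root ∈ lab F := root_mem_lab h.lastE.mem

theorem ext_le (h : MBase Φ ε T F G E S u) : ext Φ ε S ≤ u := by
  rcases h.bir with h1 | ⟨g, -, -, -, -, h1, -⟩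
  · exact h1.symm.le
  · exact h1.le

theorem nonneg (hΦ : IsPotential Φ) (hε : 0 < ε) (h : MBase Φ ε T F G E S u) : 0 ≤ u :=
  (ext_nonneg hΦ hε (h.fam.ok _ h.lastS.mem)).trans h.ext_le

/-! ### A new tree -/

/-- The leaves of the new tree are not labels of the family. -/
theorem not_mem_lab (hd : ∀ σ ∈ R.leaves, σ ∉ lab F) : ∀ σ ∈ lab F, σ ∉ lab (partsF R) := by
  intro σ hσ hσ'
  rw [← Finset.mem_coe, lab_partsF] at hσ'
  exact hd σ hσ' hσ

section tree

variable [DecidableEq CTree]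

theorem famR (hΦ : IsPotential Φ) (hε : 0 < ε) (h : MBase Φ ε T F G E S u)
    (hR : CTree.ok Φ ε R) (hRT : ext Φ ε R ≤ T) (hd : ∀ σ ∈ R.leaves, σ ∉ lab F) :
    Fam Φ ε T (F ∪ partsF R) G :=
  h.fam.union (Fam.of_tree hΦ hε hR hRT) (not_mem_lab hd)

theorem lastR (hR : CTree.ok Φ ε R) (hd : ∀ σ ∈ R.leaves, σ ∉ lab F) :
    IsLast (F ∪ partsF R) R :=
  (isLast_of_outs hR (Or.inl rfl)).union_right (not_mem_lab hd)

theorem lastL {P : CTree} (hP : IsLast F P) (hd : ∀ σ ∈ R.leaves, σ ∉ lab F) :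
    IsLast (F ∪ partsF R) P := hP.union_left (not_mem_lab hd)

theorem root_ne_R {P : CTree} (hP : P ∈ F) (hd : ∀ σ ∈ R.leaves, σ ∉ lab F) :
    P.root ≠ R.root := fun h => hd _ R.root_mem_leaves (h ▸ root_mem_lab hP)

theorem gh_ne_R (h : MBase Φ ε T F G E S u) (hd : ∀ σ ∈ R.leaves, σ ∉ lab F) {g : Gh}
    (hg : g ∈ G) : g.1.root ≠ R.root ∧ g.2.1.root ≠ R.root :=
  ⟨root_ne_R (h.fam.gh g hg).1 hd, root_ne_R (h.fam.gh g hg).2.1 hd⟩

/-- The labels of the two parts are joined to the two roots. -/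
theorem jn_union (hΦ : IsPotential Φ) (hε : 0 < ε) (h : MBase Φ ε T F G E S u)
    (hR : CTree.ok Φ ε R) {F' : Finset CTree} {G' : List Gh} (hF : ∀ P ∈ F ∪ partsF R, P ∈ F')
    (hG : ∀ g ∈ G, g ∈ G') (hlab : ∀ σ ∈ lab F', σ ∈ lab (F ∪ partsF R))
    (hSR : FJ F' G' S.root R.root) : ∀ σ ∈ lab F', ∀ τ ∈ lab F', FJ F' G' σ τ := by
  have key : ∀ σ ∈ lab F', FJ F' G' σ S.root := by
    intro σ hσ
    rcases mem_lab_union.1 (hlab σ hσ) with h1 | h1
    · exact (h.jn σ h1 _ h.root_mem_S).mono (fun P hP => hF P (Finset.mem_union_left _ hP)) hG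
    · rw [← Finset.mem_coe, lab_partsF] at h1
      refine FJ.trans ?_ hSR.symm
      exact (fj_partsF hΦ hε hR h1 R.root_mem_leaves).mono
        (fun P hP => hF P (Finset.mem_union_right _ hP)) fun g hg => absurd hg List.not_mem_nil
  exact fun σ hσ τ hτ => (key σ hσ).trans (key τ hτ).symm

/-- The family with one more tree and its collision with the second marked particle. -/
theorem fam_node (hΦ : IsPotential Φ) (hε : 0 < ε) (h : MBase Φ ε T F G E S u)
    (hok : CTree.ok Φ ε (node S R)) (hd : ∀ σ ∈ R.leaves, σ ∉ lab F)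
    (hu : u < sig Φ ε (node S R)) (hT : ext Φ ε (node S R) ≤ T) :
    Fam Φ ε T (F ∪ partsF R ∪ {CTree.node S R, CTree.node R S}) G := by
  have hR : CTree.ok Φ ε R := hok.2.1
  have hsT : sig Φ ε (CTree.node S R) ≤ T := (sig_lt_ext hΦ hε hok).le.trans hT
  have hRT : ext Φ ε R ≤ T := hok.2.2.2.2.2.2.le.trans hsT
  refine (h.famR hΦ hε hR hRT hd).add_node hΦ (lastL h.lastS hd) (lastR hR hd) hok hT
    (fun g hg => ⟨h.gS g hg, (h.gh_ne_R hd hg).1⟩) fun g hg hr => ?_
  rcases hr with h1 | h1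
  · exact (h.tS g hg h1).trans hu.le
  · exact absurd h1 (h.gh_ne_R hd hg).2

theorem jn_node (hΦ : IsPotential Φ) (hε : 0 < ε) (h : MBase Φ ε T F G E S u)
    (hok : CTree.ok Φ ε (node S R)) (hd : ∀ σ ∈ R.leaves, σ ∉ lab F) :
    ∀ σ ∈ lab (F ∪ partsF R ∪ {CTree.node S R, CTree.node R S}),
      ∀ τ ∈ lab (F ∪ partsF R ∪ {CTree.node S R, CTree.node R S}),
        FJ (F ∪ partsF R ∪ {CTree.node S R, CTree.node R S}) G σ τ := by
  have hR : CTree.ok Φ ε R := hok.2.1
  refine h.jn_union hΦ hε hR (fun P hP => mem_add.2 (Or.inl hP)) (fun g hg => hg)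
    (fun σ hσ => ?_) (FJ.node (mem_add.2 (Or.inr (Or.inl rfl))))
  exact (mem_lab_add (lastL h.lastS hd).mem (lastR hR hd).mem).1 hσ

/-- The second marked particle collides with the root particle of a new tree, and goes on. -/
theorem node (hΦ : IsPotential Φ) (hε : 0 < ε) (h : MBase Φ ε T F G E S u)
    (hok : CTree.ok Φ ε (node S R)) (hd : ∀ σ ∈ R.leaves, σ ∉ lab F)
    (hu : u < sig Φ ε (node S R)) (hT : ext Φ ε (node S R) ≤ T) :
    MBase Φ ε T (F ∪ partsF R ∪ {CTree.node S R, CTree.node R S}) G E (CTree.node S R)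
      (ext Φ ε (CTree.node S R)) := by
  have hR : CTree.ok Φ ε R := hok.2.1
  have lS := lastL h.lastS hd
  exact ⟨h.fam_node hΦ hε hok hd hu hT,
    (lastL h.lastE hd).add_of_ne h.ne (root_ne_R h.lastE.mem hd), lS.add_left hok, h.ne, h.gE,
    h.gS, fun g hg hr => (h.tS g hg hr).trans (hu.le.trans (sig_lt_ext hΦ hε hok).le),
    Or.inl rfl, hT, h.jn_node hΦ hε hok hd⟩

/-- The second marked particle collides with the root particle of a new tree, which goes on. -/
theorem swap (hΦ : IsPotential Φ) (hε : 0 < ε) (h : MBase Φ ε T F G E S u)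
    (hok : CTree.ok Φ ε (CTree.node S R)) (hd : ∀ σ ∈ R.leaves, σ ∉ lab F)
    (hu : u < sig Φ ε (CTree.node S R)) (hT : ext Φ ε (CTree.node S R) ≤ T) :
    MBase Φ ε T (F ∪ partsF R ∪ {CTree.node S R, CTree.node R S}) G E (CTree.node R S)
      (ext Φ ε (CTree.node R S)) := by
  have hR : CTree.ok Φ ε R := hok.2.1
  have lR : IsLast (F ∪ partsF R) R := lastR hR hd
  exact ⟨h.fam_node hΦ hε hok hd hu hT,
    (lastL h.lastE hd).add_of_ne h.ne (root_ne_R h.lastE.mem hd), lR.add_right hok,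
    (root_ne_R (R := R) h.lastE.mem hd : E.root ≠ R.root), h.gE, fun g hg => (h.gh_ne_R hd hg).1,
    fun g hg hr => absurd hr (h.gh_ne_R hd hg).2, Or.inl rfl, by rw [ext_swap hΦ]; exact hT,
    h.jn_node hΦ hε hok hd⟩

/-- The second marked particle hits the root particle of a new tree: ghost; the undeflected root
particle goes on. -/
theorem ghost (hΦ : IsPotential Φ) (hε : 0 < ε) (h : MBase Φ ε T F G E S u)
    (hR : CTree.ok Φ ε R) (hd : ∀ σ ∈ R.leaves, σ ∉ lab F) (hm : Meets ε (ln Φ ε S, ln Φ ε R))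
    (hu : u < hitT ε (ln Φ ε S, ln Φ ε R)) (hRu : ext Φ ε R < hitT ε (ln Φ ε S, ln Φ ε R))
    (hT : hitT ε (ln Φ ε S, ln Φ ε R) ≤ T) :
    ∃ G', G'.Perm ((S, R, hitT ε (ln Φ ε S, ln Φ ε R)) :: G) ∧
      MBase Φ ε T (F ∪ partsF R) G' E R (hitT ε (ln Φ ε S, ln Φ ε R)) := by
  have lS := lastL h.lastS hd
  have lR : IsLast (F ∪ partsF R) R := lastR hR hd
  obtain ⟨G', p1, p2⟩ := (h.famR hΦ hε hR (hRu.le.trans hT) hd).insert_ghost lS lR
    (root_ne_R h.lastS.mem hd) (h.ext_le.trans hu.le) hRu.le hT (ctc_hitT hε hm)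
    (fun g hg => ⟨h.gS g hg, (h.gh_ne_R hd hg).1⟩) fun g hg hr => (h.tS g hg hr).trans hu.le
  have hmem : ∀ g, g ∈ G' → g = (S, R, hitT ε (ln Φ ε S, ln Φ ε R)) ∨ g ∈ G := fun g hg =>
    List.mem_cons.1 (p1.subset hg)
  have hgG : (S, R, hitT ε (ln Φ ε S, ln Φ ε R)) ∈ G' := p1.symm.subset List.mem_cons_self
  refine ⟨G', p1, p2, lastL h.lastE hd, lR, root_ne_R h.lastE.mem hd, fun g hg => ?_,
    fun g hg => ?_, fun g hg hr => ?_, Or.inr ⟨_, hgG, rfl, rfl, h.ext_le.trans_lt hu, hRu, hm,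
      rfl⟩, hT, ?_⟩
  · rcases hmem g hg with rfl | h4
    · exact ⟨h.ne.symm, (root_ne_R h.lastE.mem hd).symm⟩
    · exact h.gE g h4
  · rcases hmem g hg with rfl | h4
    · exact root_ne_R h.lastS.mem hd
    · exact (h.gh_ne_R hd h4).1
  · rcases hmem g hg with rfl | h4
    · exact le_rfl
    · exact absurd hr (h.gh_ne_R hd h4).2
  · exact h.jn_union hΦ hε hR (fun P hP => hP) (fun g hg => p1.symm.subset
      (List.mem_cons_of_mem _ hg)) (fun σ hσ => hσ) (FJ.ghost hgG)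

/-- The root particle of a new tree hits the second marked particle, which goes on undeflected:
ghost. -/
theorem ghost' (hΦ : IsPotential Φ) (hε : 0 < ε) (h : MBase Φ ε T F G E S u)
    (hR : CTree.ok Φ ε R) (hd : ∀ σ ∈ R.leaves, σ ∉ lab F) (hm : Meets ε (ln Φ ε R, ln Φ ε S))
    (hu : u < hitT ε (ln Φ ε R, ln Φ ε S)) (hRu : ext Φ ε R < hitT ε (ln Φ ε R, ln Φ ε S))
    (hT : hitT ε (ln Φ ε R, ln Φ ε S) ≤ T) :
    ∃ G', G'.Perm ((R, S, hitT ε (ln Φ ε R, ln Φ ε S)) :: G) ∧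
      MBase Φ ε T (F ∪ partsF R) G' E S (hitT ε (ln Φ ε R, ln Φ ε S)) := by
  have lS := lastL h.lastS hd
  have lR : IsLast (F ∪ partsF R) R := lastR hR hd
  obtain ⟨G', p1, p2⟩ := (h.famR hΦ hε hR (hRu.le.trans hT) hd).insert_ghost lR lS
    (root_ne_R h.lastS.mem hd).symm hRu.le (h.ext_le.trans hu.le) hT (ctc_hitT hε hm)
    (fun g hg => ⟨(h.gh_ne_R hd hg).1, h.gS g hg⟩)
    fun g hg hr => absurd hr (h.gh_ne_R hd hg).2
  have hmem : ∀ g, g ∈ G' → g = (R, S, hitT ε (ln Φ ε R, ln Φ ε S)) ∨ g ∈ G := fun g hg =>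
    List.mem_cons.1 (p1.subset hg)
  have hgG : (R, S, hitT ε (ln Φ ε R, ln Φ ε S)) ∈ G' := p1.symm.subset List.mem_cons_self
  refine ⟨G', p1, p2, lastL h.lastE hd, lS, h.ne, fun g hg => ?_,
    fun g hg => ?_, fun g hg hr => ?_, Or.inr ⟨_, hgG, rfl, rfl, hRu, h.ext_le.trans_lt hu, hm,
      rfl⟩, hT, ?_⟩
  · rcases hmem g hg with rfl | h4
    · exact ⟨(root_ne_R h.lastE.mem hd).symm, h.ne.symm⟩
    · exact h.gE g h4
  · rcases hmem g hg with rfl | h4
    · exact (root_ne_R h.lastS.mem hd).symm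
    · exact h.gS g h4
  · rcases hmem g hg with rfl | h4
    · exact le_rfl
    · exact (h.tS g h4 hr).trans hu.le
  · exact h.jn_union hΦ hε hR (fun P hP => hP) (fun g hg => p1.symm.subset
      (List.mem_cons_of_mem _ hg)) (fun σ hσ => hσ) (FJ.ghost hgG).symm

/-! ### Sizes and labels -/

theorem card_union_le' (F : Finset CTree) (R : CTree) (G : List Gh) :
    szB (F ∪ partsF R) G ≤ szB F G + 2 * (partsF R).card := by
  have h1 : (lab (F ∪ partsF R)).card ≤ (lab F).card + (partsF R).card := by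
    have h2 : lab (F ∪ partsF R) ⊆ lab F ∪ lab (partsF R) := fun σ hσ => by
      rcases mem_lab_union.1 hσ with h3 | h3
      · exact Finset.mem_union_left _ h3
      · exact Finset.mem_union_right _ h3
    exact (Finset.card_le_card h2).trans ((Finset.card_union_le _ _).trans
      (Nat.add_le_add_left (card_lab_le _) _))
  have h3 : (nl (F ∪ partsF R)).card ≤ (nl F).card + (partsF R).card := by
    have h4 : nl (F ∪ partsF R) ⊆ nl F ∪ partsF R := fun P hP => by
      obtain ⟨h5, h6⟩ := mem_nl.1 hP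
      rcases Finset.mem_union.1 h5 with h7 | h7
      · exact Finset.mem_union_left _ (mem_nl.2 ⟨h7, h6⟩)
      · exact Finset.mem_union_right _ h7
    exact (Finset.card_le_card h4).trans (Finset.card_union_le _ _)
  unfold szB
  omega

theorem card_add_le' {A B : CTree} (hA : A ∈ F) (hB : B ∈ F) (G : List Gh) :
    szB (F ∪ {CTree.node A B, CTree.node B A}) G ≤ szB F G + 2 := by
  have h1 : (lab (F ∪ {CTree.node A B, CTree.node B A})).card ≤ (lab F).card :=
    Finset.card_le_card fun σ hσ => (mem_lab_add hA hB).1 hσ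
  have h2 := card_nl_add (F := F) (A := A) (B := B)
  unfold szB
  omega

theorem card_node (hR : CTree.ok Φ ε R) (h : MBase Φ ε T F G E S u)
    (hd : ∀ σ ∈ R.leaves, σ ∉ lab F) :
    szB (F ∪ partsF R ∪ {CTree.node S R, CTree.node R S}) G ≤
      szB F G + (2 * (partsF R).card + 2) := by
  have h1 := card_add_le' (lastL h.lastS hd).mem (lastR (Φ := Φ) (ε := ε) hR hd).mem G
  have h2 := card_union_le' F R G
  omega

theorem card_perm {g : Gh} {G' : List Gh} (hp : G'.Perm (g :: G)) :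
    szB (F ∪ partsF R) G' ≤ szB F G + (2 * (partsF R).card + 2) := by
  have h1 := card_union_le' F R G
  have h2 := hp.length_eq
  rw [List.length_cons] at h2
  unfold szB at *
  omega

theorem mem_lab_node (hR : CTree.ok Φ ε R) (h : MBase Φ ε T F G E S u)
    (hd : ∀ σ ∈ R.leaves, σ ∉ lab F) (σ : Src) :
    σ ∈ lab (F ∪ partsF R ∪ {CTree.node S R, CTree.node R S}) ↔ σ ∈ lab F ∨ σ ∈ R.leaves := by
  rw [mem_lab_add (lastL h.lastS hd).mem (lastR (Φ := Φ) (ε := ε) hR hd).mem, mem_lab_union,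
    ← lab_partsF, Finset.mem_coe]

theorem mem_lab_union' (σ : Src) :
    σ ∈ lab (F ∪ partsF R) ↔ σ ∈ lab F ∨ σ ∈ R.leaves := by
  rw [mem_lab_union, ← lab_partsF, Finset.mem_coe]

/-! ### Free lines -/

theorem partsF_leaf (σ : Src) : partsF (leaf σ) = {leaf σ} := by
  ext P
  rw [mem_partsF, Finset.mem_singleton]
  exact ⟨mem_parts_leaf, fun h => h ▸ self_mem_parts _⟩

/-- **One hit by a free line.** -/
theorem step (hΦ : IsPotential Φ) (hε : 0 < ε) (hT : t ≤ T) (h : MBase Φ ε T F G E S u)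
    (o : Fin 3) {z' : Ph} {d : ℕ} (hs : Hs Φ ε t o (u, ln Φ ε S) z')
    (hx : Exits Φ (rel ε (ln Φ ε S, z'))) (hd : ((0 : ℝ), z', d) ∉ lab F) :
    ∃ F' G' S', MBase Φ ε T F' G' E S' (nwS Φ ε o (ln Φ ε S, z')).1 ∧
      (nwS Φ ε o (ln Φ ε S, z')).2 = ln Φ ε S' ∧
      (∀ σ, σ ∈ lab F' ↔ σ ∈ lab F ∨ σ = ((0 : ℝ), z', d)) ∧ szB F' G' ≤ szB F G + 4 := by
  set R : CTree := leaf ((0 : ℝ), z', d) with hRd
  obtain ⟨h1, h2, h3⟩ := hs
  simp only at h1 h2 h3
  have hlnR : ln Φ ε R = z' := rfl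
  have hextR : ext Φ ε R = 0 := rfl
  have hR : CTree.ok Φ ε R := le_refl (0 : ℝ)
  have hdR : ∀ σ ∈ R.leaves, σ ∉ lab F := fun σ hσ => by
    rw [mem_singleton_iff.1 hσ]; exact hd
  have hleaf : ∀ σ : Src, σ ∈ R.leaves ↔ σ = ((0 : ℝ), z', d) := fun σ => mem_singleton_iff
  have hcard : (partsF R).card = 1 := by
    rw [hRd, partsF_leaf, Finset.card_singleton]
  have hu0 : 0 < hitT ε (ln Φ ε S, z') := (h.nonneg hΦ hε).trans_lt h2
  have hok : CTree.ok Φ ε (CTree.node S R) := by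
    refine ⟨h.fam.ok _ h.lastS.mem, hR, ?_, h1, hx, h.ext_le.trans_lt h2, ?_⟩
    · rw [Set.disjoint_right]
      exact fun σ hσ hσ' => hdR σ hσ (h.fam.leaves_lab h.lastS.mem hσ')
    · rw [hextR]; exact hu0
  have hsig : u < sig Φ ε (CTree.node S R) := h2
  have ho : o = 0 ∨ o = 1 ∨ o = 2 := by fin_cases o <;> simp
  have hext : ext Φ ε (CTree.node S R) = sepT Φ ε (ln Φ ε S, z') := rfl
  have hln : ln Φ ε (CTree.node S R) = (sc2 Φ ε (ln Φ ε S, z')).1 := rfl
  have hext' : ext Φ ε (CTree.node R S) = sepT Φ ε (ln Φ ε S, z') :=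
    (ext_swap hΦ S R).trans hext
  have hln' : ln Φ ε (CTree.node R S) = (sc2 Φ ε (ln Φ ε S, z')).2 := ln_swap hΦ S R
  have e0 : nwS Φ ε 0 (ln Φ ε S, z') = (sepT Φ ε (ln Φ ε S, z'), (sc2 Φ ε (ln Φ ε S, z')).1) := by
    unfold nwS; rw [if_pos rfl]
  have e1 : nwS Φ ε 1 (ln Φ ε S, z') = (sepT Φ ε (ln Φ ε S, z'), (sc2 Φ ε (ln Φ ε S, z')).2) := by
    unfold nwS; rw [if_neg (by decide), if_pos rfl]
  have e2 : nwS Φ ε 2 (ln Φ ε S, z') = (hitT ε (ln Φ ε S, z'), z') := by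
    unfold nwS; rw [if_neg (by decide), if_neg (by decide)]
  clear_value R
  rcases ho with ho | ho | ho
  · rw [ho, e0] at h3 ⊢
    have h3' : ext Φ ε (CTree.node S R) ≤ T := by rw [hext]; exact h3.trans hT
    have h4 := h.node hΦ hε hok hdR hsig h3'
    rw [hext] at h4
    refine ⟨_, G, _, h4, hln.symm, fun σ => ?_, ?_⟩
    · rw [mem_lab_node hR h hdR, hleaf]
    · have := card_node hR h hdR
      omega
  · rw [ho, e1] at h3 ⊢
    have h3' : ext Φ ε (CTree.node S R) ≤ T := by rw [hext]; exact h3.trans hT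
    have h4 := h.swap hΦ hε hok hdR hsig h3'
    rw [hext'] at h4
    refine ⟨_, G, _, h4, hln'.symm, fun σ => ?_, ?_⟩
    · rw [mem_lab_node hR h hdR, hleaf]
    · have := card_node hR h hdR
      omega
  · rw [ho, e2] at h3 ⊢
    have hgh := h.ghost hΦ hε hR hdR (by rw [hlnR]; exact h1) (by rw [hlnR]; exact h2)
      (by rw [hlnR, hextR]; exact hu0) (by rw [hlnR]; exact h3.trans hT)
    rw [hlnR] at hgh
    obtain ⟨G', p1, h4⟩ := hgh
    refine ⟨_, G', _, h4, hlnR.symm, fun σ => ?_, ?_⟩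
    · rw [mem_lab_union', hleaf]
    · have := card_perm (F := F) (R := R) p1
      omega

end tree

/-- All the pairs of the chain are scattered. -/
def _root_.Vale.Agent.P119.IND.chx (Φ : E3 → ℝ) (ε : ℝ) :
    {j : ℕ} → (Fin j → Fin 3) → ℝ × Ph → (Fin j → Ph) → Prop
  | 0, _, _, _ => True
  | _ + 1, P, x, p => Exits Φ (rel ε (x.2, p 0)) ∧
      chx Φ ε (fun i => P i.succ) (nwS Φ ε (P 0) (x.2, p 0)) fun i => p i.succ

/-- **Chains of hits by free lines.** -/
theorem chain (hΦ : IsPotential Φ) (hε : 0 < ε) (hT : t ≤ T) : ∀ {j : ℕ} (P : Fin j → Fin 3)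
    (p : Fin j → Ph) {F : Finset CTree} {G : List Gh} {S : CTree} {u : ℝ},
    MBase Φ ε T F G E S u → chn Φ ε t P (u, ln Φ ε S) p → chx Φ ε P (u, ln Φ ε S) p →
    (∀ i, ((0 : ℝ), p i, (0 : ℕ)) ∉ lab F) → Function.Injective p →
    ∃ F' G' S', MBase Φ ε T F' G' E S' (cst Φ ε P (u, ln Φ ε S) p).1 ∧
      (cst Φ ε P (u, ln Φ ε S) p).2 = ln Φ ε S' ∧
      (∀ σ, σ ∈ lab F' ↔ σ ∈ lab F ∨ ∃ i, ((0 : ℝ), p i, (0 : ℕ)) = σ) ∧
      szB F' G' ≤ szB F G + 4 * j
  | 0, P, p, F, G, S, u, h, _, _, _, _ =>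
    ⟨F, G, S, h, rfl, fun σ => ⟨Or.inl, fun h => h.resolve_right fun ⟨i, _⟩ => i.elim0⟩, le_rfl⟩
  | j + 1, P, p, F, G, S, u, h, hc, hx, hd, hp => by
    classical
    obtain ⟨F₁, G₁, S₁, h1, h2, h3, h4⟩ := h.step hΦ hε hT (P 0) hc.1 hx.1 (hd 0)
    have e : nwS Φ ε (P 0) (ln Φ ε S, p 0) =
        ((nwS Φ ε (P 0) (ln Φ ε S, p 0)).1, ln Φ ε S₁) := by rw [← h2]
    have hc' : chn Φ ε t (fun i => P i.succ) ((nwS Φ ε (P 0) (ln Φ ε S, p 0)).1, ln Φ ε S₁)
        fun i => p i.succ := by rw [← e]; exact hc.2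
    have hx' : chx Φ ε (fun i => P i.succ) ((nwS Φ ε (P 0) (ln Φ ε S, p 0)).1, ln Φ ε S₁)
        fun i => p i.succ := by rw [← e]; exact hx.2
    obtain ⟨F₂, G₂, S₂, h5, h6, h7, h8⟩ := chain hΦ hε hT (fun i => P i.succ)
      (fun i => p i.succ) h1 hc' hx' (fun i hi => by
        rcases (h3 _).1 hi with h9 | h9
        · exact hd _ h9
        · simp only [Prod.mk.injEq, true_and, and_true] at h9
          exact absurd (hp h9) (Fin.succ_ne_zero i)) fun a b hab => Fin.succ_injective _ (hp hab)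
    have e' : cst Φ ε P (u, ln Φ ε S) p = cst Φ ε (fun i => P i.succ)
        ((nwS Φ ε (P 0) (ln Φ ε S, p 0)).1, ln Φ ε S₁) fun i => p i.succ := by
      rw [← e]; rfl
    rw [e']
    refine ⟨F₂, G₂, S₂, h5, h6, fun σ => ?_, by omega⟩
    rw [h7, h3]
    constructor
    · rintro ((h9 | h9) | ⟨i, h9⟩)
      · exact Or.inl h9
      · exact Or.inr ⟨0, h9.symm⟩
      · exact Or.inr ⟨i.succ, h9⟩
    · rintro (h9 | ⟨i, h9⟩)
      · exact Or.inl (Or.inl h9)
      · refine Fin.cases (fun h9 => ?_) (fun i h9 => ?_) i h9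
        · exact Or.inl (Or.inr h9.symm)
        · exact Or.inr ⟨i, h9⟩

end MBase

end Vale.Agent.P119.IND
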