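import Vale.Agent.P119.IND.PairBase
import Vale.Agent.P119.IND.LateNI
import Vale.Agent.P119.IND.MBase

/-!
# P119, block IND: base structures whose line hits a tree (`helper810`)

* `Fam.add_nd`: a family with one more collision of two last histories;
* `KBase.add_gh`, `KBase.add_nd`: the same for base structures, one label (no label) is dropped;
* `KBase.law_not_good_late`: the failures of `M.Good` for lines of the base and late lines.
-/

open Set
open scoped ENNReal

set_option linter.unusedSectionVars false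

noncomputable section

namespace Vale.Agent.P119.IND

open KU M M.CTree TL GC AU PB

variable {Φ : E3 → ℝ} {ε T t : ℝ} {L : ℕ} {F : Finset CTree} {G : List Gh} {A B P : CTree}

theorem not_spine_node {S y : CTree} : ¬Spine (CTree.node S y) S := by
  intro h
  have h1 := h.card_le
  have h2 := y.card_pos
  simp only [CTree.card] at h1
  omega

theorem IsLast.node_notMem (h : IsLast F A) (y : CTree) : CTree.node A y ∉ F := fun h' =>
  not_spine_node (h.last _ h' rfl)

/-! ### One more collision -/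

section node

variable [DecidableEq CTree]

/-- The family with the collision of `A` and `B`. -/
def addN (A B : CTree) (F : Finset CTree) : Finset CTree :=
  insert (CTree.node A B) (insert (CTree.node B A) F)

theorem mem_addN : P ∈ addN A B F ↔ P = CTree.node A B ∨ P = CTree.node B A ∨ P ∈ F := by
  unfold addN
  rw [Finset.mem_insert, Finset.mem_insert]

theorem lab_addN (hA : A ∈ F) (hB : B ∈ F) : lab (addN A B F) = lab F := by
  ext σ
  rw [mem_lab, mem_lab]
  constructor
  · rintro ⟨P, hP, rfl⟩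
    rcases mem_addN.1 hP with rfl | rfl | hP
    · exact ⟨A, hA, rfl⟩
    · exact ⟨B, hB, rfl⟩
    · exact ⟨P, hP, rfl⟩
  · rintro ⟨P, hP, rfl⟩
    exact ⟨P, mem_addN.2 (Or.inr (Or.inr hP)), rfl⟩

theorem card_nl_addN : (nl (addN A B F)).card ≤ (nl F).card + 2 := by
  classical
  have h1 : nl (addN A B F) ⊆ nl F ∪ {CTree.node A B, CTree.node B A} := by
    intro P hP
    obtain ⟨h2, h3⟩ := mem_nl.1 hP
    rcases mem_addN.1 h2 with rfl | rfl | h2
    · exact Finset.mem_union_right _ (by simp)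
    · exact Finset.mem_union_right _ (by simp)
    · exact Finset.mem_union_left _ (mem_nl.2 ⟨h2, h3⟩)
  refine (Finset.card_le_card h1).trans ((Finset.card_union_le _ _).trans ?_)
  have := Finset.card_le_two (a := CTree.node A B) (b := CTree.node B A)
  omega

theorem szB_addN (hA : A ∈ F) (hB : B ∈ F) : szB (addN A B F) G ≤ szB F G + 2 := by
  have h1 := card_nl_addN (A := A) (B := B) (F := F)
  unfold szB
  rw [lab_addN hA hB]
  omega

theorem szB_perm {G' : List Gh} {g : Gh} (h : G'.Perm (g :: G)) : szB F G' = szB F G + 1 := by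
  unfold szB
  rw [h.length_eq, List.length_cons]
  omega

theorem fj_addN (hA : A ∈ F) {σ τ : Src} (h : FJ F G σ τ) : FJ (addN A B F) G σ τ :=
  h.mono (fun P hP => mem_addN.2 (Or.inr (Or.inr hP))) fun g hg => hg

/-- **A family with one more collision** of two last histories. -/
theorem Fam.add_nd (hΦ : IsPotential Φ) (h : Fam Φ ε T F G) (hA : IsLast F A) (hB : IsLast F B)
    (hok : CTree.ok Φ ε (node A B)) (he : ext Φ ε (node A B) ≤ T)
    (hG1 : ∀ g ∈ G, g.1.root ≠ A.root ∧ g.1.root ≠ B.root)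
    (hG2 : ∀ g ∈ G, g.2.1.root = A.root ∨ g.2.1.root = B.root → g.2.2 ≤ sig Φ ε (node A B)) :
    Fam Φ ε T (addN A B F) G := by
  have hne : A.root ≠ B.root := fun h' =>
    Set.disjoint_left.1 hok.2.2.1 A.root_mem_leaves (h' ▸ B.root_mem_leaves)
  have hsp : ∀ {P X Y : CTree}, IsLast F X → P ∈ F → P.root = (CTree.node X Y).root →
      Spine P (CTree.node X Y) := fun hX hP hr => Spine.left _ (hX.last _ hP hr)
  have hroot : ∀ {X Y : CTree}, (CTree.node X Y).root = X.root := rfl
  refine ⟨fun P hP => ?_, fun P hP => ?_, fun a b hab => ?_, fun P hP Q hQ hr => ?_,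
    fun g hg => ?_, fun g hg P hP hr => ?_, fun g hg y hy => ?_, h.srt⟩
  · rcases mem_addN.1 hP with rfl | rfl | hP
    · exact hok
    · exact ok_swap hΦ hok
    · exact h.ok P hP
  · rcases mem_addN.1 hP with rfl | rfl | hP
    · exact he
    · rw [ext_swap hΦ]; exact he
    · exact h.ext_le P hP
  · have mA := mem_addN (A := A) (B := B).2 (Or.inr (Or.inr hA.mem))
    have mB := mem_addN (A := A) (B := B).2 (Or.inr (Or.inr hB.mem))
    rcases mem_addN.1 hab with h1 | h1 | h1
    · injection h1 with h2 h3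
      subst h2 h3
      exact ⟨mA, mB, mem_addN.2 (Or.inr (Or.inl rfl))⟩
    · injection h1 with h2 h3
      subst h2 h3
      exact ⟨mB, mA, mem_addN.2 (Or.inl rfl)⟩
    · obtain ⟨h2, h3, h4⟩ := h.sub a b h1
      exact ⟨mem_addN.2 (Or.inr (Or.inr h2)), mem_addN.2 (Or.inr (Or.inr h3)),
        mem_addN.2 (Or.inr (Or.inr h4))⟩
  · rcases mem_addN.1 hP with rfl | rfl | hP <;> rcases mem_addN.1 hQ with rfl | rfl | hQ
    · exact Or.inl (Spine.refl _)
    · exact absurd hr hne
    · exact Or.inr (hsp hA hQ hr.symm)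
    · exact absurd hr.symm hne
    · exact Or.inl (Spine.refl _)
    · exact Or.inr (hsp hB hQ hr.symm)
    · exact Or.inl (hsp hA hP hr)
    · exact Or.inl (hsp hB hP hr)
    · exact h.cmp P hP Q hQ hr
  · obtain ⟨h1, h2, h3⟩ := h.gh g hg
    exact ⟨mem_addN.2 (Or.inr (Or.inr h1)), mem_addN.2 (Or.inr (Or.inr h2)), h3⟩
  · rcases mem_addN.1 hP with rfl | rfl | hP
    · exact absurd hr.symm (hG1 g hg).1
    · exact absurd hr.symm (hG1 g hg).2
    · exact h.last g hg P hP hr
  · rcases mem_addN.1 hy with h1 | h1 | h1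
    · rw [h1]
      injection h1 with h2 h3
      exact hG2 g hg (Or.inl (by rw [h2]))
    · rw [h1, sig_swap]
      injection h1 with h2 h3
      exact hG2 g hg (Or.inr (by rw [h2]))
    · exact h.cur g hg y h1

theorem IsLast.addN_left (hA : IsLast F A) (hne : A.root ≠ B.root) :
    IsLast (addN A B F) (CTree.node A B) := by
  refine ⟨mem_addN.2 (Or.inl rfl), fun P hP hr => ?_⟩
  rcases mem_addN.1 hP with rfl | rfl | hP
  · exact Spine.refl _
  · exact absurd hr.symm hne
  · exact Spine.left _ (hA.last P hP hr)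

theorem IsLast.addN_right (hB : IsLast F B) (hne : A.root ≠ B.root) :
    IsLast (addN A B F) (CTree.node B A) := by
  refine ⟨mem_addN.2 (Or.inr (Or.inl rfl)), fun P hP hr => ?_⟩
  rcases mem_addN.1 hP with rfl | rfl | hP
  · exact absurd hr hne
  · exact Spine.refl _
  · exact Spine.left _ (hB.last P hP hr)

theorem IsLast.addN_other (hP : IsLast F P) (h1 : P.root ≠ A.root) (h2 : P.root ≠ B.root) :
    IsLast (addN A B F) P := by
  refine ⟨mem_addN.2 (Or.inr (Or.inr hP.mem)), fun Q hQ hr => ?_⟩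
  rcases mem_addN.1 hQ with rfl | rfl | hQ
  · exact absurd hr.symm h1
  · exact absurd hr.symm h2
  · exact hP.last Q hQ hr

end node

/-! ### Base structures -/

namespace KBase

variable {D : Set Src} {X : Src → Src} {b bA bB : Src}

open Classical in
/-- **A base structure with one more ghost** `(A, B, b.1)`: the label of `A` is dropped, the label of
`B` is seen as the line `b`, which begins at the contact. -/
theorem add_gh (hε : 0 < ε) (h : KBase Φ ε T F G D X) (hA : IsLast F A) (hB : IsLast F B)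
    (hne : A.root ≠ B.root) (hAD : A.root ∉ D) (hBD : B.root ∉ D)
    (hm : Meets ε (ln Φ ε A, ln Φ ε B)) (hr : hitT ε (ln Φ ε A, ln Φ ε B) = b.1)
    (hA' : ext Φ ε A < b.1) (hB' : ext Φ ε B < b.1) (hT : b.1 ≤ T)
    (hXA : (X A.root).1 ≤ b.1) (hXB : (X B.root).1 ≤ b.1) (hb : b.2.1 = ln Φ ε B) :
    ∃ G', G'.Perm ((A, B, b.1) :: G) ∧
      KBase Φ ε T F G' (insert A.root D) (Function.update X B.root b) := by
  have hc : Ctc ε (KU.free b.1 (ln Φ ε A)) (KU.free b.1 (ln Φ ε B)) := by
    have := ctc_hitT hε hm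
    rwa [hr] at this
  have htA : ∀ g ∈ G, g.2.1.root = A.root → g.2.2 ≤ b.1 := fun g hg h1 => by
    have h2 := h.tgt g hg (by rw [h1]; exact hAD)
    rw [h1] at h2
    exact h2.trans hXA
  have htB : ∀ g ∈ G, g.2.1.root = B.root → g.2.2 ≤ b.1 := fun g hg h1 => by
    have h2 := h.tgt g hg (by rw [h1]; exact hBD)
    rw [h1] at h2
    exact h2.trans hXB
  obtain ⟨G', p1, p2⟩ := h.fam.insert_ghost hA hB hne hA'.le hB'.le hT hc
    (fun g hg => ⟨fun h1 => hAD (h1 ▸ h.drop g hg), fun h1 => hBD (h1 ▸ h.drop g hg)⟩) htA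
  have hcase : ∀ g, g ∈ G' → g ∈ G ∨ g = (A, B, b.1) := fun g hg =>
    (List.mem_cons.1 (p1.subset hg)).symm
  have hmem : ∀ g ∈ G, g ∈ G' := fun g hg => p1.symm.subset (List.mem_cons_of_mem _ hg)
  refine ⟨G', p1, p2, fun g hg => ?_, fun g hg h1 => ?_, fun σ hσ h1 => ?_⟩
  · rcases hcase g hg with h2 | rfl
    · exact mem_insert_of_mem _ (h.drop g h2)
    · exact mem_insert _ _
  · rcases hcase g hg with h2 | rfl
    · by_cases h3 : g.2.1.root = B.root
      · rw [h3, Function.update_self]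
        exact htB g h2 h3
      · rw [Function.update_of_ne h3]
        exact h.tgt g h2 fun h4 => h1 (mem_insert_of_mem _ h4)
    · rw [Function.update_self]
  · have h2 : σ ∉ D := fun h3 => h1 (mem_insert_of_mem _ h3)
    by_cases h3 : σ = B.root
    · subst h3
      refine ⟨B, hB, rfl, ?_, Or.inr ?_⟩
      · rw [Function.update_self, hb]
      · rw [Function.update_self]
        exact ⟨(A, B, b.1), p1.symm.subset List.mem_cons_self, rfl, rfl, hA', hB', hm, hr⟩
    · obtain ⟨S, h4, h5, h6, h7⟩ := h.lst σ hσ h2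
      refine ⟨S, h4, h5, ?_, ?_⟩
      · rw [Function.update_of_ne h3, h6]
      · rw [Function.update_of_ne h3]
        exact h7.imp id fun ⟨g, h8, h9⟩ => ⟨g, hmem g h8, h9⟩

open Classical in
/-- **A base structure with one more collision** of the last histories `A` and `B`, seen as `bA` and
`bB`. -/
theorem add_nd [DecidableEq CTree] (hΦ : IsPotential Φ) (hε : 0 < ε) (h : KBase Φ ε T F G D X) (hA : IsLast F A)
    (hB : IsLast F B) (hAD : A.root ∉ D) (hBD : B.root ∉ D)
    (hok : CTree.ok Φ ε (node A B)) (he : ext Φ ε (node A B) ≤ T)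
    (hXA : (X A.root).1 ≤ sig Φ ε (node A B)) (hXB : (X B.root).1 ≤ sig Φ ε (node A B))
    (hbA : bA.1 = ext Φ ε (node A B) ∧ bA.2.1 = ln Φ ε (node A B))
    (hbB : bB.1 = ext Φ ε (node B A) ∧ bB.2.1 = ln Φ ε (node B A)) :
    KBase Φ ε T (addN A B F) G D
      (Function.update (Function.update X A.root bA) B.root bB) := by
  have hne : A.root ≠ B.root := fun h' =>
    Set.disjoint_left.1 hok.2.2.1 A.root_mem_leaves (h' ▸ B.root_mem_leaves)
  have hse : sig Φ ε (node A B) ≤ ext Φ ε (node A B) := sig_le_ext hΦ hε hok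
  have eA : Function.update (Function.update X A.root bA) B.root bB A.root = bA := by
    rw [Function.update_of_ne hne, Function.update_self]
  have eB : Function.update (Function.update X A.root bA) B.root bB B.root = bB :=
    Function.update_self _ _ _
  have eO : ∀ σ, σ ≠ A.root → σ ≠ B.root →
      Function.update (Function.update X A.root bA) B.root bB σ = X σ := fun σ h1 h2 => by
    rw [Function.update_of_ne h2, Function.update_of_ne h1]
  refine ⟨h.fam.add_nd hΦ hA hB hok he (fun g hg => ⟨fun h1 => ?_, fun h1 => ?_⟩)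
    (fun g hg h1 => ?_), h.drop, fun g hg h1 => ?_, fun σ hσ h1 => ?_⟩
  · exact hAD (h1 ▸ h.drop g hg)
  · exact hBD (h1 ▸ h.drop g hg)
  · rcases h1 with h1 | h1
    · have h2 := h.tgt g hg (by rw [h1]; exact hAD)
      rw [h1] at h2
      exact h2.trans hXA
    · have h2 := h.tgt g hg (by rw [h1]; exact hBD)
      rw [h1] at h2
      exact h2.trans hXB
  · by_cases h3 : g.2.1.root = A.root
    · have h2 := h.tgt g hg h1
      rw [h3] at h2 ⊢
      rw [eA, hbA.1]
      exact h2.trans (hXA.trans hse)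
    · by_cases h4 : g.2.1.root = B.root
      · have h2 := h.tgt g hg h1
        rw [h4] at h2 ⊢
        rw [eB, hbB.1, ext_swap hΦ]
        exact h2.trans (hXB.trans hse)
      · rw [eO _ h3 h4]
        exact h.tgt g hg h1
  · by_cases h3 : σ = A.root
    · subst h3
      refine ⟨CTree.node A B, hA.addN_left hne, rfl, ?_, Or.inl ?_⟩
      · rw [eA, hbA.2]
      · rw [eA, hbA.1]
    · by_cases h4 : σ = B.root
      · subst h4
        refine ⟨CTree.node B A, hB.addN_right hne, rfl, ?_, Or.inl ?_⟩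
        · rw [eB, hbB.2]
        · rw [eB, hbB.1]
      · rw [lab_addN hA.mem hB.mem] at hσ
        obtain ⟨S, h5, h6, h7, h8⟩ := h.lst σ hσ h1
        refine ⟨S, h5.addN_other (by rw [h6]; exact h3) (by rw [h6]; exact h4), h6, ?_, ?_⟩
        · rw [eO _ h3 h4, h7]
        · rw [eO _ h3 h4]
          exact h8

/-- **The failures of `M.Good`** for lines of the base and lines which are born after the
horizon. -/
theorem law_not_good_late {m q c₀ : ℕ} {T₀ : Fin m → CTree} {l : Fin q → Src} {R₀ : Finset Src}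
    (hΦ : IsPotential Φ) (hε : 0 < ε) (hT : 0 ≤ T) (h : KBase Φ ε T F G D X)
    (hl : SLab T₀ l F G (c₀ + 1) R₀) {w : Finset Ph} (hzw : ∀ σ ∈ lab F, σ ∉ wS w)
    (hxw : ∀ σ ∈ lab F, σ ∉ D → X σ ∉ wS w) {K : Finset Src}
    (hK : ∀ σ ∈ K, (0 ≤ σ.1 ∧ σ.2.2 ≤ L) ∧ σ ∉ wS w)
    (hK' : ∀ σ ∈ K, σ.1 ≤ t → ∃ τ ∈ lab F, τ ∉ D ∧ X τ = σ) (ht : t ≤ T)
    (hg : InjOn X ((lab F : Set Src) \ D) → ¬M.Good Φ ε L (wS w) PB.sgl K t) (J : ℕ) :
    LawC hΦ hε L T J c₀ (szB F G + 2 * Nb0 L J + 1) T₀ l w {σ | σ ∈ K ∧ σ.1 ≤ t} := by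
  by_cases hi : InjOn X ((lab F : Set Src) \ D)
  · have h1 := (h.sbase hi).not_good_late hΦ hε hl hzw hxw h.exact hK hK' ht (hg hi) J
    exact h1.imp id (Or.imp (PrgC.mono le_rfl (Nat.le_succ _))
      (Or.imp (PrgO.mono le_rfl (Nat.le_succ _)) (IrrO.mono le_rfl (Nat.le_succ _))))
  · rcases SLab.law_of_not_inj (w := w) hΦ hε hT h.fam hl h.drop (fun σ hσ hD => by
      obtain ⟨S, h1, h2, h3, -⟩ := h.lst σ hσ hD
      exact ⟨S, h1, h2, h3⟩) hi with h1 | h1
    · exact Or.inr (Or.inl (h1.mono le_rfl (by omega)))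
    · exact Or.inr (Or.inr (Or.inl (h1.mono le_rfl (by omega))))

end KBase

end Vale.Agent.P119.IND
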