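import Vale.Agent.P119.IND.HitBase
import Vale.Agent.P119.IND.TriLaw
import Vale.Agent.P119.FB.Unfelt

/-!
# P119, block IND: a line of a base structure hits a tree (`helper810`)

* `injOn_outs_of_exs`: coincidences of the lines of a tree;
* `SLab.hit`: the labels with one more tree which is joined to the base;
* `HB`: the line `X S.root` of the base hits the tree `R`; `HB.gh`, `HB.nd`: the two base structures
  (contact at the time of the hit; collision);
* `HB.law_gh`, `HB.law_nd`: the failures of `M.Good` over the two base structures.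
-/

open Set
open scoped ENNReal

set_option linter.unusedSectionVars false

noncomputable section

namespace Vale.Agent.P119.IND

open KU M M.CTree TL GC AU PB RB

variable {Φ : E3 → ℝ} {ε T t : ℝ} {L : ℕ}

/-! ### Coincidences -/

theorem exs_ext_lt (hΦ : IsPotential Φ) (hε : 0 < ε) {x y z : CTree}
    (hxy : CTree.ok Φ ε (node x y)) (hz : z ∈ exs x ∪ exs y) :
    ext Φ ε z < ext Φ ε (node x y) := by
  have h1 := sig_lt_ext hΦ hε hxy
  rcases hz with hz | hz
  · exact (out_ext_le hΦ hε hxy.1 (Or.inr hz)).trans_lt (hxy.2.2.2.2.2.1.trans h1)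
  · exact (out_ext_le hΦ hε hxy.2.1 (Or.inr hz)).trans_lt (hxy.2.2.2.2.2.2.trans h1)

/-- The last collision adds no coincidence. -/
theorem injOn_outs_node' (hΦ : IsPotential Φ) (hε : 0 < ε) {x y : CTree}
    (hxy : CTree.ok Φ ε (node x y)) (h : InjOn (rsrc Φ ε) (exs x ∪ exs y)) :
    InjOn (rsrc Φ ε) (outs (node x y)) := by
  have hex : ∀ z ∈ exs x ∪ exs y, ext Φ ε z < ext Φ ε (node x y) := fun z hz =>
    exs_ext_lt hΦ hε hxy hz
  have hcase : ∀ z ∈ outs (node x y), z = node x y ∨ z = node y x ∨ z ∈ exs x ∪ exs y := by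
    rintro z (hz | hz)
    · exact Or.inl hz
    · rcases mem_exs_node.1 hz with hz | hz | hz
      · exact Or.inr (Or.inr (Or.inl hz))
      · exact Or.inr (Or.inr (Or.inr hz))
      · exact Or.inr (Or.inl hz)
  have hsw : ext Φ ε (node y x) = ext Φ ε (node x y) := ext_swap hΦ x y
  have hne := ln_node_ne hΦ hε hxy
  intro z hz z' hz' he
  have e1 : ext Φ ε z = ext Φ ε z' := congrArg (fun a : Src => a.1) he
  have e2 : ln Φ ε z = ln Φ ε z' := congrArg (fun a : Src => a.2.1) he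
  rcases hcase z hz with h1 | h1 | h1 <;> rcases hcase z' hz' with h2 | h2 | h2
  · rw [h1, h2]
  · rw [h1, h2] at e2; exact absurd e2 hne
  · rw [h1] at e1; exact absurd (hex z' h2) (not_lt.2 e1.le)
  · rw [h1, h2] at e2; exact absurd e2.symm hne
  · rw [h1, h2]
  · rw [h1, hsw] at e1; exact absurd (hex z' h2) (not_lt.2 e1.le)
  · rw [h2] at e1; exact absurd (hex z h1) (not_lt.2 e1.symm.le)
  · rw [h2, hsw] at e1; exact absurd (hex z h1) (not_lt.2 e1.symm.le)
  · exact h h1 h2 he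

/-- The root line of a tree is not an exhaust line. -/
theorem injOn_outs_of_exs (hΦ : IsPotential Φ) (hε : 0 < ε) {R : CTree} (hR : CTree.ok Φ ε R)
    (h : InjOn (rsrc Φ ε) (exs R)) : InjOn (rsrc Φ ε) (outs R) := by
  cases R with
  | leaf σ =>
    rintro x (hx | hx) y (hy | hy) _
    · exact (mem_singleton_iff.1 hx).trans (mem_singleton_iff.1 hy).symm
    · exact absurd hy (notMem_empty _)
    · exact absurd hx (notMem_empty _)
    · exact absurd hx (notMem_empty _)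
  | node a b =>
    refine injOn_outs_node' hΦ hε hR (h.mono ?_)
    rintro z (hz | hz)
    · exact mem_exs_node.2 (Or.inl hz)
    · exact mem_exs_node.2 (Or.inr (Or.inl hz))

/-! ### The labels -/

/-- **The labels with one more tree which is joined to the base.** -/
theorem SLab.hit {F F' : Finset CTree} {G G' : List Gh} {m q c₀ : ℕ} {T₀ : Fin m → CTree}
    {l : Fin q → Src} {R₀ : Finset Src} {R S : CTree} (h : SLab T₀ l F G c₀ R₀)
    (hlab : ∀ σ, σ ∈ lab F' ↔ σ ∈ lab F ∨ σ ∈ R.leaves)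
    (hmono : ∀ σ τ, FJ F G σ τ → FJ F' G' σ τ) (hS : S.root ∈ lab F)
    (hj : ∀ σ ∈ R.leaves, FJ F' G' σ S.root) :
    SLab (Fin.snoc T₀ R : Fin (m + 1) → CTree) l F' G' c₀ R₀ := by
  refine ⟨fun σ hσ => ?_, fun j => ?_, fun j => (hlab _).2 (Or.inl (h.lines j)),
    fun r hr => (hlab _).2 (Or.inl (h.sub r hr)), fun σ hσ => ?_, h.card, h.ord⟩
  · rcases (hlab σ).1 hσ with h1 | h1
    · rcases h.mem σ h1 with ⟨j, hj⟩ | h2
      · refine Or.inl ⟨j.castSucc, ?_⟩
        rw [Fin.snoc_castSucc]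
        exact hj
      · exact Or.inr h2
    · refine Or.inl ⟨Fin.last m, ?_⟩
      rw [Fin.snoc_last]
      exact h1
  · intro σ hσ
    refine Finset.mem_coe.2 ((hlab σ).2 ?_)
    induction j using Fin.lastCases with
    | last =>
      rw [Fin.snoc_last] at hσ
      exact Or.inr hσ
    | cast j =>
      rw [Fin.snoc_castSucc] at hσ
      exact Or.inl (Finset.mem_coe.1 (h.trees j hσ))
  · rcases (hlab σ).1 hσ with h1 | h1
    · obtain ⟨r, hr, h2⟩ := h.cov σ h1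
      exact ⟨r, hr, hmono _ _ h2⟩
    · obtain ⟨r, hr, h2⟩ := h.cov _ hS
      exact ⟨r, hr, (hj σ h1).trans (hmono _ _ h2)⟩

/-! ### A line of the base hits a tree -/

/-- The line `X S.root` of the base hits the tree `R`. -/
structure HB (Φ : E3 → ℝ) (ε T : ℝ) (F : Finset CTree) (G : List Gh) (D : Set Src)
    (X : Src → Src) (S R : CTree) : Prop where
  base : KBase Φ ε T F G D X
  last : IsLast F S
  notD : S.root ∉ D
  okR : CTree.ok Φ ε R
  disj : ∀ σ ∈ lab F, σ ∉ R.leaves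
  meets : Meets ε (ln Φ ε R, (X S.root).2.1)
  exits : Exits Φ (rel ε (ln Φ ε R, (X S.root).2.1))
  birth : (X S.root).1 < sig Φ ε (node R (leaf (X S.root)))
  extR : ext Φ ε R < sig Φ ε (node R (leaf (X S.root)))
  le : sig Φ ε (node R (leaf (X S.root))) ≤ T

namespace HB

variable {F : Finset CTree} {G : List Gh} {D : Set Src} {X : Src → Src} {S R : CTree}
  {m q c₀ : ℕ} {T₀ : Fin m → CTree} {l : Fin q → Src} {R₀ : Finset Src}

theorem line (h : HB Φ ε T F G D X S R) :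
    (X S.root).2.1 = ln Φ ε S ∧ ext Φ ε S ≤ (X S.root).1 := by
  obtain ⟨S', h1, h2, h3, h4⟩ := h.base.lst S.root (root_mem_lab h.last.mem) h.notD
  have e : S' = S := h1.unique h.last h2
  subst e
  refine ⟨h3, ?_⟩
  rcases h4 with h4 | ⟨g, -, -, -, -, h5, -⟩
  · exact h4.ge
  · exact h5.le

theorem sig_eq (h : HB Φ ε T F G D X S R) :
    sig Φ ε (node R (leaf (X S.root))) = sig Φ ε (node R S) := by
  change hitT ε (ln Φ ε R, (X S.root).2.1) = hitT ε (ln Φ ε R, ln Φ ε S)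
  rw [h.line.1]

theorem ext_eq (h : HB Φ ε T F G D X S R) :
    ext Φ ε (node R (leaf (X S.root))) = ext Φ ε (node R S) := by
  change sepT Φ ε (ln Φ ε R, (X S.root).2.1) = sepT Φ ε (ln Φ ε R, ln Φ ε S)
  rw [h.line.1]

theorem ln_eq (h : HB Φ ε T F G D X S R) :
    ln Φ ε (node R (leaf (X S.root))) = ln Φ ε (node R S) := by
  change (sc2 Φ ε (ln Φ ε R, (X S.root).2.1)).1 = (sc2 Φ ε (ln Φ ε R, ln Φ ε S)).1
  rw [h.line.1]

theorem ln_eq' (h : HB Φ ε T F G D X S R) :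
    ln Φ ε (node (leaf (X S.root)) R) = ln Φ ε (node S R) := by
  change (sc2 Φ ε ((X S.root).2.1, ln Φ ε R)).1 = (sc2 Φ ε (ln Φ ε S, ln Φ ε R)).1
  rw [h.line.1]

theorem ext_eq' (h : HB Φ ε T F G D X S R) :
    ext Φ ε (node (leaf (X S.root)) R) = ext Φ ε (node S R) := by
  change sepT Φ ε ((X S.root).2.1, ln Φ ε R) = sepT Φ ε (ln Φ ε S, ln Φ ε R)
  rw [h.line.1]

theorem leaves_S (h : HB Φ ε T F G D X S R) {σ : Src} (hσ : σ ∈ S.leaves) : σ ∈ lab F :=
  Fam.leaves_lab h.base.fam h.last.mem hσ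

theorem ok (h : HB Φ ε T F G D X S R) : CTree.ok Φ ε (node R S) := by
  have h1 := h.line
  have e := h.sig_eq
  refine ⟨h.okR, h.base.fam.ok _ h.last.mem, Set.disjoint_left.2 fun σ h2 h3 =>
    h.disj σ (h.leaves_S h3) h2, ?_, ?_, ?_, ?_⟩
  · rw [← h1.1]; exact h.meets
  · rw [← h1.1]; exact h.exits
  · change ext Φ ε R < sig Φ ε (node R S)
    rw [← e]; exact h.extR
  · change ext Φ ε S < sig Φ ε (node R S)
    rw [← e]; exact h1.2.trans_lt h.birth

theorem nonneg (hΦ : IsPotential Φ) (hε : 0 < ε) (h : HB Φ ε T F G D X S R) :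
    0 ≤ (X S.root).1 :=
  (M.ext_nonneg hΦ hε (h.base.fam.ok _ h.last.mem)).trans h.line.2

/-- The collision of the tree with the line. -/
theorem okl (hΦ : IsPotential Φ) (hε : 0 < ε) (h : HB Φ ε T F G D X S R)
    (hm : X S.root ∉ R.leaves) : CTree.ok Φ ε (node R (leaf (X S.root))) :=
  ⟨h.okR, h.nonneg hΦ hε, Set.disjoint_singleton_right.2 hm, h.meets, h.exits, h.extR, h.birth⟩

theorem root_ne (h : HB Φ ε T F G D X S R) : S.root ≠ R.root := fun h' =>
  h.disj _ (root_mem_lab h.last.mem) (h' ▸ R.root_mem_leaves)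

variable [DecidableEq CTree]

theorem disj' (h : HB Φ ε T F G D X S R) : ∀ σ ∈ lab F, σ ∉ lab (partsF R) := by
  intro σ hσ h1
  have h2 : σ ∈ (lab (partsF R) : Set Src) := Finset.mem_coe.2 h1
  rw [lab_partsF] at h2
  exact h.disj σ hσ h2

theorem base₁ (hΦ : IsPotential Φ) (hε : 0 < ε) (h : HB Φ ε T F G D X S R) :
    KBase Φ ε T (F ∪ partsF R) G (D \ R.leaves) (XR Φ ε X R) :=
  h.base.add_tree hΦ hε h.okR (h.extR.le.trans h.le) h.disj

theorem lastS (h : HB Φ ε T F G D X S R) : IsLast (F ∪ partsF R) S := h.last.union_left h.disj'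

theorem lastR (h : HB Φ ε T F G D X S R) {x : CTree} (hx : x ∈ outs R) :
    IsLast (F ∪ partsF R) x := (isLast_of_outs h.okR hx).union_right h.disj'

theorem notD₁ (h : HB Φ ε T F G D X S R) : S.root ∉ D \ R.leaves := fun h' => h.notD h'.1

theorem rootR (R : CTree) (D : Set Src) : R.root ∉ D \ R.leaves := fun h' =>
  h'.2 R.root_mem_leaves

/-- The lines which are seen by the gas, after the contact. -/
def XG (Φ : E3 → ℝ) (ε : ℝ) (X : Src → Src) (S R : CTree) : Src → Src := by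
  classical
  exact Function.update (XR Φ ε X R) R.root (kcS Φ ε R (X S.root))

/-- The lines which are seen by the gas, after the collision. -/
def XN (Φ : E3 → ℝ) (ε : ℝ) (X : Src → Src) (S R : CTree) : Src → Src := by
  classical
  exact Function.update (Function.update (XR Φ ε X R) R.root
    (rsrc Φ ε (node R (leaf (X S.root))))) S.root (rsrc Φ ε (node (leaf (X S.root)) R))

/-- **The base structure with the contact.** -/
theorem gh (hΦ : IsPotential Φ) (hε : 0 < ε) (h : HB Φ ε T F G D X S R) :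
    ∃ G', G'.Perm ((S, R, (kcS Φ ε R (X S.root)).1) :: G) ∧
      KBase Φ ε T (F ∪ partsF R) G' (insert S.root (D \ R.leaves)) (XG Φ ε X S R) := by
  have e := h.line
  have hS : S.root ∉ R.leaves := h.disj _ (root_mem_lab h.last.mem)
  refine KBase.add_gh hε (h.base₁ hΦ hε) h.lastS (h.lastR (Or.inl rfl)) h.root_ne h.notD₁
    (rootR R D) ?_ ?_ ?_ h.extR h.le ?_ ?_ rfl
  · rw [← e.1]
    exact (meets_swap (ln Φ ε R, (X S.root).2.1)).2 h.meets
  · rw [← e.1]
    exact hitT_swap (ln Φ ε R, (X S.root).2.1)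
  · exact e.2.trans_lt h.birth
  · rw [XR_of_notMem hS]
    exact h.birth.le
  · rw [XR_out h.okR (Or.inl rfl)]
    exact h.extR.le

/-- **The base structure with the collision.** -/
theorem nd (hΦ : IsPotential Φ) (hε : 0 < ε) (h : HB Φ ε T F G D X S R)
    (he : ext Φ ε (node R (leaf (X S.root))) ≤ T) :
    KBase Φ ε T (addN R S (F ∪ partsF R)) G (D \ R.leaves) (XN Φ ε X S R) := by
  have hS : S.root ∉ R.leaves := h.disj _ (root_mem_lab h.last.mem)
  refine KBase.add_nd hΦ hε (h.base₁ hΦ hε) (h.lastR (Or.inl rfl)) h.lastS (rootR R D) h.notD₁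
    h.ok (by rw [← h.ext_eq]; exact he) ?_ ?_ ⟨?_, ?_⟩ ⟨?_, ?_⟩
  · rw [XR_out h.okR (Or.inl rfl), ← h.sig_eq]
    exact h.extR.le
  · rw [XR_of_notMem hS, ← h.sig_eq]
    exact h.birth.le
  · exact h.ext_eq
  · exact h.ln_eq
  · exact h.ext_eq'
  · exact h.ln_eq'

/-! ### The lines -/

theorem XG_old (h : HB Φ ε T F G D X S R) {σ : Src} (hσ : σ ∈ lab F) :
    XG Φ ε X S R σ = X σ := by
  have h1 : σ ≠ R.root := fun h' => h.disj σ hσ (h' ▸ R.root_mem_leaves)
  unfold XG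
  rw [Function.update_of_ne h1, XR_of_notMem (h.disj σ hσ)]

theorem XG_root : XG Φ ε X S R R.root = kcS Φ ε R (X S.root) := by
  unfold XG
  rw [Function.update_self]

theorem XG_exs (h : HB Φ ε T F G D X S R) {x : CTree} (hx : x ∈ exs R) :
    XG Φ ε X S R x.root = rsrc Φ ε x := by
  unfold XG
  rw [Function.update_of_ne (exs_root_ne h.okR hx), XR_out h.okR (Or.inr hx)]

theorem XN_old (h : HB Φ ε T F G D X S R) {σ : Src} (hσ : σ ∈ lab F) (hS : σ ≠ S.root) :
    XN Φ ε X S R σ = X σ := by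
  have h1 : σ ≠ R.root := fun h' => h.disj σ hσ (h' ▸ R.root_mem_leaves)
  unfold XN
  rw [Function.update_of_ne hS, Function.update_of_ne h1, XR_of_notMem (h.disj σ hσ)]

theorem XN_root (h : HB Φ ε T F G D X S R) :
    XN Φ ε X S R R.root = rsrc Φ ε (node R (leaf (X S.root))) := by
  unfold XN
  rw [Function.update_of_ne h.root_ne.symm, Function.update_self]

theorem XN_line : XN Φ ε X S R S.root = rsrc Φ ε (node (leaf (X S.root)) R) := by
  unfold XN
  rw [Function.update_self]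

theorem XN_exs (h : HB Φ ε T F G D X S R) {x : CTree} (hx : x ∈ exs R) :
    XN Φ ε X S R x.root = rsrc Φ ε x := by
  have h1 : x.root ≠ S.root := fun h' =>
    h.disj _ (root_mem_lab h.last.mem) (h' ▸ outs_leaves (Or.inr hx) x.root_mem_leaves)
  unfold XN
  rw [Function.update_of_ne h1, Function.update_of_ne (exs_root_ne h.okR hx),
    XR_out h.okR (Or.inr hx)]

/-! ### The labels -/

theorem mem_lab_gh {σ : Src} : σ ∈ lab (F ∪ partsF R) ↔ σ ∈ lab F ∨ σ ∈ R.leaves := by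
  rw [mem_lab_union]
  refine or_congr_right ?_
  rw [← Finset.mem_coe, lab_partsF]

theorem mem_lab_nd (h : HB Φ ε T F G D X S R) {σ : Src} :
    σ ∈ lab (addN R S (F ∪ partsF R)) ↔ σ ∈ lab F ∨ σ ∈ R.leaves := by
  rw [lab_addN (h.lastR (Or.inl rfl)).mem h.lastS.mem, mem_lab_gh]

theorem fj_R (hΦ : IsPotential Φ) (hε : 0 < ε) (h : HB Φ ε T F G D X S R) {F' : Finset CTree}
    {G' : List Gh} (hF : ∀ P ∈ partsF R, P ∈ F') {σ : Src} (hσ : σ ∈ R.leaves) :
    FJ F' G' σ R.root :=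
  (fj_partsF hΦ hε h.okR hσ R.root_mem_leaves).mono hF fun _ hg => absurd hg List.not_mem_nil

theorem slab_gh (hΦ : IsPotential Φ) (hε : 0 < ε) (h : HB Φ ε T F G D X S R)
    (hl : SLab T₀ l F G c₀ R₀) {G' : List Gh}
    (hG : G'.Perm ((S, R, (kcS Φ ε R (X S.root)).1) :: G)) :
    SLab (Fin.snoc T₀ R : Fin (m + 1) → CTree) l (F ∪ partsF R) G' c₀ R₀ := by
  refine hl.hit (S := S) (fun σ => mem_lab_gh) (fun σ τ hJ => ?_) (root_mem_lab h.last.mem)
    fun σ hσ => ?_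
  · exact hJ.mono (fun P hP => Finset.mem_union_left _ hP) fun g hg =>
      hG.symm.subset (List.mem_cons_of_mem _ hg)
  · refine (h.fj_R hΦ hε (fun P hP => Finset.mem_union_right _ hP) hσ).trans (FJ.symm ?_)
    exact FJ.ghost (g := (S, R, (kcS Φ ε R (X S.root)).1)) (hG.symm.subset List.mem_cons_self)

theorem slab_nd (hΦ : IsPotential Φ) (hε : 0 < ε) (h : HB Φ ε T F G D X S R)
    (hl : SLab T₀ l F G c₀ R₀) :
    SLab (Fin.snoc T₀ R : Fin (m + 1) → CTree) l (addN R S (F ∪ partsF R)) G c₀ R₀ := by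
  have hsub : ∀ P ∈ F ∪ partsF R, P ∈ addN R S (F ∪ partsF R) := fun P hP =>
    mem_addN.2 (Or.inr (Or.inr hP))
  refine hl.hit (S := S) (fun σ => h.mem_lab_nd) (fun σ τ hJ => ?_) (root_mem_lab h.last.mem)
    fun σ hσ => ?_
  · exact hJ.mono (fun P hP => hsub P (Finset.mem_union_left _ hP)) fun g hg => hg
  · refine (h.fj_R hΦ hε (fun P hP => hsub P (Finset.mem_union_right _ hP)) hσ).trans ?_
    exact FJ.node (mem_addN.2 (Or.inl rfl))

theorem szB_gh (hd : R.depth ≤ L) {G' : List Gh} {g : Gh} (hG : G'.Perm (g :: G)) :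
    szB (F ∪ partsF R) G' ≤ szB F G + 2 ^ (L + 3) + 1 := by
  have h1 := szB_union_le (G₀ := G) (F₀ := F) hd
  have h2 := szB_perm (F := F ∪ partsF R) hG
  omega

theorem szB_nd (h : HB Φ ε T F G D X S R) (hd : R.depth ≤ L) :
    szB (addN R S (F ∪ partsF R)) G ≤ szB F G + 2 ^ (L + 3) + 2 := by
  have h1 := szB_union_le (G₀ := G) (F₀ := F) hd
  have h2 := szB_addN (G := G) (h.lastR (x := R) (Or.inl rfl)).mem h.lastS.mem
  omega

/-! ### The failures of the good event -/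

section laws

variable {w : Finset Ph} {K A : Finset Src}

/-- **The failures of `M.Good`** over the base structure with the contact. -/
theorem law_gh (hΦ : IsPotential Φ) (hε : 0 < ε) (hT : 0 ≤ T) (h : HB Φ ε T F G D X S R)
    (hl : SLab T₀ l F G (c₀ + 1) R₀) (hRd : R.depth ≤ L) (hzw : ∀ σ ∈ lab F, σ ∉ wS w)
    (hRw : ∀ σ ∈ R.leaves, σ ∉ wS w) (hxw : ∀ σ ∈ lab F, σ ∉ D → X σ ∉ wS w)
    (hkA : ∀ σ ∈ kA Φ ε R (X S.root), σ ∉ wS w)
    (hK : ∀ σ ∈ K, (0 ≤ σ.1 ∧ σ.2.2 ≤ L) ∧ σ ∉ wS w)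
    (hK' : ∀ σ ∈ K, σ.1 ≤ t → σ ∈ kA Φ ε R (X S.root) ∨
      ∃ τ ∈ lab F, τ ∉ D ∧ τ ≠ S.root ∧ X τ = σ) (ht : t ≤ T)
    (hg : InjOn (XG Φ ε X S R) ((lab (F ∪ partsF R) : Set Src) \ insert S.root (D \ R.leaves)) →
      ¬M.Good Φ ε L (wS w) PB.sgl K t) (J : ℕ) :
    LawC hΦ hε L T J c₀ (szB F G + 2 ^ (L + 3) + 3 + 2 * Nb0 L J)
      (Fin.snoc T₀ R : Fin (m + 1) → CTree) l w {σ | σ ∈ K ∧ σ.1 ≤ t} := by
  have hSR : S.root ∉ R.leaves := h.disj _ (root_mem_lab h.last.mem)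
  have hne : ∀ σ ∈ R.leaves, σ ∉ insert S.root (D \ R.leaves) := by
    rintro σ hσ (rfl | h1)
    · exact hSR hσ
    · exact h1.2 hσ
  have hXR : ∀ x ∈ outs R, XG Φ ε X S R x.root ∈ kA Φ ε R (X S.root) := by
    intro x hx
    rcases hx with rfl | hx
    · rw [XG_root]
      exact mem_kA.2 (Or.inl rfl)
    · rw [h.XG_exs hx]
      refine mem_kA.2 (Or.inr ?_)
      rw [← Finset.mem_coe, coe_exl]
      exact ⟨x, hx, rfl⟩
  obtain ⟨G', p1, p2⟩ := h.gh hΦ hε
  have h1 := p2.law_not_good_late hΦ hε hT (h.slab_gh hΦ hε hl p1) (w := w) (L := L)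
    (K := K) (t := t) (fun σ hσ => ?_) (fun σ hσ hσD => ?_) hK (fun σ hσ hσt => ?_) ht hg J
  · have h2 := szB_gh (F := F) hRd p1
    exact h1.imp id (Or.imp (PrgC.mono le_rfl (by omega))
      (Or.imp (PrgO.mono le_rfl (by omega)) (IrrO.mono le_rfl (by omega))))
  · rcases mem_lab_gh.1 hσ with h2 | h2
    · exact hzw σ h2
    · exact hRw σ h2
  · rcases mem_lab_gh.1 hσ with h2 | h2
    · rw [h.XG_old h2]
      refine hxw σ h2 fun h3 => hσD (mem_insert_of_mem _ ⟨h3, h.disj σ h2⟩)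
    · obtain ⟨x, hx, rfl⟩ := TL.exists_out h2
      exact hkA _ (hXR x hx)
  · rcases hK' σ hσ hσt with h2 | ⟨τ, h2, h3, h4, h5⟩
    · rcases mem_kA.1 h2 with rfl | h2
      · exact ⟨R.root, mem_lab_gh.2 (Or.inr R.root_mem_leaves), hne _ R.root_mem_leaves, XG_root⟩
      · rw [← Finset.mem_coe, coe_exl] at h2
        obtain ⟨x, hx, rfl⟩ := h2
        have hxR : x.root ∈ R.leaves := outs_leaves (Or.inr hx) x.root_mem_leaves
        exact ⟨x.root, mem_lab_gh.2 (Or.inr hxR), hne _ hxR, h.XG_exs hx⟩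
    · refine ⟨τ, mem_lab_gh.2 (Or.inl h2), ?_, by rw [h.XG_old h2, h5]⟩
      rintro (h6 | h6)
      · exact h4 h6
      · exact h3 h6.1

/-- **The failures of `M.Good`** over the base structure with the collision. -/
theorem law_nd (hΦ : IsPotential Φ) (hε : 0 < ε) (hT : 0 ≤ T) (h : HB Φ ε T F G D X S R)
    (he : ext Φ ε (node R (leaf (X S.root))) ≤ T)
    (hl : SLab T₀ l F G (c₀ + 1) R₀) (hRd : R.depth ≤ L) (hzw : ∀ σ ∈ lab F, σ ∉ wS w)
    (hRw : ∀ σ ∈ R.leaves, σ ∉ wS w) (hxw : ∀ σ ∈ lab F, σ ∉ D → X σ ∉ wS w)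
    (hkB : ∀ σ ∈ kB Φ ε R (X S.root), σ ∉ wS w)
    (hK : ∀ σ ∈ K, (0 ≤ σ.1 ∧ σ.2.2 ≤ L) ∧ σ ∉ wS w)
    (hK' : ∀ σ ∈ K, σ.1 ≤ t → σ ∈ kB Φ ε R (X S.root) ∨
      ∃ τ ∈ lab F, τ ∉ D ∧ τ ≠ S.root ∧ X τ = σ) (ht : t ≤ T)
    (hg : InjOn (XN Φ ε X S R)
        ((lab (addN R S (F ∪ partsF R)) : Set Src) \ (D \ R.leaves)) →
      ¬M.Good Φ ε L (wS w) PB.sgl K t) (J : ℕ) :
    LawC hΦ hε L T J c₀ (szB F G + 2 ^ (L + 3) + 3 + 2 * Nb0 L J)
      (Fin.snoc T₀ R : Fin (m + 1) → CTree) l w {σ | σ ∈ K ∧ σ.1 ≤ t} := by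
  have hSR : S.root ∉ R.leaves := h.disj _ (root_mem_lab h.last.mem)
  have hSF : S.root ∈ lab F := root_mem_lab h.last.mem
  have hne : ∀ σ ∈ R.leaves, σ ∉ D \ R.leaves := fun σ hσ h1 => h1.2 hσ
  have hXR : ∀ x ∈ outs R, XN Φ ε X S R x.root ∈ kB Φ ε R (X S.root) := by
    intro x hx
    rcases hx with rfl | hx
    · rw [h.XN_root]
      exact mem_kB.2 (Or.inl rfl)
    · rw [h.XN_exs hx]
      refine mem_kB.2 (Or.inr (Or.inr ?_))
      rw [← Finset.mem_coe, coe_exl]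
      exact ⟨x, hx, rfl⟩
  have h1 := (h.nd hΦ hε he).law_not_good_late hΦ hε hT (h.slab_nd hΦ hε hl) (w := w) (L := L)
    (K := K) (t := t) (fun σ hσ => ?_) (fun σ hσ hσD => ?_) hK (fun σ hσ hσt => ?_) ht hg J
  · have h2 := h.szB_nd hRd
    exact h1.imp id (Or.imp (PrgC.mono le_rfl (by omega))
      (Or.imp (PrgO.mono le_rfl (by omega)) (IrrO.mono le_rfl (by omega))))
  · rcases h.mem_lab_nd.1 hσ with h2 | h2
    · exact hzw σ h2
    · exact hRw σ h2
  · rcases h.mem_lab_nd.1 hσ with h2 | h2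
    · by_cases h3 : σ = S.root
      · rw [h3, XN_line]
        exact hkB _ (mem_kB.2 (Or.inr (Or.inl rfl)))
      · rw [h.XN_old h2 h3]
        exact hxw σ h2 fun h4 => hσD ⟨h4, h.disj σ h2⟩
    · obtain ⟨x, hx, rfl⟩ := TL.exists_out h2
      exact hkB _ (hXR x hx)
  · rcases hK' σ hσ hσt with h2 | ⟨τ, h2, h3, h4, h5⟩
    · rcases mem_kB.1 h2 with rfl | rfl | h2
      · exact ⟨R.root, h.mem_lab_nd.2 (Or.inr R.root_mem_leaves), hne _ R.root_mem_leaves,
          h.XN_root⟩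
      · exact ⟨S.root, h.mem_lab_nd.2 (Or.inl hSF), h.notD₁, XN_line⟩
      · rw [← Finset.mem_coe, coe_exl] at h2
        obtain ⟨x, hx, rfl⟩ := h2
        have hxR : x.root ∈ R.leaves := outs_leaves (Or.inr hx) x.root_mem_leaves
        exact ⟨x.root, h.mem_lab_nd.2 (Or.inr hxR), hne _ hxR, h.XN_exs hx⟩
    · exact ⟨τ, h.mem_lab_nd.2 (Or.inl h2), fun h6 => h3 h6.1, by rw [h.XN_old h2 h4, h5]⟩

end laws

end HB

end Vale.Agent.P119.IND
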