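import Vale.Agent.P119.IND.HitLawC

/-!
# P119, block IND: the exceptional event `¬NoExc` over a base structure (`helper810`)

* `HB.law_coin`: two coinciding lines of the base;
* `HB.law_tri`: a third body (`TriW`);
* **`HB.law_noExc`**: the line `X S.root` of a connected base structure hits the tree `R`, over the world
  which consists of ordinary particles and of the lines `A` of the base: a failure of `NoExc` gives the
  alternatives of the laws for the structure with the tree `R`.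
-/

open Set
open scoped ENNReal

set_option linter.unusedSectionVars false

noncomputable section

namespace Vale.Agent.P119.IND

open KU M M.CTree TL GC AU PB RB _root_.Vale.Agent.P119.FB

variable {Φ : E3 → ℝ} {ε T t : ℝ} {L : ℕ}

/-- The lines of the base begin before the horizon. -/
theorem KBase.birth_le {F₀ : Finset CTree} {G₀ : List Gh} {D₀ : Set Src} {X : Src → Src}
    (h : KBase Φ ε T F₀ G₀ D₀ X) {σ : Src} (h1 : σ ∈ lab F₀) (h2 : σ ∉ D₀) : (X σ).1 ≤ T := by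
  obtain ⟨P, hP, -, -, h3 | ⟨g, hg, -, h3, -⟩⟩ := h.lst σ h1 h2
  · rw [h3]
    exact h.fam.ext_le P hP.mem
  · rw [← h3]
    exact (h.fam.gh g hg).2.2.2.2.2.1

open Classical in
/-- Some packets become part of the world. -/
theorem good_faces (hΦ : IsPotential Φ) (hε : 0 < ε) {V W A K : Finset Src}
    (hV : ∀ a, a ∈ V ↔ a ∈ W ∨ a ∈ A) (hd : ∀ a ∈ A, a ∉ K)
    (h : M.Good Φ ε L W PB.sgl (A ∪ K) t) : M.Good Φ ε L V PB.sgl K t := by
  have h1 := h.faces hΦ hε (I := A) Finset.subset_union_left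
  have e1 : M.wF W PB.sgl A = V := by
    ext a
    rw [mem_wF_sgl, hV]
  rw [e1] at h1
  refine h1.subset fun a ha => Finset.mem_sdiff.2 ⟨Finset.mem_union_right _ ha, fun h2 => ?_⟩
  exact hd a h2 ha

namespace HB

variable {F : Finset CTree} {G : List Gh} {D : Set Src} {X : Src → Src} {S R : CTree}
  {m q c₀ : ℕ} {T₀ : Fin m → CTree} {l : Fin q → Src} {R₀ : Finset Src} {w : Finset Ph}
  {A V : Finset Src}

/-- **Two coinciding lines of the base.** -/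
theorem law_coin (hΦ : IsPotential Φ) (hε : 0 < ε) (hT : 0 ≤ T) (h : HB Φ ε T F G D X S R)
    (hl : SLab T₀ l F G (c₀ + 1) R₀) (hRd : R.depth ≤ L)
    (hi : ¬InjOn X ((lab F : Set Src) \ D)) :
    PrgC Φ ε T (c₀ + 1) (szB F G + 2 ^ (L + 3) + 2) (Fin.snoc T₀ R : Fin (m + 1) → CTree) l w ∨
      PrgO Φ ε T c₀ (szB F G + 2 ^ (L + 3) + 2) (Fin.snoc T₀ R : Fin (m + 1) → CTree) l w := by
  classical
  have e := h.line
  have hRl : R.root ∉ lab F := fun h' => h.disj _ h' R.root_mem_leaves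
  have hsig : ext Φ ε S < sig Φ ε (node R (leaf (X S.root))) := e.2.trans_lt h.birth
  have hc : Ctc ε (KU.free (sig Φ ε (node R (leaf (X S.root)))) (ln Φ ε R))
      (KU.free (sig Φ ε (node R (leaf (X S.root)))) (ln Φ ε S)) := by
    rw [← e.1]
    exact ctc_hitT hε h.meets
  obtain ⟨G', p1, p2⟩ := (h.base₁ hΦ hε).fam.insert_ghost (h.lastR (Or.inl rfl)) h.lastS
    h.root_ne.symm h.extR.le hsig.le h.le hc
    (fun g hg => ⟨fun h1 => hRl (h1 ▸ root_mem_lab (h.base.fam.gh g hg).1),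
      fun h1 => h.notD (h1 ▸ h.base.drop g hg)⟩)
    (fun g hg h1 => absurd (root_mem_lab (h.base.fam.gh g hg).2.1) (by rw [h1]; exact hRl))
  have hl' : SLab (Fin.snoc T₀ R : Fin (m + 1) → CTree) l (F ∪ partsF R) G' (c₀ + 1) R₀ := by
    refine hl.hit (S := S) (fun σ => mem_lab_gh) (fun σ τ hJ => ?_) (root_mem_lab h.last.mem)
      fun σ hσ => ?_
    · exact hJ.mono (fun P hP => Finset.mem_union_left _ hP) fun g hg =>
        p1.symm.subset (List.mem_cons_of_mem _ hg)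
    · refine (h.fj_R hΦ hε (fun P hP => Finset.mem_union_right _ hP) hσ).trans ?_
      exact FJ.ghost (g := (R, S, sig Φ ε (node R (leaf (X S.root)))))
        (p1.symm.subset List.mem_cons_self)
  unfold InjOn at hi
  push Not at hi
  obtain ⟨σ, ⟨hσ, hσD⟩, τ, ⟨hτ, hτD⟩, he, hne⟩ := hi
  obtain ⟨P, hP, hPr, hPl, -⟩ := h.base.lst σ hσ hσD
  obtain ⟨P', hP', hPr', hPl', -⟩ := h.base.lst τ hτ hτD
  have hg : ∀ {B : CTree} {ρ : Src}, B.root = ρ → ρ ∈ lab F → ρ ∉ D → ∀ g ∈ G',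
      B.root ≠ g.1.root := by
    intro B ρ h1 h2 h3 g hg h4
    rcases List.mem_cons.1 (p1.subset hg) with h5 | h5
    · rw [h5] at h4
      exact hRl (by rw [show R.root = B.root from h4.symm, h1]; exact h2)
    · exact h3 (by rw [← h1, h4]; exact h.base.drop g h5)
  have h1 := SLab.law_of_eq (w := w) hΦ hε hT p2 hl' (hP.union_left h.disj')
    (hP'.union_left h.disj') (by rw [hPr, hPr']; exact hne) (by rw [← hPl, ← hPl', he])
    fun g hg' => ⟨hg hPr hσ hσD g hg', hg hPr' hτ hτD g hg'⟩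
  have h2 := szB_gh (F := F) hRd p1
  exact h1.imp (PrgC.mono le_rfl (by omega)) (PrgO.mono le_rfl (by omega))

/-- **A third body** at the collision of the line with the tree. -/
theorem law_tri (hΦ : IsPotential Φ) (hε : 0 < ε) (h : HB Φ ε T F G D X S R)
    (hl : SLab T₀ l F G 1 R₀) (hBase : Base Φ ε (Fin.snoc T₀ R : Fin (m + 1) → CTree) l)
    (hi : InjOn X ((lab F : Set Src) \ D)) (hRd : R.depth ≤ L)
    (hzw : ∀ σ ∈ lab F, σ ∉ wS w) (hRw : ∀ σ ∈ R.leaves, σ ∉ wS w)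
    (hxw : ∀ σ ∈ lab F, σ ∉ D → X σ ∉ wS w)
    (hA : ∀ σ ∈ A, ∃ τ ∈ lab F, τ ∉ D ∧ τ ≠ S.root ∧ X τ = σ)
    (hV : ∀ a, a ∈ V ↔ a ∈ wS w ∨ a ∈ A) (hraw : ∀ σ ∈ lab F, σ ∉ D → X σ ∉ R.leaves)
    (hal : alive Φ ε L (addT V R : Set Src) R (sig Φ ε (node R (leaf (X S.root)))))
    (ht : t ≤ T) (htri : TriW Φ ε L (addT V R) R (X S.root) t) :
    IrrO Φ ε T 1 (szB F G + 4 * 2 ^ (L + 2) + 2) (Fin.snoc T₀ R : Fin (m + 1) → CTree) l w := by
  classical
  have hSF := root_mem_lab h.last.mem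
  obtain ⟨κ, i1, i2, z, x, D', Q, Rk, h1, h2, h3, h4, h5, h6, h7, h8, -⟩ :=
    (h.base.sbase hi).exists_base hΦ hε hl
  set U : Finset Src := R.leaves_finite.toFinset with hU
  have hmU : ∀ σ, σ ∈ U ↔ σ ∈ R.leaves := fun σ => by rw [hU, Finite.mem_toFinset]
  have hB := h1.addRaw U (fun σ hσ => leaf_nonneg h.okR ((hmU σ).1 hσ))
    (fun i hi' => h.disj _ (h5 i) ((hmU _).1 hi')) (fun i hiD hi' => by
      rw [h7] at hi'
      exact hraw _ (h5 i) (fun h' => hiD ((h6 i).2 h')) ((hmU _).1 hi'))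
  obtain ⟨k₀, hk₀⟩ := h8 S.root hSF
  have hk₀D : k₀ ∉ D' := fun h' => h.notD (hk₀ ▸ (h6 k₀).1 h')
  have hjn : ∀ a : κ, Jn Q a k₀ := by
    intro a
    obtain ⟨r, hr, hJ⟩ := h2.cov a
    obtain ⟨r', hr', hJ'⟩ := h2.cov k₀
    have : r = r' := Finset.card_le_one.1 h2.card r hr r' hr'
    subst this
    exact hJ.trans hJ'.symm
  have hWm : X S.root ∉ addT V R := by
    rw [mem_addT, hV]
    rintro ((h' | h') | h')
    · exact hxw _ hSF h.notD h'
    · obtain ⟨τ, g1, g2, g3, g4⟩ := hA _ h'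
      exact g3 (hi ⟨g1, g2⟩ ⟨hSF, h.notD⟩ g4)
    · exact hraw _ hSF h.notD h'
  have hcU : U.card ≤ 2 ^ (L + 2) := card_leaves_le hRd
  have hcard : Fintype.card (κ ⊕ {σ // σ ∈ U}) = Fintype.card κ + U.card := by
    rw [Fintype.card_sum, Fintype.card_coe]
  have hlen : (mapP (Sum.inl : κ → κ ⊕ {σ // σ ∈ U}) Q).length = Q.length := by
    unfold mapP
    rw [List.length_map]
  have hI := hB.triW (T₀ := (Fin.snoc T₀ R : Fin (m + 1) → CTree)) (l₀ := l) (w := w)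
    (N := szB F G + 4 * 2 ^ (L + 2) + 2) (W := addT V R) (R := R) (l := X S.root)
    (i₀ := Sum.inl k₀) hΦ hε
    ⟨fun i => ?_, fun j => ?_, fun j => ?_⟩ (fun i => ?_) (fun i hiD => ?_) (fun σ hσ => ?_)
    hWm (inl_notMem hk₀D) (by change x k₀ = _; rw [h7, hk₀]) (h.okl hΦ hε (hraw _ hSF h.notD))
    hal ht (fun i => ?_) htri (by omega) (by omega)
  · refine hI.irrO hΦ hε (Nat.succ_pos _) hBase (fun j σ hσ => leaf_nonneg (hBase.ok j) hσ)
      fun j => ?_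
    exact (h.base.sbase hi).nonneg _ (hl.lines j)
  · rcases i with i | σ
    · rcases h3.mem i with ⟨j, hj⟩ | h9
      · refine Or.inl ⟨j.castSucc, ?_⟩
        rw [Fin.snoc_castSucc]
        exact hj
      · exact Or.inr h9
    · refine Or.inl ⟨Fin.last m, ?_⟩
      rw [Fin.snoc_last]
      exact (hmU _).1 σ.2
  · intro σ hσ
    induction j using Fin.lastCases with
    | last =>
      rw [Fin.snoc_last] at hσ
      exact ⟨Sum.inr ⟨σ, (hmU σ).2 hσ⟩, rfl⟩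
    | cast j =>
      rw [Fin.snoc_castSucc] at hσ
      obtain ⟨i, hi'⟩ := h3.trees j hσ
      exact ⟨Sum.inl i, hi'⟩
  · obtain ⟨i, hi'⟩ := h3.lines j
    exact ⟨Sum.inl i, hi'⟩
  · rcases i with i | σ
    · exact hzw _ (h5 i)
    · exact hRw _ ((hmU _).1 σ.2)
  · rcases i with i | σ
    · change x i ∉ wS w
      rw [h7]
      exact hxw _ (h5 i) fun h' => hiD ⟨i, (h6 i).2 h', rfl⟩
    · exact hRw _ ((hmU _).1 σ.2)
  · rcases mem_addT.1 hσ with h9 | h9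
    · rcases (hV σ).1 h9 with h9 | h9
      · exact Or.inl h9
      · obtain ⟨τ, g1, g2, -, g4⟩ := hA σ h9
        obtain ⟨k, hk⟩ := h8 τ g1
        refine Or.inr ⟨Sum.inl k, inl_notMem fun h' => g2 (hk ▸ (h6 k).1 h'), ?_⟩
        change x k = σ
        rw [h7, hk, g4]
    · exact Or.inr ⟨Sum.inr ⟨σ, (hmU σ).2 h9⟩, inr_notMem, rfl⟩
  · rcases i with a | σ
    · refine ⟨Sum.inl k₀, (hjn a).map Sum.inl, inl_notMem hk₀D, Or.inr ?_⟩
      change x k₀ = _
      rw [h7, hk₀]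
    · exact ⟨Sum.inr σ, Jn.refl _ _, inr_notMem, Or.inl ((hmU _).1 σ.2)⟩

open Classical in
/-- **A failure of `NoExc`** over a connected base structure. -/
theorem law_noExc (hΦ : IsPotential Φ) (hε : 0 < ε) (hT : 0 ≤ T) (h : HB Φ ε T F G D X S R)
    (hl : SLab T₀ l F G 1 R₀) (hBase : Base Φ ε (Fin.snoc T₀ R : Fin (m + 1) → CTree) l)
    (hRd : R.depth ≤ L) (hmd : (X S.root).2.2 ≤ L)
    (hzw : ∀ σ ∈ lab F, σ ∉ wS w) (hRw : ∀ σ ∈ R.leaves, σ ∉ wS w)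
    (hxw : ∀ σ ∈ lab F, σ ∉ D → X σ ∉ wS w) (hkA : ∀ σ ∈ kA Φ ε R (X S.root), σ ∉ wS w)
    (hkB : ∀ σ ∈ kB Φ ε R (X S.root), σ ∉ wS w)
    (hA : ∀ σ ∈ A, (0 ≤ σ.1 ∧ σ.2.2 ≤ L) ∧ ∃ τ ∈ lab F, τ ∉ D ∧ τ ≠ S.root ∧ X τ = σ)
    (hV : ∀ a, a ∈ V ↔ a ∈ wS w ∨ a ∈ A) (hraw : ∀ σ ∈ lab F, σ ∉ D → X σ ∉ R.leaves)
    (hal : alive Φ ε L (addT V R : Set Src) R (sig Φ ε (node R (leaf (X S.root)))))
    (ht : t ≤ T) (hno : ¬NoExc Φ ε L t (X S.root) V R) (J : ℕ) :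
    LawC hΦ hε L T J 0 (szB F G + 4 * 2 ^ (L + 2) + 3 + 2 * Nb0 L J)
      (Fin.snoc T₀ R : Fin (m + 1) → CTree) l w
      {σ | (σ ∈ A ∨ σ ∈ kA Φ ε R (X S.root) ∨ σ ∈ kB Φ ε R (X S.root)) ∧ σ.1 ≤ t} := by
  have hN1 : szB F G + 2 ^ (L + 3) + 3 + 2 * Nb0 L J ≤
      szB F G + 4 * 2 ^ (L + 2) + 3 + 2 * Nb0 L J := by
    have e : 2 ^ (L + 3) = 2 * 2 ^ (L + 2) := by ring
    omega
  have hN2 : szB F G + 2 ^ (L + 3) + 2 ≤ szB F G + 4 * 2 ^ (L + 2) + 3 + 2 * Nb0 L J := by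
    have e : 2 ^ (L + 3) = 2 * 2 ^ (L + 2) := by ring
    omega
  have hcl : ∀ {B B' : Set Src}, B ⊆ B' → LawC hΦ hε L T J 0
      (szB F G + 2 ^ (L + 3) + 3 + 2 * Nb0 L J) (Fin.snoc T₀ R : Fin (m + 1) → CTree) l w B →
      LawC hΦ hε L T J 0 (szB F G + 4 * 2 ^ (L + 2) + 3 + 2 * Nb0 L J)
        (Fin.snoc T₀ R : Fin (m + 1) → CTree) l w B' := fun hB h' =>
    h'.imp (fun ⟨σ, hσ, h''⟩ => ⟨σ, hB hσ, h''⟩) (Or.imp (PrgC.mono le_rfl hN1)
      (Or.imp (PrgO.mono le_rfl hN1) (IrrO.mono le_rfl hN1)))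
  -- the lines of the base coincide
  by_cases hi : InjOn X ((lab F : Set Src) \ D)
  swap
  · rcases h.law_coin hΦ hε hT (w := w) hl hRd hi with h1 | h1
    · exact Or.inr (Or.inl (h1.mono le_rfl hN2))
    · exact Or.inr (Or.inr (Or.inl (h1.mono le_rfl hN2)))
  have hm0 : 0 ≤ (X S.root).1 := h.nonneg hΦ hε
  have hsg0 : 0 ≤ sig Φ ε (node R (leaf (X S.root))) := hm0.trans h.birth.le
  have hout : ∀ x ∈ outs R, 0 ≤ (rsrc Φ ε x).1 ∧ (rsrc Φ ε x).2.2 ≤ L := fun x hx =>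
    ⟨M.ext_nonneg hΦ hε (outs_ok hΦ h.okR hx), (outs_depth hx).trans hRd⟩
  have hexl : ∀ σ, σ ∈ exl Φ ε R → ∃ x ∈ exs R, rsrc Φ ε x = σ := fun σ hσ => by
    rw [← Finset.mem_coe, coe_exl] at hσ
    exact hσ
  have hAw : ∀ σ ∈ A, (0 ≤ σ.1 ∧ σ.2.2 ≤ L) ∧ σ ∉ wS w := by
    intro σ hσ
    obtain ⟨g0, τ, g1, g2, -, g4⟩ := hA σ hσ
    exact ⟨g0, g4 ▸ hxw τ g1 g2⟩
  have hKA : ∀ σ ∈ kA Φ ε R (X S.root), (0 ≤ σ.1 ∧ σ.2.2 ≤ L) ∧ σ ∉ wS w := by
    intro σ hσ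
    refine ⟨?_, hkA σ hσ⟩
    rcases mem_kA.1 hσ with rfl | h1
    · exact ⟨hsg0, hRd⟩
    · obtain ⟨x, hx, rfl⟩ := hexl σ h1
      exact hout x (Or.inr hx)
  have hSR : S.root ∉ R.leaves := h.disj _ (root_mem_lab h.last.mem)
  have hxR : ∀ {x : CTree}, x ∈ outs R → x.root ∈ R.leaves := fun hx =>
    outs_leaves hx (CTree.root_mem_leaves _)
  have hDG : ∀ σ ∈ R.leaves, σ ∈ (lab (F ∪ partsF R) : Set Src) \ insert S.root (D \ R.leaves) := by
    intro σ hσ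
    refine ⟨Finset.mem_coe.2 (mem_lab_gh.2 (Or.inr hσ)), ?_⟩
    rintro (rfl | h1)
    · exact hSR hσ
    · exact h1.2 hσ
  have hDA : ∀ τ ∈ lab F, τ ∉ D → τ ≠ S.root →
      τ ∈ (lab (F ∪ partsF R) : Set Src) \ insert S.root (D \ R.leaves) := by
    intro τ h1 h2 h3
    refine ⟨Finset.mem_coe.2 (mem_lab_gh.2 (Or.inl h1)), ?_⟩
    rintro (h4 | h4)
    · exact h3 h4
    · exact h2 h4.1
  -- coincidences of the lines of `R`
  have hex : InjOn (XG Φ ε X S R)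
      ((lab (F ∪ partsF R) : Set Src) \ insert S.root (D \ R.leaves)) →
      InjOn (rsrc Φ ε) (exs R) := by
    intro hiG x hx y hy hxy
    have h1 := hiG (hDG _ (hxR (Or.inr hx))) (hDG _ (hxR (Or.inr hy)))
      (by rw [h.XG_exs hx, h.XG_exs hy, hxy])
    exact outs_root_inj h.okR (Or.inr hx) (Or.inr hy) h1
  by_cases hie : InjOn (rsrc Φ ε) (exs R)
  swap
  · refine hcl ?_ (h.law_gh hΦ hε hT hl hRd hzw hRw hxw hkA hKA (fun σ hσ _ => Or.inl hσ) ht
      (fun hiG => absurd (hex hiG) hie) J)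
    rintro σ ⟨h1, h2⟩
    exact ⟨Or.inr (Or.inl h1), h2⟩
  have hmR : X S.root ∉ R.leaves := hraw _ (root_mem_lab h.last.mem) h.notD
  have hokl := h.okl hΦ hε hmR
  have hi1 : InjOn (rsrc Φ ε) (outs R) := injOn_outs_of_exs hΦ hε h.okR hie
  have hi2 : InjOn (rsrc Φ ε) (outs (node R (leaf (X S.root)))) := by
    refine injOn_outs_node' hΦ hε hokl ?_
    rintro x (hx | hx) y (hy | hy) hxy
    · exact hie hx hy hxy
    · exact absurd hy (notMem_empty _)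
    · exact absurd hx (notMem_empty _)
    · exact absurd hx (notMem_empty _)
  -- the lines `A` are different from the lines of `R`
  have hdA : InjOn (XG Φ ε X S R)
      ((lab (F ∪ partsF R) : Set Src) \ insert S.root (D \ R.leaves)) →
      ∀ σ ∈ A, σ ∉ kA Φ ε R (X S.root) := by
    intro hiG σ hσ hσK
    obtain ⟨-, τ, g1, g2, g3, g4⟩ := hA σ hσ
    have hτR : τ ∉ R.leaves := h.disj τ g1
    have e1 : XG Φ ε X S R τ = σ := by rw [h.XG_old g1, g4]
    rcases mem_kA.1 hσK with h1 | h1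
    · exact hτR ((hiG (hDA τ g1 g2 g3) (hDG _ R.root_mem_leaves)
        (by rw [e1, XG_root, h1])) ▸ R.root_mem_leaves)
    · obtain ⟨x, hx, h2⟩ := hexl σ h1
      exact hτR ((hiG (hDA τ g1 g2 g3) (hDG _ (hxR (Or.inr hx)))
        (by rw [e1, h.XG_exs hx, h2])) ▸ hxR (Or.inr hx))
  -- world (A)
  by_cases hga : M.Good Φ ε L V PB.sgl (kA Φ ε R (X S.root)) t
  swap
  · refine hcl ?_ (h.law_gh (K := A ∪ kA Φ ε R (X S.root)) hΦ hε hT hl hRd hzw hRw hxw hkA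
      (fun σ hσ => ?_) (fun σ hσ _ => ?_) ht
      (fun hiG hgood => hga (good_faces hΦ hε hV (hdA hiG) hgood)) J)
    · rintro σ ⟨h1, h2⟩
      rcases Finset.mem_union.1 h1 with h1 | h1
      · exact ⟨Or.inl h1, h2⟩
      · exact ⟨Or.inr (Or.inl h1), h2⟩
    · rcases Finset.mem_union.1 hσ with h1 | h1
      · exact hAw σ h1
      · exact hKA σ h1
    · rcases Finset.mem_union.1 hσ with h1 | h1
      · exact Or.inr (hA σ h1).2
      · exact Or.inl h1
  -- world (B)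
  by_cases hgb : max (X S.root).2.2 R.depth + 1 ≤ L →
      M.Good Φ ε L V PB.sgl (kB Φ ε R (X S.root)) t
  swap
  · rw [Classical.not_imp] at hgb
    obtain ⟨hdL, hgb⟩ := hgb
    have hse := sig_le_ext hΦ hε hokl
    have hKB : ∀ σ ∈ kB Φ ε R (X S.root), (0 ≤ σ.1 ∧ σ.2.2 ≤ L) ∧ σ ∉ wS w := by
      intro σ hσ
      refine ⟨?_, hkB σ hσ⟩
      rcases mem_kB.1 hσ with rfl | rfl | h1
      · refine ⟨hsg0.trans hse, ?_⟩
        change max R.depth (X S.root).2.2 + 1 ≤ L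
        rw [max_comm]
        exact hdL
      · refine ⟨?_, hdL⟩
        change 0 ≤ ext Φ ε (node (leaf (X S.root)) R)
        rw [ext_swap hΦ]
        exact hsg0.trans hse
      · obtain ⟨x, hx, rfl⟩ := hexl σ h1
        exact hout x (Or.inr hx)
    have hKU : ∀ σ ∈ A ∪ kB Φ ε R (X S.root), (0 ≤ σ.1 ∧ σ.2.2 ≤ L) ∧ σ ∉ wS w := by
      intro σ hσ
      rcases Finset.mem_union.1 hσ with h1 | h1
      · exact hAw σ h1
      · exact hKB σ h1
    have hsub : {σ | σ ∈ A ∪ kB Φ ε R (X S.root) ∧ σ.1 ≤ t} ⊆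
        {σ | (σ ∈ A ∨ σ ∈ kA Φ ε R (X S.root) ∨ σ ∈ kB Φ ε R (X S.root)) ∧ σ.1 ≤ t} := by
      rintro σ ⟨h1, h2⟩
      rcases Finset.mem_union.1 h1 with h1 | h1
      · exact ⟨Or.inl h1, h2⟩
      · exact ⟨Or.inr (Or.inr h1), h2⟩
    rcases le_or_gt (ext Φ ε (node R (leaf (X S.root)))) T with hle | hgt
    · -- the pair has separated
      refine hcl hsub (h.law_nd (K := A ∪ kB Φ ε R (X S.root)) hΦ hε hT hle hl hRd hzw hRw hxw
        hkB hKU (fun σ hσ _ => ?_) ht (fun hiN hgood => hgb (good_faces hΦ hε hV ?_ hgood)) J)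
      · rcases Finset.mem_union.1 hσ with h1 | h1
        · exact Or.inr (hA σ h1).2
        · exact Or.inl h1
      · intro σ hσ hσK
        obtain ⟨-, τ, g1, g2, g3, g4⟩ := hA σ hσ
        have hτR : τ ∉ R.leaves := h.disj τ g1
        have e1 : XN Φ ε X S R τ = σ := by rw [h.XN_old g1 g3, g4]
        have hτm : τ ∈ (lab (addN R S (F ∪ partsF R)) : Set Src) \ (D \ R.leaves) :=
          ⟨Finset.mem_coe.2 (h.mem_lab_nd.2 (Or.inl g1)), fun h1 => g2 h1.1⟩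
        have hRm : ∀ ρ ∈ R.leaves, ρ ∈ (lab (addN R S (F ∪ partsF R)) : Set Src) \ (D \ R.leaves) :=
          fun ρ hρ => ⟨Finset.mem_coe.2 (h.mem_lab_nd.2 (Or.inr hρ)), fun h1 => h1.2 hρ⟩
        rcases mem_kB.1 hσK with h1 | h1 | h1
        · exact hτR ((hiN hτm (hRm _ R.root_mem_leaves)
            (by rw [e1, h.XN_root, h1])) ▸ R.root_mem_leaves)
        · refine g3 (hiN hτm ⟨Finset.mem_coe.2 (h.mem_lab_nd.2
            (Or.inl (root_mem_lab h.last.mem))), h.notD₁⟩ (by rw [e1, XN_line, h1]))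
        · obtain ⟨x, hx, h2⟩ := hexl σ h1
          exact hτR ((hiN hτm (hRm _ (hxR (Or.inr hx)))
            (by rw [e1, h.XN_exs hx, h2])) ▸ hxR (Or.inr hx))
    · -- the pair is colliding at the horizon
      refine hcl hsub (h.law_gh (K := A ∪ kB Φ ε R (X S.root)) hΦ hε hT hl hRd hzw hRw hxw hkA
        hKU (fun σ hσ hσt => ?_) ht (fun hiG hgood => hgb (good_faces hΦ hε hV ?_ hgood)) J)
      · rcases Finset.mem_union.1 hσ with h1 | h1
        · exact Or.inr (hA σ h1).2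
        · rcases mem_kB.1 h1 with rfl | rfl | h1
          · exact absurd (hσt.trans ht) (not_le.2 hgt)
          · refine absurd (hσt.trans ht) (not_le.2 ?_)
            change T < ext Φ ε (node (leaf (X S.root)) R)
            rw [ext_swap hΦ]
            exact hgt
          · exact Or.inl (mem_kA.2 (Or.inr h1))
      · intro σ hσ hσK
        obtain ⟨-, τ, g1, g2, g3, g4⟩ := hA σ hσ
        have hle' : σ.1 ≤ T := by
          rw [← g4]
          exact h.base.birth_le g1 g2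
        rcases mem_kB.1 hσK with h1 | h1 | h1
        · rw [h1] at hle'
          exact absurd hle' (not_le.2 hgt)
        · rw [h1] at hle'
          refine absurd hle' (not_le.2 ?_)
          change T < ext Φ ε (node (leaf (X S.root)) R)
          rw [ext_swap hΦ]
          exact hgt
        · exact hdA hiG σ hσ (mem_kA.2 (Or.inr h1))
  -- the third body
  by_cases htr : TriW Φ ε L (addT V R) R (X S.root) t
  · refine Or.inr (Or.inr (Or.inr ((h.law_tri hΦ hε hl hBase hi hRd hzw hRw hxw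
      (fun σ hσ => (hA σ hσ).2) hV hraw hal ht htr).mono le_rfl (by omega))))
  · exact absurd ⟨h.exits, hi1, hi2, hga, hgb, htr⟩ hno

end HB

end Vale.Agent.P119.IND
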