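import Vale.Agent.P119.IND.Merge

/-!
# P119, block IND: grafting a trail on a base program (`helper810`)

* `graft`: the merging theorem, with hypotheses on the births only;
* `closed_graft`, `jn_left`, `jn_right`, `closed_of_middle`: the graph of the merged program.
-/

open Set
open scoped ENNReal

set_option linter.unusedSectionVars false

noncomputable section

namespace Vale.Agent.P119.IND

open KU

variable {ι : Type} [DecidableEq ι] {Φ : E3 → ℝ} {ε T : ℝ}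

/-! ### Births and times -/

theorem AtS.birth_le {e : Ev ι} {β : ι → ℝ} {Z : ι → Ph} {s : ℝ} (h : AtS Φ ε T e β Z s) :
    β e.fst ≤ s ∧ β e.snd ≤ s := by
  obtain ⟨d, h⟩ := h
  cases e with
  | gh i k =>
    simp only [At] at h
    exact ⟨h.2.1, h.2.2.1⟩
  | sc i k =>
    simp only [At] at h
    exact ⟨h.2.2.2.2.1.le, h.2.2.2.2.2.1.le⟩

theorem AtS.ne {e : Ev ι} {β : ι → ℝ} {Z : ι → Ph} {s : ℝ} (h : AtS Φ ε T e β Z s) :
    e.fst ≠ e.snd := by
  obtain ⟨d, h⟩ := h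
  cases e with
  | gh i k => simp only [At] at h; exact h.1
  | sc i k => simp only [At] at h; exact h.1

theorem AtS.lt_birthApp (hΦ : IsPotential Φ) (hε : 0 < ε) {i k : ι} {β : ι → ℝ} {Z : ι → Ph}
    {s : ℝ} (h : AtS Φ ε T (Ev.sc i k) β Z s) :
    s < birthApp Φ ε (Ev.sc i k) β Z i ∧ s < birthApp Φ ε (Ev.sc i k) β Z k := by
  obtain ⟨d, h⟩ := h
  simp only [At] at h
  have h1 : s < sepT Φ ε (Z i, Z k) :=
    h.2.2.2.1.symm.le.trans_lt (hitT_lt_sepT hΦ hε h.2.2.1 h.2.1.2)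
  simp only [birthApp]
  constructor
  · rw [Function.update_of_ne h.1, Function.update_self]; exact h1
  · rw [Function.update_self]; exact h1

theorem AtS.le_birthApp (hΦ : IsPotential Φ) (hε : 0 < ε) {e : Ev ι} {β : ι → ℝ} {Z : ι → Ph}
    {s : ℝ} (h : AtS Φ ε T e β Z s) (j : ι) : β j ≤ birthApp Φ ε e β Z j := by
  by_cases h1 : j = e.fst
  · cases e with
    | gh i k => exact le_rfl
    | sc i k =>
      have h2 := (h.lt_birthApp hΦ hε).1
      have h3 : β i ≤ s := h.birth_le.1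
      have h4 : j = i := h1
      subst h4
      exact h3.trans h2.le
  · by_cases h1' : j = e.snd
    · cases e with
      | gh i k => exact le_rfl
      | sc i k =>
        have h2 := (h.lt_birthApp hΦ hε).2
        have h3 : β k ≤ s := h.birth_le.2
        have h4 : j = k := h1'
        subst h4
        exact h3.trans h2.le
    · rw [birthApp_of_ne h1 h1']

theorem RunT.le_finB (hΦ : IsPotential Φ) (hε : 0 < ε) {Q : List (Ev ι × ℝ)} {r : ℝ} {β : ι → ℝ}
    {Z : ι → Ph} (h : RunT Φ ε T r Q β Z) (j : ι) : β j ≤ finB Φ ε Q β Z j := by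
  induction Q generalizing r β Z with
  | nil => exact le_rfl
  | cons e Q ih => exact (h.2.2.1.le_birthApp hΦ hε j).trans (ih h.2.2.2)

theorem RunT.birth_le (hΦ : IsPotential Φ) (hε : 0 < ε) {Q : List (Ev ι × ℝ)} {r : ℝ}
    {β : ι → ℝ} {Z : ι → Ph} (h : RunT Φ ε T r Q β Z) :
    ∀ e ∈ Q, β e.1.fst ≤ e.2 ∧ β e.1.snd ≤ e.2 := by
  induction Q generalizing r β Z with
  | nil => intro e he; exact absurd he List.not_mem_nil
  | cons e Q ih =>
    intro e' he'
    rcases List.mem_cons.1 he' with rfl | he'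
    · exact h.2.2.1.birth_le
    · obtain ⟨h1, h2⟩ := ih h.2.2.2 e' he'
      exact ⟨(h.2.2.1.le_birthApp hΦ hε _).trans h1, (h.2.2.1.le_birthApp hΦ hε _).trans h2⟩

theorem RunT.lt_finB (hΦ : IsPotential Φ) (hε : 0 < ε) {Q : List (Ev ι × ℝ)} {r : ℝ}
    {β : ι → ℝ} {Z : ι → Ph} (h : RunT Φ ε T r Q β Z) :
    ∀ e ∈ Q, ∀ i k, e.1 = Ev.sc i k → e.2 < finB Φ ε Q β Z i ∧ e.2 < finB Φ ε Q β Z k := by
  induction Q generalizing r β Z with
  | nil => intro e he; exact absurd he List.not_mem_nil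
  | cons e Q ih =>
    intro e' he' i k hik
    rcases List.mem_cons.1 he' with rfl | he'
    · obtain ⟨h1, h2, h3, h4⟩ := h
      rw [hik] at h3
      obtain ⟨h5, h6⟩ := h3.lt_birthApp hΦ hε
      have h7 := h4.le_finB hΦ hε i
      have h8 := h4.le_finB hΦ hε k
      rw [hik] at h7 h8
      unfold finB
      rw [hik]
      exact ⟨h5.trans_le h7, h6.trans_le h8⟩
    · exact ih h.2.2.2 e' he' i k hik

theorem RunT.ne {Q : List (Ev ι × ℝ)} {r : ℝ} {β : ι → ℝ} {Z : ι → Ph}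
    (h : RunT Φ ε T r Q β Z) : ∀ e ∈ Q, e.1.fst ≠ e.1.snd := by
  induction Q generalizing r β Z with
  | nil => intro e he; exact absurd he List.not_mem_nil
  | cons e Q ih =>
    intro e' he'
    rcases List.mem_cons.1 he' with rfl | he'
    · exact h.2.2.1.ne
    · exact ih h.2.2.2 e' he'

theorem finB_of_not_scUse {Q : List (Ev ι × ℝ)} {β : ι → ℝ} {Z : ι → Ph} {j : ι}
    (h : ¬ScUse Q j) : finB Φ ε Q β Z j = β j := by
  induction Q generalizing β Z with
  | nil => rfl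
  | cons e Q ih =>
    have h1 : ¬ScUse Q j := fun ⟨e', he', h'⟩ => h ⟨e', List.mem_cons_of_mem _ he', h'⟩
    refine (ih h1).trans ?_
    rcases hev : e.1 with ⟨i, k⟩ | ⟨i, k⟩
    · have hi : j ≠ i := fun h' => h ⟨e, List.mem_cons_self, i, k, hev, Or.inl h'⟩
      have hk : j ≠ k := fun h' => h ⟨e, List.mem_cons_self, i, k, hev, Or.inr h'⟩
      simp only [birthApp]
      rw [Function.update_of_ne hk, Function.update_of_ne hi]
    · rfl

/-- **Grafting.**  Only the ghost contacts of the base need a hypothesis on the times. -/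
theorem graft' (hΦ : IsPotential Φ) (hε : 0 < ε) {Q₀ Q₁ : List (Ev ι × ℝ)} {r : ℝ}
    {β β' : ι → ℝ} {Z Z' : ι → Ph} (h0 : RunT Φ ε T r Q₀ β Z)
    (h1 : RunT Φ ε T r Q₁ β' Z') (hZ : ∀ j, finZ Φ ε Q₀ Z j = Z' j)
    (hB : ∀ j, finB Φ ε Q₀ β Z j ≤ β' j)
    (hG : ∀ e ∈ Q₀, ∀ i k, e.1 = Ev.gh i k → ∀ e' ∈ Q₁, (e'.1.fst ≠ i ∧ e'.1.snd ≠ i) ∧
      ((e'.1.fst = k ∨ e'.1.snd = k) → e.2 ≤ e'.2))
    (hW0 : Wf Q₀) (hW1 : Wf Q₁) :
    ∃ M : List (Ev ι × ℝ), M.Perm (Q₀ ++ Q₁) ∧ RunT Φ ε T r M β Z ∧ Wf M ∧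
      (∀ j, finZ Φ ε M Z j = finZ Φ ε Q₁ Z' j) ∧
      (∀ j, finB Φ ε M β Z j ≤ finB Φ ε Q₁ β' Z' j) ∧
      (∀ j, (finB Φ ε Q₀ β Z j = β' j ∨ ScUse Q₁ j) →
        finB Φ ε M β Z j = finB Φ ε Q₁ β' Z' j) ∧
      ∀ j, ¬ScUse Q₁ j → finB Φ ε M β Z j = finB Φ ε Q₀ β Z j := by
  have hS : ∀ e ∈ Q₀, ∀ e' ∈ Q₁, Shr e.1 e'.1 → e.2 ≤ e'.2 := by
    intro e he e' he' hsh
    obtain ⟨b1, b2⟩ := h1.birth_le hΦ hε e' he'
    rcases he1 : e.1 with ⟨i, k⟩ | ⟨i, k⟩
    · obtain ⟨f1, f2⟩ := h0.lt_finB hΦ hε e he i k he1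
      have g1 : e.2 < β' i := f1.trans_le (hB i)
      have g2 : e.2 < β' k := f2.trans_le (hB k)
      rw [he1] at hsh
      rcases hsh with h | h | h | h
      · have h' : i = e'.1.fst := h
        rw [h'] at g1; exact (g1.trans_le b1).le
      · have h' : i = e'.1.snd := h
        rw [h'] at g1; exact (g1.trans_le b2).le
      · have h' : k = e'.1.fst := h
        rw [h'] at g2; exact (g2.trans_le b1).le
      · have h' : k = e'.1.snd := h
        rw [h'] at g2; exact (g2.trans_le b2).le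
    · obtain ⟨⟨g1, g2⟩, g3⟩ := hG e he i k he1 e' he'
      rw [he1] at hsh
      rcases hsh with h | h | h | h
      · exact absurd h.symm g1
      · exact absurd h.symm g2
      · exact g3 (Or.inl h.symm)
      · exact g3 (Or.inr h.symm)
  classical
  set β'' : ι → ℝ := fun j => if ScUse Q₁ j then β' j else finB Φ ε Q₀ β Z j with hβ''
  have e1 : ∀ j, ScUse Q₁ j → β'' j = β' j := fun j h => if_pos h
  have e2 : ∀ j, ¬ScUse Q₁ j → β'' j = finB Φ ε Q₀ β Z j := fun j h => if_neg h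
  have h2 : ∀ j, β'' j ≤ β' j := by
    intro j
    by_cases h : ScUse Q₁ j
    · exact (e1 j h).le
    · rw [e2 j h]; exact hB j
  have h3 : ∀ j, finB Φ ε Q₀ β Z j ≤ β'' j := by
    intro j
    by_cases h : ScUse Q₁ j
    · rw [e1 j h]; exact hB j
    · exact (e2 j h).symm.le
  obtain ⟨M, m1, m2, m3, m4, m5, m6⟩ := merge _ Q₀ Q₁ rfl h0 (h1.anti h2) hZ h3 hS
    (fun e he i k hik e' he' => (hG e he i k hik e' he').1) hW0 hW1
  refine ⟨M, m1, m2, m3, m4, fun j => (m5 j).trans (finB_le h2 j), fun j hj => ?_,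
    fun j hj => ?_⟩
  · by_cases h : ScUse Q₁ j
    · rw [m6 j (Or.inr h)]
      exact finB_of_scUse h
    · have h4 := hj.resolve_right h
      rw [m6 j (Or.inl (e2 j h).symm)]
      exact finB_eq ((e2 j h).trans h4)
  · rw [m6 j (Or.inl (e2 j hj).symm), finB_of_not_scUse hj]
    exact e2 j hj

/-- **Grafting.**  Only the ghost contacts of the base need a hypothesis on the times. -/
theorem graft (hΦ : IsPotential Φ) (hε : 0 < ε) {Q₀ Q₁ : List (Ev ι × ℝ)} {r : ℝ}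
    {β β' : ι → ℝ} {Z Z' : ι → Ph} (h0 : RunT Φ ε T r Q₀ β Z)
    (h1 : RunT Φ ε T r Q₁ β' Z') (hZ : ∀ j, finZ Φ ε Q₀ Z j = Z' j)
    (hB : ∀ j, finB Φ ε Q₀ β Z j ≤ β' j)
    (hG : ∀ e ∈ Q₀, ∀ i k, e.1 = Ev.gh i k → ∀ e' ∈ Q₁, (e'.1.fst ≠ i ∧ e'.1.snd ≠ i) ∧
      ((e'.1.fst = k ∨ e'.1.snd = k) → e.2 ≤ e'.2))
    (hW0 : Wf Q₀) (hW1 : Wf Q₁) :
    ∃ M : List (Ev ι × ℝ), M.Perm (Q₀ ++ Q₁) ∧ RunT Φ ε T r M β Z ∧ Wf M ∧
      (∀ j, finZ Φ ε M Z j = finZ Φ ε Q₁ Z' j) ∧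
      (∀ j, finB Φ ε M β Z j ≤ finB Φ ε Q₁ β' Z' j) ∧
      ∀ j, (finB Φ ε Q₀ β Z j = β' j ∨ ScUse Q₁ j) →
        finB Φ ε M β Z j = finB Φ ε Q₁ β' Z' j := by
  obtain ⟨M, m1, m2, m3, m4, m5, m6, -⟩ := graft' hΦ hε h0 h1 hZ hB hG hW0 hW1
  exact ⟨M, m1, m2, m3, m4, m5, m6⟩

/-! ### The plain program of a timed one -/

theorem wf_pl {Q : List (Ev ι × ℝ)} (T : ℝ) (h : Wf Q) : Wf (pl T (Q.map Prod.fst)) :=
  wf_fst (pl_fst T Q).symm h

theorem finZ_plM (T : ℝ) (Q : List (Ev ι × ℝ)) (Z : ι → Ph) :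
    finZ Φ ε (pl T (Q.map Prod.fst)) Z = finZ Φ ε Q Z := finZ_fst (pl_fst T Q) Z

theorem finB_plM (T : ℝ) (Q : List (Ev ι × ℝ)) (β : ι → ℝ) (Z : ι → Ph) :
    finB Φ ε (pl T (Q.map Prod.fst)) β Z = finB Φ ε Q β Z := finB_fst (pl_fst T Q) β Z

theorem jn_fst {P Q : List (Ev ι × ℝ)} (h : P.map Prod.fst = Q.map Prod.fst) {i k : ι} :
    Jn P i k ↔ Jn Q i k := by
  have key : ∀ {P Q : List (Ev ι × ℝ)}, P.map Prod.fst = Q.map Prod.fst → ∀ {i k : ι},
      Jn P i k → Jn Q i k := by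
    intro P Q h i k hJ
    induction hJ with
    | rel i k hr =>
      obtain ⟨e, he, rfl, rfl⟩ := hr
      have h1 : e.1 ∈ Q.map Prod.fst := by rw [← h]; exact List.mem_map_of_mem he
      obtain ⟨e', he', h2⟩ := List.mem_map.1 h1
      rw [← h2]
      exact jn_of_mem he'
    | refl i => exact Jn.refl _ i
    | symm i k _ ih => exact ih.symm
    | trans i k l _ _ ih1 ih2 => exact ih1.trans ih2
  exact ⟨key h, key h.symm⟩

theorem jn_pl (T : ℝ) (Q : List (Ev ι × ℝ)) {i k : ι} :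
    Jn (pl T (Q.map Prod.fst)) i k ↔ Jn Q i k := jn_fst (pl_fst T Q)

/-! ### The graph of the merged program -/

/-- Two labels which are joined by both lists make a cycle. -/
theorem not_forest_append {A B : List (ι × ι)} {p q : ι} (hne : p ≠ q) (hA : Edg.Joined A p q)
    (hB : Edg.Joined B p q) : ¬Edg.Forest (A ++ B) := by
  induction A with
  | nil => exact absurd (Edg.joined_nil.1 hA) hne
  | cons e A ih =>
    rintro ⟨h1, h2⟩
    have hB' : Edg.Joined (A ++ B) p q := hB.append_left A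
    rcases Edg.joined_cons.1 hA with h | ⟨h3, h4⟩ | ⟨h3, h4⟩
    · exact ih h h2
    · exact h1 (((h3.append_right B).symm.trans hB').trans (h4.append_right B).symm)
    · exact h1 (((h4.append_right B).trans hB'.symm).trans (h3.append_right B))

theorem edges_append (P Q : List (Ev ι × ℝ)) : edges (P ++ Q) = edges P ++ edges Q := by
  unfold edges
  exact List.map_append

theorem edges_fst {P Q : List (Ev ι × ℝ)} (h : P.map Prod.fst = Q.map Prod.fst) :
    edges P = edges Q := by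
  have key : ∀ R : List (Ev ι × ℝ), edges R = (R.map Prod.fst).map fun e => (e.fst, e.snd) := by
    intro R
    unfold edges
    rw [List.map_map]
    rfl
  rw [key, key, h]

theorem edges_of_closed {P : List (Ev ι × ℝ)} (h : Closed P) : Edg.Closed (edges P) := by
  obtain ⟨A, e, B, h1, h2⟩ := h
  refine ⟨edges A, (e.1.fst, e.1.snd), edges B, ?_, ?_⟩
  · rw [h1]; unfold edges; simp
  · exact jn_iff_joined.1 h2

theorem closed_iff_edges {P : List (Ev ι × ℝ)} : Closed P ↔ ¬Edg.Forest (edges P) := by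
  rw [← Edg.closed_iff_not_forest]
  exact ⟨edges_of_closed, closed_of_edges⟩

theorem closed_fst {P Q : List (Ev ι × ℝ)} (h : P.map Prod.fst = Q.map Prod.fst) :
    Closed P ↔ Closed Q := by
  rw [closed_iff_edges, closed_iff_edges, edges_fst h]

theorem closed_pl (T : ℝ) (Q : List (Ev ι × ℝ)) :
    Closed (pl T (Q.map Prod.fst)) ↔ Closed Q := closed_fst (pl_fst T Q)

theorem jn_perm {M P : List (Ev ι × ℝ)} (h : M.Perm P) {i k : ι} : Jn M i k ↔ Jn P i k := by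
  rw [jn_iff_joined, jn_iff_joined]
  unfold edges
  exact Edg.joined_perm (h.map _)

theorem closed_perm {M P : List (Ev ι × ℝ)} (h : M.Perm P) : Closed M ↔ Closed P := by
  rw [closed_iff_edges, closed_iff_edges]
  unfold edges
  rw [Edg.forest_perm (h.map _)]

/-- **The merged program is closed.** -/
theorem closed_graft {M P₀ P₁ : List (Ev ι × ℝ)} (h : M.Perm (P₀ ++ P₁))
    (hC : Closed P₁ ∨ ∃ p q, p ≠ q ∧ Jn P₀ p q ∧ Jn P₁ p q) : Closed M := by
  rw [closed_perm h, closed_iff_edges, edges_append]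
  rcases hC with hC | ⟨p, q, h1, h2, h3⟩
  · intro hF
    exact (closed_iff_edges.1 hC) hF.right
  · exact not_forest_append h1 (jn_iff_joined.1 h2) (jn_iff_joined.1 h3)

theorem jn_left {M P₀ P₁ : List (Ev ι × ℝ)} (h : M.Perm (P₀ ++ P₁)) {i k : ι}
    (hJ : Jn P₀ i k) : Jn M i k :=
  (jn_perm h).2 (hJ.mono fun _ he => List.mem_append_left _ he)

theorem jn_right {M P₀ P₁ : List (Ev ι × ℝ)} (h : M.Perm (P₀ ++ P₁)) {i k : ι}
    (hJ : Jn P₁ i k) : Jn M i k :=
  (jn_perm h).2 (hJ.mono fun _ he => List.mem_append_right _ he)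

/-- An event whose labels are joined by the other events. -/
theorem closed_of_middle {A B : List (Ev ι × ℝ)} {e : Ev ι × ℝ}
    (h : Jn (A ++ B) e.1.fst e.1.snd) : Closed (A ++ e :: B) := by
  rw [closed_iff_edges, edges_append]
  have e1 : edges (e :: B) = (e.1.fst, e.1.snd) :: edges B := rfl
  rw [e1, Edg.forest_middle]
  rintro ⟨h1, -⟩
  refine h1 ?_
  rw [← edges_append]
  exact jn_iff_joined.1 h

end Vale.Agent.P119.IND
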