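import Vale.Agent.P119.IND.MassProg
import Vale.Agent.P119.IND.Merge2

/-!
# P119, block IND: irregular last contacts of two labels (`helper350`)

* `Ig ε s₁ s₂` (states (birth, line)): the two lines are in contact at the later one of the two
  births, or they are tangential (`‖perp‖ = ε`);
* `ig_of_born`, `ig_of_graze`: the cases of `LinkIrr`;
* `null_perp`, `null_tan`: the tangential configurations are negligible if the two labels are not
  joined;
* `ig_mass_le`: a program with such a contact of two labels which are not used afterwards has mass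
  `≤ C ε^(2 (card ι - card R)) √ε`.
-/

open MeasureTheory Filter Topology Set
open scoped ENNReal NNReal

set_option linter.unusedSectionVars false

noncomputable section

namespace Vale.Agent.P119.IND

open KU MM

variable {Φ : E3 → ℝ} {ε T b : ℝ}

/-! ### The relation -/

/-- An irregular contact: at the later one of the two births, or tangential. -/
def Ig (ε : ℝ) (s₁ s₂ : ℝ × Ph) : Prop :=
  Ctc ε (KU.free (max s₁.1 s₂.1) s₁.2) (KU.free (max s₁.1 s₂.1) s₂.2) ∨
    ‖perp ((s₁.2.1 - s₂.2.1, s₁.2.2 - s₂.2.2) : Ph)‖ = ε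

theorem perp_eq_of_inner {x v : E3} {s : ℝ} (h : (inner ℝ (x + s • v) v : ℝ) = 0) :
    perp ((x, v) : Ph) = x + s • v := by
  have h1 : perp (KU.free s ((x, v) : Ph)) = perp ((x, v) : Ph) := perp_free _ s
  rw [← h1]
  exact perp_of_inner (p := KU.free s ((x, v) : Ph)) h

theorem ig_of_born {s : ℝ} {s₁ s₂ : ℝ × Ph} (h1 : s₁.1 ≤ s) (h2 : s₂.1 ≤ s)
    (h : s = s₁.1 ∨ s = s₂.1) (hc : Ctc ε (KU.free s s₁.2) (KU.free s s₂.2)) : Ig ε s₁ s₂ := by
  have e : max s₁.1 s₂.1 = s := by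
    rcases h with h | h
    · exact le_antisymm (max_le h1 h2) (h ▸ le_max_left _ _)
    · exact le_antisymm (max_le h1 h2) (h ▸ le_max_right _ _)
  left
  rw [e]
  exact hc

theorem ig_of_graze {s : ℝ} {s₁ s₂ : ℝ × Ph}
    (h1 : ‖(KU.free s s₁.2).1 - (KU.free s s₂.2).1‖ = ε)
    (h2 : (inner ℝ ((KU.free s s₁.2).1 - (KU.free s s₂.2).1)
      ((KU.free s s₁.2).2 - (KU.free s s₂.2).2) : ℝ) = 0) : Ig ε s₁ s₂ := by
  right
  have e : (KU.free s s₁.2).1 - (KU.free s s₂.2).1 =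
      (s₁.2.1 - s₂.2.1) + s • (s₁.2.2 - s₂.2.2) := by
    unfold KU.free
    simp only
    rw [smul_sub]
    abel
  have e2 : (KU.free s s₁.2).2 - (KU.free s s₂.2).2 = s₁.2.2 - s₂.2.2 := rfl
  rw [e, e2] at h2
  rw [perp_eq_of_inner h2, ← e]
  exact h1

/-- `Ig` is symmetric. -/
theorem Ig.symm {s₁ s₂ : ℝ × Ph} (h : Ig ε s₁ s₂) : Ig ε s₂ s₁ := by
  rcases h with h | h
  · left
    rw [max_comm]
    exact h.symm
  · right
    rw [← h]
    have e : perp ((s₂.2.1 - s₁.2.1, s₂.2.2 - s₁.2.2) : Ph) =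
        -perp ((s₁.2.1 - s₂.2.1, s₁.2.2 - s₂.2.2) : Ph) := by
      unfold perp crd
      simp only
      rw [← neg_sub s₁.2.1 s₂.2.1, ← neg_sub s₁.2.2 s₂.2.2, inner_neg_neg, norm_neg]
      module
    rw [e, norm_neg]

theorem measurableSet_ctc : MeasurableSet {p : Ph × Ph | Ctc ε p.1 p.2} := by
  have h1 : Measurable fun p : Ph × Ph => ‖p.1.1 - p.2.1‖ := by fun_prop
  have h2 : Measurable fun p : Ph × Ph => (inner ℝ (p.1.1 - p.2.1) (p.1.2 - p.2.2) : ℝ) := by
    fun_prop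
  exact (measurableSet_le h1 measurable_const).inter
    ((measurableSet_eq_fun h1 measurable_const).inter
      (measurableSet_lt measurable_const h2)).compl

theorem measurableSet_ig : MeasurableSet {p : (ℝ × Ph) × (ℝ × Ph) | Ig ε p.1 p.2} := by
  have hm : Measurable fun p : (ℝ × Ph) × (ℝ × Ph) => max p.1.1 p.2.1 :=
    (measurable_fst.comp measurable_fst).max (measurable_fst.comp measurable_snd)
  have h1 : Measurable fun p : (ℝ × Ph) × (ℝ × Ph) => KU.free (max p.1.1 p.2.1) p.1.2 := by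
    unfold KU.free
    exact (measurable_fst.snd.fst.add (hm.smul measurable_fst.snd.snd)).prodMk
      measurable_fst.snd.snd
  have h2 : Measurable fun p : (ℝ × Ph) × (ℝ × Ph) => KU.free (max p.1.1 p.2.1) p.2.2 := by
    unfold KU.free
    exact (measurable_snd.snd.fst.add (hm.smul measurable_snd.snd.snd)).prodMk
      measurable_snd.snd.snd
  have h3 : Measurable fun p : (ℝ × Ph) × (ℝ × Ph) =>
      ‖perp ((p.1.2.1 - p.2.2.1, p.1.2.2 - p.2.2.2) : Ph)‖ := by
    refine (measurable_perp.comp (?_ : Measurable fun p : (ℝ × Ph) × (ℝ × Ph) =>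
      ((p.1.2.1 - p.2.2.1, p.1.2.2 - p.2.2.2) : Ph))).norm
    exact (measurable_fst.snd.fst.sub measurable_snd.snd.fst).prodMk
      (measurable_fst.snd.snd.sub measurable_snd.snd.snd)
  exact ((h1.prodMk h2) measurableSet_ctc).union (measurableSet_eq_fun h3 measurable_const)

/-! ### Tangential configurations are negligible -/

/-- `perp` is linear in the position. -/
theorem perp_add_smul (x y v : E3) (t : ℝ) :
    perp ((x + t • y, v) : Ph) = perp ((x, v) : Ph) + t • perp ((y, v) : Ph) := by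
  unfold perp crd
  simp only
  rw [inner_add_left, real_inner_smul_left, add_div, mul_div_assoc]
  module

/-- Cylinders have measure zero. -/
theorem null_perp (hε : 0 < ε) (x v : E3) :
    volume {a : E3 | ‖perp ((x + a, v) : Ph)‖ = ε} = 0 := by
  set S : Set E3 := {a : E3 | ‖perp ((x + a, v) : Ph)‖ ≤ ε} with hS
  have hp : ∀ a : E3, perp ((x + a, v) : Ph) = perp ((x, v) : Ph) + perp ((a, v) : Ph) := by
    intro a
    have h := perp_add_smul x a v 1
    rwa [one_smul, one_smul] at h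
  have hconv : Convex ℝ S := by
    intro a ha c hc s t hs ht hst
    have e : perp ((x + (s • a + t • c), v) : Ph) =
        s • perp ((x + a, v) : Ph) + t • perp ((x + c, v) : Ph) := by
      have h1 : x + (s • a + t • c) = s • (x + a) + t • (x + c) := by
        have : x = (s + t) • x := by rw [hst, one_smul]
        conv_lhs => rw [this]
        module
      rw [h1]
      have h2 := perp_add_smul (s • (x + a)) (x + c) v t
      have h3 := perp_add_smul 0 (x + a) v s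
      have h4 : perp ((0, v) : Ph) = 0 := by
        unfold perp crd
        simp
      rw [zero_add, h4, zero_add] at h3
      rw [h2, h3]
    change ‖perp ((x + (s • a + t • c), v) : Ph)‖ ≤ ε
    rw [e]
    calc _ ≤ ‖s • perp ((x + a, v) : Ph)‖ + ‖t • perp ((x + c, v) : Ph)‖ := norm_add_le _ _
      _ = s * ‖perp ((x + a, v) : Ph)‖ + t * ‖perp ((x + c, v) : Ph)‖ := by
          rw [norm_smul, norm_smul, Real.norm_eq_abs, Real.norm_eq_abs, abs_of_nonneg hs,
            abs_of_nonneg ht]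
      _ ≤ s * ε + t * ε := by gcongr <;> assumption
      _ = ε := by rw [← add_mul, hst, one_mul]
  refine measure_mono_null (fun a ha => ?_) (hconv.addHaar_frontier volume)
  have ha' : ‖perp ((x + a, v) : Ph)‖ = ε := ha
  refine ⟨subset_closure (show a ∈ S from ha'.le), fun hint => ?_⟩
  -- moving away from the axis
  have hcont : Tendsto (fun t : ℝ => a + t • (x + a)) (𝓝 0) (𝓝 (a + (0 : ℝ) • (x + a))) :=
    (continuous_const.add (continuous_id.smul continuous_const)).tendsto 0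
  rw [zero_smul, add_zero] at hcont
  have h1 : ∀ᶠ t : ℝ in 𝓝 0, a + t • (x + a) ∈ S := hcont (mem_interior_iff_mem_nhds.1 hint)
  have h2 : ∀ᶠ t : ℝ in 𝓝[>] 0, a + t • (x + a) ∈ S := h1.filter_mono nhdsWithin_le_nhds
  obtain ⟨t, ht, ht0⟩ := (h2.and self_mem_nhdsWithin).exists
  have h3 : ‖perp ((x + (a + t • (x + a)), v) : Ph)‖ ≤ ε := ht
  have h4 : x + (a + t • (x + a)) = (x + a) + t • (x + a) := by abel
  have ht0' : 0 < t := ht0
  have h5 : perp ((x + a, v) : Ph) + t • perp ((x + a, v) : Ph) =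
      (1 + t) • perp ((x + a, v) : Ph) := by
    rw [add_smul, one_smul]
  rw [h4, perp_add_smul, h5, norm_smul, Real.norm_eq_abs,
    abs_of_pos (by linarith : (0 : ℝ) < 1 + t), ha'] at h3
  nlinarith

variable {ι : Type} [DecidableEq ι] [Fintype ι]

/-- **Tangential final lines are negligible** for two labels which are not joined. -/
theorem null_tan (hΦ : IsPotential Φ) (hε : 0 < ε) {P : List (Ev ι × ℝ)} {i k : ι}
    (hbr : ¬Jn P i k) :
    volume {Z : ι → Ph | ‖perp (((finZ Φ ε P Z i).1 - (finZ Φ ε P Z k).1,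
      (finZ Φ ε P Z i).2 - (finZ Φ ε P Z k).2) : Ph)‖ = ε} = 0 := by
  set S : Set (ι → Ph) := {Z : ι → Ph | ‖perp (((finZ Φ ε P Z i).1 - (finZ Φ ε P Z k).1,
      (finZ Φ ε P Z i).2 - (finZ Φ ε P Z k).2) : Ph)‖ = ε} with hS
  set B : Finset ι := cls P i with hB
  have hcl : Cl B P := cl_cls P i
  have hiB : i ∈ B := self_mem_cls P i
  have hkB : k ∉ B := fun h => hbr (mem_cls.1 h)
  have hfZ : Measurable fun Z : ι → Ph => finZ Φ ε P Z :=
    measurable_finZ hΦ hε.ne' P measurable_id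
  have hSm : MeasurableSet S := by
    have h1 : Measurable fun Z : ι → Ph => finZ Φ ε P Z i := (measurable_pi_apply i).comp hfZ
    have h2 : Measurable fun Z : ι → Ph => finZ Φ ε P Z k := (measurable_pi_apply k).comp hfZ
    exact measurableSet_eq_fun (measurable_perp.comp
      ((h1.fst.sub h2.fst).prodMk (h1.snd.sub h2.snd))).norm measurable_const
  have key := lintegral_avg B (F := fun _ => (1 : ℝ≥0∞)) (H := S.indicator 1) measurable_const
    (measurable_const.indicator hSm) (fun _ _ => rfl) (U := fun Z => (Z i).1)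
    (measurable_pi_apply i).fst (fun a Z => by rw [mv_of_mem hiB]; rfl) measurable_φ₁
  rw [lintegral_φ₁] at key
  have h1 : ∀ Z : ι → Ph, ∫⁻ a : E3, S.indicator (1 : (ι → Ph) → ℝ≥0∞) (mv B ((a, 0) : Ph) Z) =
      0 := by
    intro Z
    have h2 : ∀ a : E3, S.indicator (1 : (ι → Ph) → ℝ≥0∞) (mv B ((a, 0) : Ph) Z) =
        {a : E3 | ‖perp ((((finZ Φ ε P Z i).1 - (finZ Φ ε P Z k).1) + a,
          (finZ Φ ε P Z i).2 - (finZ Φ ε P Z k).2) : Ph)‖ = ε}.indicator 1 a := by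
      intro a
      have h3 : mv B ((a, 0) : Ph) Z ∈ S ↔
          a ∈ {a : E3 | ‖perp ((((finZ Φ ε P Z i).1 - (finZ Φ ε P Z k).1) + a,
          (finZ Φ ε P Z i).2 - (finZ Φ ε P Z k).2) : Ph)‖ = ε} := by
        simp only [hS, mem_ofPred_eq, finZ_mv hcl, mv_of_mem hiB, mv_of_notMem hkB]
        have e : ((boost ((a, 0) : Ph) (finZ Φ ε P Z i)).1 - (finZ Φ ε P Z k).1,
            (boost ((a, 0) : Ph) (finZ Φ ε P Z i)).2 - (finZ Φ ε P Z k).2) =
            ((((finZ Φ ε P Z i).1 - (finZ Φ ε P Z k).1) + a,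
          (finZ Φ ε P Z i).2 - (finZ Φ ε P Z k).2) : Ph) := by
          unfold boost
          simp only [add_zero]
          refine Prod.ext ?_ rfl
          simp only
          abel
        rw [e]
      by_cases h4 : mv B ((a, 0) : Ph) Z ∈ S
      · rw [indicator_of_mem h4, indicator_of_mem (h3.1 h4)]; rfl
      · rw [indicator_of_notMem h4, indicator_of_notMem fun h => h4 (h3.2 h)]
    simp only [h2]
    refine le_antisymm ((lintegral_indicator_one_le _).trans (null_perp hε _ _).le) zero_le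
  have h5 : ω₃ * volume S = 0 := by
    have e1 : ∫⁻ Z, (1 : ℝ≥0∞) * S.indicator 1 Z = volume S := by
      simp only [one_mul]
      exact lintegral_indicator_one hSm
    rw [e1] at key
    rw [key]
    simp only [h1, mul_zero, lintegral_zero]
  exact (mul_eq_zero.1 h5).resolve_left ω₃_ne_zero

/-! ### The masses -/

/-- Dropping a ghost contact. -/
theorem Run.drop {P₁ P₂ : List (Ev ι)} {i k : ι} {r : ℝ} {β : ι → ℝ} {Z : ι → Ph}
    (h : Run Φ ε T r (pl T (P₁ ++ Ev.gh i k :: P₂)) β Z) : Run Φ ε T r (pl T (P₁ ++ P₂)) β Z := by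
  induction P₁ generalizing r β Z with
  | nil =>
    obtain ⟨s, h1, -, -, h4⟩ := h
    exact h4.mono h1
  | cons e P₁ ih =>
    obtain ⟨s, h1, h2, h3, h4⟩ := h
    exact ⟨s, h1, h2, h3, ih h4⟩

/-- The two labels of a ghost contact can be exchanged. -/
theorem Run.swap_gh {P₁ P₂ : List (Ev ι)} {i k : ι} {r : ℝ} {β : ι → ℝ} {Z : ι → Ph}
    (h : Run Φ ε T r (pl T (P₁ ++ Ev.gh i k :: P₂)) β Z) :
    Run Φ ε T r (pl T (P₁ ++ Ev.gh k i :: P₂)) β Z := by
  induction P₁ generalizing r β Z with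
  | nil =>
    obtain ⟨s, h1, h2, h3, h4⟩ := h
    refine ⟨s, h1, h2, ?_, h4⟩
    simp only [At] at h3 ⊢
    exact ⟨h3.1.symm, h3.2.2.1, h3.2.1, h3.2.2.2.1.symm, by rw [max_comm]; exact h3.2.2.2.2⟩
  | cons e P₁ ih =>
    obtain ⟨s, h1, h2, h3, h4⟩ := h
    exact ⟨s, h1, h2, h3, ih h4⟩

/-- The run of a program with an irregular contact of two labels which are not used afterwards. -/
def IgRun (Φ : E3 → ℝ) (ε T : ℝ) (P₁ : List (Ev ι)) (i k : ι) (P₂ : List (Ev ι)) (β : ι → ℝ)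
    (Z : ι → Ph) : Prop :=
  Run Φ ε T 0 (pl T (P₁ ++ Ev.gh i k :: P₂)) β Z ∧
    Ig ε (finB Φ ε (pl T (P₁ ++ P₂)) β Z i, finZ Φ ε (pl T (P₁ ++ P₂)) Z i)
      (finB Φ ε (pl T (P₁ ++ P₂)) β Z k, finZ Φ ε (pl T (P₁ ++ P₂)) Z k)

/-- An irregular contact of two labels which are not joined. -/
theorem ig_bridge (hΦ : IsPotential Φ) (hε : 0 < ε) {P₁ P₂ : List (Ev ι)} {i k : ι}
    (hbr : ¬Jn (pl T (P₁ ++ P₂)) i k) {R : Finset ι}
    (hR : ∀ r ∈ R, ¬Jn (pl T (P₁ ++ P₂)) k r) {β : ι → ℝ} (hβ : ∀ j, 0 ≤ β j) :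
    ∫⁻ Z : ι → Ph, spat R Z * (wgt b Z *
      ({Z : ι → Ph | IgRun Φ ε T P₁ i k P₂ β Z}).indicator 1 Z) ≤
    ENNReal.ofReal (32 * ε ^ 2 * ε) * mass Φ ε T b (insert k R) (pl T (P₁ ++ P₂)) := by
  set P : List (Ev ι × ℝ) := pl T (P₁ ++ P₂) with hP
  set B : Finset ι := cls P k with hB
  have hcl : Cl B P := cl_cls P k
  have hkB : k ∈ B := self_mem_cls P k
  have hiB : i ∉ B := fun h => hbr (mem_cls.1 h).symm
  have hRB : ∀ r ∈ R, r ∉ B := fun r hr h => hR r hr (mem_cls.1 h)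
  have hfB : Measurable fun Z : ι → Ph => finB Φ ε P β Z :=
    measurable_finB hΦ hε.ne' P (β := fun _ => β) measurable_const measurable_id
  have hfZ : Measurable fun Z : ι → Ph => finZ Φ ε P Z :=
    measurable_finZ hΦ hε.ne' P measurable_id
  set m : (ι → Ph) → ℝ := fun Z => max (finB Φ ε P β Z i) (finB Φ ε P β Z k) with hm
  have hmm : Measurable m :=
    ((measurable_pi_apply i).comp hfB).max ((measurable_pi_apply k).comp hfB)
  have h1 := peel_tube hε hkB hRB (F := fun Z => wgt b Z * runI Φ ε T P Z)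
    ((measurable_wgt b).mul (measurable_runI hΦ hε.ne' P))
    (fun a Z => by rw [wgt_mv, runI_mv hcl])
    (p := fun Z => finZ Φ ε P Z i) (q := fun Z => finZ Φ ε P Z k)
    ((measurable_pi_apply i).comp hfZ) ((measurable_pi_apply k).comp hfZ)
    (fun a Z => by rw [finZ_mv hcl, mv_of_notMem hiB])
    (fun a Z => by rw [finZ_mv hcl, mv_of_mem hkB]) hmm
    (fun a Z => by simp only [hm]; rw [finB_mv hcl]) (le_refl (0 : ℝ))
  have hnull := null_tan hΦ hε hbr
  have h2 : ∫⁻ Z : ι → Ph, spat R Z * (wgt b Z *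
      ({Z : ι → Ph | IgRun Φ ε T P₁ i k P₂ β Z}).indicator 1 Z) ≤
      ∫⁻ Z, spat R Z * (wgt b Z * runI Φ ε T P Z) * {Z : ι → Ph | ∃ s, m Z ≤ s ∧ s ≤ m Z + 0 ∧
      ‖(KU.free s (finZ Φ ε P Z i)).1 - (KU.free s (finZ Φ ε P Z k)).1‖ ≤ ε}.indicator 1 Z := by
    refine lintegral_mono_ae ?_
    have h3 : ∀ᵐ Z : ι → Ph, Z ∉ {Z : ι → Ph | ‖perp (((finZ Φ ε P Z i).1 - (finZ Φ ε P Z k).1,
      (finZ Φ ε P Z i).2 - (finZ Φ ε P Z k).2) : Ph)‖ = ε} := measure_eq_zero_iff_ae_notMem.1 hnull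
    filter_upwards [h3] with Z hZ
    by_cases hI : Z ∈ {Z : ι → Ph | IgRun Φ ε T P₁ i k P₂ β Z}
    swap
    · rw [indicator_of_notMem hI, mul_zero, mul_zero]
      exact zero_le
    have hI' : IgRun Φ ε T P₁ i k P₂ β Z := hI
    obtain ⟨hrun, hirr⟩ := hI'
    have hrun' : Run Φ ε T 0 P (fun _ => 0) Z :=
      run_zero hΦ hε (fun e he => pl_snd he) le_rfl hβ hrun.drop
    have hmem : Z ∈ {Z : ι → Ph | ∃ s, m Z ≤ s ∧ s ≤ m Z + 0 ∧
        ‖(KU.free s (finZ Φ ε P Z i)).1 - (KU.free s (finZ Φ ε P Z k)).1‖ ≤ ε} := by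
      rcases hirr with h4 | h4
      · exact ⟨m Z, le_rfl, by rw [add_zero], h4.le⟩
      · exact absurd h4 hZ
    rw [indicator_of_mem hI, indicator_of_mem hmem, runI_of _ hrun']
    simp
  refine h2.trans (h1.trans ?_)
  simp only [zero_mul, add_zero]
  have hGm : Measurable fun Z : ι → Ph =>
      spat (insert k R) Z * (wgt b Z * runI Φ ε T P Z) :=
    (measurable_spat _).mul ((measurable_wgt _).mul (measurable_runI hΦ hε.ne' P))
  unfold mass
  rw [← lintegral_const_mul _ hGm]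
  refine lintegral_mono fun Z => le_of_eq ?_
  ring

/-- Well formed programs with a contact of two labels which are not used afterwards. -/
structure Fin2OK (T : ℝ) (P₁ : List (Ev ι)) (i k : ι) (P₂ : List (Ev ι)) : Prop where
  wf : Wf (pl T (P₁ ++ Ev.gh i k :: P₂))
  ne : i ≠ k
  ni : ∀ e ∈ P₂, e.fst ≠ i ∧ e.snd ≠ i
  nk : ∀ e ∈ P₂, e.fst ≠ k ∧ e.snd ≠ k

theorem perm_mid (P₁ P₂ : List (Ev ι)) (e : Ev ι) : (P₁ ++ e :: P₂).Perm ((P₁ ++ P₂) ++ [e]) := by
  have h1 : (P₁ ++ e :: P₂).Perm (e :: (P₁ ++ P₂)) := List.perm_middle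
  exact h1.trans (List.perm_append_comm (l₁ := [e]) (l₂ := P₁ ++ P₂))

/-- **The mass of a program with an irregular contact.** -/
theorem ig_mass_le (hΦ : IsPotential Φ) (hT : 0 ≤ T) (n : ℕ) (hb : 0 < b) :
    ∃ C : ℝ≥0∞, C ≠ ∞ ∧ ∀ (P₁ : List (Ev ι)) (i k : ι) (P₂ : List (Ev ι)),
      (P₁ ++ P₂).length = n → Fin2OK T P₁ i k P₂ → ∀ ε : ℝ, 0 < ε → ε ≤ 1 →
      ∀ R : Finset ι, Trv (pl T (P₁ ++ Ev.gh i k :: P₂)) R → ∀ β : ι → ℝ, (∀ j, 0 ≤ β j) →
      ∫⁻ Z : ι → Ph, spat R Z * (wgt b Z *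
        ({Z : ι → Ph | IgRun Φ ε T P₁ i k P₂ β Z}).indicator 1 Z) ≤
      C * ENNReal.ofReal (ε ^ 2) ^ (Fintype.card ι - R.card) * ENNReal.ofReal (√ε) := by
  classical
  obtain ⟨C₁, hC₁, H₁⟩ := small_le (ι := ι) hΦ hT (n + 1) b hb
  obtain ⟨C₂, hC₂, H₂⟩ := mass_le (ι := ι) hΦ T n b hb
  refine ⟨C₁ + 32 * (C₂ * ENNReal.ofReal (1 + T) ^ n), ENNReal.add_ne_top.2 ⟨hC₁,
    ENNReal.mul_ne_top (by norm_num) (ENNReal.mul_ne_top hC₂
      (ENNReal.pow_ne_top ENNReal.ofReal_ne_top))⟩, ?_⟩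
  intro P₁ i k P₂ hn hOK ε hε hε1 R hR β hβ
  have hperm := perm_mid P₁ P₂ (Ev.gh i k)
  have hperm' : (pl T (P₁ ++ Ev.gh i k :: P₂)).Perm (pl T ((P₁ ++ P₂) ++ [Ev.gh i k])) := by
    unfold pl
    exact hperm.map _
  by_cases hJ : Jn (pl T (P₁ ++ P₂)) i k
  · -- a closed program
    have hcl : Closed (pl T (P₁ ++ Ev.gh i k :: P₂)) := by
      rw [closed_perm hperm']
      have e1 : pl T ((P₁ ++ P₂) ++ [Ev.gh i k]) = pl T (P₁ ++ P₂) ++ [(Ev.gh i k, T)] := by
        unfold pl; rw [List.map_append]; rfl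
      rw [e1, closed_concat]
      exact Or.inr hJ
    have h1 := H₁ (pl T (P₁ ++ Ev.gh i k :: P₂)) (by
      unfold pl
      rw [List.length_map, hperm.length_eq, List.length_append, hn]
      rfl) (fun e he => pl_snd he) hOK.wf hcl ε hε hε1 R hR
    refine le_trans ?_ (h1.trans ?_)
    · unfold mass
      refine lintegral_mono fun Z => mul_le_mul' le_rfl (mul_le_mul' le_rfl ?_)
      by_cases hZ : Z ∈ {Z : ι → Ph | IgRun Φ ε T P₁ i k P₂ β Z}
      · have hZ' : IgRun Φ ε T P₁ i k P₂ β Z := hZ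
        rw [indicator_of_mem hZ, runI_of _ (run_zero hΦ hε (fun e he => pl_snd he) le_rfl hβ
          hZ'.1)]
        exact le_rfl
      · rw [indicator_of_notMem hZ]
        exact zero_le
    · exact mul_le_mul' (mul_le_mul' le_self_add le_rfl) le_rfl
  · -- a bridge
    have hQ : ∀ c d, Jn (pl T (P₁ ++ Ev.gh i k :: P₂)) c d ↔ Jn (pl T (P₁ ++ P₂)) c d ∨
        (Jn (pl T (P₁ ++ P₂)) c i ∧ Jn (pl T (P₁ ++ P₂)) k d) ∨
        (Jn (pl T (P₁ ++ P₂)) c k ∧ Jn (pl T (P₁ ++ P₂)) i d) := by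
      intro c d
      rw [jn_perm hperm']
      have e1 : pl T ((P₁ ++ P₂) ++ [Ev.gh i k]) = pl T (P₁ ++ P₂) ++ [(Ev.gh i k, T)] := by
        unfold pl; rw [List.map_append]; rfl
      rw [e1, jn_concat]
      rfl
    -- the representative of the class of the contact
    obtain ⟨r, hr, hJr⟩ := hR.cov i
    have hcase : ∃ i' k', ((i' = i ∧ k' = k) ∨ (i' = k ∧ k' = i)) ∧
        Jn (pl T (P₁ ++ P₂)) r i' := by
      rcases (hQ _ _).1 hJr with h3 | ⟨-, h3⟩ | ⟨h3, -⟩
      · exact ⟨i, k, Or.inl ⟨rfl, rfl⟩, h3.symm⟩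
      · exact ⟨k, i, Or.inr ⟨rfl, rfl⟩, h3.symm⟩
      · exact absurd h3 hJ
    obtain ⟨i', k', hik, hri⟩ := hcase
    have hbr' : ¬Jn (pl T (P₁ ++ P₂)) i' k' := by
      rcases hik with ⟨rfl, rfl⟩ | ⟨rfl, rfl⟩
      · exact hJ
      · exact fun h => hJ h.symm
    have hsplit := hR.split (e := (Ev.gh i k, T)) hQ (i := i') (k := k') hik hbr' hr hri
      (Jn.refl _ k')
    obtain ⟨h3, h4, h5⟩ := hsplit
    have hcard : R.card + 1 ≤ Fintype.card ι := by
      rw [← Finset.card_insert_of_notMem h3]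
      exact Finset.card_le_univ _
    have h6 := H₂ (pl T (P₁ ++ P₂)) (by unfold pl; rw [List.length_map, hn])
      (fun e he => by rw [pl_snd he]; exact hT) ε hε _ h5
    have h7 := cost_le (P := pl T (P₁ ++ P₂)) hT hε1 [] fun e he => (pl_snd he).le
    rw [show (pl T (P₁ ++ P₂)).length = n by unfold pl; rw [List.length_map, hn]] at h7
    rw [Finset.card_insert_of_notMem h3] at h6
    have h8 : ENNReal.ofReal (ε ^ 2) ^ (Fintype.card ι - R.card) =
        ENNReal.ofReal (ε ^ 2) ^ (Fintype.card ι - (R.card + 1)) * ENNReal.ofReal (ε ^ 2) := by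
      rw [← pow_succ]; congr 1; omega
    have h9 : ENNReal.ofReal ε ≤ ENNReal.ofReal (√ε) := by
      refine ENNReal.ofReal_le_ofReal ?_
      rw [Real.le_sqrt' hε]
      nlinarith
    have h10 : ENNReal.ofReal (32 * ε ^ 2 * ε) =
        32 * (ENNReal.ofReal (ε ^ 2) * ENNReal.ofReal ε) := by
      rw [ENNReal.ofReal_mul (by positivity), ENNReal.ofReal_mul (by norm_num)]
      have : ENNReal.ofReal 32 = 32 := by simp
      rw [this, mul_assoc]
    have hmain : ∫⁻ Z : ι → Ph, spat R Z * (wgt b Z *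
        ({Z : ι → Ph | IgRun Φ ε T P₁ i k P₂ β Z}).indicator 1 Z) ≤
        ENNReal.ofReal (32 * ε ^ 2 * ε) * mass Φ ε T b (insert k' R) (pl T (P₁ ++ P₂)) := by
      rcases hik with ⟨rfl, rfl⟩ | ⟨rfl, rfl⟩
      · exact ig_bridge hΦ hε hbr' h4 hβ
      · -- the roles are exchanged
        have hset : ∀ Z : ι → Ph, IgRun Φ ε T P₁ k' i' P₂ β Z →
            IgRun Φ ε T P₁ i' k' P₂ β Z := by
          rintro Z ⟨g1, g2⟩
          refine ⟨?_, g2.symm⟩
          exact Run.swap_gh g1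
        refine le_trans (lintegral_mono fun Z => mul_le_mul' le_rfl (mul_le_mul' le_rfl ?_))
          (ig_bridge hΦ hε hbr' h4 hβ)
        by_cases hZ : Z ∈ {Z : ι → Ph | IgRun Φ ε T P₁ k' i' P₂ β Z}
        · have hZ' : Z ∈ {Z : ι → Ph | IgRun Φ ε T P₁ i' k' P₂ β Z} := hset Z hZ
          rw [indicator_of_mem hZ, indicator_of_mem hZ']
        · rw [indicator_of_notMem hZ]
          exact zero_le
    calc _ ≤ _ := hmain
      _ ≤ 32 * (ENNReal.ofReal (ε ^ 2) * ENNReal.ofReal ε) * (C₂ * ENNReal.ofReal (ε ^ 2) ^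
          (Fintype.card ι - (R.card + 1)) * ENNReal.ofReal (1 + T) ^ n) := by
          rw [h10]
          exact mul_le_mul' le_rfl (h6.trans (mul_le_mul' le_rfl h7))
      _ = (32 * (C₂ * ENNReal.ofReal (1 + T) ^ n)) *
          ENNReal.ofReal (ε ^ 2) ^ (Fintype.card ι - R.card) * ENNReal.ofReal ε := by
          rw [h8]; ring
      _ ≤ _ := mul_le_mul' (mul_le_mul' le_add_self le_rfl) h9

end Vale.Agent.P119.IND
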