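import Vale.Agent.P119.IND.IrrSets

/-!
# P119, block IND: two colliding pairs in contact are negligible (`helper350`)

* `quads_small`: the relations of the contacts `quad` have small mass;
* `quad_sbad`, `tri_sbad`, `trip_sbad`: the contacts satisfy one of the relations.
-/

open MeasureTheory Filter Topology Set
open scoped ENNReal

set_option linter.unusedSectionVars false

noncomputable section

namespace Vale.Agent.P119.IND

open KU FL M M.CTree TL GC MM AU PB.CT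

variable {Φ : E3 → ℝ} {ε T t : ℝ}

section Cl

variable {ι : Type} [DecidableEq ι]

theorem cl_pl_of_ed {B : Finset ι} {P : List (Ev ι)} (h : ∀ p ∈ ed P, p.1 ∈ B ↔ p.2 ∈ B) :
    Cl B (pl T P) := by
  intro e he
  unfold pl at he
  obtain ⟨f, hf, rfl⟩ := List.mem_map.1 he
  exact h (f.fst, f.snd) (List.mem_map.2 ⟨f, hf, rfl⟩)

theorem cl_edges {B : Finset ι} {Q : List (Ev ι × ℝ)} (h : Cl B Q) :
    ∀ p ∈ edges Q, p.1 ∈ B ↔ p.2 ∈ B := by
  intro p hp
  unfold edges at hp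
  obtain ⟨e, he, rfl⟩ := List.mem_map.1 hp
  exact h e he

end Cl

theorem quads_small {f₀ : Ph → ℝ} {b c M₁ : ℝ} (hΦ : IsPotential Φ) (hf : Measurable f₀)
    (hM₁ : 0 ≤ M₁)
    (hmarg : ∀ v, ∫⁻ x, ENNReal.ofReal (f₀ (x, v)) ≤ ENNReal.ofReal (M₁ * Real.exp (-b * ‖v‖ ^ 2)))
    (hbc : c < b) (hT : 0 ≤ T) {N c₀ : ℕ} {r : Rln} (hr : r ∈ quads Φ T N c₀) :
    r.Small f₀ b c c₀ := by
  obtain ⟨n, -, P₁, P₂, P₃, P₄, i, w, a, k, Rs, -, hRs, hRc, hok, rfl⟩ := hr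
  refine Rln.small_of_loc hf hM₁ hmarg (fun ε hε => measurableSet_relQuad hΦ hε.ne' _ _ _ _ _ _ _ _)
    hRc hRs ?_ ?_
  · intro ε _ j _ β x Z
    have h1 := cl_edges (cl_cls
      (pl T (P₁ ++ Ev.gh i w :: (P₂ ++ Ev.gh a k :: (P₃ ++ P₄))) ++ [(Ev.gh a i, T)]) j)
    have h2 : ∀ {P : List (Ev (Fin n))}, (∀ p ∈ ed P, p ∈ ed (P₁ ++ (P₂ ++ (P₃ ++ P₄)))) →
        Cl (cls (pl T (P₁ ++ Ev.gh i w :: (P₂ ++ Ev.gh a k :: (P₃ ++ P₄))) ++
          [(Ev.gh a i, T)]) j) (pl T P) := fun {P} hP =>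
      cl_pl_of_ed fun p hp => h1 p (mem_edges_quad.2 (Or.inl (hP p hp)))
    refine mem_quadR_mv (h2 fun p hp => ?_) (h2 fun p hp => ?_) (h2 fun p hp => ?_)
      (h2 fun p hp => ?_) (h1 (i, w) (mem_edges_quad.2 (Or.inr (Or.inl rfl))))
      (h1 (a, k) (mem_edges_quad.2 (Or.inr (Or.inr (Or.inl rfl)))))
      (h1 (a, i) (mem_edges_quad.2 (Or.inr (Or.inr (Or.inr rfl))))) x β Z
    · simp only [mem_ed_append]; tauto
    · simp only [mem_ed_append]; tauto
    · simp only [mem_ed_append]; tauto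
    · simp only [mem_ed_append]; tauto
  · intro δ hδ
    filter_upwards [quad_small hΦ hT (sub_pos.2 hbc) hok.iw hok.wf hδ] with ε h β hβ
    have h1 := h β hβ Rs hRs
    rwa [Fintype.card_fin] at h1

/-! ### The contacts satisfy the relations -/

section SB

variable {n N c₀ m q : ℕ} {S : Fin m → CTree} {l : Fin q → Src} {w : Finset Ph} {z : Fin n → Src}
  {A B : List (Ev (Fin n) × ℝ)} {s : ℝ} {Rs : Finset (Fin n)}

theorem ed_perm_mem {P Q : List (Ev (Fin n))} (h : P = Q) {p : Fin n × Fin n} :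
    p ∈ ed P ↔ p ∈ ed Q := by rw [h]

/-- A relation of the list `tris`. -/
theorem sbad_of_tri (hΦ : IsPotential Φ) (hn : n ≤ N) (hM : (A ++ B).length ≤ N)
    (hz : LabT S l w z) {x y C : Fin n} {es : List (Fin n × Fin n)}
    (hes : es = [(x, y), (x, C)] ∨ es = [(y, x), (x, C)])
    (hR : Trv (pl t ((A ++ B).map Prod.fst ++ evs es)) Rs) (hRc : Rs.card ≤ c₀)
    (hRl : ∀ i ∈ Rs, z i ∉ range l) {P₁ P₂ P₃ : List (Ev (Fin n))}
    (hP : P₁ ++ (P₂ ++ P₃) = (A ++ B).map Prod.fst) (hok : TriOK t P₁ P₂ P₃ x y C)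
    (hmem : (fun i => (z i).2.1) ∈ triR hΦ ε t P₁ P₂ P₃ x y C fun i => (z i).1) :
    SBad (tris hΦ t N c₀) ε S l w := by
  refine ⟨_, ⟨n, hn, P₁, P₂, P₃, x, y, C, Rs, ?_, ?_, hRc, hok, rfl⟩, z, hz, hmem, hRl⟩
  · rw [hP, List.length_map]; exact hM
  · rw [← hP] at hR
    have key : ∀ (X : List (Ev (Fin n) × ℝ)) (p p' : Fin n × Fin n), p ∈ edges X →
        (p' = p ∨ p' = (p.2, p.1)) → Edg.Joined (edges X) p'.1 p'.2 := by
      intro X p p' hp h
      have h1 : Edg.Joined (edges X) p.1 p.2 := Edg.joined_edge hp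
      rcases h with rfl | rfl
      · exact h1
      · exact h1.symm
    refine trv_of_joined (fun p hp => ?_) (fun p hp => ?_) hR
    · rw [mem_edges_evs] at hp
      rcases hp with hp | hp
      · exact key _ p p (mem_edges_tri.2 (Or.inl hp)) (Or.inl rfl)
      · rcases hes with rfl | rfl
        · rcases List.mem_cons.1 hp with rfl | hp
          · exact key _ (x, y) _ (mem_edges_tri.2 (Or.inr (Or.inl rfl))) (Or.inl rfl)
          · rw [List.mem_singleton.1 hp]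
            exact key _ (x, C) _ (mem_edges_tri.2 (Or.inr (Or.inr rfl))) (Or.inl rfl)
        · rcases List.mem_cons.1 hp with rfl | hp
          · exact key _ (x, y) _ (mem_edges_tri.2 (Or.inr (Or.inl rfl))) (Or.inr rfl)
          · rw [List.mem_singleton.1 hp]
            exact key _ (x, C) _ (mem_edges_tri.2 (Or.inr (Or.inr rfl))) (Or.inl rfl)
    · rw [mem_edges_tri] at hp
      rcases hp with hp | rfl | rfl
      · exact key _ p p (mem_edges_evs.2 (Or.inl hp)) (Or.inl rfl)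
      · rcases hes with rfl | rfl
        · exact key _ (x, y) _ (mem_edges_evs.2 (Or.inr (by simp))) (Or.inl rfl)
        · exact key _ (y, x) _ (mem_edges_evs.2 (Or.inr (by simp))) (Or.inr rfl)
      · rcases hes with rfl | rfl
        · exact key _ (x, C) _ (mem_edges_evs.2 (Or.inr (by simp))) (Or.inl rfl)
        · exact key _ (x, C) _ (mem_edges_evs.2 (Or.inr (by simp))) (Or.inl rfl)

/-- A relation of the list `quads`. -/
theorem sbad_of_quad (hn : n ≤ N) (hM : (A ++ B).length ≤ N)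
    (hz : LabT S l w z) {i v a k : Fin n} {es : List (Fin n × Fin n)}
    (hes : es = [(i, v), (a, k), (i, a)] ∨ es = [(a, k), (i, v), (a, i)])
    (hR : Trv (pl t ((A ++ B).map Prod.fst ++ evs es)) Rs) (hRc : Rs.card ≤ c₀)
    (hRl : ∀ i ∈ Rs, z i ∉ range l) {P₁ P₂ P₃ P₄ : List (Ev (Fin n))}
    (hP : P₁ ++ (P₂ ++ (P₃ ++ P₄)) = (A ++ B).map Prod.fst) (hok : QuadOK t P₁ P₂ P₃ P₄ i v a k)
    (hmem : (fun i => (z i).2.1) ∈ quadR Φ ε t P₁ P₂ P₃ P₄ i v a k fun i => (z i).1) :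
    SBad (quads Φ t N c₀) ε S l w := by
  refine ⟨_, ⟨n, hn, P₁, P₂, P₃, P₄, i, v, a, k, Rs, ?_, ?_, hRc, hok, rfl⟩, z, hz, hmem, hRl⟩
  · rw [hP, List.length_map]; exact hM
  · rw [← hP] at hR
    have key : ∀ (X : List (Ev (Fin n) × ℝ)) (p p' : Fin n × Fin n), p ∈ edges X →
        (p' = p ∨ p' = (p.2, p.1)) → Edg.Joined (edges X) p'.1 p'.2 := by
      intro X p p' hp h
      have h1 : Edg.Joined (edges X) p.1 p.2 := Edg.joined_edge hp
      rcases h with rfl | rfl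
      · exact h1
      · exact h1.symm
    refine trv_of_joined (fun p hp => ?_) (fun p hp => ?_) hR
    · rw [mem_edges_evs] at hp
      have h1 : p ∈ ed (P₁ ++ (P₂ ++ (P₃ ++ P₄))) ∨ p = (i, v) ∨ p = (a, k) ∨ p = (a, i) ∨
          p = (i, a) := by
        rcases hp with hp | hp
        · exact Or.inl hp
        · rcases hes with rfl | rfl
          · simp only [List.mem_cons, List.not_mem_nil, or_false] at hp
            tauto
          · simp only [List.mem_cons, List.not_mem_nil, or_false] at hp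
            tauto
      rcases h1 with h1 | rfl | rfl | rfl | rfl
      · exact key _ p p (mem_edges_quad.2 (Or.inl h1)) (Or.inl rfl)
      · exact key _ (i, v) _ (mem_edges_quad.2 (by simp)) (Or.inl rfl)
      · exact key _ (a, k) _ (mem_edges_quad.2 (by simp)) (Or.inl rfl)
      · exact key _ (a, i) _ (mem_edges_quad.2 (by simp)) (Or.inl rfl)
      · exact key _ (a, i) _ (mem_edges_quad.2 (by simp)) (Or.inr rfl)
    · rw [mem_edges_quad] at hp
      rcases hp with hp | rfl | rfl | rfl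
      · exact key _ p p (mem_edges_evs.2 (Or.inl hp)) (Or.inl rfl)
      · rcases hes with rfl | rfl <;>
          exact key _ (i, v) _ (mem_edges_evs.2 (Or.inr (by simp))) (Or.inl rfl)
      · rcases hes with rfl | rfl <;>
          exact key _ (a, k) _ (mem_edges_evs.2 (Or.inr (by simp))) (Or.inl rfl)
      · rcases hes with rfl | rfl
        · exact key _ (i, a) _ (mem_edges_evs.2 (Or.inr (by simp))) (Or.inr rfl)
        · exact key _ (a, i) _ (mem_edges_evs.2 (Or.inr (by simp))) (Or.inl rfl)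

/-- **The contacts `tri`** (with one of the particles of the pair). -/
theorem tri_sbad (hΦ : IsPotential Φ) (hε : 0 < ε) (hn : n ≤ N) (hM : (A ++ B).length ≤ N)
    (hz : LabT S l w z) {x y C : Fin n}
    (hR : Trv (pl t ((A ++ B).map Prod.fst ++ evs [(x, y), (x, C)])) Rs) (hRc : Rs.card ≤ c₀)
    (hRl : ∀ i ∈ Rs, z i ∉ range l) (hβ : ∀ i, 0 ≤ (z i).1) (hw : Wf (A ++ B))
    (hr : RunT Φ ε t 0 (A ++ B) (fun i => (z i).1) fun i => (z i).2.1) (hst : s ≤ t)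
    (hA : ∀ e ∈ A, e.2 ≤ s) (hB : ∀ e ∈ B, s ≤ e.2)
    (hcol : ColS Φ ε (finB Φ ε A (fun i => (z i).1) fun i => (z i).2.1)
      (finZ Φ ε A fun i => (z i).2.1) x y s)
    (hCx : C ≠ x) (hCy : C ≠ y) (bC : finB Φ ε A (fun i => (z i).1) (fun i => (z i).2.1) C ≤ s)
    (hc : Ctc ε (pairLine Φ ε (finZ Φ ε A (fun i => (z i).2.1) x,
          finZ Φ ε A (fun i => (z i).2.1) y) s).1
        (KU.free s (finZ Φ ε A (fun i => (z i).2.1) C)) ∨
      Ctc ε (pairLine Φ ε (finZ Φ ε A (fun i => (z i).2.1) x,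
          finZ Φ ε A (fun i => (z i).2.1) y) s).2
        (KU.free s (finZ Φ ε A (fun i => (z i).2.1) C)))
    (nx : NotDr (A ++ B) x) (ny : NotDr (A ++ B) y) (nC : NotDr (A ++ B) C)
    (ux : UseLe A x (hitT ε (finZ Φ ε A (fun i => (z i).2.1) x,
      finZ Φ ε A (fun i => (z i).2.1) y)))
    (uy : UseLe A y (hitT ε (finZ Φ ε A (fun i => (z i).2.1) x,
      finZ Φ ε A (fun i => (z i).2.1) y)))
    (vx : NoUse B x) (vy : NoUse B y) : SBad (tris hΦ t N c₀) ε S l w := by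
  obtain ⟨P₁, P₂, P₃, h1, h2, h3⟩ := tri_mem hΦ hε hβ hr hw hst hA hB hcol hCx hCy bC hc nx ny nC
    ux uy vx vy
  exact sbad_of_tri hΦ hn hM hz (Or.inl rfl) hR hRc hRl h1 h2 h3

/-- **The contacts `trip`.** -/
theorem trip_sbad (hΦ : IsPotential Φ) (hε : 0 < ε) (hn : n ≤ N) (hM : (A ++ B).length ≤ N)
    (hz : LabT S l w z) {x y C : Fin n}
    (hR : Trv (pl t ((A ++ B).map Prod.fst ++ evs [(x, y), (y, C)])) Rs) (hRc : Rs.card ≤ c₀)
    (hRl : ∀ i ∈ Rs, z i ∉ range l) (hβ : ∀ i, 0 ≤ (z i).1) (hw : Wf (A ++ B))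
    (hr : RunT Φ ε t 0 (A ++ B) (fun i => (z i).1) fun i => (z i).2.1) (hst : s ≤ t)
    (hA : ∀ e ∈ A, e.2 ≤ s) (hB : ∀ e ∈ B, s ≤ e.2)
    (hxy : x ≠ y) (hCx : C ≠ x) (hCy : C ≠ y)
    (bx : finB Φ ε A (fun i => (z i).1) (fun i => (z i).2.1) x < s)
    (by' : finB Φ ε A (fun i => (z i).1) (fun i => (z i).2.1) y < s)
    (bC : finB Φ ε A (fun i => (z i).1) (fun i => (z i).2.1) C ≤ s)
    (hm : Meets ε (finZ Φ ε A (fun i => (z i).2.1) x, finZ Φ ε A (fun i => (z i).2.1) y))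
    (hh : hitT ε (finZ Φ ε A (fun i => (z i).2.1) x, finZ Φ ε A (fun i => (z i).2.1) y) = s)
    (hc : Ctc ε (KU.free s (finZ Φ ε A (fun i => (z i).2.1) y))
      (KU.free s (finZ Φ ε A (fun i => (z i).2.1) C)))
    (nx : NotDr (A ++ B) x) (ny : NotDr (A ++ B) y) (nC : NotDr (A ++ B) C)
    (vx : NoUse B x) (vy : NoUse B y) : SBad (tris hΦ t N c₀) ε S l w := by
  obtain ⟨P₁, P₂, P₃, h1, h2, h3⟩ := trip_mem hΦ hε hβ hr hw hst hA hB hxy hCx hCy bx by' bC hm hh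
    hc nx ny nC vx vy
  exact sbad_of_tri hΦ hn hM hz (Or.inr rfl) hR hRc hRl h1 h2 h3

/-- **The contacts `quad`.** -/
theorem quad_sbad (hΦ : IsPotential Φ) (hε : 0 < ε) (hn : n ≤ N) (hM : (A ++ B).length ≤ N)
    (hz : LabT S l w z) {x y u v : Fin n}
    (hR : Trv (pl t ((A ++ B).map Prod.fst ++ evs [(x, y), (u, v), (x, u)])) Rs)
    (hRc : Rs.card ≤ c₀)
    (hRl : ∀ i ∈ Rs, z i ∉ range l) (hβ : ∀ i, 0 ≤ (z i).1) (hw : Wf (A ++ B))
    (hr : RunT Φ ε t 0 (A ++ B) (fun i => (z i).1) fun i => (z i).2.1) (hst : s ≤ t)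
    (hA : ∀ e ∈ A, e.2 ≤ s) (hB : ∀ e ∈ B, s ≤ e.2)
    (hcol : ColS Φ ε (finB Φ ε A (fun i => (z i).1) fun i => (z i).2.1)
      (finZ Φ ε A fun i => (z i).2.1) x y s)
    (hcol' : ColS Φ ε (finB Φ ε A (fun i => (z i).1) fun i => (z i).2.1)
      (finZ Φ ε A fun i => (z i).2.1) u v s)
    (r1 : x ≠ u) (r2 : x ≠ v) (r3 : y ≠ u) (r4 : y ≠ v)
    (hc : Ctc ε (pairLine Φ ε (finZ Φ ε A (fun i => (z i).2.1) x,
          finZ Φ ε A (fun i => (z i).2.1) y) s).1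
      (pairLine Φ ε (finZ Φ ε A (fun i => (z i).2.1) u,
          finZ Φ ε A (fun i => (z i).2.1) v) s).1)
    (nx : NotDr (A ++ B) x) (ny : NotDr (A ++ B) y) (nu : NotDr (A ++ B) u)
    (nv : NotDr (A ++ B) v)
    (ux : UseLe A x (hitT ε (finZ Φ ε A (fun i => (z i).2.1) x,
      finZ Φ ε A (fun i => (z i).2.1) y)))
    (uy : UseLe A y (hitT ε (finZ Φ ε A (fun i => (z i).2.1) x,
      finZ Φ ε A (fun i => (z i).2.1) y)))
    (uu : UseLe A u (hitT ε (finZ Φ ε A (fun i => (z i).2.1) u,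
      finZ Φ ε A (fun i => (z i).2.1) v)))
    (uv : UseLe A v (hitT ε (finZ Φ ε A (fun i => (z i).2.1) u,
      finZ Φ ε A (fun i => (z i).2.1) v)))
    (vx : NoUse B x) (vy : NoUse B y) (vu : NoUse B u) (vv : NoUse B v) :
    SBad (quads Φ t N c₀) ε S l w := by
  rcases le_total (hitT ε (finZ Φ ε A (fun i => (z i).2.1) u, finZ Φ ε A (fun i => (z i).2.1) v))
    (hitT ε (finZ Φ ε A (fun i => (z i).2.1) x, finZ Φ ε A (fun i => (z i).2.1) y)) with hle | hle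
  · obtain ⟨P₁, P₂, P₃, P₄, h1, h2, h3⟩ := quad_mem hΦ hε hβ hr hw hst hA hB hcol hcol' hle
      r1.symm r3.symm r2.symm r4.symm hc nx ny nu nv ux uy uu uv vx vy vu vv
    exact sbad_of_quad hn hM hz (Or.inr rfl) hR hRc hRl h1 h2 h3
  · obtain ⟨P₁, P₂, P₃, P₄, h1, h2, h3⟩ := quad_mem hΦ hε hβ hr hw hst hA hB hcol' hcol hle
      r1 r2 r3 r4 hc.symm nu nv nx ny uu uv ux uy vu vv vx vy
    exact sbad_of_quad hn hM hz (Or.inl rfl) hR hRc hRl h1 h2 h3

end SB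

end Vale.Agent.P119.IND
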