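import Vale.Agent.P119.IND.IrrInv
import Vale.Agent.P119.IND.TriMass

/-!
# P119, block IND: the finite sets of the relations of the irregular contacts (`helper350`)

* `relTri`, `relQuad`: the relations of `helper76` on the states; measurability, invariance;
* `Rln.small_of_loc`: a relation whose localised masses tend to zero is small;
* `tris`, `quads`: the finite sets of these relations; `tris_finite`, `quads_finite`;
* `irrs hΦ T N c₀`: the finite set of all irregular contacts; **`IrrO.sbad`**: a labelled program with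
  an irregular contact satisfies one of its relations.
-/

open MeasureTheory Filter Topology Set
open scoped ENNReal

set_option linter.unusedSectionVars false

noncomputable section

namespace Vale.Agent.P119.IND

open KU FL M M.CTree TL GC MM AU PB.CT

variable {Φ : E3 → ℝ} {ε T t : ℝ}

/-! ### The relations on the states -/

/-- The relation of the contacts `tri` and `trip`. -/
def relTri (hΦ : IsPotential Φ) (ε T : ℝ) {n : ℕ} (P₁ P₂ P₃ : List (Ev (Fin n)))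
    (a k i : Fin n) : Set (Fin n → ℝ × Ph) :=
  {y | (fun j => (y j).2) ∈ triR hΦ ε T P₁ P₂ P₃ a k i fun j => (y j).1}

/-- The relation of the contacts `quad`. -/
def relQuad (Φ : E3 → ℝ) (ε T : ℝ) {n : ℕ} (P₁ P₂ P₃ P₄ : List (Ev (Fin n)))
    (i w a k : Fin n) : Set (Fin n → ℝ × Ph) :=
  {y | (fun j => (y j).2) ∈ quadR Φ ε T P₁ P₂ P₃ P₄ i w a k fun j => (y j).1}

theorem measurable_births {n : ℕ} : Measurable fun (y : Fin n → ℝ × Ph) (j : Fin n) => (y j).1 :=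
  measurable_pi_iff.2 fun j => (measurable_pi_apply j).fst

theorem measurable_lines {n : ℕ} : Measurable fun (y : Fin n → ℝ × Ph) (j : Fin n) => (y j).2 :=
  measurable_pi_iff.2 fun j => (measurable_pi_apply j).snd

theorem measurableSet_relTri (hΦ : IsPotential Φ) (hε : ε ≠ 0) {n : ℕ}
    (P₁ P₂ P₃ : List (Ev (Fin n))) (a k i : Fin n) :
    MeasurableSet (relTri hΦ ε T P₁ P₂ P₃ a k i) :=
  measurableSet_triR hΦ hε P₁ P₂ P₃ a k i measurable_births measurable_lines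

theorem measurableSet_relQuad (hΦ : IsPotential Φ) (hε : ε ≠ 0) {n : ℕ}
    (P₁ P₂ P₃ P₄ : List (Ev (Fin n))) (i w a k : Fin n) :
    MeasurableSet (relQuad Φ ε T P₁ P₂ P₃ P₄ i w a k) :=
  measurableSet_quadR hΦ hε P₁ P₂ P₃ P₄ i w a k measurable_births measurable_lines

/-! ### Small relations -/

/-- The smallest constant of `MassR`. -/
def mR (f₀ : Ph → ℝ) (ε b c : ℝ) {n : ℕ} (R : Set (Fin n → ℝ × Ph)) (Rs : Finset (Fin n)) :
    ℝ≥0∞ :=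
  ⨅ δ : {δ : ℝ≥0∞ // MassR f₀ ε b c R Rs δ}, δ.1

theorem massR_mR (f₀ : Ph → ℝ) (ε b c : ℝ) {n : ℕ} (R : Set (Fin n → ℝ × Ph))
    (Rs : Finset (Fin n)) : MassR f₀ ε b c R Rs (mR f₀ ε b c R Rs) := by
  intro β hβ
  exact le_iInf fun δ => δ.2 β hβ

theorem mR_le {f₀ : Ph → ℝ} {ε b c : ℝ} {n : ℕ} {R : Set (Fin n → ℝ × Ph)}
    {Rs : Finset (Fin n)} {δ : ℝ≥0∞} (h : MassR f₀ ε b c R Rs δ) : mR f₀ ε b c R Rs ≤ δ :=
  iInf_le (fun δ : {δ : ℝ≥0∞ // MassR f₀ ε b c R Rs δ} => δ.1) ⟨δ, h⟩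

/-- **From localised masses which tend to zero.** -/
theorem Rln.small_of_loc {f₀ : Ph → ℝ} {b c M₁ : ℝ} (hf : Measurable f₀) (hM₁ : 0 ≤ M₁)
    (hmarg : ∀ v, ∫⁻ x, ENNReal.ofReal (f₀ (x, v)) ≤ ENNReal.ofReal (M₁ * Real.exp (-b * ‖v‖ ^ 2)))
    {c₀ : ℕ} {r : Rln} (hm : ∀ ε : ℝ, 0 < ε → MeasurableSet (r.R ε)) (hc : r.Rs.card ≤ c₀)
    {P : List (Ev (Fin r.n) × ℝ)} (hRs : Trv P r.Rs)
    (hinv : ∀ ε : ℝ, 0 < ε → ∀ i ∈ r.Rs, ∀ (β : Fin r.n → ℝ) (a : E3) (Z : Fin r.n → Ph),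
      (fun j => (β j, mv (cls P i) ((a, 0) : Ph) Z j)) ∈ r.R ε ↔ (fun j => (β j, Z j)) ∈ r.R ε)
    (h : ∀ δ : ℝ≥0∞, δ ≠ 0 → ∀ᶠ ε : ℝ in 𝓝[>] 0, ∀ β : Fin r.n → ℝ, (∀ i, 0 ≤ β i) →
      massF (b - c) r.Rs (({Z : Fin r.n → Ph | (fun j => (β j, Z j)) ∈ r.R ε}).indicator 1) ≤
        δ * ENNReal.ofReal (ε ^ 2) ^ (r.n - r.Rs.card)) :
    r.Small f₀ b c c₀ := by
  refine Rln.small_of hm hc (δ := fun ε => mR f₀ ε b c (r.R ε) r.Rs) ?_
    fun ε _ _ => massR_mR f₀ ε b c (r.R ε) r.Rs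
  rw [ENNReal.tendsto_nhds_zero]
  intro δ hδ
  set K : ℝ≥0∞ := (ENNReal.ofReal M₁ * ω₃⁻¹) ^ r.Rs.card with hK
  have hKt : K + 1 ≠ ∞ := by
    refine ENNReal.add_ne_top.2 ⟨ENNReal.pow_ne_top (ENNReal.mul_ne_top ENNReal.ofReal_ne_top
      (ENNReal.inv_ne_top.2 ω₃_ne_zero)), ENNReal.one_ne_top⟩
  have h2 : ∀ᶠ ε : ℝ in 𝓝[>] 0, 0 < ε := eventually_mem_nhdsWithin
  filter_upwards [h2, h (δ / (K + 1)) (ENNReal.div_pos hδ.ne' hKt).ne'] with ε hε h1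
  have h3 : MassR f₀ ε b c (r.R ε) r.Rs (K * (δ / (K + 1))) := by
    refine massR_of_loc hf hM₁ hmarg hε hRs (hm ε hε) (hinv ε hε) fun β hβ => ?_
    refine (h1 β hβ).trans (le_of_eq (mul_comm _ _))
  refine (mR_le h3).trans ?_
  calc K * (δ / (K + 1)) ≤ (K + 1) * (δ / (K + 1)) := mul_le_mul_left le_self_add _
    _ ≤ δ := ENNReal.mul_div_le

/-! ### Classes -/

theorem trv_of_joined {ι : Type} [DecidableEq ι] {P Q : List (Ev ι × ℝ)} {R : Finset ι}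
    (h1 : ∀ p ∈ edges P, Edg.Joined (edges Q) p.1 p.2)
    (h2 : ∀ p ∈ edges Q, Edg.Joined (edges P) p.1 p.2) (hR : Trv P R) : Trv Q R :=
  hR.congr fun _ _ => ⟨fun h => jn_iff_joined.2 ((jn_iff_joined.1 h).of_edges h1),
    fun h => jn_iff_joined.2 ((jn_iff_joined.1 h).of_edges h2)⟩

section Ed

variable {ι : Type} [DecidableEq ι]

/-- The edges of a list of events. -/
def ed (P : List (Ev ι)) : List (ι × ι) := P.map fun e => (e.fst, e.snd)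

theorem mem_ed_append {P Q : List (Ev ι)} {p : ι × ι} : p ∈ ed (P ++ Q) ↔ p ∈ ed P ∨ p ∈ ed Q := by
  unfold ed
  rw [List.map_append, List.mem_append]

theorem mem_ed_cons {e : Ev ι} {P : List (Ev ι)} {p : ι × ι} :
    p ∈ ed (e :: P) ↔ p = (e.fst, e.snd) ∨ p ∈ ed P := by
  unfold ed
  rw [List.map_cons, List.mem_cons]

theorem edges_pl_eq (T : ℝ) (P : List (Ev ι)) : edges (pl T P) = ed P := by
  unfold edges pl ed
  rw [List.map_map]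
  rfl

theorem mem_edges_evs {P : List (Ev ι)} {es : List (ι × ι)} {p : ι × ι} :
    p ∈ edges (pl T (P ++ evs es)) ↔ p ∈ ed P ∨ p ∈ es := by
  rw [edges_pl_eq, mem_ed_append]
  refine or_congr_right ?_
  unfold ed evs
  rw [List.map_map]
  have e1 : ((fun e : Ev ι => (e.fst, e.snd)) ∘ fun p : ι × ι => Ev.gh p.1 p.2) = id := rfl
  rw [e1, List.map_id]

theorem mem_edges_tri {P₁ P₂ P₃ : List (Ev ι)} {a k i : ι} {p : ι × ι} :
    p ∈ edges (pl T (P₁ ++ Ev.gh a k :: (P₂ ++ P₃)) ++ [(Ev.gh a i, T)]) ↔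
      p ∈ ed (P₁ ++ (P₂ ++ P₃)) ∨ p = (a, k) ∨ p = (a, i) := by
  have e1 : edges (pl T (P₁ ++ Ev.gh a k :: (P₂ ++ P₃)) ++ [(Ev.gh a i, T)]) =
      ed (P₁ ++ Ev.gh a k :: (P₂ ++ P₃)) ++ [(a, i)] := by
    rw [edges_append, edges_pl_eq]
    rfl
  rw [e1, List.mem_append, List.mem_singleton]
  simp only [mem_ed_append, mem_ed_cons, Ev.fst, Ev.snd]
  tauto

theorem mem_edges_quad {P₁ P₂ P₃ P₄ : List (Ev ι)} {i w a k : ι} {p : ι × ι} :
    p ∈ edges (pl T (P₁ ++ Ev.gh i w :: (P₂ ++ Ev.gh a k :: (P₃ ++ P₄))) ++ [(Ev.gh a i, T)]) ↔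
      p ∈ ed (P₁ ++ (P₂ ++ (P₃ ++ P₄))) ∨ p = (i, w) ∨ p = (a, k) ∨ p = (a, i) := by
  have e1 : edges (pl T (P₁ ++ Ev.gh i w :: (P₂ ++ Ev.gh a k :: (P₃ ++ P₄))) ++
      [(Ev.gh a i, T)]) = ed (P₁ ++ Ev.gh i w :: (P₂ ++ Ev.gh a k :: (P₃ ++ P₄))) ++ [(a, i)] := by
    rw [edges_append, edges_pl_eq]
    rfl
  rw [e1, List.mem_append, List.mem_singleton]
  simp only [mem_ed_append, mem_ed_cons, Ev.fst, Ev.snd]
  tauto

end Ed

/-! ### The finite sets -/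

/-- The relations of the contacts `tri` and `trip`. -/
def tris (hΦ : IsPotential Φ) (T : ℝ) (N c₀ : ℕ) : Set Rln :=
  {r | ∃ n ≤ N, ∃ (P₁ P₂ P₃ : List (Ev (Fin n))) (a k i : Fin n) (Rs : Finset (Fin n)),
    (P₁ ++ (P₂ ++ P₃)).length ≤ N ∧
    Trv (pl T (P₁ ++ Ev.gh a k :: (P₂ ++ P₃)) ++ [(Ev.gh a i, T)]) Rs ∧ Rs.card ≤ c₀ ∧
    TriOK T P₁ P₂ P₃ a k i ∧ r = ⟨n, fun ε => relTri hΦ ε T P₁ P₂ P₃ a k i, Rs⟩}

/-- The relations of the contacts `quad`. -/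
def quads (Φ : E3 → ℝ) (T : ℝ) (N c₀ : ℕ) : Set Rln :=
  {r | ∃ n ≤ N, ∃ (P₁ P₂ P₃ P₄ : List (Ev (Fin n))) (i w a k : Fin n) (Rs : Finset (Fin n)),
    (P₁ ++ (P₂ ++ (P₃ ++ P₄))).length ≤ N ∧
    Trv (pl T (P₁ ++ Ev.gh i w :: (P₂ ++ Ev.gh a k :: (P₃ ++ P₄))) ++ [(Ev.gh a i, T)]) Rs ∧
    Rs.card ≤ c₀ ∧ QuadOK T P₁ P₂ P₃ P₄ i w a k ∧
    r = ⟨n, fun ε => relQuad Φ ε T P₁ P₂ P₃ P₄ i w a k, Rs⟩}

theorem tris_finite (hΦ : IsPotential Φ) (T : ℝ) (N c₀ : ℕ) : (tris hΦ T N c₀).Finite := by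
  have h1 : ∀ n : Fin (N + 1), (({P : List (Ev (Fin n)) | P.length ≤ N} ×ˢ
      ({P : List (Ev (Fin n)) | P.length ≤ N} ×ˢ {P : List (Ev (Fin n)) | P.length ≤ N})) ×ˢ
      (Set.univ : Set (Fin n × Fin n × Fin n × Finset (Fin n)))).Finite := fun n =>
    ((List.finite_length_le (Ev (Fin n)) N).prod ((List.finite_length_le (Ev (Fin n)) N).prod
      (List.finite_length_le (Ev (Fin n)) N))).prod Set.finite_univ
  have h2 : (⋃ n : Fin (N + 1), (fun x : (List (Ev (Fin n)) × List (Ev (Fin n)) ×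
      List (Ev (Fin n))) × (Fin n × Fin n × Fin n × Finset (Fin n)) =>
      (⟨n, fun ε => relTri hΦ ε T x.1.1 x.1.2.1 x.1.2.2 x.2.1 x.2.2.1 x.2.2.2.1, x.2.2.2.2⟩ :
        Rln)) '' (({P : List (Ev (Fin n)) | P.length ≤ N} ×ˢ
      ({P : List (Ev (Fin n)) | P.length ≤ N} ×ˢ {P : List (Ev (Fin n)) | P.length ≤ N})) ×ˢ
      (Set.univ : Set (Fin n × Fin n × Fin n × Finset (Fin n))))).Finite :=
    Set.finite_iUnion fun n => (h1 n).image _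
  refine h2.subset ?_
  rintro r ⟨n, hn, P₁, P₂, P₃, a, k, i, Rs, h3, -, -, -, rfl⟩
  rw [List.length_append, List.length_append] at h3
  exact mem_iUnion.2 ⟨⟨n, Nat.lt_succ_of_le hn⟩, ((P₁, P₂, P₃), (a, k, i, Rs)),
    ⟨⟨show P₁.length ≤ N by omega, show P₂.length ≤ N by omega, show P₃.length ≤ N by omega⟩,
      mem_univ _⟩, rfl⟩

theorem quads_finite (Φ : E3 → ℝ) (T : ℝ) (N c₀ : ℕ) : (quads Φ T N c₀).Finite := by
  have h1 : ∀ n : Fin (N + 1), (({P : List (Ev (Fin n)) | P.length ≤ N} ×ˢ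
      ({P : List (Ev (Fin n)) | P.length ≤ N} ×ˢ ({P : List (Ev (Fin n)) | P.length ≤ N} ×ˢ
      {P : List (Ev (Fin n)) | P.length ≤ N}))) ×ˢ
      (Set.univ : Set (Fin n × Fin n × Fin n × Fin n × Finset (Fin n)))).Finite := fun n =>
    ((List.finite_length_le (Ev (Fin n)) N).prod ((List.finite_length_le (Ev (Fin n)) N).prod
      ((List.finite_length_le (Ev (Fin n)) N).prod
      (List.finite_length_le (Ev (Fin n)) N)))).prod Set.finite_univ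
  have h2 : (⋃ n : Fin (N + 1), (fun x : (List (Ev (Fin n)) × List (Ev (Fin n)) ×
      List (Ev (Fin n)) × List (Ev (Fin n))) × (Fin n × Fin n × Fin n × Fin n × Finset (Fin n)) =>
      (⟨n, fun ε => relQuad Φ ε T x.1.1 x.1.2.1 x.1.2.2.1 x.1.2.2.2 x.2.1 x.2.2.1 x.2.2.2.1
        x.2.2.2.2.1, x.2.2.2.2.2⟩ : Rln)) '' (({P : List (Ev (Fin n)) | P.length ≤ N} ×ˢ
      ({P : List (Ev (Fin n)) | P.length ≤ N} ×ˢ ({P : List (Ev (Fin n)) | P.length ≤ N} ×ˢ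
      {P : List (Ev (Fin n)) | P.length ≤ N}))) ×ˢ
      (Set.univ : Set (Fin n × Fin n × Fin n × Fin n × Finset (Fin n))))).Finite :=
    Set.finite_iUnion fun n => (h1 n).image _
  refine h2.subset ?_
  rintro r ⟨n, hn, P₁, P₂, P₃, P₄, i, w, a, k, Rs, h3, -, -, -, rfl⟩
  rw [List.length_append, List.length_append, List.length_append] at h3
  exact mem_iUnion.2 ⟨⟨n, Nat.lt_succ_of_le hn⟩, ((P₁, P₂, P₃, P₄), (i, w, a, k, Rs)),
    ⟨⟨show P₁.length ≤ N by omega, show P₂.length ≤ N by omega, show P₃.length ≤ N by omega,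
      show P₄.length ≤ N by omega⟩, mem_univ _⟩, rfl⟩

end Vale.Agent.P119.IND
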