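import Vale.Agent.P119.IND.IrrX

/-!
# P119, block IND: irregular contacts and transversal sets (`helper350`)

* `TrvE E R`: `R` is transversal to the classes of the edges `E`; `exists_trvE`: there is one inside
  any set of labels which meets all the classes;
* `IrrX.append`: additional collisions after the contact;
* `IrrO.of_irrP`: from the irregular final contacts of `helper810`, with a tail of collisions.
-/

open MeasureTheory Filter Topology Set
open scoped ENNReal

set_option linter.unusedSectionVars false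

noncomputable section

namespace Vale.Agent.P119.IND

open KU FL M M.CTree TL GC MM AU PB.CT

variable {Φ : E3 → ℝ} {ε T T' t : ℝ} {ι : Type} [DecidableEq ι]

/-! ### Transversal sets -/

/-- `R` contains exactly one label of every class of the edges `E`. -/
structure TrvE (E : List (ι × ι)) (R : Finset ι) : Prop where
  cov : ∀ i, ∃ r ∈ R, Edg.Joined E i r
  uni : ∀ r ∈ R, ∀ r' ∈ R, Edg.Joined E r r' → r = r'

theorem TrvE.trv {M : List (Ev ι × ℝ)} {es : List (ι × ι)} {R : Finset ι}
    (h : TrvE (edges M ++ es) R) (t : ℝ) : Trv (pl t (M.map Prod.fst ++ evs es)) R :=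
  ⟨fun i => by
    obtain ⟨r, h1, h2⟩ := h.cov i
    exact ⟨r, h1, jn_evs.2 h2⟩, fun r h1 r' h2 h3 => h.uni r h1 r' h2 (jn_evs.1 h3)⟩

theorem edges_pl_fst (t : ℝ) (M : List (Ev ι × ℝ)) : edges (pl t (M.map Prod.fst)) = edges M := by
  unfold edges pl
  rw [List.map_map, List.map_map]
  rfl

theorem TrvE.trv_nil {M : List (Ev ι × ℝ)} {R : Finset ι}
    (h : TrvE (edges M) R) (t : ℝ) : Trv (pl t (M.map Prod.fst)) R :=
  ⟨fun i => by
    obtain ⟨r, h1, h2⟩ := h.cov i
    exact ⟨r, h1, by rw [jn_iff_joined, edges_pl_fst]; exact h2⟩,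
    fun r h1 r' h2 h3 => h.uni r h1 r' h2 (by rwa [jn_iff_joined, edges_pl_fst] at h3)⟩

/-- **A transversal set inside any set which meets all the classes.** -/
theorem exists_trvE {E : List (ι × ι)} (X : Finset ι) (h : ∀ i, ∃ x ∈ X, Edg.Joined E i x) :
    ∃ R ⊆ X, TrvE E R := by
  induction hn : X.card using Nat.strong_induction_on generalizing X with
  | _ n ih =>
    by_cases hu : ∀ r ∈ X, ∀ r' ∈ X, Edg.Joined E r r' → r = r'
    · exact ⟨X, subset_rfl, h, hu⟩
    · push Not at hu
      obtain ⟨r, hr, r', hr', hJ, hne⟩ := hu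
      obtain ⟨R, hR, hT⟩ := ih (X.erase r).card (by
        rw [← hn]
        exact Finset.card_erase_lt_of_mem hr) (X.erase r) (fun i => by
        obtain ⟨x, hx, hJx⟩ := h i
        by_cases hxr : x = r
        · subst hxr
          exact ⟨r', Finset.mem_erase.2 ⟨hne.symm, hr'⟩, hJx.trans hJ⟩
        · exact ⟨x, Finset.mem_erase.2 ⟨hxr, hx⟩, hJx⟩) rfl
      exact ⟨R, hR.trans (Finset.erase_subset _ _), hT⟩

/-! ### Collisions after the contact -/

theorem NoUse.append {A B : List (Ev ι × ℝ)} {j : ι} (h1 : NoUse A j) (h2 : NoUse B j) :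
    NoUse (A ++ B) j := by
  intro e he
  rcases List.mem_append.1 he with h | h
  · exact h1 e h
  · exact h2 e h

theorem NotDr.append_sc {A B : List (Ev ι × ℝ)} {j : ι} (h1 : NotDr A j)
    (h2 : ∀ e ∈ B, ∃ i k, e.1 = Ev.sc i k) : NotDr (A ++ B) j := by
  intro e he i k hik
  rcases List.mem_append.1 he with h | h
  · exact h1 e h i k hik
  · obtain ⟨a, b, hab⟩ := h2 e h
    rw [hab] at hik
    exact absurd hik (by simp)

/-- **Additional collisions after the contact**: they do not use the labels of the contact, except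
the flying third label. -/
theorem IrrX.append {A B B' : List (Ev ι × ℝ)} {β : ι → ℝ} {Z : ι → Ph} {s : ℝ}
    {es : List (ι × ι)} (h : IrrX Φ ε A B β Z s es) (hsc : ∀ e ∈ B', ∃ i k, e.1 = Ev.sc i k)
    (hB' : (∀ p ∈ es, NoUse B' p.1 ∧ NoUse B' p.2) ∨
      ∃ x y a C, es = [(x, y), (a, C)] ∧ NoUse B' x ∧ NoUse B' y) :
    IrrX Φ ε A (B ++ B') β Z s es := by
  have hn : ∀ {j : ι}, NotDr (A ++ B) j → NotDr (A ++ (B ++ B')) j := by
    intro j h1
    rw [← List.append_assoc]
    exact h1.append_sc hsc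
  cases h with
  | tri x y C hcol hCx hCy bC hc nx ny nC ux uy vx vy =>
    have key : NoUse B' x ∧ NoUse B' y := by
      rcases hB' with h1 | ⟨x', y', a, C', h1, h2⟩
      · exact h1 (x, y) (by simp)
      · simp only [List.cons.injEq, Prod.mk.injEq] at h1
        obtain ⟨⟨rfl, rfl⟩, -⟩ := h1
        exact h2
    exact .tri x y C hcol hCx hCy bC hc (hn nx) (hn ny) (hn nC) ux uy (vx.append key.1)
      (vy.append key.2)
  | quad x y u v hcol hcol' r1 r2 r3 r4 hc nx ny nu nv ux uy uu uv vx vy vu vv =>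
    have key : (NoUse B' x ∧ NoUse B' y) ∧ NoUse B' u ∧ NoUse B' v := by
      rcases hB' with h1 | ⟨x', y', a, C', h1, -⟩
      · exact ⟨h1 (x, y) (by simp), h1 (u, v) (by simp)⟩
      · simp at h1
    exact .quad x y u v hcol hcol' r1 r2 r3 r4 hc (hn nx) (hn ny) (hn nu) (hn nv) ux uy uu uv
      (vx.append key.1.1) (vy.append key.1.2) (vu.append key.2.1) (vv.append key.2.2)
  | trip x y C hxy hCx hCy bx by' bC hm hh hc nx ny nC vx vy =>
    have key : NoUse B' x ∧ NoUse B' y := by
      rcases hB' with h1 | ⟨x', y', a, C', h1, h2⟩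
      · exact h1 (x, y) (by simp)
      · simp only [List.cons.injEq, Prod.mk.injEq] at h1
        obtain ⟨⟨rfl, rfl⟩, -⟩ := h1
        exact h2
    exact .trip x y C hxy hCx hCy bx by' bC hm hh hc (hn nx) (hn ny) (hn nC) (vx.append key.1)
      (vy.append key.2)
  | two i k hik bi bk hc hI ni nk vi vk =>
    have key : NoUse B' i ∧ NoUse B' k := by
      rcases hB' with h1 | ⟨x', y', a, C', h1, -⟩
      · exact h1 (i, k) (by simp)
      · simp at h1
    exact .two i k hik bi bk hc hI (hn ni) (hn nk) (vi.append key.1) (vk.append key.2)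

variable {m q c₀ N : ℕ} {S : Fin m → CTree} {l : Fin q → Src} {w : Finset Ph}

/-- **Irregular final contacts of `M`, with a tail `B'` of collisions.** -/
theorem IrrO.of_irrP [Fintype ι] (hΦ : IsPotential Φ) (hε : 0 < ε) (hι : Fintype.card ι ≤ N)
    {z : ι → Src} {M B' : List (Ev ι × ℝ)} {s : ℝ} {es : List (ι × ι)} {Rs : Finset ι}
    (hM : (M ++ B').length ≤ N) (hz : LabT S l w z)
    (hR : TrvE (edges (M ++ B') ++ es) Rs) (hRc : Rs.card ≤ c₀)
    (hRl : ∀ i ∈ Rs, z i ∉ range l) (hb : ∀ i, 0 ≤ (z i).1) (hw : Wf (M ++ B'))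
    (hr : RunT Φ ε t 0 (M ++ B') (fun i => (z i).1) (fun i => (z i).2.1))
    (hst : s ≤ t) (hB : ∀ e ∈ B', s ≤ e.2) (hsc : ∀ e ∈ B', ∃ i k, e.1 = Ev.sc i k)
    (hB' : (∀ p ∈ es, NoUse B' p.1 ∧ NoUse B' p.2) ∨
      ∃ x y a C, es = [(x, y), (a, C)] ∧ NoUse B' x ∧ NoUse B' y)
    (h : IrrP Φ ε M (fun i => (z i).1) (fun i => (z i).2.1) s es) :
    IrrO Φ ε t c₀ N S l w := by
  have hrM := hr.left
  obtain ⟨A, B, hAB, h4, h5⟩ := hrM.exists_split s
  subst hAB
  have h6 := (h.split h5).append hsc hB'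
  obtain ⟨j, hj⟩ := h6.exists_birth
  have h7 := (hrM.left).le_finB hΦ hε j
  rw [List.append_assoc] at hM hR hw hr
  refine IrrO.of_fintype hι hM hz (hR.trv t) hRc hRl hb hw hr ((hb j).trans (h7.trans hj)) hst h4
    (fun e he => ?_) h6
  rcases List.mem_append.1 he with he | he
  · exact (h5 e he).le
  · exact hB e he

end Vale.Agent.P119.IND
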