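import Vale.Agent.P119.IND.MLaw

/-!
# P119, block IND: negligible kernels of marked pairs (`helper909`)

* `KNeg hΦ f₀ b c m q L N T₀ K`: the kernel `K` is negligible under the laws of the marked pairs over
  `m` trees and `q` lines, for the times up to `T₀`;
* `X1.kneg`: the exceptional terms of the second events are negligible;
* `KNeg.mono`, `KNeg.add`, `KNeg.const_mul`, `KNeg.finset_sum`.
-/

open MeasureTheory Filter Topology Set
open scoped ENNReal NNReal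

noncomputable section

namespace Vale.Agent.P119.IND

open KU FL M M.CTree TL GC MM AU PB.CT

/-- Kernels of two sources, depending on the small parameter and on the time. -/
abbrev Ker := ∀ ε : ℝ, 0 < ε → ℝ → Src → Src → ℝ≥0∞

/-- **The kernel `K` is negligible** under the laws of the marked pairs over `m` trees and `q` lines. -/
def KNeg (Φ : E3 → ℝ) (f₀ : Ph → ℝ) (b c : ℝ) (m q L N : ℕ) (T₀ : ℝ) (K : Ker) : Prop :=
  ∃ Dl : ℝ → ℝ≥0∞, Tendsto Dl (𝓝[>] 0) (𝓝 0) ∧ ∀ (ε : ℝ) (hε : 0 < ε), ε ≤ 1 →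
    ∀ t ∈ Icc 0 T₀, ∀ (s : Fin q → ℝ) (dl : Fin q → ℕ)
      (W : (Fin m → CTree) → (Fin q → Ph) → ℝ≥0∞) (e k : (Fin m → CTree) → (Fin q → Ph) → Src)
      (CW : ℝ≥0∞), CW ≠ ∞ → MLaw Φ ε t c L N s dl W e k CW →
      muE ε ^ q * ∫⁻ T, ∫⁻ l : Fin q → Ph, (∏ j, g1 b (l j).2) * (W T l *
        K ε hε t (e T l) (k T l)) ∂volume
        ∂(Measure.pi fun _ : Fin m => tree (inten f₀ ε) L) ≤ CW * (muE ε * Dl ε)

variable {Φ : E3 → ℝ} {hΦ : IsPotential Φ} {f₀ : Ph → ℝ} {b c T₀ η θ κ : ℝ} {m q L N : ℕ}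
  {K K' : Ker}

/-- The exceptional terms of the second events are negligible. -/
theorem X1.kneg (h : X1 hΦ f₀ b c) (hm : 0 < m) (hT : 0 ≤ T₀) (hη : 0 < η) (hθ : 0 < θ) :
    KNeg Φ f₀ b c m q L N T₀ fun _ hε t e k => PB.exc6 L hΦ hε f₀ η θ t e k :=
  h m q L N T₀ η θ hm hT hη hθ

theorem KNeg.mono (h : KNeg Φ f₀ b c m q L N T₀ K)
    (hK : ∀ ε hε t e k, K' ε hε t e k ≤ K ε hε t e k) : KNeg Φ f₀ b c m q L N T₀ K' := by
  obtain ⟨Dl, h0, h1⟩ := h
  refine ⟨Dl, h0, fun ε hε hε1 t ht s dl W e k CW hCW hW =>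
    le_trans (mul_le_mul_right ?_ _) (h1 ε hε hε1 t ht s dl W e k CW hCW hW)⟩
  exact lintegral_mono fun T => lintegral_mono fun l =>
    mul_le_mul_right (mul_le_mul_right (hK _ _ _ _ _) _) _

theorem KNeg.const_mul (h : KNeg Φ f₀ b c m q L N T₀ K) {C : ℝ≥0∞} (hC : C ≠ ∞) :
    KNeg Φ f₀ b c m q L N T₀ fun ε hε t e k => C * K ε hε t e k := by
  obtain ⟨Dl, h0, h1⟩ := h
  refine ⟨fun ε => C * Dl ε, ?_, fun ε hε hε1 t ht s dl W e k CW hCW hW => ?_⟩
  · have := ENNReal.Tendsto.const_mul h0 (Or.inr hC) (a := C)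
    rwa [mul_zero] at this
  · have h2 := mul_le_mul_right (h1 ε hε hε1 t ht s dl W e k CW hCW hW) C
    have e1 : C * (muE ε ^ q * ∫⁻ T, ∫⁻ l : Fin q → Ph, (∏ j, g1 b (l j).2) * (W T l *
        K ε hε t (e T l) (k T l)) ∂volume ∂(Measure.pi fun _ : Fin m => tree (inten f₀ ε) L)) =
        muE ε ^ q * ∫⁻ T, ∫⁻ l : Fin q → Ph, (∏ j, g1 b (l j).2) * (W T l *
        (C * K ε hε t (e T l) (k T l))) ∂volume
        ∂(Measure.pi fun _ : Fin m => tree (inten f₀ ε) L) := by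
      rw [mul_left_comm, ← lintegral_const_mul' _ _ hC]
      congr 1
      refine lintegral_congr fun T => ?_
      rw [← lintegral_const_mul' _ _ hC]
      exact lintegral_congr fun l => by ring
    rw [e1] at h2
    refine h2.trans (le_of_eq ?_)
    ring

theorem lintegral_add_two {α β : Type*} [MeasurableSpace α] [MeasurableSpace β] {μ : Measure α}
    {ν : Measure β} [SFinite ν] {A A' : α → β → ℝ≥0∞}
    (hA : Measurable fun p : α × β => A p.1 p.2) :
    ∫⁻ x, ∫⁻ y, (A x y + A' x y) ∂ν ∂μ =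
      (∫⁻ x, ∫⁻ y, A x y ∂ν ∂μ) + ∫⁻ x, ∫⁻ y, A' x y ∂ν ∂μ := by
  have h1 : Measurable fun x => ∫⁻ y, A x y ∂ν := hA.lintegral_prod_right'
  rw [← lintegral_add_left h1]
  refine lintegral_congr fun x => ?_
  have h2 : Measurable fun y => A x y := hA.comp measurable_prodMk_left
  exact lintegral_add_left h2 _

theorem KNeg.add (h : KNeg Φ f₀ b c m q L N T₀ K) (h' : KNeg Φ f₀ b c m q L N T₀ K')
    (hf : GoodDatum f₀ κ)
    (hK : ∀ ε hε t, Measurable fun p : Src × Src => K ε hε t p.1 p.2) :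
    KNeg Φ f₀ b c m q L N T₀ fun ε hε t e k => K ε hε t e k + K' ε hε t e k := by
  obtain ⟨Dl, h0, h1⟩ := h
  obtain ⟨Dl', h0', h1'⟩ := h'
  refine ⟨fun ε => Dl ε + Dl' ε, ?_, fun ε hε hε1 t ht s dl W e k CW hCW hW => ?_⟩
  · have := h0.add h0'
    rwa [add_zero] at this
  · have := GC.isFiniteMeasure_inten (ε := ε) hf
    have hm : Measurable fun p : (Fin m → CTree) × (Fin q → Ph) =>
        (∏ j, g1 b (p.2 j).2) * (W p.1 p.2 * K ε hε t (e p.1 p.2) (k p.1 p.2)) := by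
      refine Measurable.mul ?_ (hW.meas.mul ((hK ε hε t).comp (hW.meas_e.prodMk hW.meas_k)))
      refine Finset.measurable_prod _ fun j _ => ?_
      exact (measurable_g1 b).comp ((measurable_pi_apply j).comp measurable_snd)
    have e1 := lintegral_add_two (μ := Measure.pi fun _ : Fin m => tree (inten f₀ ε) L)
      (ν := (volume : Measure (Fin q → Ph))) (A := fun T l => (∏ j, g1 b (l j).2) * (W T l *
        K ε hε t (e T l) (k T l))) (A' := fun T l => (∏ j, g1 b (l j).2) * (W T l *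
        K' ε hε t (e T l) (k T l))) hm
    simp only [mul_add]
    rw [e1, mul_add]
    refine (add_le_add (h1 ε hε hε1 t ht s dl W e k CW hCW hW)
      (h1' ε hε hε1 t ht s dl W e k CW hCW hW)).trans (le_of_eq ?_)
    ring

end Vale.Agent.P119.IND
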