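import Vale.Agent.P119.IND.Mecke
import Vale.Agent.P119.AU.World
import Vale.Agent.P119.GC.Moments

/-!
# P119, block IND: from worlds to labels (`helper228`)

* `lintegral_pi_equiv`, `lintegral_pi_sum`: reindexing of product measures;
* `label_split`: an injective labelling which uses all the base labels is a base labelling together
  with an injective tuple of points of the configuration;
* `prob_labels_le`: the probability that some injective labelling (by base labels and by ordinary
  sources, all the base labels being used) satisfies `R` is at most the sum over the splittings of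
  the measure of `R`;
* `xmarg_le`: the density of the velocities of the datum is Gaussian.
-/

open MeasureTheory Filter Topology Set
open scoped ENNReal

noncomputable section

namespace Vale.Agent.P119.IND

open KU M CTree GC MM AU

/-! ### Reindexing of product measures -/

section reindex

variable {α : Type*} [MeasurableSpace α] {ι ι' : Type*} [Fintype ι] [Fintype ι']

theorem lintegral_pi_equiv (ν : Measure α) [SigmaFinite ν] (e : ι ≃ ι') (F : (ι' → α) → ℝ≥0∞) :
    ∫⁻ z, F z ∂(Measure.pi fun _ : ι' => ν) =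
      ∫⁻ z, F (z ∘ e.symm) ∂(Measure.pi fun _ : ι => ν) := by
  have h := measurePreserving_arrowCongr' (fun _ : ι => ν) (fun _ : ι' => ν) e
    (MeasurableEquiv.refl α) fun _ => MeasurePreserving.id _
  rw [← h.lintegral_comp_emb (MeasurableEquiv.measurableEmbedding _) F]
  rfl

theorem lintegral_pi_sum (ν : Measure α) [SigmaFinite ν] {F : (ι ⊕ ι' → α) → ℝ≥0∞}
    (hF : Measurable F) :
    ∫⁻ z, F z ∂(Measure.pi fun _ : ι ⊕ ι' => ν) =
      ∫⁻ x, ∫⁻ y, F (Sum.elim x y) ∂(Measure.pi fun _ : ι' => ν) ∂(Measure.pi fun _ : ι => ν) := by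
  have h := measurePreserving_sumPiEquivProdPi_symm (X := fun _ : ι ⊕ ι' => α)
    (μ := fun _ => ν)
  have h2 := h.lintegral_comp_emb (MeasurableEquiv.measurableEmbedding _) F
  rw [← h2, lintegral_prod]
  · refine lintegral_congr fun x => lintegral_congr fun y => ?_
    rfl
  · exact (hF.comp (MeasurableEquiv.measurable _)).aemeasurable

omit [Fintype ι] [Fintype ι'] in
theorem measurable_sum_elim {X : Type*} [MeasurableSpace X] {f : X → ι → α} {g : X → ι' → α}
    (hf : Measurable f) (hg : Measurable g) : Measurable fun x => Sum.elim (f x) (g x) := by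
  refine measurable_pi_iff.2 fun i => ?_
  rcases i with i | i
  · exact (measurable_pi_apply i).comp hf
  · exact (measurable_pi_apply i).comp hg

omit [Fintype ι] in
theorem measurable_comp_left {X κ : Type*} [MeasurableSpace X] {f : X → ι → α} (hf : Measurable f)
    (e : κ → ι) : Measurable fun x => f x ∘ e :=
  measurable_pi_iff.2 fun i => (measurable_pi_apply (e i)).comp hf

end reindex

/-! ### Splitting of labellings -/

/-- An injective labelling by base labels and by the images of the points of `V`, which uses all the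
base labels, is a base labelling together with an injective tuple of points of `V`. -/
theorem label_split {α β ι κ : Type*} [Fintype ι] [Fintype κ] {k : ℕ}
    (hk : Fintype.card ι = Fintype.card κ + k) {a : κ → α} {f : β → α} {V : Finset β}
    {z : ι → α} (ha : Function.Injective a) (hz : Function.Injective z)
    (h1 : ∀ i, z i ∈ range a ∨ ∃ y ∈ V, f y = z i) (h2 : ∀ j, a j ∈ range z) :
    ∃ e : ι ≃ κ ⊕ Fin k, ∃ y ∈ tup k V, z = Sum.elim a (f ∘ y) ∘ e := by
  classical
  choose g hg using h2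
  have hgi : Function.Injective g := fun j j' h => ha (by rw [← hg j, ← hg j', h])
  let e' : κ ⊕ Fin k ≃ ι := ((Equiv.ofInjective g hgi).sumCongr
    (Fintype.equivFinOfCardEq (α := ((range g)ᶜ : Set ι)) (by
      rw [Fintype.card_compl_set, ← Set.toFinset_card, Set.toFinset_range,
        Finset.card_image_of_injective _ hgi, Finset.card_univ, hk]
      omega)).symm).trans (Equiv.Set.sumCompl (range g))
  have hl : ∀ j, e' (Sum.inl j) = g j := fun j => by simp [e']
  have hr : ∀ j, e' (Sum.inr j) ∈ ((range g)ᶜ : Set ι) := fun j => by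
    simp only [e', Equiv.trans_apply, Equiv.sumCongr_apply, Sum.map_inr,
      Equiv.Set.sumCompl_apply_inr]
    exact Subtype.property _
  have h3 : ∀ j : Fin k, ∃ y ∈ V, f y = z (e' (Sum.inr j)) := by
    intro j
    rcases h1 (e' (Sum.inr j)) with ⟨j', hj'⟩ | h
    · exact absurd ⟨j', hz (by rw [hg, hj'])⟩ (hr j)
    · exact h
  choose y hy hfy using h3
  refine ⟨e'.symm, y, mem_tup.2 ⟨hy, fun j j' h => ?_⟩, ?_⟩
  · have h4 : z (e' (Sum.inr j)) = z (e' (Sum.inr j')) := by rw [← hfy, ← hfy, h]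
    have h5 := e'.injective (hz h4)
    exact Sum.inr_injective h5
  · funext i
    obtain ⟨i', rfl⟩ := e'.surjective i
    rw [Function.comp_apply, Equiv.symm_apply_apply]
    rcases i' with j | j
    · rw [hl, hg]; rfl
    · rw [← hfy]; rfl

/-- Labellings of the world `range a ∪ w` which use all the base labels `a`. -/
def Lab {ι κ : Type*} (a : κ → Src) (w : Finset Ph) (z : ι → Src) : Prop :=
  Function.Injective z ∧ (∀ i, z i ∈ range a ∨ z i ∈ wS w) ∧ ∀ j, a j ∈ range z

theorem Lab.split {ι κ : Type*} [Fintype ι] [Fintype κ] {k : ℕ}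
    (hk : Fintype.card ι = Fintype.card κ + k) {a : κ → Src} {w : Finset Ph} {z : ι → Src}
    (h : Lab a w z) (ha : Function.Injective a) :
    ∃ e : ι ≃ κ ⊕ Fin k, ∃ y ∈ tup k w, z = Sum.elim a (src ∘ y) ∘ e :=
  label_split hk ha h.1 (fun i => (h.2.1 i).imp id fun h => mem_wS.1 h) h.2.2

theorem Lab.card_le {ι κ : Type*} [Fintype ι] [Fintype κ] {a : κ → Src} {w : Finset Ph}
    {z : ι → Src} (h : Lab a w z) (ha : Function.Injective a) :
    Fintype.card κ ≤ Fintype.card ι := by
  choose g hg using h.2.2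
  exact Fintype.card_le_of_injective g fun j j' h' => ha (by rw [← hg j, ← hg j', h'])

variable {f₀ : Ph → ℝ} {κ₀ ε : ℝ}

theorem measurableSet_split {ι κ : Type*} [Fintype ι] [Fintype κ] {k : ℕ} {R : Set (ι → Src)}
    (hR : MeasurableSet R) (e : ι ≃ κ ⊕ Fin k) :
    MeasurableSet {p : (κ → Src) × (Fin k → Ph) | Sum.elim p.1 (src ∘ p.2) ∘ e ∈ R} := by
  refine (measurable_comp_left (measurable_sum_elim measurable_fst ?_) e) hR
  exact measurable_pi_iff.2 fun i => MM.measurable_src.comp
    ((measurable_pi_apply i).comp measurable_snd)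

/-- **Mecke for labels**: the probability that a labelling satisfies `R`. -/
theorem prob_labels_le (h : GoodDatum f₀ κ₀) (hε : 0 ≤ ε) {ι κ : Type*} [Fintype ι] [Fintype κ]
    [DecidableEq ι] [DecidableEq κ] {k : ℕ} (hk : Fintype.card ι = Fintype.card κ + k)
    {R : Set (ι → Src)}
    (hR : MeasurableSet R) {a : κ → Src} (ha : Function.Injective a) :
    (PP f₀ ε) {c | ∃ z ∈ R, Lab a (pts c) z} ≤
      ∑ e : ι ≃ κ ⊕ Fin k, (Measure.pi fun _ : Fin k => inten f₀ ε)
        {y | Sum.elim a (src ∘ y) ∘ e ∈ R} := by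
  classical
  have hRe : ∀ e : ι ≃ κ ⊕ Fin k, MeasurableSet {y : Fin k → Ph | Sum.elim a (src ∘ y) ∘ e ∈ R} :=
    fun e => (measurable_const.prodMk measurable_id) (measurableSet_split hR e)
  set G : Conf Ph → ℝ≥0∞ := fun c => ∑ e : ι ≃ κ ⊕ Fin k, ∑ y ∈ tup k (pts c),
    ({y : Fin k → Ph | Sum.elim a (src ∘ y) ∘ e ∈ R}).indicator (fun _ => (1 : ℝ≥0∞)) y with hG
  have h0 : ∀ e : ι ≃ κ ⊕ Fin k, Measurable fun p : (Fin k → Ph) × Conf Ph =>
      ({y : Fin k → Ph | Sum.elim a (src ∘ y) ∘ e ∈ R}).indicator (fun _ => (1 : ℝ≥0∞)) p.1 :=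
    fun e => (measurable_const.indicator (hRe e)).comp measurable_fst
  have h1 : ∀ e : ι ≃ κ ⊕ Fin k, ∫⁻ c, ∑ y ∈ tup k (pts c),
      ({y : Fin k → Ph | Sum.elim a (src ∘ y) ∘ e ∈ R}).indicator (fun _ => (1 : ℝ≥0∞)) y
        ∂(PP f₀ ε) ≤ (Measure.pi fun _ : Fin k => inten f₀ ε)
        {y | Sum.elim a (src ∘ y) ∘ e ∈ R} := by
    intro e
    have := isProbability_PP (ε := ε) h
    have h2 := gnz_PP_le (ε := ε) h hε k (F := fun y _ =>
      ({y : Fin k → Ph | Sum.elim a (src ∘ y) ∘ e ∈ R}).indicator (fun _ => (1 : ℝ≥0∞)) y) (h0 e)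
    refine h2.trans (le_of_eq ?_)
    simp only [lintegral_const, measure_univ, mul_one]
    rw [lintegral_indicator (hRe e), setLIntegral_one]
  have hm : ∀ e : ι ≃ κ ⊕ Fin k, AEMeasurable (fun c : Conf Ph => ∑ y ∈ tup k (pts c),
      ({y : Fin k → Ph | Sum.elim a (src ∘ y) ∘ e ∈ R}).indicator (fun _ => (1 : ℝ≥0∞)) y)
      (PP f₀ ε) := by
    intro e
    have hRS : RS fun c : Conf Ph => {y : Fin k → Ph | ∀ i, y i ∈ (pts c : Set Ph)} :=
      RS.pi (V := fun (_ : Fin k) c => ((pts c : Finset Ph) : Set Ph)) fun _ => RS.conf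
    have hi : MeasurableSet {p : Conf Ph × (Fin k → Ph) | Function.Injective p.2} := by
      have e1 : {p : Conf Ph × (Fin k → Ph) | Function.Injective p.2} =
          ⋂ i, ⋂ j, ⋂ (_ : i ≠ j), {p : Conf Ph × (Fin k → Ph) | p.2 i = p.2 j}ᶜ := by
        ext p
        simp only [mem_ofPred_eq, mem_iInter, mem_compl_iff]
        exact ⟨fun h i j hij h' => hij (h h'), fun h i j h' => by
          by_contra hcon
          exact h i j hcon h'⟩
      rw [e1]
      exact MeasurableSet.iInter fun i => MeasurableSet.iInter fun j => MeasurableSet.iInter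
        fun _ => (measurableSet_eq_fun ((measurable_pi_apply i).comp measurable_snd)
          ((measurable_pi_apply j).comp measurable_snd)).compl
    have hF : Measurable fun p : Conf Ph × (Fin k → Ph) =>
        ({p : Conf Ph × (Fin k → Ph) | Function.Injective p.2}).indicator (fun p =>
        ({y : Fin k → Ph | Sum.elim a (src ∘ y) ∘ e ∈ R}).indicator
          (fun _ => (1 : ℝ≥0∞)) p.2) p :=
      ((measurable_const.indicator (hRe e)).comp measurable_snd).indicator hi
    have h2 := hRS.measurable_tsum_indicator hF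
    refine (Measurable.aemeasurable ?_)
    convert h2 using 2 with c
    rw [tsum_eq_sum (s := tup k (pts c))]
    · refine Finset.sum_congr rfl fun y hy => ?_
      have h3 := mem_tup.1 hy
      rw [indicator_of_mem (show y ∈ {y : Fin k → Ph | ∀ i, y i ∈ (pts c : Set Ph)} from
        fun i => h3.1 i), indicator_of_mem (show (c, y) ∈ {p : Conf Ph × (Fin k → Ph) |
          Function.Injective p.2} from h3.2)]
    · intro y hy
      by_cases h3 : y ∈ {y : Fin k → Ph | ∀ i, y i ∈ (pts c : Set Ph)}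
      · rw [indicator_of_mem h3, indicator_of_notMem]
        exact fun h4 => hy (mem_tup.2 ⟨fun i => h3 i, h4⟩)
      · rw [indicator_of_notMem h3]
  have hGm : AEMeasurable G (PP f₀ ε) := Finset.aemeasurable_fun_sum _ fun e _ => hm e
  have hle : ∀ c : Conf Ph, (∃ z ∈ R, Lab a (pts c) z) → 1 ≤ G c := by
    rintro c ⟨z, hz, hz'⟩
    obtain ⟨e, y, hy, rfl⟩ := hz'.split hk ha
    have h4 : (1 : ℝ≥0∞) ≤ ∑ y ∈ tup k (pts c),
        ({y : Fin k → Ph | Sum.elim a (src ∘ y) ∘ e ∈ R}).indicator (fun _ => (1 : ℝ≥0∞)) y := by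
      refine le_trans ?_ (Finset.single_le_sum (fun _ _ => zero_le) hy)
      rw [indicator_of_mem (show y ∈ {y : Fin k → Ph | Sum.elim a (src ∘ y) ∘ e ∈ R} from hz)]
    refine h4.trans ?_
    exact Finset.single_le_sum (f := fun e : ι ≃ κ ⊕ Fin k => ∑ y ∈ tup k (pts c),
        ({y : Fin k → Ph | Sum.elim a (src ∘ y) ∘ e ∈ R}).indicator (fun _ => (1 : ℝ≥0∞)) y)
      (fun _ _ => zero_le) (Finset.mem_univ e)
  calc (PP f₀ ε) {c | ∃ z ∈ R, Lab a (pts c) z} ≤ (PP f₀ ε) {c | 1 ≤ G c} :=
        measure_mono hle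
    _ = 1 * (PP f₀ ε) {c | 1 ≤ G c} := (one_mul _).symm
    _ ≤ ∫⁻ c, G c ∂(PP f₀ ε) := mul_meas_ge_le_lintegral₀ hGm 1
    _ = ∑ e : ι ≃ κ ⊕ Fin k, ∫⁻ c, ∑ y ∈ tup k (pts c),
      ({y : Fin k → Ph | Sum.elim a (src ∘ y) ∘ e ∈ R}).indicator (fun _ => (1 : ℝ≥0∞)) y
        ∂(PP f₀ ε) := lintegral_finsetSum' _ fun e _ => hm e
    _ ≤ _ := Finset.sum_le_sum fun e _ => h1 e

end Vale.Agent.P119.IND
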