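import Vale.Agent.P119.IND.Laws

/-!
# P119, block IND: structure laws, several components (`helper228`)

The same as `IND/Laws.lean` for relations between particles of several components: a finite set `Rs`
of labels (one for each component) has the density `f₀`, the other labels are Gaussian.

* `MassR`: the mass bound; `massLe_iff`: for one component;
* `lawR_le`: the structure laws: a bad event has measure `≤ C μ^{-q} ∑ μ^{#Rs d} δ d`.
-/

open MeasureTheory Filter Topology Set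
open scoped ENNReal

noncomputable section

namespace Vale.Agent.P119.IND

open KU FL M CTree GC MM AU PB.CT

/-- The mass bound for a relation `R` between the states (birth, line) of `n` particles: the particles
of `Rs` have the density `f₀ e^{c|v|²}`, the others are Gaussian. -/
def MassR (f₀ : Ph → ℝ) (ε b c : ℝ) {n : ℕ} (R : Set (Fin n → ℝ × Ph)) (Rs : Finset (Fin n))
    (δ : ℝ≥0∞) : Prop :=
  ∀ β : Fin n → ℝ, (∀ i, 0 ≤ β i) →
    muE ε ^ (n - Rs.card) * ∫⁻ Z : Fin n → Ph, ({Z : Fin n → Ph | (fun i => (β i, Z i)) ∈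
      R}).indicator (fun Z => (∏ r ∈ Rs, (ENNReal.ofReal (f₀ (Z r)) * g1 (-c) (Z r).2)) *
        ∏ i ∈ Rsᶜ, g1 (b - c) (Z i).2) Z ≤ δ

theorem massLe_iff {f₀ : Ph → ℝ} {ε b c : ℝ} {n : ℕ} {R : Set (Fin n → ℝ × Ph)} {δ : ℝ≥0∞} :
    MassLe f₀ ε b c R δ ↔ ∀ r, MassR f₀ ε b c R {r} δ := by
  unfold MassLe MassR
  refine forall_congr' fun r => forall_congr' fun β => ?_
  have e : ({r} : Finset (Fin n))ᶜ = Finset.univ.erase r := by
    ext i
    simp
  simp only [Finset.card_singleton, Finset.prod_singleton, e]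

variable {Φ : E3 → ℝ} {ε : ℝ} {m q : ℕ} {f₀ : Ph → ℝ} {κ₀ : ℝ} {b c M₀ : ℝ}

/-- **One splitting**: the integral over the base structure and the new particles. -/
theorem one_splitR (h : GoodDatum f₀ κ₀) (hc : 0 ≤ c)
    (hf : ∀ z, f₀ z ≤ M₀ * Real.exp (-b * ‖z.2‖ ^ 2)) {n k : ℕ} {R : Set (Fin n → ℝ × Ph)}
    (hR : MeasurableSet R) {Rs : Finset (Fin n)} {δ : ℝ≥0∞} (hmass : MassR f₀ ε b c R Rs δ)
    {τ : Fin m → Shape} {s : Fin q → ℝ} (hs : ∀ j, 0 ≤ s j) (dl : Fin q → ℕ)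
    (e : Fin n ≃ ((Σ i, Fin (τ i).card) ⊕ Fin q) ⊕ Fin k)
    (he : ∀ r ∈ Rs, ∀ j, e r ≠ Sum.inl (Sum.inr j))
    {W : ((Σ i, Fin (τ i).card) → Ph) → (Fin q → Ph) → ℝ≥0∞}
    (hW : Measurable fun p : ((Σ i, Fin (τ i).card) → Ph) × (Fin q → Ph) => W p.1 p.2)
    {CW : ℝ≥0∞} (hWb : ∀ z l, W z l ≤ CW * ((∏ p, g1 (-c) (z p).2) * ∏ j, g1 (-c) (l j).2)) :
    muE ε ^ q * ∫⁻ z, ∫⁻ l : Fin q → Ph, (∏ j, g1 b (l j).2) * W z l *
      (Measure.pi fun _ : Fin k => inten f₀ ε) {y | (fun i =>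
        ((Sum.elim (bas s dl z l) (src ∘ y) (e i)).1,
          (Sum.elim (bas s dl z l) (src ∘ y) (e i)).2.1)) ∈ R} ∂volume
      ∂(Measure.pi fun _ : (Σ i, Fin (τ i).card) => inten f₀ ε) ≤
      CW * ENNReal.ofReal (max 1 M₀) ^ n * (muE ε ^ Rs.card * δ) := by
  have := isFiniteMeasure_inten (ε := ε) h
  set β : Fin n → ℝ := fun i => Sum.elim (Sum.elim (fun _ => 0) s) (fun _ => 0) (e i) with hβ
  set S : Set (Fin n → Ph) := {Z : Fin n → Ph | (fun i => (β i, Z i)) ∈ R} with hS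
  have hSm : MeasurableSet S := (measurable_pi_iff.2 fun i =>
    (measurable_const.prodMk (measurable_pi_apply i) : Measurable fun Z : Fin n → Ph =>
      (β i, Z i))) hR
  have hst : ∀ (z : (Σ i, Fin (τ i).card) → Ph) (l : Fin q → Ph) (y : Fin k → Ph),
      (fun i => ((Sum.elim (bas s dl z l) (src ∘ y) (e i)).1,
          (Sum.elim (bas s dl z l) (src ∘ y) (e i)).2.1)) =
        fun i => (β i, (Sum.elim (Sum.elim z l) y ∘ e) i) := by
    intro z l y
    funext i
    simp only [hβ, Function.comp_apply]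
    rcases e i with (u | u) | u <;> rfl
  set H : (((Σ i, Fin (τ i).card) ⊕ Fin q) ⊕ Fin k → Ph) → ℝ≥0∞ := fun Z =>
    (∏ p, dn f₀ ε (Z (Sum.inl (Sum.inl p)))) * ((∏ j, g1 b (Z (Sum.inl (Sum.inr j))).2) *
      W (fun p => Z (Sum.inl (Sum.inl p))) (fun j => Z (Sum.inl (Sum.inr j))) *
      ((∏ y, dn f₀ ε (Z (Sum.inr y))) * S.indicator 1 (Z ∘ e))) with hH
  have hdn := measurable_dn (ε := ε) h
  have hHm : Measurable H := by
    refine (Finset.measurable_prod _ fun p _ => hdn.comp (measurable_pi_apply _)).mul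
      (((Finset.measurable_prod _ fun j _ => (measurable_g1 b).comp (measurable_pi_apply _)).mul
      (hW.comp (Measurable.prodMk (measurable_pi_iff.2 fun p => measurable_pi_apply _)
        (measurable_pi_iff.2 fun p => measurable_pi_apply _)))).mul
      ((Finset.measurable_prod _ fun y _ => hdn.comp (measurable_pi_apply _)).mul
      ((measurable_one.indicator hSm).comp (measurable_comp_left measurable_id _))))
  have hmel : Measurable fun p : (((Σ i, Fin (τ i).card) → Ph) × (Fin q → Ph)) × (Fin k → Ph) =>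
      (Sum.elim (Sum.elim p.1.1 p.1.2) p.2) :=
    measurable_sum_elim (measurable_sum_elim (measurable_fst.comp measurable_fst)
      (measurable_snd.comp measurable_fst)) measurable_snd
  have hH3 : Measurable fun p : (((Σ i, Fin (τ i).card) → Ph) × (Fin q → Ph)) × (Fin k → Ph) =>
      H (Sum.elim (Sum.elim p.1.1 p.1.2) p.2) := hHm.comp hmel
  have hS3 : Measurable fun p : (((Σ i, Fin (τ i).card) → Ph) × (Fin q → Ph)) × (Fin k → Ph) =>
      (∏ y, dn f₀ ε (p.2 y)) * S.indicator (1 : (Fin n → Ph) → ℝ≥0∞)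
        (Sum.elim (Sum.elim p.1.1 p.1.2) p.2 ∘ e) :=
    (Finset.measurable_prod _ fun y _ => hdn.comp ((measurable_pi_apply _).comp
      measurable_snd)).mul ((measurable_one.indicator hSm).comp
      (measurable_comp_left hmel _))
  -- the new particles
  have hA : ∀ (z : (Σ i, Fin (τ i).card) → Ph) (l : Fin q → Ph),
      (Measure.pi fun _ : Fin k => inten f₀ ε) {y | (fun i =>
        ((Sum.elim (bas s dl z l) (src ∘ y) (e i)).1,
          (Sum.elim (bas s dl z l) (src ∘ y) (e i)).2.1)) ∈ R} =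
      ∫⁻ y : Fin k → Ph, (∏ i, dn f₀ ε (y i)) *
        S.indicator 1 (Sum.elim (Sum.elim z l) y ∘ e) := by
    intro z l
    have e1 : {y : Fin k → Ph | (fun i => ((Sum.elim (bas s dl z l) (src ∘ y) (e i)).1,
          (Sum.elim (bas s dl z l) (src ∘ y) (e i)).2.1)) ∈ R} =
        {y | Sum.elim (Sum.elim z l) y ∘ e ∈ S} := by
      ext y
      rw [mem_ofPred_eq, hst z l y]
      rfl
    have hm1 : Measurable fun y : Fin k → Ph => Sum.elim (Sum.elim z l) y ∘ e :=
      measurable_comp_left (measurable_sum_elim measurable_const measurable_id) _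
    have e2 : ∀ y : Fin k → Ph, ({y | Sum.elim (Sum.elim z l) y ∘ e ∈ S}).indicator
        (1 : (Fin k → Ph) → ℝ≥0∞) y = S.indicator 1 (Sum.elim (Sum.elim z l) y ∘ e) := by
      intro y
      by_cases hy : Sum.elim (Sum.elim z l) y ∘ e ∈ S
      · rw [indicator_of_mem hy, indicator_of_mem (show y ∈ {y : Fin k → Ph |
          Sum.elim (Sum.elim z l) y ∘ e ∈ S} from hy)]
        rfl
      · rw [indicator_of_notMem hy, indicator_of_notMem (show y ∉ {y : Fin k → Ph |
          Sum.elim (Sum.elim z l) y ∘ e ∈ S} from hy)]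
    have hmS : MeasurableSet {y : Fin k → Ph | Sum.elim (Sum.elim z l) y ∘ e ∈ S} := hm1 hSm
    rw [e1, ← lintegral_indicator_one hmS]
    simp only [e2]
    exact lintegral_pi_inten h ((measurable_one.indicator hSm).comp hm1)
  simp only [hA]
  -- the trees
  have hF1 : Measurable fun p : ((Σ i, Fin (τ i).card) → Ph) × (Fin q → Ph) =>
      (∏ j, g1 b (p.2 j).2) * W p.1 p.2 * ∫⁻ y : Fin k → Ph, (∏ i, dn f₀ ε (y i)) *
        S.indicator 1 (Sum.elim (Sum.elim p.1 p.2) y ∘ e) :=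
    ((Finset.measurable_prod _ fun j _ => (measurable_g1 b).comp ((measurable_pi_apply _).comp
      measurable_snd)).mul hW).mul hS3.lintegral_prod_right'
  rw [lintegral_pi_inten h hF1.lintegral_prod_right']
  have hgW : Measurable fun p : ((Σ i, Fin (τ i).card) → Ph) × (Fin q → Ph) =>
      (∏ j, g1 b (p.2 j).2) * W p.1 p.2 :=
    (Finset.measurable_prod _ fun j _ => (measurable_g1 b).comp ((measurable_pi_apply _).comp
      measurable_snd)).mul hW
  rw [pull3 (a := fun z : (Σ i, Fin (τ i).card) → Ph => ∏ p, dn f₀ ε (z p)) hgW hS3]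
  have hB := merge3 hHm
  have hB' : (∫⁻ z : (Σ i, Fin (τ i).card) → Ph, ∫⁻ l : Fin q → Ph, ∫⁻ y : Fin k → Ph,
      (∏ p, dn f₀ ε (z p)) * ((∏ j, g1 b (l j).2) * W z l *
        ((∏ i, dn f₀ ε (y i)) * S.indicator 1 (Sum.elim (Sum.elim z l) y ∘ e)))) =
      ∫⁻ Z : ((Σ i, Fin (τ i).card) ⊕ Fin q) ⊕ Fin k → Ph, H Z := hB.symm
  rw [hB', volume_pi, lintegral_pi_equiv volume e H, ← lintegral_const_mul]
  swap
  · exact hHm.comp (measurable_comp_left measurable_id _)
  set M' := ENNReal.ofReal (max 1 M₀) with hM'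
  have hm := hmass β fun i => by
    simp only [hβ]
    rcases e i with (u | u) | u
    · exact le_rfl
    · exact hs u
    · exact le_rfl
  have hM1 : (1 : ℝ≥0∞) ≤ M' := by
    rw [← ENNReal.ofReal_one]
    exact ENNReal.ofReal_le_ofReal (le_max_left _ _)
  have hZe : ∀ Z : Fin n → Ph, (Z ∘ e.symm) ∘ e = Z := fun Z => by
    funext i
    simp
  have key : ∀ Z : Fin n → Ph, muE ε ^ q * H (Z ∘ e.symm) ≤
      (CW * M' ^ n * muE ε ^ Rs.card * muE ε ^ (n - Rs.card)) * S.indicator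
      (fun Z => (∏ r ∈ Rs, (ENNReal.ofReal (f₀ (Z r)) * g1 (-c) (Z r).2)) *
        ∏ i ∈ Rsᶜ, g1 (b - c) (Z i).2) Z := by
    intro Z
    by_cases hZ : Z ∈ S
    swap
    · have e0 : H (Z ∘ e.symm) = 0 := by
        simp only [hH]
        rw [hZe, indicator_of_notMem hZ, mul_zero, mul_zero, mul_zero]
      rw [e0, mul_zero]
      exact zero_le
    rw [indicator_of_mem hZ]
    set Y := Z ∘ e.symm with hY
    have e1 : H Y = (∏ p, dn f₀ ε (Y (Sum.inl (Sum.inl p)))) *
        ((∏ j, g1 b (Y (Sum.inl (Sum.inr j))).2) *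
          W (fun p => Y (Sum.inl (Sum.inl p))) (fun j => Y (Sum.inl (Sum.inr j))) *
          ∏ y, dn f₀ ε (Y (Sum.inr y))) := by
      simp only [hH]
      rw [hY, hZe, indicator_of_mem hZ, Pi.one_apply, mul_one]
    have e2 : muE ε ^ q * H Y ≤ CW * ∏ u, om f₀ ε b c u (Y u) := by
      rw [prod_om, e1]
      calc muE ε ^ q * ((∏ p, dn f₀ ε (Y (Sum.inl (Sum.inl p)))) *
            ((∏ j, g1 b (Y (Sum.inl (Sum.inr j))).2) *
              W (fun p => Y (Sum.inl (Sum.inl p))) (fun j => Y (Sum.inl (Sum.inr j))) *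
              ∏ y, dn f₀ ε (Y (Sum.inr y))))
          ≤ muE ε ^ q * ((∏ p, dn f₀ ε (Y (Sum.inl (Sum.inl p)))) *
            ((∏ j, g1 b (Y (Sum.inl (Sum.inr j))).2) *
              (CW * ((∏ p, g1 (-c) (Y (Sum.inl (Sum.inl p))).2) *
                ∏ j, g1 (-c) (Y (Sum.inl (Sum.inr j))).2)) *
              ∏ y, dn f₀ ε (Y (Sum.inr y)))) :=
            mul_le_mul_right (mul_le_mul_right (mul_le_mul_left (mul_le_mul_right
              (hWb (fun p => Y (Sum.inl (Sum.inl p))) (fun j => Y (Sum.inl (Sum.inr j)))) _) _) _) _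
        _ = _ := by ring
    have e3 : ∏ u, om f₀ ε b c u (Y u) = ∏ i, om f₀ ε b c (e i) (Z i) := by
      rw [← Equiv.prod_comp e]
      refine Finset.prod_congr rfl fun i _ => ?_
      rw [hY, Function.comp_apply, Equiv.symm_apply_apply]
    have e4 : ∏ i, om f₀ ε b c (e i) (Z i) = (∏ i ∈ Rs, om f₀ ε b c (e i) (Z i)) *
        ∏ i ∈ Rsᶜ, om f₀ ε b c (e i) (Z i) :=
      (Finset.prod_mul_prod_compl Rs _).symm
    have e5 : ∏ i ∈ Rs, om f₀ ε b c (e i) (Z i) ≤
        muE ε ^ Rs.card * ∏ r ∈ Rs, (ENNReal.ofReal (f₀ (Z r)) * g1 (-c) (Z r).2) := by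
      rw [← Finset.prod_const, ← Finset.prod_mul_distrib]
      refine Finset.prod_le_prod' fun r hr => ?_
      have h1 : om f₀ ε b c (e r) (Z r) ≤ dn f₀ ε (Z r) * g1 (-c) (Z r).2 := by
        have h2 : (1 : ℝ≥0∞) ≤ g1 (-c) (Z r).2 := by
          unfold g1
          rw [← ENNReal.ofReal_one]
          refine ENNReal.ofReal_le_ofReal (Real.one_le_exp ?_)
          rw [neg_neg]
          positivity
        have h3 := he r hr
        rcases hre : e r with (u | u) | u
        · exact le_rfl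
        · exact absurd hre (h3 u)
        · change dn f₀ ε (Z r) ≤ _
          calc dn f₀ ε (Z r) = dn f₀ ε (Z r) * 1 := (mul_one _).symm
            _ ≤ _ := mul_le_mul_right h2 _
      refine h1.trans (le_of_eq ?_)
      unfold dn
      ring
    have e6 : ∏ i ∈ Rsᶜ, om f₀ ε b c (e i) (Z i) ≤
        ∏ i ∈ Rsᶜ, (muE ε * (M' * g1 (b - c) (Z i).2)) :=
      Finset.prod_le_prod' fun i _ => om_le hc hf _ _
    have e7 : ∏ i ∈ Rsᶜ, (muE ε * (M' * g1 (b - c) (Z i).2)) =
        muE ε ^ (n - Rs.card) * (M' ^ (n - Rs.card) * ∏ i ∈ Rsᶜ, g1 (b - c) (Z i).2) := by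
      rw [Finset.prod_mul_distrib, Finset.prod_mul_distrib, Finset.prod_const, Finset.prod_const,
        Finset.card_compl, Fintype.card_fin]
    have e8 : M' ^ (n - Rs.card) ≤ M' ^ n := pow_le_pow_right₀ hM1 (Nat.sub_le n _)
    calc muE ε ^ q * H Y ≤ CW * ((muE ε ^ Rs.card * ∏ r ∈ Rs,
          (ENNReal.ofReal (f₀ (Z r)) * g1 (-c) (Z r).2)) * (muE ε ^ (n - Rs.card) *
          (M' ^ (n - Rs.card) * ∏ i ∈ Rsᶜ, g1 (b - c) (Z i).2))) := by
          refine e2.trans ?_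
          rw [e3, e4, ← e7]
          exact mul_le_mul_right (mul_le_mul' e5 e6) _
      _ ≤ CW * ((muE ε ^ Rs.card * ∏ r ∈ Rs,
          (ENNReal.ofReal (f₀ (Z r)) * g1 (-c) (Z r).2)) * (muE ε ^ (n - Rs.card) *
          (M' ^ n * ∏ i ∈ Rsᶜ, g1 (b - c) (Z i).2))) :=
          mul_le_mul_right (mul_le_mul_right (mul_le_mul_right (mul_le_mul_left e8 _) _) _) _
      _ = _ := by ring
  refine (lintegral_mono key).trans ?_
  rw [lintegral_const_mul]
  · calc CW * M' ^ n * muE ε ^ Rs.card * muE ε ^ (n - Rs.card) * ∫⁻ Z : Fin n → Ph, S.indicator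
          (fun Z => (∏ r ∈ Rs, (ENNReal.ofReal (f₀ (Z r)) * g1 (-c) (Z r).2)) *
            ∏ i ∈ Rsᶜ, g1 (b - c) (Z i).2) Z
        = CW * M' ^ n * (muE ε ^ Rs.card * (muE ε ^ (n - Rs.card) * ∫⁻ Z : Fin n → Ph, S.indicator
          (fun Z => (∏ r ∈ Rs, (ENNReal.ofReal (f₀ (Z r)) * g1 (-c) (Z r).2)) *
            ∏ i ∈ Rsᶜ, g1 (b - c) (Z i).2) Z)) := by ring
      _ ≤ _ := mul_le_mul_right (mul_le_mul_right hm _) _
  · exact ((Finset.measurable_prod _ fun r _ =>
      (h.meas.ennreal_ofReal.comp (measurable_pi_apply r)).mul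
      ((measurable_g1 (-c)).comp (measurable_pi_apply r))).mul
      (Finset.measurable_prod _ fun i _ =>
        (measurable_g1 (b - c)).comp (measurable_pi_apply i))).indicator hSm


/-! ### All the splittings -/

open Classical in
/-- The splittings for which the labels of `Rs` are not free lines. -/
def OKe {n k : ℕ} {κ : Type*} (Rs : Finset (Fin n)) (e : Fin n ≃ (κ ⊕ Fin q) ⊕ Fin k) : Prop :=
  ∀ r ∈ Rs, ∀ j, e r ≠ Sum.inl (Sum.inr j)

open Classical in
/-- The bound of the probability for given shapes. -/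
theorem prob_shape_leR (h : GoodDatum f₀ κ₀) (hε : 0 ≤ ε) {D : Type*} [Fintype D] {n : D → ℕ}
    {R : ∀ d, Set (Fin (n d) → ℝ × Ph)} (hR : ∀ d, MeasurableSet (R d))
    {Rs : ∀ d, Finset (Fin (n d))} {s : Fin q → ℝ}
    {dl : Fin q → ℕ} {τ : Fin m → Shape} {z : (Σ i, Fin (τ i).card) → Ph} {l : Fin q → Ph}
    (hbase : Base Φ ε (mkT τ z) (lns s dl l)) {bad : Conf Ph → Prop}
    (hbad : ∀ᵐ w ∂(PP f₀ ε), bad w → ∃ d, ∃ y : Fin (n d) → Src,
      LabT (mkT τ z) (lns s dl l) (pts w) y ∧ (fun i => sta (y i)) ∈ R d ∧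
        ∀ r ∈ Rs d, y r ∉ range (lns s dl l)) :
    (PP f₀ ε) {w | bad w} ≤ ∑ d, ∑ e : Fin (n d) ≃ ((Σ i, Fin (τ i).card) ⊕ Fin q) ⊕
      Fin (n d - Fintype.card ((Σ i, Fin (τ i).card) ⊕ Fin q)),
        if OKe (Rs d) e then pm f₀ ε s dl (R d) e z l else 0 := by
  have hRm : ∀ d, MeasurableSet {y : Fin (n d) → Src | (fun i => sta (y i)) ∈ R d ∧
      ∀ r ∈ Rs d, y r ∉ range (lns s dl l)} := by
    intro d
    have h1 : MeasurableSet {y : Fin (n d) → Src | (fun i => sta (y i)) ∈ R d} :=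
      (measurable_pi_iff.2 fun i => measurable_sta.comp (measurable_pi_apply i)) (hR d)
    have h2 : MeasurableSet {y : Fin (n d) → Src | ∀ r ∈ Rs d, y r ∉ range (lns s dl l)} := by
      have e1 : {y : Fin (n d) → Src | ∀ r ∈ Rs d, y r ∉ range (lns s dl l)} =
          ⋂ r ∈ Rs d, {y | y r ∈ (range (lns s dl l))ᶜ} := by
        ext y
        simp only [mem_ofPred_eq, mem_iInter, mem_compl_iff]
      rw [e1]
      exact Finset.measurableSet_biInter _ fun r _ => (measurable_pi_apply r)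
        (finite_range _).measurableSet.compl
    exact h1.inter h2
  have hinj := hbase.injective
  have h3 : (PP f₀ ε) {w | bad w} ≤ (PP f₀ ε) (⋃ d, {w | ∃ y ∈
      {y : Fin (n d) → Src | (fun i => sta (y i)) ∈ R d ∧
        ∀ r ∈ Rs d, y r ∉ range (lns s dl l)}, Lab (bas s dl z l) (pts w) y}) := by
    refine measure_mono_ae ?_
    filter_upwards [hbad] with w hw hb
    obtain ⟨d, y, hy, hy'⟩ := hw hb
    exact mem_iUnion.2 ⟨d, y, hy', hy.lab⟩
  refine h3.trans ((measure_iUnion_fintype_le _ _).trans (Finset.sum_le_sum fun d _ => ?_))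
  by_cases hd : Fintype.card ((Σ i, Fin (τ i).card) ⊕ Fin q) ≤ n d
  · have hk : Fintype.card (Fin (n d)) = Fintype.card ((Σ i, Fin (τ i).card) ⊕ Fin q) +
        (n d - Fintype.card ((Σ i, Fin (τ i).card) ⊕ Fin q)) := by
      rw [Fintype.card_fin]
      omega
    refine (prob_labels_le h hε hk (hRm d) hinj).trans (Finset.sum_le_sum fun e _ => ?_)
    by_cases he : OKe (Rs d) e
    · rw [if_pos he]
      exact measure_mono fun y hy => hy.1
    · rw [if_neg he]
      unfold OKe at he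
      push Not at he
      obtain ⟨r, hr, j, hj⟩ := he
      refine le_of_eq (measure_mono_null ?_ measure_empty)
      intro y hy
      have h5 := hy.2 r hr
      rw [Function.comp_apply, hj] at h5
      exact absurd ⟨j, rfl⟩ h5
  · have h4 : {w : Conf Ph | ∃ y ∈ {y : Fin (n d) → Src | (fun i => sta (y i)) ∈ R d ∧
        ∀ r ∈ Rs d, y r ∉ range (lns s dl l)},
        Lab (bas s dl z l) (pts w) y} = ∅ := by
      refine eq_empty_of_forall_notMem fun w hw => hd ?_
      obtain ⟨y, -, hy⟩ := hw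
      have h5 := hy.card_le hinj
      rwa [Fintype.card_fin] at h5
    rw [h4, measure_empty]
    exact zero_le

open Classical in
/-- The structure laws, for given shapes. -/
theorem shape_lawR_le (h : GoodDatum f₀ κ₀) (hε : 0 ≤ ε) (hc : 0 ≤ c)
    (hf : ∀ z, f₀ z ≤ M₀ * Real.exp (-b * ‖z.2‖ ^ 2))
    {D : Type*} [Fintype D] {n : D → ℕ} {R : ∀ d, Set (Fin (n d) → ℝ × Ph)}
    (hR : ∀ d, MeasurableSet (R d)) {Rs : ∀ d, Finset (Fin (n d))} {δ : D → ℝ≥0∞}
    (hmass : ∀ d, MassR f₀ ε b c (R d) (Rs d) (δ d))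
    {s : Fin q → ℝ} (hs : ∀ j, 0 ≤ s j) (dl : Fin q → ℕ)
    {W : (Fin m → CTree) → (Fin q → Ph) → ℝ≥0∞}
    (hW : Measurable fun p : (Fin m → CTree) × (Fin q → Ph) => W p.1 p.2) {CW : ℝ≥0∞}
    (hWb : ∀ T l, W T l ≤
      CW * ENNReal.ofReal (Real.exp (c * (∑ j, enT (T j) + ∑ j, ‖(l j).2‖ ^ 2))))
    (hbase : ∀ T l, W T l ≠ 0 → Base Φ ε T (lns s dl l))
    {bad : (Fin m → CTree) → (Fin q → Ph) → Conf Ph → Prop}
    (hbad : ∀ T l, W T l ≠ 0 → ∀ᵐ w ∂(PP f₀ ε), bad T l w → ∃ d, ∃ z : Fin (n d) → Src,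
      LabT T (lns s dl l) (pts w) z ∧ (fun i => sta (z i)) ∈ R d ∧
        ∀ r ∈ Rs d, z r ∉ range (lns s dl l)) (τ : Fin m → Shape) :
    muE ε ^ q * ∫⁻ z, ∫⁻ l : Fin q → Ph, (∏ j, g1 b (l j).2) * (W (mkT τ z) l *
        (PP f₀ ε) {w | bad (mkT τ z) l w}) ∂volume
        ∂(Measure.pi fun _ : (Σ i, Fin (τ i).card) => inten f₀ ε) ≤
      CW * ∑ d, ((n d).factorial * (ENNReal.ofReal (max 1 M₀) ^ n d *
        (muE ε ^ (Rs d).card * δ d))) := by
  have := isFiniteMeasure_inten (ε := ε) h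
  have hWm : Measurable fun p : ((Σ i, Fin (τ i).card) → Ph) × (Fin q → Ph) =>
      W (mkT τ p.1) p.2 :=
    hW.comp (((measurable_mkT τ).comp measurable_fst).prodMk measurable_snd)
  have hgm : Measurable fun p : ((Σ i, Fin (τ i).card) → Ph) × (Fin q → Ph) =>
      ∏ j, g1 b (p.2 j).2 :=
    Finset.measurable_prod _ fun j _ => (measurable_g1 b).comp
      ((measurable_pi_apply j).comp measurable_snd)
  have h2 : ∀ (z : (Σ i, Fin (τ i).card) → Ph) (l : Fin q → Ph),
      (∏ j, g1 b (l j).2) * (W (mkT τ z) l * (PP f₀ ε) {w | bad (mkT τ z) l w}) ≤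
      ∑ d, ∑ e : Fin (n d) ≃ ((Σ i, Fin (τ i).card) ⊕ Fin q) ⊕
        Fin (n d - Fintype.card ((Σ i, Fin (τ i).card) ⊕ Fin q)),
        (∏ j, g1 b (l j).2) * W (mkT τ z) l *
          if OKe (Rs d) e then pm f₀ ε s dl (R d) e z l else 0 := by
    intro z l
    by_cases hW0 : W (mkT τ z) l = 0
    · rw [hW0, zero_mul, mul_zero]
      exact zero_le
    have h3 := prob_shape_leR h hε hR (hbase _ _ hW0) (hbad _ _ hW0)
    refine (mul_le_mul_right (mul_le_mul_right h3 _) _).trans (le_of_eq ?_)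
    rw [← mul_assoc, Finset.mul_sum]
    exact Finset.sum_congr rfl fun d _ => Finset.mul_sum _ _ _
  refine (mul_le_mul_right (lintegral_mono fun z => lintegral_mono fun l => h2 z l) _).trans ?_
  have hpm : ∀ d, ∀ e : Fin (n d) ≃ ((Σ i, Fin (τ i).card) ⊕ Fin q) ⊕
        Fin (n d - Fintype.card ((Σ i, Fin (τ i).card) ⊕ Fin q)),
      Measurable fun p : ((Σ i, Fin (τ i).card) → Ph) × (Fin q → Ph) =>
        if OKe (Rs d) e then pm f₀ ε s dl (R d) e p.1 p.2 else 0 := by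
    intro d e
    by_cases he : OKe (Rs d) e
    · simp only [if_pos he]
      exact measurable_pm h (hR d) e
    · simp only [if_neg he]
      exact measurable_const
  rw [lintegral2_sum2 fun d e => (hgm.mul hWm).mul (hpm d e), Finset.mul_sum, Finset.mul_sum]
  refine Finset.sum_le_sum fun d _ => ?_
  rw [Finset.mul_sum]
  have h4 : ∀ e : Fin (n d) ≃ ((Σ i, Fin (τ i).card) ⊕ Fin q) ⊕
        Fin (n d - Fintype.card ((Σ i, Fin (τ i).card) ⊕ Fin q)),
      muE ε ^ q * ∫⁻ z, ∫⁻ l : Fin q → Ph, (∏ j, g1 b (l j).2) * W (mkT τ z) l *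
        (if OKe (Rs d) e then pm f₀ ε s dl (R d) e z l else 0) ∂volume
        ∂(Measure.pi fun _ : (Σ i, Fin (τ i).card) => inten f₀ ε) ≤
      CW * ENNReal.ofReal (max 1 M₀) ^ n d * (muE ε ^ (Rs d).card * δ d) := by
    intro e
    by_cases he : OKe (Rs d) e
    · simp only [if_pos he]
      exact one_splitR h hc hf (hR d) (hmass d) hs dl e he hWm fun z l =>
        (hWb _ _).trans (le_of_eq (by rw [exp_enT]))
    · simp only [if_neg he, mul_zero, lintegral_const, zero_mul]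
      exact zero_le
  refine (Finset.sum_le_sum fun e _ => h4 e).trans ?_
  rw [Finset.sum_const, nsmul_eq_mul, Finset.card_univ]
  have h9 := card_equiv_le (α := Fin (n d)) (β := ((Σ i, Fin (τ i).card) ⊕ Fin q) ⊕
    Fin (n d - Fintype.card ((Σ i, Fin (τ i).card) ⊕ Fin q)))
  rw [Fintype.card_fin] at h9
  calc (Fintype.card (Fin (n d) ≃ ((Σ i, Fin (τ i).card) ⊕ Fin q) ⊕
        Fin (n d - Fintype.card ((Σ i, Fin (τ i).card) ⊕ Fin q))) : ℝ≥0∞) *
        (CW * ENNReal.ofReal (max 1 M₀) ^ n d * (muE ε ^ (Rs d).card * δ d))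
      ≤ ((n d).factorial : ℝ≥0∞) *
        (CW * ENNReal.ofReal (max 1 M₀) ^ n d * (muE ε ^ (Rs d).card * δ d)) :=
        mul_le_mul_left (by exact_mod_cast h9) _
    _ = _ := by ring

/-- **The structure laws, several components.** The base structure consists of `m` trees and of `q`
free lines with Gaussian velocities and fixed births `s` and depths `dl`; `W` is a weight, supported
by the disjoint `ok` structures.  If a bad event implies that one of the relations `R d` holds for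
some labelling of particles, all the particles of the base structure being labelled and the labels of
`Rs d` not being free lines, and if the relation `R d` has mass `≤ δ d`, then the bad event has
measure `≤ C μ^{-q} ∑ μ^{#Rs d} δ d`. -/
theorem lawR_le (h : GoodDatum f₀ κ₀) (hε : 0 ≤ ε) (hc : 0 ≤ c)
    (hf : ∀ z, f₀ z ≤ M₀ * Real.exp (-b * ‖z.2‖ ^ 2)) (L : ℕ)
    {D : Type*} [Fintype D] {n : D → ℕ} {R : ∀ d, Set (Fin (n d) → ℝ × Ph)}
    (hR : ∀ d, MeasurableSet (R d)) {Rs : ∀ d, Finset (Fin (n d))} {δ : D → ℝ≥0∞}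
    (hmass : ∀ d, MassR f₀ ε b c (R d) (Rs d) (δ d))
    {s : Fin q → ℝ} (hs : ∀ j, 0 ≤ s j) (dl : Fin q → ℕ)
    {W : (Fin m → CTree) → (Fin q → Ph) → ℝ≥0∞}
    (hW : Measurable fun p : (Fin m → CTree) × (Fin q → Ph) => W p.1 p.2) {CW : ℝ≥0∞}
    (hWb : ∀ T l, W T l ≤
      CW * ENNReal.ofReal (Real.exp (c * (∑ j, enT (T j) + ∑ j, ‖(l j).2‖ ^ 2))))
    (hbase : ∀ T l, W T l ≠ 0 → Base Φ ε T (lns s dl l))
    {bad : (Fin m → CTree) → (Fin q → Ph) → Conf Ph → Prop}
    (hbad : ∀ T l, W T l ≠ 0 → ∀ᵐ w ∂(PP f₀ ε), bad T l w → ∃ d, ∃ z : Fin (n d) → Src,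
      LabT T (lns s dl l) (pts w) z ∧ (fun i => sta (z i)) ∈ R d ∧
        ∀ r ∈ Rs d, z r ∉ range (lns s dl l)) :
    muE ε ^ q * ∫⁻ T, ∫⁻ l : Fin q → Ph, (∏ j, g1 b (l j).2) * (W T l *
      (PP f₀ ε) {w | bad T l w}) ∂volume ∂(Measure.pi fun _ : Fin m => tree (inten f₀ ε) L) ≤
      CW * (((shapes L).card ^ m : ℕ) *
        ∑ d, ((n d).factorial * (ENNReal.ofReal (max 1 M₀) ^ n d *
          (muE ε ^ (Rs d).card * δ d)))) := by
  have := isFiniteMeasure_inten (ε := ε) h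
  refine (mul_le_mul_right (lintegral_pi_tree_le L m _) _).trans ?_
  rw [Finset.mul_sum]
  refine (Finset.sum_le_sum fun τ _ =>
    shape_lawR_le h hε hc hf hR hmass hs dl hW hWb hbase hbad τ).trans (le_of_eq ?_)
  rw [Finset.sum_const, Fintype.card_piFinset, Finset.prod_const, Finset.card_univ,
    Fintype.card_fin, nsmul_eq_mul]
  ring

end Vale.Agent.P119.IND
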