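import Vale.Agent.P119.IND.TriExt
import Vale.Agent.P119.IND.Tri

/-!
# P119, block IND: long collisions in a program (`helper76`)

`long_le`: a run of `P` after which two lines of different classes have a collision of duration
`> ε M` has small mass, uniformly in `ε`.
-/

open MeasureTheory Filter Topology Set
open scoped ENNReal

set_option linter.unusedSectionVars false

noncomputable section

namespace Vale.Agent.P119.IND

open KU MM

variable {ι : Type} [DecidableEq ι] [Fintype ι] {Φ : E3 → ℝ} {ε T b : ℝ}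

/-! ### The average over the velocities -/

theorem vel_avg (B : Finset ι) {F F' H : (ι → Ph) → ℝ≥0∞}
    (hF' : Measurable F') (hF : Measurable F) (hH : Measurable H)
    (hle : ∀ u : E3, ‖u‖ ≤ 1 → ∀ Z, F (mv B (0, u) Z) ≤ F' Z) :
    ω₃ * ∫⁻ Z, F Z * H Z ≤
      ∫⁻ Z, F' Z * ∫⁻ u in Metric.closedBall (0 : E3) 1, H (mv B (0, u) Z) := by
  have hmv : Measurable fun q : (ι → Ph) × E3 => mv B ((0, q.2) : Ph) q.1 :=
    measurable_mv B (measurable_const.prodMk measurable_snd) measurable_fst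
  have h1 : ∀ Z, F' Z * ∫⁻ u in Metric.closedBall (0 : E3) 1, H (mv B (0, u) Z) =
      ∫⁻ u in Metric.closedBall (0 : E3) 1, F' Z * H (mv B (0, u) Z) := fun Z =>
    (lintegral_const_mul _ (hH.comp (hmv.comp measurable_prodMk_left))).symm
  simp only [h1]
  rw [lintegral_lintegral_swap]
  swap
  · exact ((hF'.comp measurable_fst).mul (hH.comp hmv)).aemeasurable
  have h2 : ω₃ * ∫⁻ Z, F Z * H Z =
      ∫⁻ _u in Metric.closedBall (0 : E3) 1, ∫⁻ Z, F Z * H Z := by
    rw [setLIntegral_const, mul_comm]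
    rfl
  rw [h2]
  refine setLIntegral_mono' Metric.isClosed_closedBall.measurableSet fun u hu => ?_
  have hu' : ‖u‖ ≤ 1 := by simpa using hu
  have h3 : ∫⁻ Z, F (mv B (0, u) Z) * H (mv B (0, u) Z) = ∫⁻ Z, F Z * H Z :=
    lintegral_mv B (0, u) (G := fun Z => F Z * H Z) (hF.mul hH)
  rw [← h3]
  exact lintegral_mono fun Z => mul_le_mul' (hle u hu' Z) le_rfl

theorem spat_vel (R B : Finset ι) (u : E3) (Z : ι → Ph) : spat R (mv B (0, u) Z) = spat R Z := by
  unfold spat
  refine Finset.prod_congr rfl fun r _ => ?_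
  by_cases hr : r ∈ B
  · rw [mv_of_mem hr]
    unfold boost
    simp
  · rw [mv_of_notMem hr]

theorem En_le_mv (B : Finset ι) {c : Ph} {W : ℝ} (hc : ‖c.2‖ ≤ W) (Z : ι → Ph) :
    En Z ≤ 2 * En (mv B c Z) + 2 * (Fintype.card ι * W ^ 2) := by
  have hW : 0 ≤ W := (norm_nonneg _).trans hc
  have h : ∀ i, ‖(Z i).2‖ ^ 2 ≤ 2 * ‖(mv B c Z i).2‖ ^ 2 + 2 * W ^ 2 := by
    intro i
    by_cases hi : i ∈ B
    · rw [mv_of_mem hi]
      have e : (Z i).2 = (boost c (Z i)).2 - c.2 := by unfold boost; simp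
      have h1 : ‖(Z i).2‖ ≤ ‖(boost c (Z i)).2‖ + W := by
        rw [e]
        exact (norm_sub_le _ _).trans (by
          have e2 : (boost c (Z i)).2 - c.2 = (Z i).2 := e.symm
          linarith)
      have h2 : ‖(Z i).2‖ ^ 2 ≤ (‖(boost c (Z i)).2‖ + W) ^ 2 := by gcongr
      nlinarith [sq_nonneg (‖(boost c (Z i)).2‖ - W)]
    · rw [mv_of_notMem hi]
      nlinarith [sq_nonneg ‖(Z i).2‖, sq_nonneg W]
  unfold En
  calc ∑ i, ‖(Z i).2‖ ^ 2 ≤ ∑ i, (2 * ‖(mv B c Z i).2‖ ^ 2 + 2 * W ^ 2) :=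
        Finset.sum_le_sum fun i _ => h i
    _ = _ := by
        rw [Finset.sum_add_distrib, ← Finset.mul_sum, Finset.sum_const, Finset.card_univ,
          nsmul_eq_mul]
        ring

theorem wgt_vel (hb : 0 < b) (B : Finset ι) {c : Ph} {W : ℝ} (hc : ‖c.2‖ ≤ W) (Z : ι → Ph) :
    wgt b (mv B c Z) ≤
      ENNReal.ofReal (Real.exp (b * (Fintype.card ι * W ^ 2))) * wgt (b / 2) Z := by
  unfold wgt
  rw [← ENNReal.ofReal_mul (Real.exp_pos _).le, ← Real.exp_add]
  refine ENNReal.ofReal_le_ofReal (Real.exp_le_exp.2 ?_)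
  have := En_le_mv B hc Z
  nlinarith

/-! ### The flux of the long collisions -/

/-- The lines which have a long collision with `e`. -/
def longS (Φ : E3 → ℝ) (ε T M : ℝ) (e : Ph) : Set Ph :=
  {c | Meets ε (e, c) ∧ 0 ≤ hitT ε (e, c) ∧ hitT ε (e, c) ≤ T ∧ M < RA.dly Φ (rel ε (e, c))}

theorem measurableSet_longS2 (hΦ : IsPotential Φ) (T M : ℝ) {X : Type*} [MeasurableSpace X]
    {p q : X → Ph} (hp : Measurable p) (hq : Measurable q) :
    MeasurableSet {x | q x ∈ longS Φ ε T M (p x)} := by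
  have h0 : Measurable fun x => (p x, q x) := hp.prodMk hq
  have h1 : MeasurableSet {x | Meets ε (p x, q x)} := h0 measurableSet_meets
  have h2 : Measurable fun x => hitT ε (p x, q x) := measurable_hitT.comp h0
  have h3 : Measurable fun x => RA.dly Φ (rel ε (p x, q x)) :=
    (RA.measurable_dly hΦ).comp (continuous_rel.measurable.comp h0)
  exact h1.inter ((measurableSet_le measurable_const h2).inter
    ((measurableSet_le h2 measurable_const).inter (measurableSet_lt measurable_const h3)))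

/-- The weight of the long collisions. -/
def Xi (Φ : E3 → ℝ) (b M : ℝ) : ℝ≥0∞ :=
  ∫⁻ ξ, (∫⁻ V : E3, RA.chiW b (RA.chiD Φ M) (V, ξ)) ∂K1.sig

theorem lint_long (hΦ : IsPotential Φ) (hε : 0 < ε) (hb : 0 < b) (M : ℝ) (e q : Ph)
    {E : ℝ} (hE : ‖e.2‖ ^ 2 + ‖q.2‖ ^ 2 ≤ E) :
    ∫⁻ u in Metric.closedBall (0 : E3) 1, ∫⁻ a : E3,
      (longS Φ ε T M e).indicator 1 (boost (a, u) q) ≤
      ENNReal.ofReal (ε ^ 2) * (ENNReal.ofReal T *
        (ENNReal.ofReal (Real.exp (b * E + b / 2)) * Xi Φ b M)) := by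
  have hA : MeasurableSet (longS Φ ε T M e) :=
    measurableSet_longS2 (X := Ph) hΦ T M measurable_const measurable_id
  set g : Ph → ℝ≥0∞ := fun c => {c : Ph | ‖c.2 - q.2‖ ≤ 1}.indicator 1 c *
    (longS Φ ε T M e).indicator 1 c with hg
  have hball : MeasurableSet {c : Ph | ‖c.2 - q.2‖ ≤ 1} :=
    measurableSet_le (measurable_snd.sub_const _).norm measurable_const
  have hgm : Measurable g :=
    (measurable_const.indicator hball).mul (measurable_const.indicator hA)
  -- step 1: one integral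
  have e1 : ∫⁻ u in Metric.closedBall (0 : E3) 1, ∫⁻ a : E3,
      (longS Φ ε T M e).indicator (1 : Ph → ℝ≥0∞) (boost (a, u) q) = ∫⁻ c, g c := by
    rw [← RA.lintegral_add_Ph g q]
    have hgm' : Measurable fun x : Ph => g (x + q) := hgm.comp (measurable_id.add_const q)
    rw [Measure.volume_eq_prod, lintegral_prod_symm _ hgm'.aemeasurable,
      ← lintegral_indicator Metric.isClosed_closedBall.measurableSet]
    refine lintegral_congr fun u => ?_
    by_cases hu : u ∈ Metric.closedBall (0 : E3) 1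
    · rw [indicator_of_mem hu]
      refine lintegral_congr fun a => ?_
      have h1 : ((a, u) : Ph) + q ∈ {c : Ph | ‖c.2 - q.2‖ ≤ 1} := by
        change ‖(u + q.2) - q.2‖ ≤ 1
        rw [add_sub_cancel_right]
        simpa using hu
      simp only [hg]
      rw [indicator_of_mem h1]
      have h2 : boost (a, u) q = (a, u) + q := by
        unfold boost
        exact Prod.ext (add_comm _ _) (add_comm _ _)
      rw [h2]
      simp
    · rw [indicator_of_notMem hu]
      have h0 : ∀ a : E3, g ((a, u) + q) = 0 := by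
        intro a
        have h1 : ((a, u) : Ph) + q ∉ {c : Ph | ‖c.2 - q.2‖ ≤ 1} := by
          intro h
          change ‖(u + q.2) - q.2‖ ≤ 1 at h
          rw [add_sub_cancel_right] at h
          exact hu (by simpa using h)
        simp only [hg]
        rw [indicator_of_notMem h1, zero_mul]
      simp only [h0, lintegral_zero]
  rw [e1]
  -- step 2: hitting coordinates
  set F : ℝ → Ph → ℝ≥0∞ := fun σ c => {c : Ph | ‖c.2 - q.2‖ ≤ 1}.indicator 1 c *
    ((Icc (0 : ℝ) T).indicator 1 σ *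
      {c : Ph | M < RA.dly Φ (rel ε (e, c))}.indicator 1 c) with hF
  have hdl : MeasurableSet {c : Ph | M < RA.dly Φ (rel ε (e, c))} := by
    refine measurableSet_lt measurable_const ?_
    exact (RA.measurable_dly hΦ).comp (continuous_rel.measurable.comp
      (measurable_const.prodMk measurable_id))
  have hFm : Measurable fun x : ℝ × Ph => F x.1 x.2 := by
    have a1 : Measurable ({c : Ph | ‖c.2 - q.2‖ ≤ 1}.indicator (1 : Ph → ℝ≥0∞)) :=
      measurable_const.indicator hball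
    have a2 : Measurable ((Icc (0 : ℝ) T).indicator (1 : ℝ → ℝ≥0∞)) :=
      measurable_const.indicator measurableSet_Icc
    have a3 : Measurable ({c : Ph | M < RA.dly Φ (rel ε (e, c))}.indicator (1 : Ph → ℝ≥0∞)) :=
      measurable_const.indicator hdl
    exact (a1.comp measurable_snd).mul ((a2.comp measurable_fst).mul (a3.comp measurable_snd))
  have hMs : MeasurableSet {c : Ph | Meets ε (e, c)} :=
    (measurable_const.prodMk measurable_id) measurableSet_meets
  have e2 : ∫⁻ c, g c ≤ ∫⁻ c in {c : Ph | Meets ε (e, c)}, F (hitT ε (e, c)) c := by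
    rw [← lintegral_indicator hMs]
    refine lintegral_mono fun c => ?_
    simp only [hg]
    by_cases h1 : c ∈ longS Φ ε T M e
    · obtain ⟨h2, h3, h4, h5⟩ := h1
      rw [indicator_of_mem (show c ∈ {c : Ph | Meets ε (e, c)} from h2),
        indicator_of_mem (show c ∈ longS Φ ε T M e from ⟨h2, h3, h4, h5⟩)]
      simp only [hF]
      rw [indicator_of_mem (show hitT ε (e, c) ∈ Icc (0 : ℝ) T from ⟨h3, h4⟩),
        indicator_of_mem (show c ∈ {c : Ph | M < RA.dly Φ (rel ε (e, c))} from h5)]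
      simp
    · rw [indicator_of_notMem h1, mul_zero]
      exact zero_le
  refine e2.trans ?_
  rw [RA.lintegral_inc hε e hFm]
  refine mul_le_mul' le_rfl ?_
  -- step 3: the inner integrals
  set W := RA.chiW b (RA.chiD Φ M) with hW
  have hWm : Measurable W := RA.measurable_chiW (RA.measurable_chiD hΦ M)
  have e3 : ∀ u : E3, ‖e.2 - u‖ₑ * ∫⁻ σ : ℝ, ∫⁻ ξ, F σ (RA.inc ε e u σ ξ) ∂K1.sig ≤
      ENNReal.ofReal T * (ENNReal.ofReal (Real.exp (b * E + b / 2)) *
        ∫⁻ ξ, W (e.2 - u, ξ) ∂K1.sig) := by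
    intro u
    rcases eq_or_ne (e.2 - u) 0 with h0 | h0
    · rw [h0]; simp
    by_cases hu : ‖u - q.2‖ ≤ 1
    · have h1 : ∀ σ : ℝ, ∫⁻ ξ, F σ (RA.inc ε e u σ ξ) ∂K1.sig =
          (Icc (0 : ℝ) T).indicator (fun _ => ∫⁻ ξ, RA.chiD Φ M (e.2 - u, ξ) ∂K1.sig) σ := by
        intro σ
        by_cases hσ : σ ∈ Icc (0 : ℝ) T
        · rw [indicator_of_mem hσ]
          refine lintegral_congr fun ξ => ?_
          simp only [hF]
          rw [indicator_of_mem hσ, indicator_of_mem (show RA.inc ε e u σ ξ ∈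
            {c : Ph | ‖c.2 - q.2‖ ≤ 1} from hu)]
          simp only [Pi.one_apply, one_mul]
          unfold RA.chiD
          by_cases h5 : M < RA.dly Φ (K1.refl (e.2 - u) ξ, e.2 - u)
          · rw [indicator_of_mem (show RA.inc ε e u σ ξ ∈
                {c : Ph | M < RA.dly Φ (rel ε (e, c))} by
                  change M < _
                  rw [RA.dly_inc hΦ hε.ne' e h0]; exact h5),
              indicator_of_mem (show (e.2 - u, ξ) ∈
                {q : E3 × E3 | M < RA.dly Φ (K1.refl q.1 q.2, q.1)} from h5)]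
            rfl
          · rw [indicator_of_notMem (show RA.inc ε e u σ ξ ∉
                {c : Ph | M < RA.dly Φ (rel ε (e, c))} by
                  intro h
                  change M < _ at h
                  rw [RA.dly_inc hΦ hε.ne' e h0] at h; exact h5 h),
              indicator_of_notMem (show (e.2 - u, ξ) ∉
                {q : E3 × E3 | M < RA.dly Φ (K1.refl q.1 q.2, q.1)} from h5)]
        · rw [indicator_of_notMem hσ]
          have h2 : ∀ ξ, F σ (RA.inc ε e u σ ξ) = 0 := by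
            intro ξ
            simp only [hF]
            rw [indicator_of_notMem hσ]
            simp
          simp only [h2, lintegral_zero]
      simp only [h1]
      rw [lintegral_indicator_const measurableSet_Icc, Real.volume_Icc, sub_zero]
      have h3 : ‖e.2 - u‖ ^ 2 ≤ 4 * E + 2 := by
        have a1 : ‖e.2 - u‖ ≤ ‖e.2‖ + ‖q.2‖ + 1 := by
          have : e.2 - u = e.2 - q.2 - (u - q.2) := by abel
          rw [this]
          refine (norm_sub_le _ _).trans (add_le_add (norm_sub_le _ _) hu)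
        have a2 : ‖e.2 - u‖ ^ 2 ≤ (‖e.2‖ + ‖q.2‖ + 1) ^ 2 := by gcongr
        nlinarith [sq_nonneg (‖e.2‖ - ‖q.2‖), sq_nonneg (‖e.2‖ + ‖q.2‖ - 1)]
      have h4 : ∀ ξ, ‖e.2 - u‖ₑ * RA.chiD Φ M (e.2 - u, ξ) ≤
          ENNReal.ofReal (Real.exp (b * E + b / 2)) * W (e.2 - u, ξ) := by
        intro ξ
        simp only [hW]
        unfold RA.chiW
        simp only
        have h5 : 1 ≤ ENNReal.ofReal (Real.exp (b * E + b / 2)) *
            ENNReal.ofReal (Real.exp (-(b / 4) * ‖e.2 - u‖ ^ 2)) := by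
          rw [← ENNReal.ofReal_mul (Real.exp_pos _).le, ← Real.exp_add,
            ← ENNReal.ofReal_one]
          refine ENNReal.ofReal_le_ofReal ?_
          rw [← Real.exp_zero]
          refine Real.exp_le_exp.2 ?_
          nlinarith
        calc ‖e.2 - u‖ₑ * RA.chiD Φ M (e.2 - u, ξ)
            = 1 * (‖e.2 - u‖ₑ * RA.chiD Φ M (e.2 - u, ξ)) := (one_mul _).symm
          _ ≤ (ENNReal.ofReal (Real.exp (b * E + b / 2)) *
            ENNReal.ofReal (Real.exp (-(b / 4) * ‖e.2 - u‖ ^ 2))) *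
              (‖e.2 - u‖ₑ * RA.chiD Φ M (e.2 - u, ξ)) := mul_le_mul' h5 le_rfl
          _ = _ := by ring
      have hcm : Measurable fun ξ => RA.chiD Φ M (e.2 - u, ξ) :=
        (RA.measurable_chiD hΦ M).comp (measurable_const.prodMk measurable_id)
      have hwm : Measurable fun ξ => W (e.2 - u, ξ) :=
        hWm.comp (measurable_const.prodMk measurable_id)
      calc ‖e.2 - u‖ₑ * ((∫⁻ ξ, RA.chiD Φ M (e.2 - u, ξ) ∂K1.sig) * ENNReal.ofReal T)
          = ENNReal.ofReal T * ∫⁻ ξ, ‖e.2 - u‖ₑ * RA.chiD Φ M (e.2 - u, ξ) ∂K1.sig := by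
            rw [lintegral_const_mul _ hcm]; ring
        _ ≤ ENNReal.ofReal T * ∫⁻ ξ, ENNReal.ofReal (Real.exp (b * E + b / 2)) *
              W (e.2 - u, ξ) ∂K1.sig := mul_le_mul' le_rfl (lintegral_mono h4)
        _ = _ := by rw [lintegral_const_mul _ hwm]
    · have h2 : ∀ σ ξ, F σ (RA.inc ε e u σ ξ) = 0 := by
        intro σ ξ
        simp only [hF]
        rw [indicator_of_notMem (show RA.inc ε e u σ ξ ∉ {c : Ph | ‖c.2 - q.2‖ ≤ 1} from hu),
          zero_mul]
      simp only [h2, lintegral_zero, mul_zero]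
      exact zero_le
  refine (lintegral_mono e3).trans ?_
  have hJm : Measurable fun V : E3 => ∫⁻ ξ, W (V, ξ) ∂K1.sig := hWm.lintegral_prod_right'
  have hJm' : Measurable fun u : E3 => ∫⁻ ξ, W (e.2 - u, ξ) ∂K1.sig :=
    hJm.comp (measurable_const.sub measurable_id)
  rw [lintegral_const_mul _ (hJm'.const_mul _), lintegral_const_mul _ hJm']
  refine mul_le_mul' le_rfl (mul_le_mul' le_rfl (le_of_eq ?_))
  rw [lintegral_sub_left_eq_self (fun V => ∫⁻ ξ, W (V, ξ) ∂K1.sig) e.2]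
  unfold Xi
  exact lintegral_lintegral_swap (f := fun V ξ => W (V, ξ)) hWm.aemeasurable

/-! ### Long collisions between two classes -/

/-- Making `a` the representative of its class. -/
theorem exists_rep {Q : List (Ev ι × ℝ)} {R : Finset ι} (hR : Trv Q R) (a : ι)
    {F : (ι → Ph) → ℝ≥0∞} (hF : Measurable F) (hFi : Inv Q F) :
    ∃ R₁, Trv Q R₁ ∧ a ∈ R₁ ∧ R₁.card = R.card ∧ massF b R F = massF b R₁ F := by
  obtain ⟨r, hr, hJ⟩ := hR.cov a
  refine ⟨insert a (R.erase r), hR.swap hr hJ.symm, Finset.mem_insert_self _ _, ?_,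
    massF_swap hR hr hJ.symm hF hFi⟩
  rcases eq_or_ne a r with h0 | h0
  · rw [h0, Finset.insert_erase hr]
  · have ha : a ∉ R.erase r := fun h => h0 (hR.uni a (Finset.mem_of_mem_erase h) r hr hJ)
    rw [Finset.card_insert_of_notMem ha, Finset.card_erase_of_mem hr]
    have : 0 < R.card := Finset.card_pos.2 ⟨r, hr⟩
    omega

theorem sq_add_le_En {Z : ι → Ph} {i k : ι} (h : i ≠ k) :
    ‖(Z i).2‖ ^ 2 + ‖(Z k).2‖ ^ 2 ≤ En Z := two_sq_le_En Z h

theorem long_le (hΦ : IsPotential Φ) (hT : 0 ≤ T) (hb : 0 < b) (P : List (Ev ι)) {a k : ι}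
    (hak : ¬Jn (pl T P) a k) : ∃ C : ℝ≥0∞, C ≠ ∞ ∧ ∀ ε : ℝ, 0 < ε → ε ≤ 1 → ∀ M : ℝ,
    ∀ P₀ : List (Ev ι × ℝ), (∀ e ∈ P₀, e ∈ pl T P) →
    (∀ Z, runI Φ ε T (pl T P) Z ≠ 0 → En (finZ Φ ε P₀ Z) = En Z) →
    ∀ R, Trv (pl T P ++ [(Ev.gh a k, T)]) R →
    massF b R (fun Z => runI Φ ε T (pl T P) Z *
      {Z : ι → Ph | finZ Φ ε P₀ Z k ∈ longS Φ ε T M (finZ Φ ε P₀ Z a)}.indicator 1 Z) ≤
      C * Xi Φ (b / 4) M * ENNReal.ofReal (ε ^ 2) ^ (Fintype.card ι - R.card) := by
  obtain ⟨C₁, hC₁, H₁⟩ := mass_pl_le (ι := ι) hΦ hT (show 0 < b / 4 by positivity) P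
  set n : ℝ := ((Fintype.card ι : ℕ) : ℝ) with hn
  set K : ℝ≥0∞ := ENNReal.ofReal (Real.exp (b * (n * 1 ^ 2))) * (ENNReal.ofReal T *
    ENNReal.ofReal (Real.exp (b / 4 / 2))) with hK
  have hKt : K ≠ ∞ := ENNReal.mul_ne_top ENNReal.ofReal_ne_top
    (ENNReal.mul_ne_top ENNReal.ofReal_ne_top ENNReal.ofReal_ne_top)
  refine ⟨ω₃⁻¹ * ω₃⁻¹ * K * C₁, ENNReal.mul_ne_top (ENNReal.mul_ne_top (ENNReal.mul_ne_top
    (ENNReal.inv_ne_top.2 ω₃_ne_zero) (ENNReal.inv_ne_top.2 ω₃_ne_zero)) hKt) hC₁, ?_⟩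
  intro ε hε hε1 M P₀ hP₀ hEn R hR
  set S : Set (ι → Ph) := {Z | finZ Φ ε P₀ Z k ∈ longS Φ ε T M (finZ Φ ε P₀ Z a)} with hS
  have hZm : Measurable fun Z : ι → Ph => finZ Φ ε P₀ Z :=
    measurable_finZ hΦ hε.ne' _ measurable_id
  have hSm : MeasurableSet S := measurableSet_longS2 hΦ T M
    ((measurable_pi_apply a).comp hZm) ((measurable_pi_apply k).comp hZm)
  have hHm : Measurable (S.indicator (1 : (ι → Ph) → ℝ≥0∞)) := measurable_const.indicator hSm
  have hrm : Measurable (runI Φ ε T (pl T P)) := measurable_runI hΦ hε.ne' (pl T P)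
  have hFm : Measurable fun Z : ι → Ph => runI Φ ε T (pl T P) Z *
      S.indicator (1 : (ι → Ph) → ℝ≥0∞) Z := hrm.mul hHm
  have hSi : Inv (pl T P ++ [(Ev.gh a k, T)]) (fun Z => S.indicator (1 : (ι → Ph) → ℝ≥0∞) Z) := by
    intro B hB x Z
    have h1 : Cl B P₀ := hB.mono fun e he => List.mem_append_left _ (hP₀ e he)
    have h2 : a ∈ B ↔ k ∈ B := hB (Ev.gh a k, T) (by simp)
    have h3 : mv B (x, 0) Z ∈ S ↔ Z ∈ S := by
      simp only [hS, mem_ofPred_eq]
      rw [finZ_mv h1]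
      have h4 := mv_pair h2 (x, 0) (finZ Φ ε P₀ Z)
      rw [Prod.mk.injEq] at h4
      rw [h4.1, h4.2]
      unfold longS
      simp only [mem_ofPred_eq]
      rw [meets_boost (q := (finZ Φ ε P₀ Z a, finZ Φ ε P₀ Z k)),
        hitT_boost _ (finZ Φ ε P₀ Z a, finZ Φ ε P₀ Z k),
        rel_boost _ (finZ Φ ε P₀ Z a, finZ Φ ε P₀ Z k)]
    by_cases h5 : Z ∈ S
    · simp only [indicator_of_mem h5, indicator_of_mem (h3.2 h5)]
      rfl
    · simp only [indicator_of_notMem h5, indicator_of_notMem fun h' => h5 (h3.1 h')]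
  have hFi : Inv (pl T P ++ [(Ev.gh a k, T)]) (fun Z => runI Φ ε T (pl T P) Z *
      S.indicator (1 : (ι → Ph) → ℝ≥0∞) Z) :=
    ((inv_runI (pl T P)).sub fun e he => List.mem_append_left _ he).mul hSi
  obtain ⟨R₁, hR₁, haR, hcard, hmass⟩ := exists_rep (b := b) hR a hFm hFi
  rw [hmass]
  obtain ⟨h3, h4, h5⟩ := hR₁.split (fun c d => jn_concat) (Or.inl ⟨rfl, rfl⟩) hak haR
    (Jn.refl _ a) (Jn.refl (pl T P) k)
  set D : Finset ι := cls (pl T P) k with hD
  have hcl : Cl D (pl T P) := cl_cls (pl T P) k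
  have hcl0 : Cl D P₀ := hcl.mono hP₀
  have hkD : k ∈ D := self_mem_cls _ k
  have haD : a ∉ D := fun h => hak (mem_cls.1 h).symm
  have hRD : ∀ r ∈ R₁, r ∉ D := fun r hr h => h4 r hr (mem_cls.1 h)
  have hne : a ≠ k := fun h => hak (h ▸ Jn.refl _ _)
  -- the translations
  set F₀ : (ι → Ph) → ℝ≥0∞ := fun Z => spat R₁ Z * (wgt b Z * runI Φ ε T (pl T P) Z) with hF₀
  have hF₀m : Measurable F₀ := (measurable_spat _).mul ((measurable_wgt b).mul hrm)
  have h6 := lintegral_avg D (F := F₀) (H := S.indicator 1) hF₀m hHm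
    (fun x Z => by simp only [hF₀]; rw [spat_mv hRD, wgt_mv, runI_mv hcl])
    (U := fun Z => (Z k).1) (measurable_pi_apply k).fst
    (fun x Z => by rw [mv_of_mem hkD]; rfl) measurable_φ₁
  rw [lintegral_φ₁] at h6
  -- the velocities
  set G : (ι → Ph) → ℝ≥0∞ := fun Z => ∫⁻ x : E3, S.indicator 1 (mv D (x, 0) Z) with hG
  have hGm : Measurable G := by
    have h7 : Measurable fun q : (ι → Ph) × E3 => mv D ((q.2, 0) : Ph) q.1 :=
      measurable_mv D (measurable_snd.prodMk measurable_const) measurable_fst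
    exact (hHm.comp h7).lintegral_prod_right'
  have hF₁m : Measurable fun Z : ι → Ph => F₀ Z * φ₁ (Z k).1 :=
    hF₀m.mul (measurable_φ₁.comp (measurable_pi_apply k).fst)
  set F' : (ι → Ph) → ℝ≥0∞ := fun Z => ENNReal.ofReal (Real.exp (b * (n * 1 ^ 2))) *
    (spat (insert k R₁) Z * (wgt (b / 2) Z * runI Φ ε T (pl T P) Z)) with hF'
  have hF'm : Measurable F' := ((measurable_spat _).mul ((measurable_wgt _).mul hrm)).const_mul _
  have h8 := vel_avg D (F := fun Z => F₀ Z * φ₁ (Z k).1) (F' := F') (H := G) hF'm hF₁m hGm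
    (fun u hu Z => by
      have a1 : ‖((0, u) : Ph).2‖ ≤ 1 := hu
      have a2 := wgt_vel hb D a1 Z
      simp only [hF₀, hF']
      rw [spat_vel, runI_mv hcl, spat_insert h3]
      have a3 : (mv D (0, u) Z k).1 = (Z k).1 := by
        rw [mv_of_mem hkD]; unfold boost; simp
      rw [a3]
      calc spat R₁ Z * (wgt b (mv D (0, u) Z) * runI Φ ε T (pl T P) Z) * φ₁ (Z k).1
          = wgt b (mv D (0, u) Z) * (spat R₁ Z * runI Φ ε T (pl T P) Z * φ₁ (Z k).1) := by ring
        _ ≤ (ENNReal.ofReal (Real.exp (b * (n * 1 ^ 2))) * wgt (b / 2) Z) *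
            (spat R₁ Z * runI Φ ε T (pl T P) Z * φ₁ (Z k).1) := mul_le_mul' a2 le_rfl
        _ = _ := by ring)
  -- the flux
  have h9 : ∀ Z, F' Z * ∫⁻ u in Metric.closedBall (0 : E3) 1, G (mv D (0, u) Z) ≤
      K * (ENNReal.ofReal (ε ^ 2) * Xi Φ (b / 4) M) *
        (spat (insert k R₁) Z * (wgt (b / 4) Z * runI Φ ε T (pl T P) Z)) := by
    intro Z
    by_cases hZ : runI Φ ε T (pl T P) Z = 0
    · simp only [hF', hZ, mul_zero, zero_mul]
      exact zero_le
    have hE := hEn Z hZ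
    have b1 : ∀ u : E3, G (mv D (0, u) Z) = ∫⁻ x : E3,
        (longS Φ ε T M (finZ Φ ε P₀ Z a)).indicator 1 (boost (x, u) (finZ Φ ε P₀ Z k)) := by
      intro u
      simp only [hG]
      refine lintegral_congr fun x => ?_
      rw [mv_mv, show ((x, 0) : Ph) + (0, u) = (x, u) by simp]
      have b2 : mv D (x, u) Z ∈ S ↔ boost (x, u) (finZ Φ ε P₀ Z k) ∈
          longS Φ ε T M (finZ Φ ε P₀ Z a) := by
        simp only [hS, mem_ofPred_eq]
        rw [finZ_mv hcl0, mv_of_mem hkD, mv_of_notMem haD]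
      by_cases b3 : mv D (x, u) Z ∈ S
      · rw [indicator_of_mem b3, indicator_of_mem (b2.1 b3)]; rfl
      · rw [indicator_of_notMem b3, indicator_of_notMem fun h => b3 (b2.2 h)]
    simp only [b1]
    have b4 := lint_long (b := b / 4) (T := T) hΦ hε (by positivity) M (finZ Φ ε P₀ Z a)
      (finZ Φ ε P₀ Z k) (E := En Z) (by rw [← hE]; exact two_sq_le_En _ hne)
    refine (mul_le_mul' le_rfl b4).trans ?_
    have b5 : ENNReal.ofReal (Real.exp (b / 4 * En Z + b / 4 / 2)) * wgt (b / 2) Z =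
        ENNReal.ofReal (Real.exp (b / 4 / 2)) * wgt (b / 4) Z := by
      unfold wgt
      rw [← ENNReal.ofReal_mul (Real.exp_pos _).le, ← ENNReal.ofReal_mul (Real.exp_pos _).le,
        ← Real.exp_add, ← Real.exp_add]
      congr 2
      ring
    refine le_of_eq ?_
    simp only [hF', hK]
    calc _ = ENNReal.ofReal (Real.exp (b * (n * 1 ^ 2))) * (ENNReal.ofReal (ε ^ 2) *
          (ENNReal.ofReal T * Xi Φ (b / 4) M)) * (spat (insert k R₁) Z *
            runI Φ ε T (pl T P) Z) * (ENNReal.ofReal (Real.exp (b / 4 * En Z + b / 4 / 2)) *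
              wgt (b / 2) Z) := by ring
      _ = _ := by rw [b5]; ring
  have h10 : ω₃ * (ω₃ * massF b R₁ (fun Z => runI Φ ε T (pl T P) Z *
      S.indicator (1 : (ι → Ph) → ℝ≥0∞) Z)) ≤
      K * (ENNReal.ofReal (ε ^ 2) * Xi Φ (b / 4) M) *
        massF (b / 4) (insert k R₁) (runI Φ ε T (pl T P)) := by
    have e1 : massF b R₁ (fun Z => runI Φ ε T (pl T P) Z *
        S.indicator (1 : (ι → Ph) → ℝ≥0∞) Z) = ∫⁻ Z, F₀ Z * S.indicator 1 Z := by
      unfold massF
      refine lintegral_congr fun Z => ?_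
      simp only [hF₀]; ring
    rw [e1, h6]
    refine h8.trans ((lintegral_mono h9).trans (le_of_eq ?_))
    have e2 : Measurable fun Z : ι → Ph =>
        spat (insert k R₁) Z * (wgt (b / 4) Z * runI Φ ε T (pl T P) Z) :=
      (measurable_spat _).mul ((measurable_wgt _).mul hrm)
    rw [lintegral_const_mul _ e2]
    rfl
  have h11 := H₁ ε hε hε1 _ h5
  rw [Finset.card_insert_of_notMem h3, hcard] at h11
  have hc : R.card + 1 ≤ Fintype.card ι := by
    rw [← hcard, ← Finset.card_insert_of_notMem h3]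
    exact Finset.card_le_univ _
  have h12 : ENNReal.ofReal (ε ^ 2) ^ (Fintype.card ι - R.card) =
      ENNReal.ofReal (ε ^ 2) ^ (Fintype.card ι - (R.card + 1)) * ENNReal.ofReal (ε ^ 2) := by
    rw [← pow_succ]; congr 1; omega
  have h13 : massF b R₁ (fun Z => runI Φ ε T (pl T P) Z *
      S.indicator (1 : (ι → Ph) → ℝ≥0∞) Z) = ω₃⁻¹ * (ω₃⁻¹ * (ω₃ * (ω₃ * massF b R₁ (fun Z =>
        runI Φ ε T (pl T P) Z * S.indicator (1 : (ι → Ph) → ℝ≥0∞) Z)))) := by
    rw [← mul_assoc (ω₃⁻¹) ω₃, ENNReal.inv_mul_cancel ω₃_ne_zero ω₃_ne_top, one_mul, ← mul_assoc,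
      ENNReal.inv_mul_cancel ω₃_ne_zero ω₃_ne_top, one_mul]
  rw [h13]
  calc _ ≤ ω₃⁻¹ * (ω₃⁻¹ * (K * (ENNReal.ofReal (ε ^ 2) * Xi Φ (b / 4) M) *
        (C₁ * ENNReal.ofReal (ε ^ 2) ^ (Fintype.card ι - (R.card + 1))))) :=
        mul_le_mul' le_rfl (mul_le_mul' le_rfl (h10.trans (mul_le_mul' le_rfl h11)))
    _ = _ := by rw [h12]; ring

/-- Long collisions are rare. -/
theorem tendsto_Xi (hΦ : IsPotential Φ) (hb : 0 < b) :
    Tendsto (fun M : ℕ => Xi Φ b (M : ℝ)) atTop (𝓝 0) :=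
  RA.tendsto_chiW_chiD hΦ hb

end Vale.Agent.P119.IND
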