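import Vale.Agent.P119.IND.FamLaw
import Vale.Agent.P119.IND.MassLe
import Vale.Agent.P119.IND.Prog8

/-!
# P119, block IND: the program theorem in the form `MassLe` (`helper350`)

`massLe_closed`: all the closed programs with at most `N` labels and `N` events have `MassLe` with
`C √ε`, uniformly in `ε ∈ (0, 1]`.
-/

open MeasureTheory Filter Topology Set
open scoped ENNReal NNReal

set_option linter.unusedSectionVars false

noncomputable section

namespace Vale.Agent.P119.IND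

open KU FL GC MM PB.CT

variable {Φ : E3 → ℝ} {ε b c T : ℝ}

/-- Runs are invariant under the translations of all the labels. -/
theorem run_mv_univ {ι : Type} [DecidableEq ι] [Fintype ι] (P : List (Ev ι × ℝ)) (a : Ph) (r : ℝ)
    (β : ι → ℝ) (Z : ι → Ph) :
    Run Φ ε T r P β (mv Finset.univ a Z) ↔ Run Φ ε T r P β Z :=
  run_mv (B := Finset.univ) (fun e _ => by simp) a r β Z

/-- The localised mass of a relation which implies a run. -/
theorem loc_le_mass (hΦ : IsPotential Φ) (hε : 0 < ε) {ι : Type} [DecidableEq ι] [Fintype ι]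
    {r : ι} {P : List (Ev ι)} {β : ι → ℝ} (hβ : ∀ i, 0 ≤ β i) (b' : ℝ) {S : Set (ι → Ph)}
    (hS : ∀ Z ∈ S, Run Φ ε T 0 (pl T P) β Z) :
    ∫⁻ Z : ι → Ph, spat {r} Z * (wgt b' Z * S.indicator 1 Z) ≤ mass Φ ε T b' {r} (pl T P) := by
  unfold mass
  refine lintegral_mono fun Z => mul_le_mul' le_rfl (mul_le_mul' le_rfl ?_)
  by_cases hZ : Z ∈ S
  · rw [indicator_of_mem hZ, runI_of _ (run_zero hΦ hε (fun e he => pl_snd he) le_rfl hβ (hS Z hZ))]
    exact le_rfl
  · rw [indicator_of_notMem hZ]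
    exact zero_le

/-- **The program theorem in the form `MassLe`.** -/
theorem massLe_closed (hΦ : IsPotential Φ) (hT : 0 ≤ T) {f₀ : Ph → ℝ} (hf : Measurable f₀)
    {M₁ : ℝ} (hM₁ : 0 ≤ M₁)
    (hmarg : ∀ v, ∫⁻ x, ENNReal.ofReal (f₀ (x, v)) ≤ ENNReal.ofReal (M₁ * Real.exp (-b * ‖v‖ ^ 2)))
    (hbc : c < b) (N : ℕ) :
    ∃ C : ℝ≥0∞, C ≠ ∞ ∧ ∀ ε : ℝ, 0 < ε → ε ≤ 1 → ∀ n ≤ N, ∀ P : List (Ev (Fin n)), P.length ≤ N →
      PrgOK T P → MassLe f₀ ε b c (relP Φ ε T P) (C * ENNReal.ofReal (√ε)) := by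
  have hb' : 0 < b - c := by linarith
  have H : ∀ n k : ℕ, ∃ C : ℝ≥0∞, C ≠ ∞ ∧ ∀ P : List (Ev (Fin n)), P.length = k →
      PrgOK T P → ∀ ε : ℝ, 0 < ε → ε ≤ 1 → MassLe f₀ ε b c (relP Φ ε T P)
        (C * ENNReal.ofReal (√ε)) := by
    intro n k
    obtain ⟨C, hC, h1⟩ := small_le (ι := Fin n) hΦ hT k (b - c) hb'
    refine ⟨ENNReal.ofReal M₁ * ω₃⁻¹ * C, ENNReal.mul_ne_top (ENNReal.mul_ne_top
      ENNReal.ofReal_ne_top (ENNReal.inv_ne_top.2 ω₃_ne_zero)) hC, ?_⟩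
    intro P hP hOK ε hε hε1
    have h2 := massLe_of_loc (b := b) (c := c) hf hM₁ hmarg hε
      (measurableSet_relP hΦ hε.ne' P)
      (fun β a Z => run_mv_univ (pl T P) ((a, 0) : Ph) 0 β Z)
      (δ := C * ENNReal.ofReal (√ε)) (fun r β hβ => ?_)
    · have e1 : ENNReal.ofReal M₁ * ω₃⁻¹ * C * ENNReal.ofReal (√ε) =
          ENNReal.ofReal M₁ * ω₃⁻¹ * (C * ENNReal.ofReal (√ε)) := by ring
      rw [e1]
      exact h2
    · refine (loc_le_mass hΦ hε hβ (b - c) (S := {Z : Fin n → Ph | (fun i => (β i, Z i)) ∈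
        relP Φ ε T P}) (fun Z hZ => hZ)).trans ?_
      have h3 := h1 (pl T P) (by unfold pl; rw [List.length_map]; exact hP)
        (fun e he => pl_snd he) hOK.wf hOK.cl ε hε hε1 {r} (trv_single hOK.jn r)
      rw [Finset.card_singleton, Fintype.card_fin] at h3
      refine h3.trans (le_of_eq ?_)
      ring
  choose C hC h using H
  refine ⟨∑ n ∈ Finset.range (N + 1), ∑ k ∈ Finset.range (N + 1), C n k, ?_, ?_⟩
  · exact ENNReal.sum_ne_top.2 fun n _ => ENNReal.sum_ne_top.2 fun k _ => hC n k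
  · intro ε hε hε1 n hn P hP hOK r β hβ
    refine (h n P.length P rfl hOK ε hε hε1 r β hβ).trans (mul_le_mul' ?_ le_rfl)
    have h1 : C n P.length ≤ ∑ k ∈ Finset.range (N + 1), C n k :=
      Finset.single_le_sum (f := fun k => C n k) (fun _ _ => zero_le)
        (Finset.mem_range.2 (Nat.lt_succ_iff.2 hP))
    exact h1.trans (Finset.single_le_sum (f := fun n => ∑ k ∈ Finset.range (N + 1), C n k)
      (fun _ _ => zero_le) (Finset.mem_range.2 (Nat.lt_succ_iff.2 hn)))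

end Vale.Agent.P119.IND
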