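import Vale.Agent.P119.PB.Extract
import Vale.Agent.P119.MM.Stat

/-!
# P119, block IND: extraction of several trees (`helper228`)

* `RS.pi`: finite tuples of elements of random sets;
* `multi_extract_le`: the expectation of `∑ F (S₀,…,S_{m-1})` over all `m`-tuples of pairwise disjoint
  collision trees in the configuration is at most the integral of `F` with respect to
  `(tree ν L)^m`;
* `diag_bound`: if a bad event implies the existence of one of countably many diagrams built on the
  external datum `x` and on fresh pairwise disjoint trees, its probability, integrated over the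
  datum, is at most the sum of the masses of the diagrams.
-/

open MeasureTheory Filter Topology Set
open scoped ENNReal

noncomputable section

namespace Vale.Agent.P119.MM

variable {X β : Type*} [MeasurableSpace X] [MeasurableSpace β]

/-- Finite tuples of elements of random sets. -/
theorem RS.pi {κ : Type} [Finite κ] {V : κ → X → Set β} (h : ∀ k, RS (V k)) :
    RS fun x => {f : κ → β | ∀ k, f k ∈ V k x} := by
  choose ι hι z I hz hI h' using h
  refine ⟨∀ k, ι k, inferInstance, fun i x k => z k (i k) x, fun i => ⋂ k, I k (i k),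
    fun i => measurable_pi_iff.2 fun k => hz k (i k), fun i => MeasurableSet.iInter fun k => ?_,
    fun x f => ?_⟩
  · exact hI k (i k)
  · constructor
    · intro hf
      choose i hi hi' using fun k => (h' k x (f k)).1 (hf k)
      exact ⟨i, mem_iInter.2 hi, funext hi'⟩
    · rintro ⟨i, hi, rfl⟩ k
      exact (h' k x _).2 ⟨i k, mem_iInter.1 hi k, rfl⟩

instance measurableEq_pi {κ : Type*} [Countable κ] [MeasurableEq β] : MeasurableEq (κ → β) := by
  constructor
  have e : diagonal (κ → β) = ⋂ k, {p : (κ → β) × (κ → β) | p.1 k = p.2 k} := by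
    ext p
    simp only [mem_diagonal_iff, mem_iInter, mem_ofPred_eq]
    exact funext_iff
  rw [e]
  exact MeasurableSet.iInter fun k => measurableSet_eq_fun
    ((measurable_pi_apply k).comp measurable_fst) ((measurable_pi_apply k).comp measurable_snd)

end Vale.Agent.P119.MM

namespace Vale.Agent.P119.IND

open KU M CTree GC MM

theorem inter_indicator_mul_aux {α : Type*} {s t : Set α} {x : α} :
    (s ∩ t).indicator (fun _ => (1 : ℝ≥0∞)) x =
      s.indicator (fun x => t.indicator (fun _ => (1 : ℝ≥0∞)) x) x := by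
  classical
  by_cases h1 : x ∈ s <;> by_cases h2 : x ∈ t <;> simp [h1, h2]

/-- Integrals over tuples, the first entry separated. -/
theorem lintegral_fin_cons {α : Type*} [MeasurableSpace α] {μ : Measure α} [SigmaFinite μ] (m : ℕ)
    {F : (Fin (m + 1) → α) → ℝ≥0∞} (hF : Measurable F) :
    ∫⁻ S, F S ∂(Measure.pi fun _ : Fin (m + 1) => μ) =
      ∫⁻ T, ∫⁻ S, F (Fin.cons T S) ∂(Measure.pi fun _ : Fin m => μ) ∂μ := by
  have h1 := (measurePreserving_piFinSuccAbove (fun _ : Fin (m + 1) => μ) 0).symm
  have h2 := h1.lintegral_comp_emb (MeasurableEquiv.measurableEmbedding _) F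
  rw [← h2, lintegral_prod]
  · refine lintegral_congr fun T => lintegral_congr fun S => ?_
    congr 1
    simp [MeasurableEquiv.piFinSuccAbove, Fin.insertNthEquiv]
  · exact (hF.comp (MeasurableEquiv.measurable _)).aemeasurable

/-- The diagrams: all the trees are `ok`, of depth `≤ L`, pairwise disjoint. -/
structure Fresh (Φ : E3 → ℝ) (ε : ℝ) (L : ℕ) {m : ℕ} (S : Fin m → CTree) : Prop where
  ok : ∀ k, CTree.ok Φ ε (S k)
  depth : ∀ k, (S k).depth ≤ L
  disj : ∀ j k, j ≠ k → Disjoint (S j).leaves (S k).leaves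

variable {Φ : E3 → ℝ} {ε : ℝ} {L : ℕ} {ν : Measure Ph} {C : Ph → Ph → Prop}

/-- All the trees live in the world. -/
def InW (W : Set Src) {m : ℕ} (S : Fin m → CTree) : Prop := ∀ k, (S k).leaves ⊆ W

theorem Fresh.tail {m : ℕ} {T : CTree} {S : Fin m → CTree}
    (h : Fresh Φ ε L (Fin.cons T S : Fin (m + 1) → CTree)) : Fresh Φ ε L S := by
  refine ⟨fun k => ?_, fun k => ?_, fun j k hjk => ?_⟩
  · simpa using h.ok k.succ
  · simpa using h.depth k.succ
  · simpa using h.disj j.succ k.succ fun e => hjk (Fin.succ_injective _ e)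

theorem Fresh.disj_head {m : ℕ} {T : CTree} {S : Fin m → CTree}
    (h : Fresh Φ ε L (Fin.cons T S : Fin (m + 1) → CTree)) (k : Fin m) :
    Disjoint T.leaves (S k).leaves := by
  simpa using h.disj 0 k.succ (Fin.succ_ne_zero k).symm

theorem RS.inW {X : Type*} [MeasurableSpace X] {W : X → Set Src} (hW : RS W) (m : ℕ) :
    RS fun x => {S : Fin m → CTree | InW (W x) S} :=
  RS.pi (V := fun (_ : Fin m) x => {T : CTree | T.leaves ⊆ W x}) fun _ => hW.trees

theorem measurable_fin_cons {X α : Type*} [MeasurableSpace X] [MeasurableSpace α] {m : ℕ}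
    {T : X → α} {S : X → Fin m → α} (hT : Measurable T) (hS : Measurable S) :
    Measurable fun x => (Fin.cons (T x) (S x) : Fin (m + 1) → α) := by
  refine measurable_pi_iff.2 fun k => ?_
  refine Fin.cases ?_ (fun k => ?_) k
  · simpa using hT
  · simp only [Fin.cons_succ]
    exact (measurable_pi_apply k).comp hS

theorem tsum_fin_cons {α : Type*} (m : ℕ) (F : (Fin (m + 1) → α) → ℝ≥0∞) :
    ∑' S, F S = ∑' T, ∑' S : Fin m → α, F (Fin.cons T S) := by
  rw [← (Fin.consEquiv fun _ : Fin (m + 1) => α).tsum_eq, ENNReal.tsum_prod']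
  rfl

open Classical in
/-- **Extraction of several trees** (upper bound, without the exclusion). -/
theorem multi_extract_le [IsFiniteMeasure ν] (hC : MeasurableSet {p : Ph × Ph | C p.1 p.2})
    (hsym : ∀ a b, C a b → C b a) (hirr : ∀ a, ¬ C a a) (m : ℕ) :
    ∀ {F : (Fin m → CTree) → ℝ≥0∞}, Measurable F → (∀ S, F S ≠ 0 → Fresh Φ ε L S) →
    ∫⁻ c, ∑' S : Fin m → CTree, (if InW (world (pts c : Set Ph)) S then F S else 0) ∂(gc ν C) ≤
      ∫⁻ S, F S ∂(Measure.pi fun _ : Fin m => tree ν L) := by
  induction m with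
  | zero =>
    intro F hF _
    have h1 : ∀ c : Conf Ph, ∑' S : Fin 0 → CTree,
        (if InW (world (pts c : Set Ph)) S then F S else 0) = F Fin.elim0 := by
      intro c
      rw [tsum_eq_single (Fin.elim0 : Fin 0 → CTree) fun S hS => absurd (Subsingleton.elim _ _) hS,
        if_pos (show InW (world (pts c : Set Ph)) (Fin.elim0 : Fin 0 → CTree) from
          fun k => k.elim0)]
    simp only [h1]
    rw [lintegral_const, measure_univ, mul_one]
    rw [Measure.pi_of_empty (fun _ : Fin 0 => tree ν L) Fin.elim0, lintegral_dirac' _ hF]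
  | succ m ih =>
    intro F hF hF0
    set F' : CTree → Finset Ph → ℝ≥0∞ := fun T w => ∑' S : Fin m → CTree,
      (if InW (world (w : Set Ph)) S then F (Fin.cons T S) else 0) with hF'
    have hmeas : Measurable fun p : CTree × Conf Ph => F' p.1 (pts p.2) := by
      have hRS : RS fun p : CTree × Conf Ph =>
          {S : Fin m → CTree | InW (world (pts p.2 : Set Ph)) S} :=
        RS.inW (RS.world_pts measurable_snd) m
      have hG : Measurable fun q : (CTree × Conf Ph) × (Fin m → CTree) => F (Fin.cons q.1.1 q.2) :=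
        hF.comp (measurable_fin_cons (measurable_fst.comp measurable_fst) measurable_snd)
      have h1 := hRS.measurable_tsum_indicator hG
      have e : (fun p : CTree × Conf Ph => F' p.1 (pts p.2)) = fun p : CTree × Conf Ph =>
          ∑' S, ({S : Fin m → CTree | InW (world (pts p.2 : Set Ph)) S}).indicator
            (fun S => F (Fin.cons p.1 S)) S := by
        funext p
        refine tsum_congr fun S => ?_
        rw [indicator_apply]
        rfl
      rw [e]
      exact h1
    have hF0' : ∀ T w, F' T w ≠ 0 → CTree.ok Φ ε T ∧ T.depth ≤ L := by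
      intro T w h
      have h1 : ∃ S : Fin m → CTree,
          (if InW (world (w : Set Ph)) S then F (Fin.cons T S) else 0) ≠ 0 := by
        by_contra hcon
        push Not at hcon
        exact h (ENNReal.tsum_eq_zero.2 hcon)
      obtain ⟨S, hS⟩ := h1
      by_cases hw : InW (world (w : Set Ph)) S
      · rw [if_pos hw] at hS
        have h2 := hF0 _ hS
        exact ⟨by simpa using h2.ok 0, by simpa using h2.depth 0⟩
      · exact absurd (if_neg hw) hS
    have key : ∀ c : Conf Ph, ∑' S : Fin (m + 1) → CTree,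
        (if InW (world (pts c : Set Ph)) S then F S else 0) =
        ∑' T : CTree, (if T.leaves ⊆ world (pts c : Set Ph) then F' T (rem (pts c) T) else 0) := by
      intro c
      rw [tsum_fin_cons]
      refine tsum_congr fun T => ?_
      by_cases hT : T.leaves ⊆ world (pts c : Set Ph)
      · rw [if_pos hT, hF']
        refine tsum_congr fun S => ?_
        by_cases hz : F (Fin.cons T S) = 0
        · rw [hz]; simp
        have hfr := hF0 _ hz
        have h1 : InW (world (pts c : Set Ph)) (Fin.cons T S : Fin (m + 1) → CTree) ↔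
            InW (world (rem (pts c) T : Set Ph)) S := by
          rw [world_rem]
          constructor
          · intro h k
            refine subset_sdiff.2 ⟨by simpa using h k.succ, (hfr.disj_head k).symm⟩
          · intro h k
            refine Fin.cases ?_ (fun k => ?_) k
            · simpa using hT
            · simpa using (subset_sdiff.1 (h k)).1
        by_cases hw : InW (world (rem (pts c) T : Set Ph)) S
        · rw [if_pos hw, if_pos (h1.2 hw)]
        · rw [if_neg hw, if_neg fun h => hw (h1.1 h)]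
      · rw [if_neg hT]
        refine ENNReal.tsum_eq_zero.2 fun S => if_neg fun h => hT ?_
        simpa using h 0
    simp only [key]
    refine (extract_le (Φ := Φ) (ε := ε) (L := L) (ν := ν) hC hsym hirr hF0' hmeas).trans ?_
    rw [lintegral_fin_cons m hF]
    refine lintegral_mono fun T => ?_
    exact ih (hF.comp (measurable_fin_cons measurable_const measurable_id))
      fun S hS => (hF0 _ hS).tail

theorem measurableSet_fresh (hΦ : IsPotential Φ) (hε : ε ≠ 0) (m : ℕ) :
    MeasurableSet {S : Fin m → CTree | Fresh Φ ε L S} := by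
  have e : {S : Fin m → CTree | Fresh Φ ε L S} =
      (⋂ k, {S | CTree.ok Φ ε (S k)}) ∩ ((⋂ k, {S | (S k).depth ≤ L}) ∩
        ⋂ j, ⋂ k, ⋂ (_ : j ≠ k), {S | Disjoint (S j).leaves (S k).leaves}) := by
    ext S
    simp only [mem_inter_iff, mem_iInter, mem_ofPred_eq]
    exact ⟨fun h => ⟨h.ok, h.depth, h.disj⟩, fun h => ⟨h.1, h.2.1, h.2.2⟩⟩
  rw [e]
  refine MeasurableSet.inter (MeasurableSet.iInter fun k =>
    measurableSet_tree_ok hΦ hε (measurable_pi_apply k)) (MeasurableSet.inter
    (MeasurableSet.iInter fun k => meas_depth (measurable_pi_apply k) (measurableSet_Iic (a := L)))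
    (MeasurableSet.iInter fun j => MeasurableSet.iInter fun k => MeasurableSet.iInter fun _ =>
      measurableSet_tree_disjoint (measurable_pi_apply j) (measurable_pi_apply k)))

open Classical in
/-- The expected number of the diagrams of one pattern. -/
theorem lintegral_diag_le [IsFiniteMeasure ν] (hC : MeasurableSet {p : Ph × Ph | C p.1 p.2})
    (hsym : ∀ a b, C a b → C b a) (hirr : ∀ a, ¬ C a a) {m : ℕ} {D : Set (Fin m → CTree)}
    (hD : MeasurableSet D) (hDf : ∀ S ∈ D, Fresh Φ ε L S) :
    ∫⁻ c, ∑' S : Fin m → CTree,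
      ({S | InW (world (pts c : Set Ph)) S} ∩ D).indicator (fun _ => (1 : ℝ≥0∞)) S ∂(gc ν C) ≤
      (Measure.pi fun _ : Fin m => tree ν L) D := by
  have h := multi_extract_le (Φ := Φ) (ε := ε) (L := L) (ν := ν) hC hsym hirr m
    (F := D.indicator fun _ => (1 : ℝ≥0∞)) (measurable_const.indicator hD) fun S hS => by
      by_cases hSD : S ∈ D
      · exact hDf S hSD
      · exact absurd (indicator_of_notMem hSD _) hS
  rw [lintegral_indicator hD, setLIntegral_one] at h
  refine le_trans (le_of_eq ?_) h
  refine lintegral_congr fun c => tsum_congr fun S => ?_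
  by_cases h1 : InW (world (pts c : Set Ph)) S
  · rw [if_pos h1]
    by_cases h2 : S ∈ D
    · have h3 : S ∈ {S : Fin m → CTree | InW (world (pts c : Set Ph)) S} ∩ D := ⟨h1, h2⟩
      rw [indicator_of_mem h3, indicator_of_mem h2]
    · have h3 : S ∉ {S : Fin m → CTree | InW (world (pts c : Set Ph)) S} ∩ D := fun h => h2 h.2
      rw [indicator_of_notMem h3, indicator_of_notMem h2]
  · have h3 : S ∉ {S : Fin m → CTree | InW (world (pts c : Set Ph)) S} ∩ D := fun h => h1 h.1
    rw [if_neg h1, indicator_of_notMem h3]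

/-- **The probability of a bad event which implies one of countably many diagrams.** -/
theorem prob_diag_le [IsFiniteMeasure ν] (hC : MeasurableSet {p : Ph × Ph | C p.1 p.2})
    (hsym : ∀ a b, C a b → C b a) (hirr : ∀ a, ¬ C a a) {κ : Type*} [Countable κ] {m : κ → ℕ}
    {D : ∀ k, Set (Fin (m k) → CTree)} (hD : ∀ k, MeasurableSet (D k))
    (hDf : ∀ k, ∀ S ∈ D k, Fresh Φ ε L S) {bad : Conf Ph → Prop}
    (h : ∀ᵐ c ∂(gc ν C), bad c → ∃ k, ∃ S ∈ D k, InW (world (pts c : Set Ph)) S) :
    gc ν C {c | bad c} ≤ ∑' k, (Measure.pi fun _ : Fin (m k) => tree ν L) (D k) := by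
  classical
  set G : κ → Conf Ph → ℝ≥0∞ := fun k c => ∑' S : Fin (m k) → CTree,
    ({S | InW (world (pts c : Set Ph)) S} ∩ D k).indicator (fun _ => (1 : ℝ≥0∞)) S with hG
  have hGm : ∀ k, Measurable (G k) := by
    intro k
    have hRS : RS fun c : Conf Ph => {S : Fin (m k) → CTree | InW (world (pts c : Set Ph)) S} :=
      RS.inW (RS.world_pts measurable_id) (m k)
    have h1 := hRS.measurable_tsum_indicator
      (F := fun q : Conf Ph × (Fin (m k) → CTree) => (D k).indicator (fun _ => (1 : ℝ≥0∞)) q.2)
      ((measurable_const.indicator (hD k)).comp measurable_snd)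
    have e : G k = fun c : Conf Ph => ∑' S, ({S : Fin (m k) → CTree |
        InW (world (pts c : Set Ph)) S}).indicator
          (fun S => (D k).indicator (fun _ => (1 : ℝ≥0∞)) S) S := by
      funext c
      exact tsum_congr fun S => inter_indicator_mul_aux
    rw [e]
    exact h1
  have h1 : gc ν C {c | bad c} ≤ gc ν C {c | 1 ≤ ∑' k, G k c} := by
    refine measure_mono_ae ?_
    filter_upwards [h] with c hc hb
    obtain ⟨k, S, hS, hSW⟩ := hc hb
    change (1 : ℝ≥0∞) ≤ ∑' k, G k c
    refine le_trans ?_ (ENNReal.le_tsum k)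
    refine le_trans ?_ (ENNReal.le_tsum S)
    have h3 : S ∈ {S : Fin (m k) → CTree | InW (world (pts c : Set Ph)) S} ∩ D k := ⟨hSW, hS⟩
    rw [indicator_of_mem h3]
  refine h1.trans ?_
  have hGt : Measurable fun c => ∑' k, G k c := Measurable.tsum fun k => hGm k
  have h2 := mul_meas_ge_le_lintegral (μ := gc ν C) hGt 1
  rw [one_mul] at h2
  refine h2.trans ?_
  rw [lintegral_tsum fun k => (hGm k).aemeasurable]
  exact ENNReal.tsum_le_tsum fun k => lintegral_diag_le hC hsym hirr (hD k) (hDf k)

/-- **The same, integrated over an external datum.** -/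
theorem diag_bound [IsFiniteMeasure ν] (hC : MeasurableSet {p : Ph × Ph | C p.1 p.2})
    (hsym : ∀ a b, C a b → C b a) (hirr : ∀ a, ¬ C a a) {X : Type*} [MeasurableSpace X]
    (law : Measure X) {κ : Type*} [Countable κ] {m : κ → ℕ}
    {D : ∀ k, Set (X × (Fin (m k) → CTree))} (hD : ∀ k, MeasurableSet (D k))
    (hDf : ∀ k, ∀ p ∈ D k, Fresh Φ ε L p.2) {bad : X → Conf Ph → Prop}
    (h : ∀ᵐ x ∂law, ∀ᵐ c ∂(gc ν C), bad x c →
      ∃ k S, (x, S) ∈ D k ∧ InW (world (pts c : Set Ph)) S) :
    ∫⁻ x, gc ν C {c | bad x c} ∂law ≤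
      ∑' k, ∫⁻ x, (Measure.pi fun _ : Fin (m k) => tree ν L) {S | (x, S) ∈ D k} ∂law := by
  have hm : ∀ k, Measurable fun x => (Measure.pi fun _ : Fin (m k) => tree ν L)
      {S | (x, S) ∈ D k} := fun k => measurable_measure_prodMk_left (hD k)
  rw [← lintegral_tsum fun k => (hm k).aemeasurable]
  refine lintegral_mono_ae ?_
  filter_upwards [h] with x hx
  refine prob_diag_le (Φ := Φ) (ε := ε) (L := L) (m := m) (D := fun k => {S | (x, S) ∈ D k})
    hC hsym hirr (fun k => measurable_prodMk_left (hD k)) (fun k S hS => hDf k _ hS) ?_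
  filter_upwards [hx] with c hc hb
  obtain ⟨k, S, h1, h2⟩ := hc hb
  exact ⟨k, S, h1, h2⟩

end Vale.Agent.P119.IND
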