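import Vale.Agent.P119.IND.MBase

/-!
# P119, block IND: marked pairs (`helper228`)

* `MBase.of_tree`, `MBase.of_pair`, `MBase.of_pair_old`, `MBase.stepR`: the base structures of the
  marked pairs of one tree, of two colliding trees, of a tree hit by a free line;
* `MLab`, `Mk`: marked pairs of sources over `m` trees and `q` lines; `Mk.chain`: closure under chains
  of hits by free lines;
* `Mk.energy`: the energies of the marked lines;
* `MLaw`, `X1`: the laws of the marked pairs, and the limit of the exceptional terms.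
-/

open Set
open scoped ENNReal

set_option linter.unusedSectionVars false

noncomputable section

namespace Vale.Agent.P119.IND

open KU M M.CTree TL GC AU

variable {Φ : E3 → ℝ} {ε T t u : ℝ}

namespace MBase

variable {F : Finset CTree} {G : List Gh} {E S R : CTree}

theorem last_uniq {F : Finset CTree} {S S' : CTree} (h : IsLast F S) (h' : IsLast F S')
    (hr : S.root = S'.root) : S = S' := by
  have h1 := h.last S' h'.mem hr.symm
  have h2 := h'.last S h.mem hr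
  exact Sub.eq_of_card (sub_of_spine h2) (sub_of_spine h1).card_le

/-- **The base structure of two outgoing particles of one tree.** -/
theorem of_tree (hΦ : IsPotential Φ) (hε : 0 < ε) (hR : CTree.ok Φ ε R) (hT : ext Φ ε R ≤ T)
    (hE : E ∈ outs R) (hS : S ∈ outs R) (hne : E ≠ S) :
    MBase Φ ε T (partsF R) [] E S (ext Φ ε S) := by
  have hF := Fam.of_tree hΦ hε hR hT
  have lE := isLast_of_outs hR hE
  have lS := isLast_of_outs hR hS
  refine ⟨hF, lE, lS, fun h => hne (last_uniq lE lS h), fun g hg => absurd hg List.not_mem_nil,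
    fun g hg => absurd hg List.not_mem_nil, fun g hg => absurd hg List.not_mem_nil, Or.inl rfl,
    hF.ext_le S lS.mem, fun σ hσ τ hτ => ?_⟩
  rw [← Finset.mem_coe, lab_partsF] at hσ hτ
  exact fj_partsF hΦ hε hR hσ hτ

/-- **The base structure of two outgoing particles of two colliding trees**, not the colliding
particles. -/
theorem of_pair (hΦ : IsPotential Φ) (hε : 0 < ε) [DecidableEq CTree] {x y : CTree}
    (hxy : CTree.ok Φ ε (CTree.node x y)) (ht : sig Φ ε (CTree.node x y) ≤ T)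
    (hE : E ∈ exs x ∪ exs y) (hS : S ∈ exs x ∪ exs y) (hne : E ≠ S) :
    MBase Φ ε T (partsF x ∪ partsF y) [(x, y, sig Φ ε (CTree.node x y))] E S (ext Φ ε S) := by
  obtain ⟨hF, hJ, hlast⟩ := fam_pair hΦ hε hxy ht
  have hout : ∀ z ∈ exs x ∪ exs y, z ∈ outs x ∪ outs y := by
    rintro z (hz | hz)
    · exact Or.inl (Or.inr hz)
    · exact Or.inr (Or.inr hz)
  have hx := hxy.1
  have hy := hxy.2.1
  have hdis := hxy.2.2.1
  have hnx : ∀ z ∈ exs x ∪ exs y, x.root ≠ z.root ∧ y.root ≠ z.root := by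
    rintro z (hz | hz)
    · exact ⟨fun h => exs_root_ne hx hz h.symm, fun h => Set.disjoint_left.1 hdis
        (exs_leaves hz z.root_mem_leaves) (h ▸ y.root_mem_leaves)⟩
    · exact ⟨fun h => Set.disjoint_left.1 hdis x.root_mem_leaves
        (h ▸ exs_leaves hz z.root_mem_leaves), fun h => exs_root_ne hy hz h.symm⟩
  have lE := hlast E (hout E hE)
  have lS := hlast S (hout S hS)
  refine ⟨hF, lE, lS, fun h => hne (last_uniq lE lS h), fun g hg => ?_, fun g hg => ?_,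
    fun g hg hr => ?_, Or.inl rfl, hF.ext_le S lS.mem, hJ⟩
  · rw [List.mem_singleton.1 hg]
    exact hnx E hE
  · rw [List.mem_singleton.1 hg]
    exact (hnx S hS).1
  · rw [List.mem_singleton.1 hg] at hr
    exact absurd hr (hnx S hS).2

/-- The same, the second marked particle being one of the colliding particles, undeflected. -/
theorem of_pair_old (hΦ : IsPotential Φ) (hε : 0 < ε) [DecidableEq CTree] {x y : CTree}
    (hxy : CTree.ok Φ ε (CTree.node x y)) (ht : sig Φ ε (CTree.node x y) ≤ T)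
    (hE : E ∈ exs x ∪ exs y) :
    MBase Φ ε T (partsF x ∪ partsF y) [(x, y, sig Φ ε (CTree.node x y))] E y
      (sig Φ ε (CTree.node x y)) := by
  obtain ⟨hF, hJ, hlast⟩ := fam_pair hΦ hε hxy ht
  have hout : ∀ z ∈ exs x ∪ exs y, z ∈ outs x ∪ outs y := by
    rintro z (hz | hz)
    · exact Or.inl (Or.inr hz)
    · exact Or.inr (Or.inr hz)
  have hx := hxy.1
  have hy := hxy.2.1
  have hdis := hxy.2.2.1
  have hnx : ∀ z ∈ exs x ∪ exs y, x.root ≠ z.root ∧ y.root ≠ z.root := by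
    rintro z (hz | hz)
    · exact ⟨fun h => exs_root_ne hx hz h.symm, fun h => Set.disjoint_left.1 hdis
        (exs_leaves hz z.root_mem_leaves) (h ▸ y.root_mem_leaves)⟩
    · exact ⟨fun h => Set.disjoint_left.1 hdis x.root_mem_leaves
        (h ▸ exs_leaves hz z.root_mem_leaves), fun h => exs_root_ne hy hz h.symm⟩
  have lE := hlast E (hout E hE)
  have lS := hlast y (Or.inr (Or.inl rfl))
  have hxyr : x.root ≠ y.root := fun h => Set.disjoint_left.1 hdis x.root_mem_leaves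
    (h ▸ y.root_mem_leaves)
  refine ⟨hF, lE, lS, (hnx E hE).2.symm, fun g hg => ?_, fun g hg => ?_,
    fun g hg hr => ?_, Or.inr ⟨_, List.mem_singleton.2 rfl, rfl, rfl, hxy.2.2.2.2.2.1,
      hxy.2.2.2.2.2.2, hxy.2.2.2.1, rfl⟩, ht, hJ⟩
  · rw [List.mem_singleton.1 hg]
    exact hnx E hE
  · rw [List.mem_singleton.1 hg]
    exact hxyr
  · rw [List.mem_singleton.1 hg]

section tree

variable [DecidableEq CTree]

/-- **One hit by a free line**, the free line being the first one. -/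
theorem stepR (hΦ : IsPotential Φ) (hε : 0 < ε) (hT : t ≤ T) (h : MBase Φ ε T F G E S u)
    (o : Fin 3) {z' : Ph} {d : ℕ} (h1 : Meets ε (z', ln Φ ε S)) (h2 : u < hitT ε (z', ln Φ ε S))
    (h3 : (nwS Φ ε o (z', ln Φ ε S)).1 ≤ t)
    (hx : Exits Φ (rel ε (z', ln Φ ε S))) (hd : ((0 : ℝ), z', d) ∉ lab F) :
    ∃ F' G' S', MBase Φ ε T F' G' E S' (nwS Φ ε o (z', ln Φ ε S)).1 ∧
      (nwS Φ ε o (z', ln Φ ε S)).2 = ln Φ ε S' ∧
      (∀ σ, σ ∈ lab F' ↔ σ ∈ lab F ∨ σ = ((0 : ℝ), z', d)) ∧ szB F' G' ≤ szB F G + 4 := by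
  set R : CTree := leaf ((0 : ℝ), z', d) with hRd
  have hlnR : ln Φ ε R = z' := rfl
  have hextR : ext Φ ε R = 0 := rfl
  have hR : CTree.ok Φ ε R := le_refl (0 : ℝ)
  have hdR : ∀ σ ∈ R.leaves, σ ∉ lab F := fun σ hσ => by
    rw [mem_singleton_iff.1 hσ]; exact hd
  have hleaf : ∀ σ : Src, σ ∈ R.leaves ↔ σ = ((0 : ℝ), z', d) := fun σ => mem_singleton_iff
  have hcard : (partsF R).card = 1 := by
    rw [hRd, partsF_leaf, Finset.card_singleton]
  have hu0 : 0 < hitT ε (z', ln Φ ε S) := (h.nonneg hΦ hε).trans_lt h2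
  have hok' : CTree.ok Φ ε (CTree.node R S) := by
    refine ⟨hR, h.fam.ok _ h.lastS.mem, ?_, h1, hx, ?_, h.ext_le.trans_lt h2⟩
    · rw [Set.disjoint_left]
      exact fun σ hσ hσ' => hdR σ hσ (h.fam.leaves_lab h.lastS.mem hσ')
    · rw [hextR]; exact hu0
  have hok : CTree.ok Φ ε (CTree.node S R) := ok_swap hΦ hok'
  have hsig : u < sig Φ ε (CTree.node S R) := by
    rw [show sig Φ ε (CTree.node S R) = sig Φ ε (CTree.node R S) from sig_swap R S]
    exact h2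
  have ho : o = 0 ∨ o = 1 ∨ o = 2 := by fin_cases o <;> simp
  have hext : ext Φ ε (CTree.node R S) = sepT Φ ε (z', ln Φ ε S) := rfl
  have hln : ln Φ ε (CTree.node R S) = (sc2 Φ ε (z', ln Φ ε S)).1 := rfl
  have hext' : ext Φ ε (CTree.node S R) = sepT Φ ε (z', ln Φ ε S) :=
    (ext_swap hΦ R S).trans hext
  have hln' : ln Φ ε (CTree.node S R) = (sc2 Φ ε (z', ln Φ ε S)).2 := ln_swap hΦ R S
  have e0 : nwS Φ ε 0 (z', ln Φ ε S) = (sepT Φ ε (z', ln Φ ε S), (sc2 Φ ε (z', ln Φ ε S)).1) := by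
    unfold nwS; rw [if_pos rfl]
  have e1 : nwS Φ ε 1 (z', ln Φ ε S) = (sepT Φ ε (z', ln Φ ε S), (sc2 Φ ε (z', ln Φ ε S)).2) := by
    unfold nwS; rw [if_neg (by decide), if_pos rfl]
  have e2 : nwS Φ ε 2 (z', ln Φ ε S) = (hitT ε (z', ln Φ ε S), ln Φ ε S) := by
    unfold nwS; rw [if_neg (by decide), if_neg (by decide)]
  clear_value R
  rcases ho with ho | ho | ho
  · rw [ho, e0] at h3 ⊢
    have h3' : ext Φ ε (CTree.node S R) ≤ T := by rw [hext']; exact h3.trans hT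
    have h4 := h.swap hΦ hε hok hdR hsig h3'
    rw [hext] at h4
    refine ⟨_, G, _, h4, hln.symm, fun σ => ?_, ?_⟩
    · rw [mem_lab_node hR h hdR, hleaf]
    · have := card_node hR h hdR
      omega
  · rw [ho, e1] at h3 ⊢
    have h3' : ext Φ ε (CTree.node S R) ≤ T := by rw [hext']; exact h3.trans hT
    have h4 := h.node hΦ hε hok hdR hsig h3'
    rw [hext'] at h4
    refine ⟨_, G, _, h4, hln'.symm, fun σ => ?_, ?_⟩
    · rw [mem_lab_node hR h hdR, hleaf]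
    · have := card_node hR h hdR
      omega
  · rw [ho, e2] at h3 ⊢
    have hgh := h.ghost' hΦ hε hR hdR (by rw [hlnR]; exact h1) (by rw [hlnR]; exact h2)
      (by rw [hlnR, hextR]; exact hu0) (by rw [hlnR]; exact h3.trans hT)
    rw [hlnR] at hgh
    obtain ⟨G', p1, h4⟩ := hgh
    refine ⟨_, G', _, h4, rfl, fun σ => ?_, ?_⟩
    · rw [mem_lab_union', hleaf]
    · have := card_perm (F := F) (R := R) p1
      omega

end tree

theorem mono_T (hT : t ≤ T) (h : MBase Φ ε t F G E S u) : MBase Φ ε T F G E S u :=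
  ⟨h.fam.mono_T hT, h.lastE, h.lastS, h.ne, h.gE, h.gS, h.tS, h.bir, h.le.trans hT, h.jn⟩

end MBase

/-! ### Labels -/

/-- The labels of the family are the particles of the trees `T₀` and the lines `l`. -/
structure MLab {m q : ℕ} (T₀ : Fin m → CTree) (l : Fin q → Src) (F : Finset CTree) : Prop where
  mem : ∀ σ ∈ lab F, (∃ j, σ ∈ (T₀ j).leaves) ∨ σ ∈ range l
  trees : ∀ j, (T₀ j).leaves ⊆ (lab F : Set Src)
  lines : ∀ j, l j ∈ lab F

/-- **The labels of a base structure with one component.** -/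
theorem MLab.slab {m q : ℕ} {T₀ : Fin m → CTree} {l : Fin q → Src} {F : Finset CTree}
    {G : List Gh} (hm : 0 < m) (hB : Base Φ ε T₀ l) (h : MLab T₀ l F)
    (hJ : ∀ σ ∈ lab F, ∀ τ ∈ lab F, FJ F G σ τ) : ∃ R₀, SLab T₀ l F G 1 R₀ := by
  obtain ⟨σ, hσ⟩ := (T₀ ⟨0, hm⟩).leaves_nonempty
  have hσ' : σ ∈ lab F := h.trees _ hσ
  refine ⟨{σ}, h.mem, h.trees, h.lines, fun r hr => ?_, fun τ hτ => ⟨σ, Finset.mem_singleton_self _,
    hJ τ hτ σ hσ'⟩, by rw [Finset.card_singleton], fun r hr => ?_⟩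
  · rw [Finset.mem_singleton.1 hr]; exact hσ'
  · rw [Finset.mem_singleton.1 hr]
    rintro ⟨j, hj⟩
    exact hB.notMem ⟨0, hm⟩ j (by rw [hj]; exact hσ)

/-- More lines. -/
theorem MLab.append {m q j : ℕ} {T₀ : Fin m → CTree} {l : Fin q → Src} {l' : Fin j → Src}
    {F F' : Finset CTree} (h : MLab T₀ l F)
    (hF : ∀ σ, σ ∈ lab F' ↔ σ ∈ lab F ∨ ∃ i, l' i = σ) : MLab T₀ (Fin.append l l') F' := by
  refine ⟨fun σ hσ => ?_, fun i σ hσ => ?_, fun i => ?_⟩
  · rcases (hF σ).1 hσ with h1 | ⟨i, h1⟩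
    · rcases h.mem σ h1 with h2 | ⟨i, h2⟩
      · exact Or.inl h2
      · exact Or.inr ⟨Fin.castAdd j i, by rw [Fin.append_left]; exact h2⟩
    · exact Or.inr ⟨Fin.natAdd q i, by rw [Fin.append_right]; exact h1⟩
  · exact Finset.mem_coe.2 ((hF σ).2 (Or.inl (h.trees i hσ)))
  · refine Fin.addCases (fun i => ?_) (fun i => ?_) i
    · rw [Fin.append_left]
      exact (hF _).2 (Or.inl (h.lines i))
    · rw [Fin.append_right]
      exact (hF _).2 (Or.inr ⟨i, rfl⟩)

/-! ### Marked pairs -/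

/-- **Marked pairs**: `e` and `k` are the sources of two outgoing particles of a connected structure of
collisions and ghosts of the particles of the trees `T₀` and the lines `l`, up to the time `t`. -/
def Mk (Φ : E3 → ℝ) (ε t : ℝ) (N : ℕ) {m q : ℕ} (T₀ : Fin m → CTree) (l : Fin q → Src)
    (e k : Src) : Prop :=
  ∃ (F : Finset CTree) (G : List Gh) (E S : CTree), MBase Φ ε t F G E S k.1 ∧ MLab T₀ l F ∧
    szB F G ≤ N ∧ e.1 = ext Φ ε E ∧ e.2.1 = ln Φ ε E ∧ k.2.1 = ln Φ ε S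

variable {m q N N' : ℕ} {T₀ : Fin m → CTree} {l : Fin q → Src} {e k : Src}

theorem Mk.mono (hN : N ≤ N') (h : Mk Φ ε t N T₀ l e k) : Mk Φ ε t N' T₀ l e k := by
  obtain ⟨F, G, E, S, h1, h2, h3, h4⟩ := h
  exact ⟨F, G, E, S, h1, h2, h3.trans hN, h4⟩

theorem Mk.mono_T (hT : t ≤ T) (h : Mk Φ ε t N T₀ l e k) : Mk Φ ε T N T₀ l e k := by
  obtain ⟨F, G, E, S, h1, h2⟩ := h
  exact ⟨F, G, E, S, h1.mono_T hT, h2⟩

/-- **Chains of hits by free lines.** -/
theorem Mk.chain (hΦ : IsPotential Φ) (hε : 0 < ε) (h : Mk Φ ε t N T₀ l e k) {j : ℕ}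
    (P : Fin j → Fin 3) (p : Fin j → Ph) (hc : chn Φ ε t P (k.1, k.2.1) p)
    (hx : chx Φ ε P (k.1, k.2.1) p) (hp : Function.Injective p)
    (hd : ∀ i, (∀ j, ((0 : ℝ), p i, (0 : ℕ)) ∉ (T₀ j).leaves) ∧ ((0 : ℝ), p i, (0 : ℕ)) ∉ range l)
    (d : ℕ) :
    Mk Φ ε t (N + 4 * j) T₀ (Fin.append l fun i => ((0 : ℝ), p i, (0 : ℕ))) e
      ((cst Φ ε P (k.1, k.2.1) p).1, (cst Φ ε P (k.1, k.2.1) p).2, d) := by
  obtain ⟨F, G, E, S, h1, h2, h3, h4, h5, h6⟩ := h
  rw [h6] at hc hx ⊢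
  obtain ⟨F', G', S', h7, h8, h9, h10⟩ := h1.chain hΦ hε le_rfl P p hc hx (fun i hi => by
    rcases h2.mem _ hi with ⟨j, h7⟩ | h7
    · exact (hd i).1 j h7
    · exact (hd i).2 h7) hp
  exact ⟨F', G', E, S', h7, h2.append h9, by omega, h4, h5, h8⟩

/-- **Two outgoing particles of one tree.** -/
theorem Mk.of_tree (hΦ : IsPotential Φ) (hε : 0 < ε) {R E S : CTree} (hR : CTree.ok Φ ε R)
    (ht : ext Φ ε R ≤ t) (hE : E ∈ outs R) (hS : S ∈ outs R) (hne : E ≠ S)
    (l : Fin 0 → Src) (d d' : ℕ) :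
    Mk Φ ε t (szB (partsF R) []) (fun _ : Fin 1 => R) l (ext Φ ε E, ln Φ ε E, d)
      (ext Φ ε S, ln Φ ε S, d') := by
  refine ⟨partsF R, [], E, S, MBase.of_tree hΦ hε hR ht hE hS hne, ⟨fun σ hσ => ?_,
    fun j => ?_, fun j => j.elim0⟩, le_rfl, rfl, rfl, rfl⟩
  · rw [← Finset.mem_coe, lab_partsF] at hσ
    exact Or.inl ⟨0, hσ⟩
  · rw [lab_partsF]

/-- **Two outgoing particles of two colliding trees.** -/
theorem Mk.of_pair (hΦ : IsPotential Φ) (hε : 0 < ε) [DecidableEq CTree] {x y E S : CTree}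
    (hxy : CTree.ok Φ ε (CTree.node x y)) (ht : sig Φ ε (CTree.node x y) ≤ t)
    (hE : E ∈ exs x ∪ exs y) (hS : S ∈ exs x ∪ exs y) (hne : E ≠ S)
    (l : Fin 0 → Src) (d d' : ℕ) :
    Mk Φ ε t (szB (partsF x ∪ partsF y) [(x, y, sig Φ ε (CTree.node x y))]) ![x, y] l
      (ext Φ ε E, ln Φ ε E, d) (ext Φ ε S, ln Φ ε S, d') := by
  refine ⟨_, _, E, S, MBase.of_pair hΦ hε hxy ht hE hS hne, ⟨fun σ hσ => ?_,
    fun j => ?_, fun j => j.elim0⟩, le_rfl, rfl, rfl, rfl⟩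
  · rcases (MBase.mem_lab_union' σ).1 hσ with h1 | h1
    · rw [← Finset.mem_coe, lab_partsF] at h1
      exact Or.inl ⟨0, h1⟩
    · exact Or.inl ⟨1, h1⟩
  · intro σ hσ
    rw [Finset.mem_coe, MBase.mem_lab_union', ← Finset.mem_coe, lab_partsF]
    fin_cases j
    · exact Or.inl hσ
    · exact Or.inr hσ

/-- The same, the second marked particle being one of the colliding particles, undeflected. -/
theorem Mk.of_pair_old (hΦ : IsPotential Φ) (hε : 0 < ε) [DecidableEq CTree] {x y E : CTree}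
    (hxy : CTree.ok Φ ε (CTree.node x y)) (ht : sig Φ ε (CTree.node x y) ≤ t)
    (hE : E ∈ exs x ∪ exs y) (l : Fin 0 → Src) (d d' : ℕ) :
    Mk Φ ε t (szB (partsF x ∪ partsF y) [(x, y, sig Φ ε (CTree.node x y))]) ![x, y] l
      (ext Φ ε E, ln Φ ε E, d) (sig Φ ε (CTree.node x y), ln Φ ε y, d') := by
  refine ⟨_, _, E, y, MBase.of_pair_old hΦ hε hxy ht hE, ⟨fun σ hσ => ?_,
    fun j => ?_, fun j => j.elim0⟩, le_rfl, rfl, rfl, rfl⟩
  · rcases (MBase.mem_lab_union' σ).1 hσ with h1 | h1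
    · rw [← Finset.mem_coe, lab_partsF] at h1
      exact Or.inl ⟨0, h1⟩
    · exact Or.inl ⟨1, h1⟩
  · intro σ hσ
    rw [Finset.mem_coe, MBase.mem_lab_union', ← Finset.mem_coe, lab_partsF]
    fin_cases j
    · exact Or.inl hσ
    · exact Or.inr hσ

/-- **An outgoing particle of a tree, and the lines created by the hit of a free line on its root
line** (`o = 0`, `o = 1`), or the undeflected root line (`o = 2`). -/
theorem Mk.of_hit (hΦ : IsPotential Φ) (hε : 0 < ε) [DecidableEq CTree] {R E : CTree}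
    (hR : CTree.ok Φ ε R) (hE : E ∈ exs R) {z : Ph} {n : ℕ} (o : Fin 3)
    (h1 : Meets ε (z, ln Φ ε R)) (h2 : ext Φ ε R < hitT ε (z, ln Φ ε R))
    (h3 : (nwS Φ ε o (z, ln Φ ε R)).1 ≤ t) (h3' : hitT ε (z, ln Φ ε R) ≤ t)
    (hx : Exits Φ (rel ε (z, ln Φ ε R))) (hd : ((0 : ℝ), z, n) ∉ R.leaves) (d d' : ℕ) :
    Mk Φ ε t (szB (partsF R) [] + 4) (fun _ : Fin 1 => R) (fun _ : Fin 1 => ((0 : ℝ), z, n))
      (ext Φ ε E, ln Φ ε E, d)
      ((nwS Φ ε o (z, ln Φ ε R)).1, (nwS Φ ε o (z, ln Φ ε R)).2, d') := by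
  have hne : E ≠ R := fun h => exs_root_ne hR hE (by rw [h])
  have h0 := MBase.of_tree hΦ hε hR (h2.le.trans h3') (Or.inr hE : E ∈ outs R)
    (Or.inl rfl : R ∈ outs R) hne
  obtain ⟨F', G', S', h7, h8, h9, h10⟩ := h0.stepR hΦ hε le_rfl o h1 h2 h3 hx (d := n) (fun h => by
    rw [← Finset.mem_coe, lab_partsF] at h
    exact hd h)
  refine ⟨F', G', E, S', h7, ⟨fun σ hσ => ?_, fun j σ hσ => ?_, fun j => ?_⟩, h10, rfl, rfl, h8⟩
  · rcases (h9 σ).1 hσ with h | h
    · rw [← Finset.mem_coe, lab_partsF] at h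
      exact Or.inl ⟨0, h⟩
    · exact Or.inr ⟨0, h.symm⟩
  · refine Finset.mem_coe.2 ((h9 σ).2 (Or.inl ?_))
    rw [← Finset.mem_coe, lab_partsF]
    exact hσ
  · exact (h9 _).2 (Or.inr rfl)

end Vale.Agent.P119.IND
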