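import Vale.Agent.P119.IND.TriDef
import Vale.Agent.P119.IND.ExcProg

/-!
# P119, block IND: two programs near each other (`helper498`)

* `Lfn ι`: a line function of the labels: the centre of mass of the lines of `i` and `k` after the
  plain program `P` (`i = k`: the line of `i`); `Lfn.Ok`: it depends on one class of the program only;
* `nearR Φ ε T P g₁ g₂`: the program `P` runs, and the lines `g₁`, `g₂` are within `2 ε` at some time
  of `[0, T]`;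
* `PrgN`: labelled version with at most `c₀` classes of the edges of `P` and the edge `(g₁.i, g₂.i)`;
  `nears`: the finite set of these relations; `PrgN.of_fintype`, `PrgN.sbad`.
-/

open MeasureTheory Filter Topology Set
open scoped ENNReal NNReal

set_option linter.unusedSectionVars false

noncomputable section

namespace Vale.Agent.P119.IND

open KU FL M CTree GC MM AU PB.CT

variable {Φ : E3 → ℝ} {ε T t : ℝ}

/-- A line function. -/
structure Lfn (ι : Type) where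
  /-- the events before -/
  P : List (Ev ι)
  /-- the first label -/
  i : ι
  /-- the second label -/
  k : ι

section lfn

variable {ι : Type} [DecidableEq ι]

variable (Φ ε T) in
/-- The line. -/
def Lfn.val (g : Lfn ι) (Z : ι → Ph) : Ph := com (qq Φ ε T g.P g.i g.k Z)

theorem com_self (l : Ph) : com (l, l) = l := by
  unfold com
  ext1
  · simp only; module
  · simp only; module

/-- The line of one label. -/
theorem Lfn.val_self (P : List (Ev ι)) (i : ι) (Z : ι → Ph) :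
    (⟨P, i, i⟩ : Lfn ι).val Φ ε T Z = finZ Φ ε (pl T P) Z i := com_self _

/-- The line function depends on one class of the program `P`. -/
structure Lfn.Ok (P : List (Ev ι × ℝ)) (g : Lfn ι) : Prop where
  ev : ∀ e ∈ g.P, e.fst ≠ e.snd ∧ Jn P e.fst e.snd
  jn : Jn P g.i g.k

/-- The line function with other labels. -/
def Lfn.map {κ : Type} (f : ι → κ) (g : Lfn ι) : Lfn κ := ⟨g.P.map (Ev.map f), f g.i, f g.k⟩

theorem finZ_hor (P : List (Ev ι)) (T T' : ℝ) (Z : ι → Ph) :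
    finZ Φ ε (pl T P) Z = finZ Φ ε (pl T' P) Z := by
  induction P generalizing Z with
  | nil => rfl
  | cons e P ih => exact ih _

theorem Lfn.val_hor (g : Lfn ι) (T T' : ℝ) (Z : ι → Ph) :
    g.val Φ ε T Z = g.val Φ ε T' Z := by
  unfold Lfn.val qq
  rw [finZ_hor g.P T T']

theorem Lfn.val_map {κ : Type} [DecidableEq κ] {f : ι → κ} (hf : Function.Injective f)
    (g : Lfn ι) (Z : κ → Ph) : (g.map f).val Φ ε T Z = g.val Φ ε T (Z ∘ f) := by
  have h1 : ∀ i, finZ Φ ε (pl T (g.P.map (Ev.map f))) Z (f i) =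
      finZ Φ ε (pl T g.P) (Z ∘ f) i := by
    intro i
    rw [← mapP_pl]
    exact congrFun (finZ_map hf (pl T g.P) Z) i
  unfold Lfn.val qq Lfn.map
  simp only
  rw [h1, h1]

theorem Lfn.ok_map {κ : Type} [DecidableEq κ] {f : ι → κ} (hf : Function.Injective f)
    {P : List (Ev ι × ℝ)} {g : Lfn ι} : (g.map f).Ok (mapP f P) ↔ g.Ok P := by
  constructor
  · rintro ⟨h1, h2⟩
    refine ⟨fun e he => ?_, (jn_map hf).1 h2⟩
    have h3 := h1 (e.map f) (List.mem_map.2 ⟨e, he, rfl⟩)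
    rw [Ev.map_fst, Ev.map_snd] at h3
    exact ⟨fun h => h3.1 (congrArg f h), (jn_map hf).1 h3.2⟩
  · rintro ⟨h1, h2⟩
    refine ⟨fun e he => ?_, (jn_map hf).2 h2⟩
    obtain ⟨e', he', rfl⟩ := List.mem_map.1 he
    rw [Ev.map_fst, Ev.map_snd]
    exact ⟨fun h => (h1 e' he').1 (hf h), (jn_map hf).2 (h1 e' he').2⟩

theorem exists_lfn_map {κ : Type} [DecidableEq κ] (e : ι ≃ κ) (g : Lfn κ) : ∃ g' : Lfn ι, g'.map e = g := by
  obtain ⟨P', hP'⟩ := exists_map_list (f := e) g.P fun ev _ =>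
    ⟨⟨e.symm ev.fst, by simp⟩, ⟨e.symm ev.snd, by simp⟩⟩
  refine ⟨⟨P', e.symm g.i, e.symm g.k⟩, ?_⟩
  unfold Lfn.map
  rw [hP', e.apply_symm_apply, e.apply_symm_apply]

theorem measurable_lval [Fintype ι] (hΦ : IsPotential Φ) (hε : ε ≠ 0) (g : Lfn ι) :
    Measurable (g.val Φ ε T) :=
  continuous_com.measurable.comp (measurable_qq hΦ hε g.P g.i g.k measurable_id)

end lfn

/-- The program runs, and the two lines are near. -/
def nearR (Φ : E3 → ℝ) (ε T : ℝ) {n : ℕ} (P : List (Ev (Fin n))) (g₁ g₂ : Lfn (Fin n)) :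
    Set (Fin n → ℝ × Ph) :=
  {y | y ∈ relP Φ ε T P ∧ (fun i => (y i).2) ∈ cmR ε T (g₁.val Φ ε T) (g₂.val Φ ε T)}

theorem measurableSet_nearR (hΦ : IsPotential Φ) (hε : ε ≠ 0) {n : ℕ} (P : List (Ev (Fin n)))
    (g₁ g₂ : Lfn (Fin n)) : MeasurableSet (nearR Φ ε T P g₁ g₂) := by
  have h2 : Measurable fun y : Fin n → ℝ × Ph => fun i => (y i).2 :=
    measurable_pi_iff.2 fun i => measurable_snd.comp (measurable_pi_apply i)
  exact (measurableSet_relP hΦ hε P).inter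
    (measurableSet_cmR (measurable_lval hΦ hε g₁) (measurable_lval hΦ hε g₂) h2)

/-- The data of a relation `nearR`, with at most `c₀` classes. -/
structure NearOK {ι : Type} [DecidableEq ι] (T : ℝ) (N c₀ : ℕ) (P : List (Ev ι)) (g₁ g₂ : Lfn ι)
    (Rs : Finset ι) : Prop where
  len : P.length ≤ N
  len₁ : g₁.P.length ≤ N
  len₂ : g₂.P.length ≤ N
  ok₁ : g₁.Ok (pl T P)
  ok₂ : g₂.Ok (pl T P)
  trv : Trv (pl T P ++ [(Ev.gh g₁.i g₂.i, T)]) Rs
  card : Rs.card ≤ c₀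

theorem NearOK.mono {ι : Type} [DecidableEq ι] {N N' c₀ c₁ : ℕ} {P : List (Ev ι)}
    {g₁ g₂ : Lfn ι} {Rs : Finset ι} (h : NearOK T N c₀ P g₁ g₂ Rs) (hN : N ≤ N') (hc : c₀ ≤ c₁) :
    NearOK T N' c₁ P g₁ g₂ Rs :=
  ⟨h.len.trans hN, h.len₁.trans hN, h.len₂.trans hN, h.ok₁, h.ok₂, h.trv, h.card.trans hc⟩

/-- The relations `nearR`. -/
def nears (Φ : E3 → ℝ) (T : ℝ) (N c₀ : ℕ) : Set Rln :=
  {r | ∃ n ≤ N, ∃ (P : List (Ev (Fin n))) (g₁ g₂ : Lfn (Fin n)) (Rs : Finset (Fin n)),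
    NearOK T N c₀ P g₁ g₂ Rs ∧ r = ⟨n, fun ε => nearR Φ ε T P g₁ g₂, Rs⟩}

theorem nears_finite (Φ : E3 → ℝ) (T : ℝ) (N c₀ : ℕ) : (nears Φ T N c₀).Finite := by
  have h0 : ∀ n : Fin (N + 1), {g : Lfn (Fin n) | g.P.length ≤ N}.Finite := by
    intro n
    have h1 : ((fun x : List (Ev (Fin n)) × (Fin n × Fin n) =>
        (⟨x.1, x.2.1, x.2.2⟩ : Lfn (Fin n))) '' ({P : List (Ev (Fin n)) | P.length ≤ N} ×ˢ
        (Set.univ : Set (Fin n × Fin n)))).Finite :=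
      ((List.finite_length_le (Ev (Fin n)) N).prod Set.finite_univ).image _
    refine h1.subset ?_
    intro g hg
    exact ⟨(g.P, (g.i, g.k)), ⟨hg, mem_univ _⟩, rfl⟩
  have h2 : (⋃ n : Fin (N + 1), (fun x : (List (Ev (Fin n)) × Finset (Fin n)) ×
      (Lfn (Fin n) × Lfn (Fin n)) => (⟨n, fun ε => nearR Φ ε T x.1.1 x.2.1 x.2.2, x.1.2⟩ : Rln)) ''
      (({P : List (Ev (Fin n)) | P.length ≤ N} ×ˢ (Set.univ : Set (Finset (Fin n)))) ×ˢ
      ({g : Lfn (Fin n) | g.P.length ≤ N} ×ˢ {g : Lfn (Fin n) | g.P.length ≤ N}))).Finite :=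
    Set.finite_iUnion fun n => (((List.finite_length_le (Ev (Fin n)) N).prod
      Set.finite_univ).prod ((h0 n).prod (h0 n))).image _
  refine h2.subset ?_
  rintro r ⟨n, hn, P, g₁, g₂, Rs, h3, rfl⟩
  exact mem_iUnion.2 ⟨⟨n, Nat.lt_succ_of_le hn⟩, ((P, Rs), (g₁, g₂)),
    ⟨⟨h3.len, mem_univ _⟩, h3.len₁, h3.len₂⟩, rfl⟩

variable {m q : ℕ}

/-- The labelled version. -/
def PrgN (Φ : E3 → ℝ) (ε t : ℝ) (c₀ N : ℕ) (S : Fin m → CTree) (l : Fin q → Src)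
    (w : Finset Ph) : Prop :=
  ∃ n ≤ N, ∃ (z : Fin n → Src) (P : List (Ev (Fin n))) (g₁ g₂ : Lfn (Fin n))
    (Rs : Finset (Fin n)), NearOK t N c₀ P g₁ g₂ Rs ∧ LabT S l w z ∧ (∀ i ∈ Rs, z i ∉ range l) ∧
    (fun i => sta (z i)) ∈ nearR Φ ε t P g₁ g₂

variable {c₀ c₁ N N' : ℕ} {S : Fin m → CTree} {l : Fin q → Src} {w : Finset Ph}

theorem PrgN.mono (hc : c₀ ≤ c₁) (hN : N ≤ N') (h : PrgN Φ ε t c₀ N S l w) :
    PrgN Φ ε t c₁ N' S l w := by
  obtain ⟨n, hn, z, P, g₁, g₂, Rs, h1, h2, h3⟩ := h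
  exact ⟨n, hn.trans hN, z, P, g₁, g₂, Rs, h1.mono hN hc, h2, h3⟩

theorem PrgN.sbad (h : PrgN Φ ε t c₀ N S l w) : SBad (nears Φ t N c₀) ε S l w := by
  obtain ⟨n, hn, z, P, g₁, g₂, Rs, h1, h2, h3, h4⟩ := h
  exact ⟨_, ⟨n, hn, P, g₁, g₂, Rs, h1, rfl⟩, z, h2, h4, h3⟩

/-- A larger horizon. -/
theorem PrgN.mono_t (hΦ : IsPotential Φ) (hε : 0 < ε) (ht : t ≤ T)
    (hS : ∀ j, ∀ σ ∈ (S j).leaves, 0 ≤ σ.1) (hl : ∀ j, 0 ≤ (l j).1)
    (h : PrgN Φ ε t c₀ N S l w) : PrgN Φ ε T c₀ N S l w := by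
  obtain ⟨n, hn, z, P, g₁, g₂, Rs, h1, h2, h3, h4, h5⟩ := h
  have hok : ∀ g : Lfn (Fin n), g.Ok (pl t P) → g.Ok (pl T P) := fun g hg =>
    ⟨fun e he => ⟨(hg.ev e he).1, jn_hor (hg.ev e he).2⟩, jn_hor hg.jn⟩
  have e1 : ∀ t' : ℝ, pl t' P ++ [(Ev.gh g₁.i g₂.i, t')] = pl t' (P ++ [Ev.gh g₁.i g₂.i]) := by
    intro t'
    unfold pl
    rw [List.map_append]
    rfl
  refine ⟨n, hn, z, P, g₁, g₂, Rs, ⟨h1.len, h1.len₁, h1.len₂, hok _ h1.ok₁, hok _ h1.ok₂, ?_,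
    h1.card⟩, h2, h3, relP_horizon hΦ hε ht (fun i => h2.birth hS hl i) h4, ?_⟩
  · have h6 := h1.trv
    rw [e1] at h6 ⊢
    exact trv_hor h6
  · obtain ⟨s, h6, h7, h8⟩ := h5
    refine ⟨s, h6, h7.trans (by linarith), ?_⟩
    rwa [g₁.val_hor T t, g₂.val_hor T t]

/-- Any finite type of labels. -/
theorem PrgN.of_fintype {ι : Type} [Fintype ι] [DecidableEq ι]
    (hι : Fintype.card ι ≤ N) {z : ι → Src} {P : List (Ev ι)} {g₁ g₂ : Lfn ι} {Rs : Finset ι}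
    (hP : NearOK t N c₀ P g₁ g₂ Rs) (hz : LabT S l w z) (hRl : ∀ i ∈ Rs, z i ∉ range l)
    (hr : Run Φ ε t 0 (pl t P) (fun i => (z i).1) fun i => (z i).2.1)
    (hn : (fun i => (z i).2.1) ∈ cmR ε t (g₁.val Φ ε t) (g₂.val Φ ε t)) :
    PrgN Φ ε t c₀ N S l w := by
  set e := (Fintype.equivFin ι).symm with he
  obtain ⟨P', hP'⟩ := exists_map_list (f := e) P fun ev _ =>
    ⟨⟨e.symm ev.fst, by simp⟩, ⟨e.symm ev.snd, by simp⟩⟩
  obtain ⟨g₁', hg₁⟩ := exists_lfn_map e g₁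
  obtain ⟨g₂', hg₂⟩ := exists_lfn_map e g₂
  have e1 : pl t P = mapP e (pl t P') := by rw [mapP_pl, hP']
  have hinj : Function.Injective e := e.injective
  have l1 : ∀ g : Lfn (Fin (Fintype.card ι)), (g.map e).P.length = g.P.length := fun g =>
    List.length_map _
  refine ⟨Fintype.card ι, hι, z ∘ e, P', g₁', g₂', Rs.map e.symm.toEmbedding,
    ⟨?_, ?_, ?_, ?_, ?_, ⟨fun i => ?_, ?_⟩, ?_⟩,
    ⟨hz.inj.comp hinj, fun i => hz.mem (e i), fun j => ?_, fun j => ?_⟩, ?_, ?_, ?_⟩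
  · have h1 := hP.len
    rw [← hP', List.length_map] at h1
    exact h1
  · have h1 := hP.len₁
    rwa [← hg₁, l1] at h1
  · have h1 := hP.len₂
    rwa [← hg₂, l1] at h1
  · have h1 := hP.ok₁
    rw [← hg₁, e1] at h1
    exact (Lfn.ok_map hinj).1 h1
  · have h1 := hP.ok₂
    rw [← hg₂, e1] at h1
    exact (Lfn.ok_map hinj).1 h1
  · obtain ⟨r, hr1, hr2⟩ := hP.trv.cov (e i)
    refine ⟨e.symm r, Finset.mem_map.2 ⟨r, hr1, rfl⟩, ?_⟩
    have e2 : pl t P ++ [(Ev.gh g₁.i g₂.i, t)] =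
        mapP e (pl t P' ++ [(Ev.gh g₁'.i g₂'.i, t)]) := by
      rw [e1, ← hg₁, ← hg₂]
      unfold mapP
      rw [List.map_append]
      rfl
    rw [e2] at hr2
    have h3 : Jn (mapP e (pl t P' ++ [(Ev.gh g₁'.i g₂'.i, t)])) (e i) (e (e.symm r)) := by
      simpa using hr2
    rwa [jn_map hinj] at h3
  · intro r₁ h1 r₂ h2 h3
    obtain ⟨r₁, h5, rfl⟩ := Finset.mem_map.1 h1
    obtain ⟨r₂, h6, rfl⟩ := Finset.mem_map.1 h2
    have e2 : pl t P ++ [(Ev.gh g₁.i g₂.i, t)] =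
        mapP e (pl t P' ++ [(Ev.gh g₁'.i g₂'.i, t)]) := by
      rw [e1, ← hg₁, ← hg₂]
      unfold mapP
      rw [List.map_append]
      rfl
    rw [← jn_map hinj, ← e2] at h3
    have h4 : Jn (pl t P ++ [(Ev.gh g₁.i g₂.i, t)]) r₁ r₂ := by simpa using h3
    rw [hP.trv.uni r₁ h5 r₂ h6 h4]
  · rw [Finset.card_map]; exact hP.card
  · rw [e.surjective.range_comp]; exact hz.trees j
  · rw [e.surjective.range_comp]; exact hz.lines j
  · intro j hj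
    obtain ⟨r, h1, rfl⟩ := Finset.mem_map.1 hj
    have := hRl r h1
    simpa using this
  · rw [e1, run_map hinj] at hr
    exact hr
  · obtain ⟨s, h6, h7, h8⟩ := hn
    refine ⟨s, h6, h7, ?_⟩
    rw [← hg₁, ← hg₂, Lfn.val_map hinj, Lfn.val_map hinj] at h8
    exact h8

end Vale.Agent.P119.IND
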