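import Vale.Agent.P119.IND.Final
import Vale.Agent.P119.IND.Good

/-!
# P119, block IND: the final contact for one and for two inserted sets (`helper621`)

`W₂ V A B c c'`: the world `V` with `A` (if `c`) and `B` (if `c'`).

* `exists_of_not_NI1`: if `NI1 V A t` fails then at a time `s ≤ t` there is a final contact `OneOut`
  for the two worlds `V`, `V ∪ A`;
* `exists_of_not_NI2`: if `NI2 V A B t` fails then at a time `s ≤ t` there is a contact `TwoOut` of a
  tree altered by `A` and a tree altered by `B` (and up to `s` all trees depend on one of the two sets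
  only), or a final contact `OneOut` for two worlds which differ by `A` only or by `B` only.
-/

open MeasureTheory Filter Topology Set
open scoped ENNReal NNReal

noncomputable section

namespace Vale.Agent.P119.IND

open KU M M.CTree TL RB

variable {Φ : E3 → ℝ} {ε : ℝ} {L : ℕ}

/-- The worlds with two inserted sets. -/
def W₂ (V A B : Set Src) (c c' : Bool) : Set Src :=
  V ∪ (if c then A else ∅) ∪ (if c' then B else ∅)

theorem W₂_finite {V A B : Set Src} (hV : V.Finite) (hA : A.Finite) (hB : B.Finite) (c c' : Bool) :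
    (W₂ V A B c c').Finite := by
  unfold W₂
  refine (hV.union ?_).union ?_
  · split_ifs
    · exact hA
    · exact finite_empty
  · split_ifs
    · exact hB
    · exact finite_empty

theorem mem_W₂ {V A B : Set Src} {c c' : Bool} {σ : Src} :
    σ ∈ W₂ V A B c c' ↔ σ ∈ V ∨ (c = true ∧ σ ∈ A) ∨ (c' = true ∧ σ ∈ B) := by
  unfold W₂
  rw [mem_union, mem_union, or_assoc]
  refine or_congr_right (or_congr ?_ ?_)
  · cases c <;> simp
  · cases c' <;> simp

theorem W₂_ff (V A B : Set Src) : W₂ V A B false false = V := by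
  ext σ; rw [mem_W₂]; simp

theorem W₂_tf (V A B : Set Src) : W₂ V A B true false = V ∪ A := by
  ext σ; rw [mem_W₂]; simp

theorem W₂_ft (V A B : Set Src) : W₂ V A B false true = V ∪ B := by
  ext σ; rw [mem_W₂]; simp

theorem W₂_swap (V A B : Set Src) (c c' : Bool) : W₂ V A B c c' = W₂ V B A c' c := by
  ext σ
  rw [mem_W₂, mem_W₂]
  tauto

/-- The world with one inserted set. -/
def W₁ (V A : Set Src) (c : Bool) : Set Src := V ∪ (if c then A else ∅)

theorem mem_W₁ {V A : Set Src} {c : Bool} {σ : Src} :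
    σ ∈ W₁ V A c ↔ σ ∈ V ∨ (c = true ∧ σ ∈ A) := by
  unfold W₁
  rw [mem_union]
  refine or_congr_right ?_
  cases c <;> simp

theorem W₁_false (V A : Set Src) : W₁ V A false = V := by
  ext σ; rw [mem_W₁]; simp

theorem W₁_true (V A : Set Src) : W₁ V A true = V ∪ A := by
  ext σ; rw [mem_W₁]; simp

theorem W₁_finite {V A : Set Src} (hV : V.Finite) (hA : A.Finite) (c : Bool) :
    (W₁ V A c).Finite := by
  unfold W₁
  refine hV.union ?_
  split_ifs
  · exact hA
  · exact finite_empty

theorem W₂_eq_left (V A B : Set Src) (c c' : Bool) :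
    W₂ V A B c c' = W₁ (W₁ V B c') A c := by
  ext σ
  rw [mem_W₂, mem_W₁, mem_W₁]
  tauto

theorem W₂_eq_right (V A B : Set Src) (c c' : Bool) :
    W₂ V A B c c' = W₁ (W₁ V A c) B c' := by
  ext σ
  rw [mem_W₂, mem_W₁, mem_W₁]
  tauto

/-! ### The final contacts -/

/-- The final contact for two worlds `w false`, `w true`: `T` is live in `w b` only, and in contact
with `S`, which is live in both; moreover `T` and `S` have a common particle, or `T` or `S` is
colliding, or `S` is in contact with a third tree which is live in both worlds. -/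
structure OneOut (Φ : E3 → ℝ) (ε : ℝ) (L : ℕ) (w : Bool → Set Src) (s : ℝ) (b : Bool)
    (T S : CTree) : Prop where
  bg : Bg Φ ε T s
  live : M.live Φ ε L (w b) T s
  not_live : ¬M.live Φ ε L (w !b) T s
  bgS : Bg Φ ε S s
  liveS : ∀ c, M.live Φ ε L (w c) S s
  root : T.root ≠ S.root
  ctc : Ctc ε (st Φ ε T s) (st Φ ε S s)
  cases : ¬Disjoint T.leaves S.leaves ∨ s < ext Φ ε T ∨ s < ext Φ ε S ∨
    ∃ S₂, Bg Φ ε S₂ s ∧ (∀ c, M.live Φ ε L (w c) S₂ s) ∧ S₂.root ≠ S.root ∧ S₂.root ≠ T.root ∧
      Ctc ε (st Φ ε S s) (st Φ ε S₂ s)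

/-- The final contact of a tree `T` altered by `A` and a tree `T'` altered by `B`. -/
structure TwoOut (Φ : E3 → ℝ) (ε : ℝ) (L : ℕ) (V A B : Set Src) (s : ℝ) (b b' : Bool)
    (T T' : CTree) : Prop where
  dep : ∀ s' ≤ s, ∀ X, Bg Φ ε X s' →
    (∀ c c' d', M.live Φ ε L (W₂ V A B c c') X s' ↔ M.live Φ ε L (W₂ V A B c d') X s') ∨
      (∀ c c' d, M.live Φ ε L (W₂ V A B c c') X s' ↔ M.live Φ ε L (W₂ V A B d c') X s')
  bg : Bg Φ ε T s
  live : ∀ c', M.live Φ ε L (W₂ V A B b c') T s
  not_live : ∀ c', ¬M.live Φ ε L (W₂ V A B (!b) c') T s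
  bg' : Bg Φ ε T' s
  live' : ∀ c, M.live Φ ε L (W₂ V A B c b') T' s
  not_live' : ∀ c, ¬M.live Φ ε L (W₂ V A B c (!b')) T' s
  root : T.root ≠ T'.root
  ctc : Ctc ε (st Φ ε T s) (st Φ ε T' s)
  ext : M.CTree.ext Φ ε T ≤ s
  ext' : M.CTree.ext Φ ε T' ≤ s

/-- The other particle of a colliding pair is not in the contact. -/
theorem OneOut.partner_ne (hΦ : IsPotential Φ) (hε : 0 < ε) {w : Bool → Set Src}
    (hw : ∀ b, (w b).Finite) {s : ℝ} {b : Bool} {x y S : CTree}
    (h : OneOut Φ ε L w s b (node x y) S) (hs : s < ext Φ ε (node x y)) : y.root ≠ S.root := by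
  intro hr
  have h1 := live_swap hΦ h.live hs.le
  have h2 : node y x = S := Bg.unique hΦ hε (hw b) h1 (h.liveS b) h.bg.swap h.bgS hr
  have h3 := h.liveS !b
  rw [← h2] at h3
  exact h.not_live (live_swap hΦ h3 (by rw [ext_swap hΦ x y]; exact hs.le))

theorem OneOut.partner_ne' (hΦ : IsPotential Φ) (hε : 0 < ε) {w : Bool → Set Src}
    (hw : ∀ b, (w b).Finite) {s : ℝ} {b : Bool} {x y T : CTree}
    (h : OneOut Φ ε L w s b T (node x y)) (hs : s < ext Φ ε (node x y)) : y.root ≠ T.root := by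
  intro hr
  have h1 := live_swap hΦ (h.liveS b) hs.le
  have h2 : node y x = T := Bg.unique hΦ hε (hw b) h1 h.live h.bgS.swap h.bg hr
  have h3 := live_swap hΦ (h.liveS !b) hs.le
  rw [h2] at h3
  exact h.not_live h3

/-! ### The cube of the two sets -/

/-- The cube. -/
def cb (V A B : Set Src) (J : Finset Bool) : Set Src :=
  W₂ V A B (decide (true ∈ J)) (decide (false ∈ J))

theorem cb_cubeW {V A B : Set Src} (hV : V.Finite) (hA : A.Finite) (hB : B.Finite)
    (hd : Disjoint A B) (K : Finset Bool) : CubeW (cb V A B) K := by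
  refine ⟨fun J _ => W₂_finite hV hA hB _ _, fun J hJ σ => ?_, fun σ => ?_⟩
  · unfold cb
    rw [mem_W₂, mem_W₂]
    simp only [decide_eq_true_eq]
    exact Or.imp_right (Or.imp (And.imp_left fun h => hJ h) (And.imp_left fun h => hJ h))
  · by_cases hσ : σ ∈ A
    · have hσ' : σ ∉ B := disjoint_left.1 hd hσ
      refine ⟨true, fun J J' _ _ h => ?_⟩
      change σ ∈ cb V A B J ↔ σ ∈ cb V A B J'
      unfold cb
      rw [mem_W₂, mem_W₂]
      simp only [decide_eq_true_eq, hσ, hσ', and_true, and_false, or_false]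
      exact or_congr_right h
    · refine ⟨false, fun J J' _ _ h => ?_⟩
      change σ ∈ cb V A B J ↔ σ ∈ cb V A B J'
      unfold cb
      rw [mem_W₂, mem_W₂]
      simp only [decide_eq_true_eq, hσ, and_false, false_or]
      exact or_congr_right (and_congr_left fun _ => h)

theorem cb_empty (V A B : Set Src) : cb V A B ∅ = V := by
  unfold cb; simp [W₂_ff]

theorem cb_true (V A B : Set Src) : cb V A B {true} = V ∪ A := by
  unfold cb; simp [W₂_tf]

theorem cb_false (V A B : Set Src) : cb V A B {false} = V ∪ B := by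
  unfold cb; simp [W₂_ft]

/-- The index set of `(c, c')`. -/
def ix (c c' : Bool) : Finset Bool := (Finset.univ : Finset Bool).filter fun b => bif b then c else c'

theorem cb_ix (V A B : Set Src) (c c' : Bool) : cb V A B (ix c c') = W₂ V A B c c' := by
  unfold cb ix
  simp

theorem true_mem_ix {c c' : Bool} : true ∈ ix c c' ↔ c = true := by
  unfold ix; simp

theorem false_mem_ix {c c' : Bool} : false ∈ ix c c' ↔ c' = true := by
  unfold ix; simp

theorem cb_insert_true (V A B : Set Src) {J : Finset Bool} (h : true ∉ J) (c : Bool) :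
    W₂ V A B c (decide (false ∈ J)) = bif c then cb V A B (insert true J) else cb V A B J := by
  unfold cb
  cases c <;> simp [h]

theorem cb_insert_false (V A B : Set Src) {J : Finset Bool} (h : false ∉ J) (c : Bool) :
    W₂ V A B (decide (true ∈ J)) c = bif c then cb V A B (insert false J) else cb V A B J := by
  unfold cb
  cases c <;> simp [h]

/-- The form of the worlds in the case `one`. -/
theorem oneOut_of_dif {w : Bool → Set Src} {s : ℝ} {A M : CTree}
    (bA : Bg Φ ε A s) (hA : ¬(live Φ ε L (w false) A s ↔ live Φ ε L (w true) A s))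
    (bM : Bg Φ ε M s) (hM : live Φ ε L (w false) M s ∧ live Φ ε L (w true) M s)
    (hr : A.root ≠ M.root) (hc : Ctc ε (st Φ ε A s) (st Φ ε M s))
    (h : ¬Disjoint A.leaves M.leaves ∨ s < ext Φ ε A ∨ s < ext Φ ε M ∨
      ∃ M₂, Bg Φ ε M₂ s ∧ live Φ ε L (w false) M₂ s ∧ live Φ ε L (w true) M₂ s ∧
        M₂.root ≠ M.root ∧ M₂.root ≠ A.root ∧ Ctc ε (st Φ ε M s) (st Φ ε M₂ s)) :
    ∃ b, OneOut Φ ε L w s b A M := by
  have hb : ∃ b, live Φ ε L (w b) A s ∧ ¬live Φ ε L (w !b) A s := by
    by_cases h1 : live Φ ε L (w false) A s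
    · exact ⟨false, h1, fun h2 => hA ⟨fun _ => h2, fun _ => h1⟩⟩
    · refine ⟨true, ?_, h1⟩
      by_contra h2
      exact hA ⟨fun h => absurd h h1, fun h => absurd h h2⟩
  obtain ⟨b, h1, h2⟩ := hb
  refine ⟨b, bA, h1, h2, bM, fun c => ?_, hr, hc, ?_⟩
  · cases c
    · exact hM.1
    · exact hM.2
  · rcases h with h | h | h | ⟨M₂, k1, k2, k3, k4⟩
    · exact Or.inl h
    · exact Or.inr (Or.inl h)
    · exact Or.inr (Or.inr (Or.inl h))
    · refine Or.inr (Or.inr (Or.inr ⟨M₂, k1, fun c => ?_, k4⟩))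
      cases c
      · exact k2
      · exact k3

/-- **The final contact for two sets.** -/
theorem exists_of_fail (hΦ : IsPotential Φ) (hε : 0 < ε) {V A B : Set Src} (hV : V.Finite)
    (hA : A.Finite) (hB : B.Finite) (hd : Disjoint A B) {t : ℝ} (K : Finset Bool)
    (h : ∃ s ≤ t, Fail Φ ε L (cb V A B) K s) :
    ∃ s ≤ t, (K = Finset.univ ∧ ∃ b b' T T', TwoOut Φ ε L V A B s b b' T T') ∨
      (true ∈ K ∧ ∃ c' b T M, OneOut Φ ε L (fun c => W₂ V A B c c') s b T M ∧
        (false ∉ K → c' = false)) ∨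
      (false ∈ K ∧ ∃ c b T M, OneOut Φ ε L (fun c' => W₂ V A B c c') s b T M ∧
        (true ∉ K → c = false)) := by
  have hC := cb_cubeW hV hA hB hd K
  obtain ⟨s, hs, hD, hO⟩ := exists_out hΦ hε hC h
  refine ⟨s, hs, ?_⟩
  cases hO with
  | two i j hi hj hij X Y hX hY hr hc eX eY =>
    left
    have hK : K = Finset.univ := by
      ext b
      simp only [Finset.mem_univ, iff_true]
      cases b <;> cases i <;> cases j <;> first | exact hi | exact hj | exact absurd rfl hij
    subst hK
    refine ⟨rfl, ?_⟩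
    have hdep : ∀ s' ≤ s, ∀ X, Bg Φ ε X s' →
        (∀ c c' d', live Φ ε L (W₂ V A B c c') X s' ↔ live Φ ε L (W₂ V A B c d') X s') ∨
          (∀ c c' d, live Φ ε L (W₂ V A B c c') X s' ↔ live Φ ε L (W₂ V A B d c') X s') := by
      intro s' hs' X hX
      obtain ⟨i, hi⟩ := hD s' hs' X hX
      cases i
      · right
        intro c c' d
        rw [← cb_ix, ← cb_ix]
        exact hi _ _ (Finset.subset_univ _) (Finset.subset_univ _)
          (false_mem_ix.trans false_mem_ix.symm)
      · left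
        intro c c' d
        rw [← cb_ix, ← cb_ix]
        exact hi _ _ (Finset.subset_univ _) (Finset.subset_univ _)
          (true_mem_ix.trans true_mem_ix.symm)
    -- a tree altered by `A`
    have kA : ∀ X, Alt Φ ε L (cb V A B) true X s →
        ∃ b, (∀ c', live Φ ε L (W₂ V A B b c') X s) ∧ ∀ c', ¬live Φ ε L (W₂ V A B (!b) c') X s := by
      intro X hX
      have h2 := hX.2
      have e0 : cb V A B ∅ = W₂ V A B false false := by rw [cb_empty, W₂_ff]
      have e1 : cb V A B {true} = W₂ V A B true false := by rw [cb_true, W₂_tf]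
      rw [e0, e1] at h2
      rcases hdep s le_rfl X hX.1 with h3 | h3
      · by_cases h4 : live Φ ε L (W₂ V A B false false) X s
        · exact ⟨false, fun c' => (h3 _ _ _).1 h4,
            fun c' h5 => h2 ⟨fun _ => (h3 _ _ _).1 h5, fun _ => h4⟩⟩
        · have h5 : live Φ ε L (W₂ V A B true false) X s := by
            by_contra h5
            exact h2 ⟨fun h => absurd h h4, fun h => absurd h h5⟩
          exact ⟨true, fun c' => (h3 _ _ _).1 h5, fun c' h6 => h4 ((h3 _ _ _).1 h6)⟩
      · exact absurd (h3 _ _ _) h2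
    have kB : ∀ X, Alt Φ ε L (cb V A B) false X s →
        ∃ b, (∀ c, live Φ ε L (W₂ V A B c b) X s) ∧ ∀ c, ¬live Φ ε L (W₂ V A B c (!b)) X s := by
      intro X hX
      have h2 := hX.2
      have e0 : cb V A B ∅ = W₂ V A B false false := by rw [cb_empty, W₂_ff]
      have e1 : cb V A B {false} = W₂ V A B false true := by rw [cb_false, W₂_ft]
      rw [e0, e1] at h2
      rcases hdep s le_rfl X hX.1 with h3 | h3
      · exact absurd (h3 _ _ _) h2
      · by_cases h4 : live Φ ε L (W₂ V A B false false) X s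
        · exact ⟨false, fun c' => (h3 _ _ _).1 h4,
            fun c' h5 => h2 ⟨fun _ => (h3 _ _ _).1 h5, fun _ => h4⟩⟩
        · have h5 : live Φ ε L (W₂ V A B false true) X s := by
            by_contra h5
            exact h2 ⟨fun h => absurd h h4, fun h => absurd h h5⟩
          exact ⟨true, fun c' => (h3 _ _ _).1 h5, fun c' h6 => h4 ((h3 _ _ _).1 h6)⟩
    cases i <;> cases j
    · exact absurd rfl hij
    · obtain ⟨b, h1, h2⟩ := kA Y hY
      obtain ⟨b', h3, h4⟩ := kB X hX
      exact ⟨b, b', Y, X, hdep, hY.1, h1, h2, hX.1, h3, h4, hr.symm, hc.symm, eY, eX⟩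
    · obtain ⟨b, h1, h2⟩ := kA X hX
      obtain ⟨b', h3, h4⟩ := kB Y hY
      exact ⟨b, b', X, Y, hdep, hX.1, h1, h2, hY.1, h3, h4, hr, hc, eX, eY⟩
    · exact absurd rfl hij
  | one i J hJ hJ' hiJ X M bX hX bM hM hr hc hh =>
    right
    cases i
    · right
      refine ⟨hJ' (Finset.mem_insert_self _ _), decide (true ∈ J), ?_⟩
      have e0 := cb_insert_false V A B hiJ false
      have e1 := cb_insert_false V A B hiJ true
      simp only [cond_false, cond_true] at e0 e1
      rw [← e0, ← e1] at hX hM hh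
      obtain ⟨b, hb⟩ := oneOut_of_dif (w := fun c' => W₂ V A B (decide (true ∈ J)) c')
        bX hX bM hM hr hc hh
      refine ⟨b, X, M, hb, fun h => ?_⟩
      exact decide_eq_false fun h' => h (hJ h')
    · left
      refine ⟨hJ' (Finset.mem_insert_self _ _), decide (false ∈ J), ?_⟩
      have e0 := cb_insert_true V A B hiJ false
      have e1 := cb_insert_true V A B hiJ true
      simp only [cond_false, cond_true] at e0 e1
      rw [← e0, ← e1] at hX hM hh
      obtain ⟨b, hb⟩ := oneOut_of_dif (w := fun c => W₂ V A B c (decide (false ∈ J)))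
        bX hX bM hM hr hc hh
      refine ⟨b, X, M, hb, fun h => ?_⟩
      exact decide_eq_false fun h' => h (hJ h')

/-! ### The failures of `NI1`, `NI2` -/

theorem altd_cb_true {V A B : Set Src} {a : Src} {s : ℝ} :
    altd Φ ε L (cb V A B) true a s ↔ ¬Same Φ ε L V (V ∪ A) a s := by
  unfold altd Same
  rw [cb_empty, cb_true]

theorem altd_cb_false {V A B : Set Src} {a : Src} {s : ℝ} :
    altd Φ ε L (cb V A B) false a s ↔ ¬Same Φ ε L V (V ∪ B) a s := by
  unfold altd Same
  rw [cb_empty, cb_false]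

/-- **The failure of `NI1`.** -/
theorem exists_of_not_NI1 (hΦ : IsPotential Φ) (hε : 0 < ε) {V A : Set Src} (hV : V.Finite)
    (hA : A.Finite) (hd : Disjoint V A) {t : ℝ} (h : ¬NI1 Φ ε L V A t) :
    ∃ s ≤ t, ∃ b T M, OneOut Φ ε L (W₁ V A) s b T M := by
  have hF : ∃ s ≤ t, Fail Φ ε L (cb V A ∅) {true} s := by
    by_contra hcon
    push Not at hcon
    refine h ⟨hd, fun s hs a b ha hb => ⟨fun hst hm => ?_, fun hst hm => ?_⟩⟩
    · refine hcon s hs (Fail.nobad true (Finset.mem_singleton_self _) a b ?_ ?_ ∅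
        (Finset.empty_subset _) ?_ ?_)
      · rw [altd_cb_true, not_not]; exact ha
      · rw [altd_cb_true]; exact hb
      · rw [cb_empty]; exact hm
      · rw [cb_empty]; exact hst
    · refine hcon s hs (Fail.nobad true (Finset.mem_singleton_self _) a b ?_ ?_ {true}
        (Finset.Subset.refl _) ?_ ?_)
      · rw [altd_cb_true, not_not]; exact ha
      · rw [altd_cb_true]; exact hb
      · rw [cb_true]; exact hm
      · rw [cb_true]; exact hst
  obtain ⟨s, hs, h1⟩ := exists_of_fail hΦ hε hV hA finite_empty (disjoint_empty A) {true} hF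
  refine ⟨s, hs, ?_⟩
  rcases h1 with ⟨h2, -⟩ | ⟨-, c', b, T, M, h2, h3⟩ | ⟨h2, -⟩
  · have := Finset.ext_iff.1 h2 false
    simp at this
  · have e : (fun c => W₂ V A ∅ c c') = W₁ V A := by
      funext c
      ext σ
      rw [mem_W₂, mem_W₁]
      simp
    rw [e] at h2
    exact ⟨b, T, M, h2⟩
  · simp at h2

/-- **The failure of `NI2`.** -/
theorem exists_of_not_NI2 (hΦ : IsPotential Φ) (hε : 0 < ε) {V A B : Set Src} (hV : V.Finite)
    (hA : A.Finite) (hB : B.Finite) (hd : Disjoint A B) {t : ℝ} (h : ¬NI2 Φ ε L V A B t) :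
    ∃ s ≤ t, (∃ b b' T T', TwoOut Φ ε L V A B s b b' T T') ∨
      (∃ c' b T M, OneOut Φ ε L (fun c => W₂ V A B c c') s b T M) ∨
      (∃ c b T M, OneOut Φ ε L (fun c' => W₂ V A B c c') s b T M) := by
  have hF : ∃ s ≤ t, Fail Φ ε L (cb V A B) Finset.univ s := by
    by_contra hcon
    push Not at hcon
    have mt : true ∈ (Finset.univ : Finset Bool) := Finset.mem_univ _
    have mf : false ∈ (Finset.univ : Finset Bool) := Finset.mem_univ _
    have htf : (true : Bool) ≠ false := by decide
    refine h ⟨hd, fun s hs T T' h1 h2 h3 => ?_, fun s hs T T₁ T₂ h0 h1 h2 h3 h4 => ?_,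
      fun s hs a b hab h1 h2 W W' hW hW' T T' h3 h4 h5 h6 h7 => ?_⟩
    · refine hcon s hs (Fail.nohit true false mt mf htf T T' ?_ ?_ h3)
      · rw [cb_empty, cb_true]; exact h1
      · rw [cb_empty, cb_false]; exact h2
    · refine hcon s hs (Fail.notie true false mt mf htf T T₁ T₂ ?_ ?_ ?_ h3 h4)
      · rw [cb_empty]; exact h0
      · rw [cb_empty, cb_true]; exact h1
      · rw [cb_empty, cb_false]; exact h2
    · have k1 : ∃ I : Finset Bool, I ⊆ {true} ∧ cb V A B I = W := by
        rcases hW with rfl | rfl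
        · exact ⟨∅, Finset.empty_subset _, cb_empty _ _ _⟩
        · exact ⟨{true}, Finset.Subset.refl _, cb_true _ _ _⟩
      have k2 : ∃ I : Finset Bool, I ⊆ {false} ∧ cb V A B I = W' := by
        rcases hW' with rfl | rfl
        · exact ⟨∅, Finset.empty_subset _, cb_empty _ _ _⟩
        · exact ⟨{false}, Finset.Subset.refl _, cb_false _ _ _⟩
      obtain ⟨I, hI, rfl⟩ := k1
      obtain ⟨I', hI', rfl⟩ := k2
      exact hcon s hs (Fail.nocon true false mt mf htf a b hab (altd_cb_true.2 h1)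
        (altd_cb_false.2 h2) I I' hI hI' T T' h3 h4 h5 h6 h7)
  obtain ⟨s, hs, h1⟩ := exists_of_fail hΦ hε hV hA hB hd Finset.univ hF
  refine ⟨s, hs, ?_⟩
  rcases h1 with ⟨-, h2⟩ | ⟨-, c', b, T, M, h2, -⟩ | ⟨-, c, b, T, M, h2, -⟩
  · exact Or.inl h2
  · exact Or.inr (Or.inl ⟨c', b, T, M, h2⟩)
  · exact Or.inr (Or.inr ⟨c, b, T, M, h2⟩)

end Vale.Agent.P119.IND
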