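import Vale.Agent.P119.IND.PairConv
import Vale.Agent.P119.IND.Det

/-!
# P119, block IND: a contact with one of the two lines of a colliding pair (`helper621`)

* `exists_pc_lt`: every exploration is regular, or there is an output at a strictly earlier time;
* **`PL.alt`**: if at the first failing time `s ≤ s₀` a third tree, which is live in some world, is in
  contact with the line `rx`, then there is an output `PairOut` up to the time `s`: the family of the
  third tree with the ghost `(B, leaf rx, s)`, or (if `B` is colliding) the irregular contact of `leaf rx`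
  with the colliding pair.
-/

open MeasureTheory Filter Topology Set
open scoped ENNReal NNReal

noncomputable section

namespace Vale.Agent.P119.IND

open KU M M.CTree TL RB

variable {Φ : E3 → ℝ} {ε : ℝ} {L : ℕ} {V₀ ins all : Set Src} {Lv : CTree → Prop}
  {Lg : Bool → Gh → Prop} {s t : ℝ}

section pc

variable {ι : Type*} [DecidableEq ι] {W : Finset ι → Set Src} {K : Finset ι} {s₀ s₁ : ℝ} {i : ι}
  {b : Bool} {T : CTree} {m : ℕ}

omit [DecidableEq ι] in
theorem Env.mono (hE : Env Φ ε L W K V₀ ins all Lv Lg s₀ t) (h : s₁ ≤ s₀) :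
    Env Φ ε L W K V₀ ins all Lv Lg s₁ t :=
  ⟨hE.pot, hE.pos, hE.cube, hE.dep.mono h, h.trans hE.hst, hE.sub₀, hE.hins, hE.hall, hE.hLv,
    fun v A B r hr => hE.hLg v A B r (hr.trans h), fun v A B r hr => hE.hLd v A B r (hr.trans h)⟩

omit [DecidableEq ι] in
/-- The same exploration from a later time. -/
theorem PC.later {σ : Src} {l : List (CTree × ℝ × CTree)} {q : ℝ}
    (h : PC Φ ε L W V₀ i m b T q l σ) (hq : q ≤ s) (hl : live Φ ε L (wb W i b) T s) :
    PC Φ ε L W V₀ i m b T s l σ := by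
  refine ⟨?_, h.len, h.src, h.src₁, h.src₀, h.disj, h.only⟩
  have h1 := h.rt
  cases h1 with
  | stop _ hσ => exact RT.stop hl hσ
  | step _ hsub hr hno ha hna hk hc ht =>
    exact RT.step hl hsub (hr.trans_le hq) hno ha hna hk hc ht

/-- **Every exploration is regular, or there is an output at a strictly earlier time.** -/
theorem exists_pc_lt (hE : Env Φ ε L W K V₀ ins all Lv Lg s₀ t) (m : ℕ) (hi : i ∈ K)
    (hs : s ≤ s₀) (hb : Bg Φ ε T s) (hl : live Φ ε L (wb W i b) T s)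
    (hn : ¬live Φ ε L (wb W i !b) T s) :
    (∃ l σ, PC Φ ε L W V₀ i m b T s l σ) ∨
      ∃ r < s, DetOut hE.pot hE.pos L V₀ ins all Lv Lg t m (Nb0 L m) r := by
  have hW := wb_finite hE.cube hi
  by_cases hsub : T.leaves ⊆ wb W i !b
  swap
  · left
    obtain ⟨σ, h1, h2, h3⟩ := exists_source hE.cube hi hl hsub
    exact ⟨[], σ, RT.stop hl hsub, Nat.zero_le m, h1, h2, h3, List.Pairwise.nil,
      fun u hu => absurd hu List.not_mem_nil⟩
  -- the tree is hit in the other world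
  have hhit : ∃ X r, r < s ∧ hit Φ ε T X r ∧ alive Φ ε L (wb W i !b) X r := by
    by_contra hcon
    push Not at hcon
    exact hn ⟨hsub, hl.ok, hl.depth, hl.sig_le, fun X r hr hh => hcon X r hr hh⟩
  obtain ⟨X, r, hr, hh, ha⟩ := hhit
  have hsg : sig Φ ε T < s := by
    rcases hb with hb | hb
    · exact hb
    · rcases T with σ | ⟨a, a'⟩
      · exact lt_of_le_of_lt hh.1 hr
      · cases hb
  obtain ⟨q, hq1, hq2⟩ := exists_between (max_lt hr hsg)
  have hrq : r < q := (le_max_left _ _).trans_lt hq1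
  have hsq : sig Φ ε T < q := (le_max_right _ _).trans_lt hq1
  have hlq := hl.anti hq2.le hsq.le
  have hnq : ¬live Φ ε L (wb W i !b) T q := fun h => h.nohit X r hrq hh ha
  obtain ⟨l', hl'⟩ := exists_trail hE.pot hE.pos hW hlq hnq
  have hqs : q ≤ s₀ := hq2.le.trans hs
  rcases exists_pc (hE.mono hqs) m hi hl' le_rfl (Or.inl hsq) hnq with ⟨l, σ, hpc⟩ | ⟨r', h1, h2⟩
  · exact Or.inl ⟨l, σ, hpc.later hq2.le hl⟩
  · exact Or.inr ⟨r', h1.trans_lt hq2, h2⟩

end pc

variable {ι : Type*} [DecidableEq ι] {W : Finset ι → Set Src} {K : Finset ι} {k₀ : ι} {rx ry : Src}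

/-- The family does not contain a collision of the two particles. -/
theorem PL.nr_node (hΦ : IsPotential Φ) (hε : 0 < ε) (h : PL Φ ε L W K k₀ rx ry s) {s' : ℝ}
    (hle : s' ≤ s) (hlt : s' < ext Φ ε (node (leaf rx) (leaf ry)))
    {N : ℕ} {all : Set Src} {Lg : Bool → Gh → Prop} {F : Finset CTree} {G : List Gh}
    (hB : BFam Φ ε s' N all (LvC Φ ε L W K) Lg F G) {a b : CTree} (hab : node a b ∈ F) :
    NR rx ry (node a b) := by
  by_contra hcon
  obtain ⟨h1, J, hJ, h2⟩ := hB.live a b hab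
  have h3 := h.ext_le hΦ hε hJ h2.live (not_nr.1 hcon) (h1.trans_le hle)
  exact absurd (h3.trans (hB.fam.ext_le _ hab)) (not_le.2 hlt)

/-- The times before the first failing time. -/
theorem PL.pt_lt (hΦ : IsPotential Φ) (hε : 0 < ε) (h : PL Φ ε L W K k₀ rx ry s) {r : ℝ}
    (hr : r < s) (hlt : r < ext Φ ε (node (leaf rx) (leaf ry))) :
    PT Φ ε L W K k₀ rx ry s r :=
  ⟨h, hr.le, fun _ hq hq0 => h.nc_lt hΦ hε (hq.trans_lt hr) hq0, hlt⟩

/-- **A contact of a third tree with the line `rx` at the first failing time.** -/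
theorem PL.alt {hΦ : IsPotential Φ} {hε : 0 < ε} (h : PL Φ ε L W K k₀ rx ry s)
    (hV₀ : V₀ ⊆ W ∅) (hins : ∀ σ ∈ W K, σ ∉ W ∅ → σ ∈ ins) (hall : W K ⊆ all)
    (hs0 : s ≤ s2 Φ ε rx ry) (hst : s ≤ t) {J : Finset ι} (hJ : J ⊆ K) (hk : k₀ ∈ J) {B : CTree}
    (hb : Bg Φ ε B s) (hl : live Φ ε L (W J) B s) (h1 : B.root ≠ rx) (h2 : B.root ≠ ry)
    (h3 : rx.1 ≤ s) (hc : Ctc ε (st Φ ε B s) (KU.free s rx.2.1)) (m : ℕ) :
    ∃ s' ≤ s, PairOut hΦ hε L V₀ ins all rx ry (s2 Φ ε rx ry) t m (Nb0 L m) s' := by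
  have hf : ¬live Φ ε L (W K) B s := fun hf => (h.free s le_rfl hs0 B hb hf h1 h2).1 h3 hc
  have hsE : s < ext Φ ε (node (leaf rx) (leaf ry)) := hs0.trans_lt (sig_lt_ext hΦ hε h.ok₀)
  obtain ⟨e, heK, hek, heJ, hd, -, -⟩ := h.exists_alt_of_not_full hΦ hε le_rfl hJ hk hb hl hf
  have hJf : ({k₀} : Finset ι) ⊆ K := Finset.singleton_subset_iff.2 h.mem
  have hJt : ({k₀, e} : Finset ι) ⊆ K :=
    Finset.insert_subset h.mem (Finset.singleton_subset_iff.2 heK)
  set w : Bool → Set Src := fun c => W (if c then {k₀, e} else {k₀}) with hw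
  have ef : w false = W {k₀} := by simp [hw]
  have et : w true = W {k₀, e} := by simp [hw]
  have hex : ∀ c, ∃ J, J ⊆ K ∧ k₀ ∈ J ∧ w c = W J := by
    intro c
    cases c
    · exact ⟨_, hJf, Finset.mem_singleton_self _, ef⟩
    · exact ⟨_, hJt, Finset.mem_insert_self _ _, et⟩
  have lf : live Φ ε L (w false) B s := by
    rw [ef]
    exact (hd J {k₀} hJ hJf (by simp [heJ, hek])).1 hl
  have lt' : ¬live Φ ε L (w true) B s := by
    rw [et]
    exact fun hcon => hf ((hd {k₀, e} K hJt (Finset.Subset.refl K) (by simp [heK])).1 hcon)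
  have hwf : ∀ c, (w c).Finite := by
    intro c
    obtain ⟨J', g1, -, g2⟩ := hex c
    rw [g2]
    exact h.cube.fin J' g1
  have h0w : W ∅ ⊆ w false := by
    rw [ef]
    exact CubeW.empty_sub h.cube hJf
  have hwK : w true ⊆ W K := by
    rw [et]
    exact h.cube.mono _ hJt
  have hsub : w false ⊆ w true := by
    intro a ha
    rw [ef] at ha
    obtain ⟨j, hj⟩ := h.cube.dep a
    by_cases hje : j = e
    · have g1 : a ∈ W ∅ := (hj {k₀} ∅ hJf (Finset.empty_subset _) (by simp [hje, hek])).1 ha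
      rw [et]
      exact CubeW.empty_sub h.cube hJt g1
    · rw [et]
      exact (hj {k₀} {k₀, e} hJf hJt (by simp [hje])).1 ha
  have hE : Env Φ ε L (WU w) {()} V₀ ins all (LvC Φ ε L W K) (LgC Φ ε L W K) s t := by
    refine env_WU hΦ hε hwf hsub (hV₀.trans h0w) (fun σ g1 g2 => hins σ (hwK g1) fun g3 =>
      g2 (h0w g3)) (hwK.trans hall) (fun c P hP => ?_) (fun c A B' r _ hA hB' => ?_)
      (fun c A B' r _ hAB => ?_) hst
    · obtain ⟨J', g1, -, g2⟩ := hex c
      exact ⟨J', g1, g2 ▸ hP⟩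
    · obtain ⟨J', g1, -, g2⟩ := hex c
      exact ⟨J', g1, g2 ▸ hA, g2 ▸ hB'⟩
    · obtain ⟨J', g1, -, g2⟩ := hex c
      exact ⟨J', g1, g2 ▸ hAB⟩
  have hN : ∀ r' ∈ allTimes Φ ε L (W K), r' < s → r' < s2 Φ ε rx ry →
      NC Φ ε L W K k₀ rx ry r' := fun r' g1 g2 g3 => h.nc_mem hΦ hε r' g1 g2 g3.le
  have fS : Fu Φ ε L (WU w) {()} (leaf rx) s := by
    refine ⟨Or.inr rfl, fun v => ?_⟩
    obtain ⟨c, hc⟩ := exists_wd_WU w v
    obtain ⟨J', g1, g2, g3⟩ := hex c
    rw [hc, g3]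
    exact h.leaf_live hΦ hε hN g1 g2 hs0 h3
  have hnm : rx ∉ B.leaves ∧ ry ∉ B.leaves := by
    refine h.not_mem hΦ hε hJ B s hl h1 h2 ?_
    rcases hb with hb | hb
    · exact Or.inl ⟨hb, hb.le.trans hs0⟩
    · exact Or.inr hb
  have ew := wb_WU w
  have lf' : live Φ ε L (wb (WU w) () false) B s := by rw [ew]; exact lf
  have nt' : ¬live Φ ε L (wb (WU w) () !false) B s := by rw [ew]; exact lt'
  rcases exists_pc_lt hE m (Finset.mem_singleton_self ()) le_rfl hb lf' nt' with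
    ⟨l, σ, hpc⟩ | ⟨r, hr, hO⟩
  swap
  · exact ⟨r, hr.le, (h.pt_lt hΦ hε hr (hr.trans hsE)).pairOut (Subset.refl _) (Subset.refl _) hO⟩
  have hh : Hd Φ ε L (WU w) {()} V₀ s () m false B s l σ :=
    ⟨hpc, Finset.mem_singleton_self _, le_rfl, hb, nt'⟩
  have hF : ∀ P ∈ [leaf rx], Fu Φ ε L (WU w) {()} P s := by
    intro P hP; rw [List.mem_singleton] at hP; rw [hP]; exact fS
  have hr : [leaf rx].Pairwise fun P Q : CTree => P.root ≠ Q.root := List.pairwise_singleton _ _
  have hsc := hh.sc hE hF hr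
  have hW := wd_finite (W := WU w) hE.cube
  have eS : ext Φ ε (leaf rx) ≤ s := h3
  -- the ghosts of the exploration
  have hgh : ∀ {G : List Gh} {F : Finset CTree} {N : ℕ},
      BFam Φ ε s N all (LvC Φ ε L W K) (LgC Φ ε L W K) F G → ∀ g ∈ G,
      g ∈ lgs (lks {()} () false l) → NR rx ry g.1 ∧ NR rx ry g.2.1 := by
    intro G F N hB g hg hg'
    obtain ⟨g1, g2⟩ := hB.gal g hg
    obtain ⟨-, -, g3, -, g4, g5, g6⟩ := hB.fam.gh g hg
    unfold lgs at hg'
    obtain ⟨x, hx, hxg⟩ := List.mem_map.1 hg'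
    have g7 : g.2.2 < s := by
      rw [← hxg]
      exact (hsc.lk x hx).2
    exact (h.pt_lt hΦ hε g7 (g7.trans hsE)).ghost hΦ hε le_rfl g1 g2 g4 g3 g6
  have mT : rc1 {()} () false B s ∈ hrc {()} () false B s l [leaf rx] :=
    List.mem_append_left _ List.mem_cons_self
  have mS : fr {()} s (leaf rx) ∈ hrc {()} () false B s l [leaf rx] :=
    List.mem_append_right _ List.mem_cons_self
  have lS : IsLast (famT Φ ε s (hrc {()} () false B s l [leaf rx])) (leaf rx) :=
    hsc.isLast hE.pot hE.pos hW mS rfl eS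
  refine ⟨s, le_rfl, ?_⟩
  rcases le_or_gt (ext Φ ε B) s with eB | eB
  · -- a flying tree
    have hc' : Ctc ε (KU.free s (ln Φ ε B)) (KU.free s (ln Φ ε (leaf rx))) := by
      rw [st_after hΦ hε hl.ok eB] at hc
      exact hc
    obtain ⟨G, hG, hB⟩ := hh.bfam' hE hF hr (by simp) List.mem_cons_self eB eS hc'
    have lT : IsLast (famT Φ ε s (hrc {()} () false B s l [leaf rx])) B :=
      hsc.isLast hE.pot hE.pos hW mT rfl eB
    have hsubF : ∀ a b, node a b ∈ famT Φ ε s (hrc {()} () false B s l [leaf rx]) →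
        a ∈ famT Φ ε s (hrc {()} () false B s l [leaf rx]) ∧
          b ∈ famT Φ ε s (hrc {()} () false B s l [leaf rx]) :=
      fun a b hab => ⟨(hB.fam.sub a b hab).1, (hB.fam.sub a b hab).2.1⟩
    have hgT : (B, leaf rx, s) ∈ G := hG.mem_iff.2 List.mem_cons_self
    obtain ⟨hJ', hσ⟩ := hh.joined hE (es := []) hB.fam
      (fun g hg => hG.mem_iff.2 (List.mem_cons_of_mem _ hg)) (FX.root hsubF lT.mem)
      (fun P hP a ha => by
        rw [List.mem_singleton] at hP
        subst hP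
        exact (FX.root hsubF lS.mem a ha).trans (FX.ghost (g := (B, leaf rx, s)) hgT).symm)
    have hσ1 := hpc.src₁
    have hσ0 := hpc.src₀
    rw [WU_unit] at hσ1
    rw [WU_empty] at hσ0
    refine .closed _ G hB.forget ⟨fun a b hab => h.nr_node hΦ hε le_rfl hsE hB hab,
      fun g hg => ?_, fun g hg => ?_⟩ σ (hh.hins hE) hσ (fun a ha => (hJ' a ha).to_FJ)
      (Or.inl ⟨rx, mem_lab.2 ⟨leaf rx, lS.mem, rfl⟩, fun hcon => ?_, fun hcon => ?_⟩)
    · rcases List.mem_cons.1 (hG.mem_iff.1 hg) with rfl | hg'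
      · exact ⟨h1, h2⟩
      · exact (hgh hB g hg hg').1
    · rcases List.mem_cons.1 (hG.mem_iff.1 hg) with rfl | hg'
      · exact Or.inr ⟨Or.inl rfl, hs0⟩
      · exact Or.inl (hgh hB g hg hg').2
    · exact Finset.notMem_empty _ ((h.mx ∅ (Finset.empty_subset _)).1 (hV₀ hcon))
    · refine hσ0 ?_
      rw [← hcon, ef]
      exact (h.mx _ hJf).2 (Finset.mem_singleton_self _)
  · -- a colliding tree
    obtain ⟨x, y, hT⟩ := exists_node_of_lt_ext hl.sig_le eB
    have hsx' : s < ext Φ ε (node x y) := hT ▸ eB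
    have hxm : x.root ∈ B.leaves := by
      rw [hT]; exact Or.inl x.root_mem_leaves
    have hym : y.root ∈ B.leaves := by
      rw [hT]; exact Or.inr y.root_mem_leaves
    have nx : NR rx ry x := ⟨fun g => hnm.1 (g ▸ hxm), fun g => hnm.2 (g ▸ hxm)⟩
    have ny : NR rx ry y := ⟨fun g => hnm.1 (g ▸ hym), fun g => hnm.2 (g ▸ hym)⟩
    have hrx : (leaf rx).root ≠ x.root := fun g => nx.1 g.symm
    have hry : (leaf rx).root ≠ y.root := fun g => ny.1 g.symm
    obtain ⟨G, hG, hB⟩ := hh.bfam hE hF hr (by simp)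
    have hTr : B.root = x.root := by rw [hT]; rfl
    have hTl : ∀ a ∈ B.leaves, a ∈ (node x y).leaves := fun a ha => hT ▸ ha
    have lx := hsc.last_fst hE.pot hE.pos hW mT rfl hT hsx'
    have ly := hsc.last_snd hE.pot hE.pos hW mT hT hsx'
    have hsubF : ∀ a b, node a b ∈ famT Φ ε s (hrc {()} () false B s l [leaf rx]) →
        a ∈ famT Φ ε s (hrc {()} () false B s l [leaf rx]) ∧
          b ∈ famT Φ ε s (hrc {()} () false B s l [leaf rx]) :=
      fun a b hab => ⟨(hB.fam.sub a b hab).1, (hB.fam.sub a b hab).2.1⟩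
    have e1 : (x.root, y.root) ∈ [(x.root, y.root), (x.root, (leaf rx).root)] := by simp
    have e2 : (x.root, (leaf rx).root) ∈ [(x.root, y.root), (x.root, (leaf rx).root)] := by simp
    obtain ⟨hJ', hσ⟩ := hh.joined hE (es := [(x.root, y.root), (x.root, (leaf rx).root)]) hB.fam
      (fun g hg => hG.mem_iff.2 hg)
      (fun a ha => by
        rw [hTr]
        exact FX.pair hsubF lx.mem ly.mem e1 a (hTl a ha))
      (fun P hP a ha => by
        rw [List.mem_singleton] at hP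
        subst hP
        rw [hTr]
        exact (FX.root hsubF lS.mem a ha).trans (FX.edge e2).symm)
    have hgt : ∀ g ∈ G, g ∈ lgs (lks {()} () false l) := fun g hg => hG.mem_iff.1 hg
    have hTp : node x y ∈ parts (rc1 ({()} : Finset Unit) () false B s).R :=
      hT ▸ self_mem_parts _
    refine .irr _ G _ hB.forget ⟨fun a b hab => h.nr_node hΦ hε le_rfl hsE hB hab,
      fun g hg => (hgh hB g hg (hgt g hg)).1, fun g hg => Or.inl (hgh hB g hg (hgt g hg)).2⟩ σ
      (hh.hins hE) hσ hJ' (IrrN.tri x y (leaf rx) lx ly lS (hT ▸ hl.ok) (hT ▸ hl.sig_le) hsx'.le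
        eS hrx hry (Or.inl ?_) (fun g hg => ⟨?_, ?_, ?_⟩) ?_ (Or.inl ⟨nx, ny⟩)
        (Or.inr ⟨Or.inl rfl, hs0⟩))
    · rw [← hT]
      exact hc
    · exact hsc.nd hE.pot hE.pos hW mT rfl hTp (Or.inr hsx') g (hgt g hg)
    · exact hsc.nd hE.pot hE.pos hW mT rfl (Q := node y x) (swap_mem_parts hTp)
        (Or.inr (by rw [ext_swap hE.pot x y]; exact hsx')) g (hgt g hg)
    · exact hsc.nd hE.pot hE.pos hW mS rfl (self_mem_parts _) (Or.inl rfl) g (hgt g hg)
    · exact fun g hg => hsc.tg hE.pot hE.pos hW mT hT lx ly g (hgt g hg)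

end Vale.Agent.P119.IND
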