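import Vale.Agent.P119.IND.PairCube
import Vale.Agent.P119.IND.PairOut

/-!
# P119, block IND: the outputs of the deterministic analysis for a pair of lines (`helper621`)

`PT.pairOut`: an output `DetOut` at the time `s'`, for which the collisions, the ghosts and the legs of
the final contact take place in worlds of the cube (`LvC`, `LgC`), is an output `PairOut`, if no third
tree is in contact with the two lines up to the time `s'`.
-/

open MeasureTheory Filter Topology Set
open scoped ENNReal NNReal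

noncomputable section

namespace Vale.Agent.P119.IND

open KU M M.CTree TL RB

variable {Φ : E3 → ℝ} {ε : ℝ} {L : ℕ} {ι : Type*} {W : Finset ι → Set Src} {K : Finset ι}
  {k₀ : ι} {rx ry : Src} {s s' : ℝ}

/-- The collision takes place in one of the worlds. -/
def LvC (Φ : E3 → ℝ) (ε : ℝ) (L : ℕ) (W : Finset ι → Set Src) (K : Finset ι) (P : CTree) : Prop :=
  ∃ J, J ⊆ K ∧ lives Φ ε L (W J) P (sig Φ ε P)

/-- `false`: in one of the worlds the first history of the ghost is alive, and the second one is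
live; `true`: in one of the worlds exactly one of them is live. -/
def LgC (Φ : E3 → ℝ) (ε : ℝ) (L : ℕ) (W : Finset ι → Set Src) (K : Finset ι) : Bool → Gh → Prop
  | false, g => ∃ J, J ⊆ K ∧ alive Φ ε L (W J) g.1 g.2.2 ∧ live Φ ε L (W J) g.2.1 g.2.2
  | true, g => ∃ J, J ⊆ K ∧ ¬(live Φ ε L (W J) g.1 g.2.2 ↔ live Φ ε L (W J) g.2.1 g.2.2)

theorem not_nr {T : CTree} : ¬NR rx ry T ↔ T.root = rx ∨ T.root = ry := by
  unfold NR
  tauto

theorem BFam.forget {N : ℕ} {all : Set Src} {Lv : CTree → Prop} {Lg : Bool → Gh → Prop}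
    {F : Finset CTree} {G : List Gh} (h : BFam Φ ε s N all Lv Lg F G) :
    BFam Φ ε s N all (fun _ => True) (fun _ _ => True) F G :=
  ⟨h.fam, h.cardF, h.lenG, h.sub, fun a b hab => ⟨(h.live a b hab).1, trivial⟩,
    fun _ _ => ⟨trivial, trivial⟩⟩

namespace PT

variable [DecidableEq ι] {A B : CTree} {r : ℝ}

/-- A contact of two flying histories: both are not histories of the pair, or it is the entrance of
the pair. -/
theorem both' (hΦ : IsPotential Φ) (hε : 0 < ε) (h : PT Φ ε L W K k₀ rx ry s s') (hr : r ≤ s')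
    (hL : LgC Φ ε L W K false (A, B, r)) (eB : ext Φ ε B ≤ r) (hne : A.root ≠ B.root)
    (hc : Ctc ε (KU.free r (ln Φ ε A)) (KU.free r (ln Φ ε B))) :
    (NR rx ry A ∧ NR rx ry B) ∨
      (r = s2 Φ ε rx ry ∧ (A = leaf rx ∧ B = leaf ry ∨ A = leaf ry ∧ B = leaf rx)) := by
  obtain ⟨J, hJ, hA, hB⟩ := hL
  have hW := h.pl.cube.fin J hJ
  by_cases hn : NR rx ry A ∧ NR rx ry B
  · exact Or.inl hn
  · right
    refine h.both hΦ hε hr hJ hA ((alive_iff_live hΦ hε hW).2 ⟨hB, eB⟩) hne hc ?_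
    rcases not_and_or.1 hn with h1 | h1
    · exact Or.inl (not_nr.1 h1)
    · exact Or.inr (not_nr.1 h1)

/-- The ghosts do not contain the two particles. -/
theorem ghost (hΦ : IsPotential Φ) (hε : 0 < ε) (h : PT Φ ε L W K k₀ rx ry s s') (hr : r ≤ s')
    (hL : LgC Φ ε L W K false (A, B, r)) (hL' : LgC Φ ε L W K true (A, B, r))
    (eB : ext Φ ε B ≤ r) (hne : A.root ≠ B.root)
    (hc : Ctc ε (KU.free r (ln Φ ε A)) (KU.free r (ln Φ ε B))) : NR rx ry A ∧ NR rx ry B := by
  rcases h.both' hΦ hε hr hL eB hne hc with h1 | ⟨h1, h2⟩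
  · exact h1
  exfalso
  have hs : s2 Φ ε rx ry ≤ s := h1.symm.le.trans (hr.trans h.le)
  obtain ⟨J, hJ, h3⟩ := hL'
  have e1 := h.pl.live_iff hΦ hε hs hJ
  have e2 := (h.pl.swap hΦ).live_iff hΦ hε (by rw [s2_swap]; exact hs) hJ
  rw [s2_swap] at e2
  refine h3 ?_
  change live Φ ε L (W J) A r ↔ live Φ ε L (W J) B r
  rcases h2 with ⟨rfl, rfl⟩ | ⟨rfl, rfl⟩
  · rw [h1]; exact e1.trans e2.symm
  · rw [h1]; exact e2.trans e1.symm

/-- The colliding pairs. -/
theorem pair (hΦ : IsPotential Φ) (hε : 0 < ε) (h : PT Φ ε L W K k₀ rx ry s s') {x y : CTree}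
    (hok : ok Φ ε (node x y)) (hs : sig Φ ε (node x y) ≤ s')
    (hL : LgC Φ ε L W K false (x, y, sig Φ ε (node x y))) :
    PrN rx ry (s2 Φ ε rx ry) s' x y := by
  have hne : x.root ≠ y.root := fun hcon =>
    Set.disjoint_left.1 hok.2.2.1 x.root_mem_leaves (hcon ▸ y.root_mem_leaves)
  rcases h.both' hΦ hε hs hL hok.2.2.2.2.2.2.le hne (ctc_hitT hε hok.2.2.2.1) with h1 | ⟨h1, h2⟩
  · exact Or.inl h1
  · exact Or.inr ⟨h1 ▸ hs, h2⟩

/-- The family does not contain a collision of the two particles. -/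
theorem nr_node (hΦ : IsPotential Φ) (hε : 0 < ε) (h : PT Φ ε L W K k₀ rx ry s s')
    {N : ℕ} {all : Set Src} {Lg : Bool → Gh → Prop} {F : Finset CTree} {G : List Gh}
    (hB : BFam Φ ε s' N all (LvC Φ ε L W K) Lg F G) {a b : CTree} (hab : node a b ∈ F) :
    NR rx ry (node a b) := by
  by_contra hcon
  obtain ⟨h1, J, hJ, h2⟩ := hB.live a b hab
  have h3 := h.pl.ext_le hΦ hε hJ h2.live (not_nr.1 hcon) (h1.trans_le h.le)
  exact absurd (h3.trans (hB.fam.ext_le _ hab)) (not_le.2 h.lt)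

theorem npair (hΦ : IsPotential Φ) (hε : 0 < ε) (h : PT Φ ε L W K k₀ rx ry s s')
    {N : ℕ} {all : Set Src} {F : Finset CTree} {G : List Gh} {s₀ : ℝ}
    (hB : BFam Φ ε s' N all (LvC Φ ε L W K) (LgC Φ ε L W K) F G) : NPair rx ry s₀ F G := by
  have key : ∀ g ∈ G, NR rx ry g.1 ∧ NR rx ry g.2.1 := by
    intro g hg
    obtain ⟨h1, h2⟩ := hB.gal g hg
    obtain ⟨-, -, h3, -, h4, h5, h6⟩ := hB.fam.gh g hg
    exact h.ghost hΦ hε h5 h1 h2 h4 h3 h6
  exact ⟨fun a b hab => h.nr_node hΦ hε hB hab, fun g hg => (key g hg).1,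
    fun g hg => Or.inl (key g hg).2⟩

/-- **The irregular final contacts.** -/
theorem irrN (hΦ : IsPotential Φ) (hε : 0 < ε) (h : PT Φ ε L W K k₀ rx ry s s')
    {F : Finset CTree} {G : List Gh} {es : List (Src × Src)}
    (hI : Irr Φ ε (LgC Φ ε L W K) F G s' es) :
    IrrN Φ ε rx ry (s2 Φ ε rx ry) F G s' es := by
  cases hI with
  | tri x y C hx hy hC hok h1 h2 eC hCx hCy hc nd tg lC =>
    have hxy : x.root ≠ y.root := fun hcon =>
      Set.disjoint_left.1 hok.2.2.1 x.root_mem_leaves (hcon ▸ y.root_mem_leaves)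
    have key : PrN rx ry (s2 Φ ε rx ry) s' x y ∧ NR rx ry C := by
      rcases lC with ⟨J, hJ, h3, h4⟩ | ⟨⟨J, hJ, h3, h4⟩, ⟨J', hJ', h5, h6⟩, h7⟩
      · have hW := h.pl.cube.fin J hJ
        have ax := live_left hΦ hε hW h4
        have ay := live_right hΦ hε hW h4
        have np := h.pair hΦ hε hok h1 ⟨J, hJ, ax, ((alive_iff_live hΦ hε hW).1 ay).1⟩
        refine ⟨np, ?_⟩
        by_contra hcon
        have hCr := not_nr.1 hcon
        rcases h1.lt_or_eq with h8 | h8
        · -- the pair has begun before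
          have h9 : ∀ a b : CTree, live Φ ε L (W J) (node a b) s' → sig Φ ε (node a b) < s' →
              C.root ≠ a.root → Ctc ε (st Φ ε (node a b) s') (KU.free s' (ln Φ ε C)) → False := by
            intro a b g1 g2 g3 g4
            obtain ⟨-, ⟨-, g5⟩ | ⟨-, g5⟩⟩ :=
              h.one hΦ hε le_rfl hJ h3 g1 (Or.inl g2) g3 g4.symm hCr
            · cases g5
            · cases g5
          rcases hc with hc | hc
          · exact h9 x y h4 h8 hCx hc
          · exact h9 y x (live_swap hΦ h4 h2) (by rw [sig_swap]; exact h8) hCy hc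
        · -- at the entrance
          have h9 : ∀ a b : CTree, ok Φ ε (node a b) → sig Φ ε (node a b) = s' →
              alive Φ ε L (W J) a s' → alive Φ ε L (W J) b s' → C.root ≠ a.root →
              C.root ≠ b.root → Ctc ε (st Φ ε (node a b) s') (KU.free s' (ln Φ ε C)) →
              False := by
            intro a b g1 g2 g3 g4 g5 g6 g7
            have hab : a.root ≠ b.root := fun hcon =>
              Set.disjoint_left.1 g1.2.2.1 a.root_mem_leaves (hcon ▸ b.root_mem_leaves)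
            rw [st_before hΦ hε g1 g2.ge] at g7
            have gc : Ctc ε (KU.free s' (ln Φ ε a)) (KU.free s' (ln Φ ε b)) := by
              rw [← g2]
              exact ctc_hitT hε g1.2.2.2.1
            obtain ⟨g8, g9⟩ := h.both hΦ hε le_rfl hJ h3 g3 g5 g7.symm (Or.inl hCr)
            have g10 : a.root = rx ∨ a.root = ry := by
              rcases g9 with ⟨-, rfl⟩ | ⟨-, rfl⟩
              · exact Or.inr rfl
              · exact Or.inl rfl
            obtain ⟨-, g11⟩ := h.both hΦ hε le_rfl hJ g3 g4 hab gc (Or.inl g10)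
            have hne := h.pl.ne
            rcases g9 with ⟨rfl, rfl⟩ | ⟨rfl, rfl⟩ <;> rcases g11 with ⟨e1, rfl⟩ | ⟨e1, rfl⟩
            · exact hne (CTree.leaf.inj e1).symm
            · exact g6 rfl
            · exact g6 rfl
            · exact hne (CTree.leaf.inj e1)
          rw [h8] at ax ay
          rcases hc with hc | hc
          · exact h9 x y hok h8 ax ay hCx hCy hc
          · exact h9 y x (ok_swap hΦ hok) (by rw [sig_swap]; exact h8) ay ax hCy hCx hc
      · -- three flying trees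
        have hW := h.pl.cube.fin J hJ
        have hW' := h.pl.cube.fin J' hJ'
        have xx : ext Φ ε x < sig Φ ε (node x y) := hok.2.2.2.2.2.1
        have xy : ext Φ ε y < sig Φ ε (node x y) := hok.2.2.2.2.2.2
        have e1 : sig Φ ε (node x y) = s' := by
          refine le_antisymm h1 (not_lt.1 fun hlt => ?_)
          have lx := ((alive_iff_live hΦ hε hW').1 h5).1
          have ly : alive Φ ε L (W J') y (sig Φ ε (node x y)) :=
            (alive_iff_live hΦ hε hW').2 ⟨h6.anti hlt.le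
              ((sig_le_ext hΦ hε h6.ok).trans xy.le), xy.le⟩
          exact lx.nohit y _ hlt (hit_sig hΦ hε hok) ly
        have ax : alive Φ ε L (W J) x s' :=
          (alive_iff_live hΦ hε hW).2 ⟨h4, xx.le.trans h1⟩
        have ay : alive Φ ε L (W J') y s' :=
          (alive_iff_live hΦ hε hW').2 ⟨h6, xy.le.trans h1⟩
        have cxy : Ctc ε (KU.free s' (ln Φ ε x)) (KU.free s' (ln Φ ε y)) := by
          rw [← e1]
          exact ctc_hitT hε hok.2.2.2.1
        by_cases hall : (NR rx ry x ∧ NR rx ry y) ∧ NR rx ry C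
        · exact ⟨Or.inl hall.1, hall.2⟩
        exfalso
        have hne := h.pl.ne
        have hx' : x.root = rx ∨ x.root = ry := by
          rcases not_and_or.1 hall with h8 | h8
          · rcases not_and_or.1 h8 with h8 | h8
            · exact not_nr.1 h8
            · obtain ⟨-, ⟨rfl, -⟩ | ⟨rfl, -⟩⟩ :=
                h.both hΦ hε le_rfl hJ' h5 ay hxy cxy (Or.inr (not_nr.1 h8))
              · exact Or.inl rfl
              · exact Or.inr rfl
          · obtain ⟨-, ⟨-, rfl⟩ | ⟨-, rfl⟩⟩ :=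
              h.both hΦ hε le_rfl hJ h3 ax hCx h7 (Or.inl (not_nr.1 h8))
            · exact Or.inr rfl
            · exact Or.inl rfl
        obtain ⟨-, h8⟩ := h.both hΦ hε le_rfl hJ h3 ax hCx h7 (Or.inr hx')
        obtain ⟨-, h9⟩ := h.both hΦ hε le_rfl hJ' h5 ay hxy cxy (Or.inl hx')
        rcases h8 with ⟨rfl, rfl⟩ | ⟨rfl, rfl⟩ <;> rcases h9 with ⟨e2, rfl⟩ | ⟨e2, rfl⟩
        · exact hne (CTree.leaf.inj e2).symm
        · exact hCy rfl
        · exact hCy rfl
        · exact hne (CTree.leaf.inj e2)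
    exact .tri x y C hx hy hC hok h1 h2 eC hCx hCy hc nd tg key.1 (Or.inl key.2)
  | quad x y u v hx hy hu hv hok h1 h2 hok' h1' h2' r1 r2 r3 r4 hc nd tg tg' q q' =>
    exact .quad x y u v hx hy hu hv hok h1 h2 hok' h1' h2' r1 r2 r3 r4 hc nd tg tg'
      (h.pair hΦ hε hok h1 q) (h.pair hΦ hε hok' h1' q')
  | trip x y C hx hy hC ex ey eC hxy hCx hCy hm hh hc nd l₁ l₂ =>
    have hne := h.pl.ne
    have cxy : Ctc ε (KU.free s' (ln Φ ε x)) (KU.free s' (ln Φ ε y)) := by
      rw [← hh]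
      exact ctc_hitT hε hm
    rcases h.both' hΦ hε le_rfl l₁ ey.le hxy cxy with h1 | ⟨-, h1⟩
    · rcases h.both' hΦ hε le_rfl l₂ eC hCy.symm hc with h2 | ⟨-, h2⟩
      · exact .trip x y C hx hy hC ex ey eC hxy hCx hCy hm hh hc nd h1.1 h1.2 h2.2
      · exfalso
        rcases h2 with ⟨rfl, -⟩ | ⟨rfl, -⟩
        · exact h1.2.1 rfl
        · exact h1.2.2 rfl
    · exfalso
      rcases h.both' hΦ hε le_rfl l₂ eC hCy.symm hc with h2 | ⟨-, h2⟩
      · rcases h1 with ⟨-, rfl⟩ | ⟨-, rfl⟩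
        · exact h2.1.2 rfl
        · exact h2.1.1 rfl
      · rcases h1 with ⟨rfl, rfl⟩ | ⟨rfl, rfl⟩ <;> rcases h2 with ⟨e2, rfl⟩ | ⟨e2, rfl⟩
        · exact hne (CTree.leaf.inj e2).symm
        · exact hCx rfl
        · exact hCx rfl
        · exact hne (CTree.leaf.inj e2)
  | born A B hA hB hr hs hc nd l =>
    rcases h.both' hΦ hε le_rfl l (hs ▸ le_max_right _ _) hr hc with h1 | ⟨h1, h2⟩
    · exact .born A B hA hB hr hs hc nd h1.1 h1.2
    · exfalso
      have hx := h.pl.birth_x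
      have hy := h.pl.birth_y
      rw [← h1] at hx hy
      rcases h2 with ⟨rfl, rfl⟩ | ⟨rfl, rfl⟩
      · exact absurd (max_lt hx hy) (by
          change ¬max (ext Φ ε (leaf rx)) (ext Φ ε (leaf ry)) < s'
          rw [← hs]; exact lt_irrefl _)
      · exact absurd (max_lt hy hx) (by
          change ¬max (ext Φ ε (leaf ry)) (ext Φ ε (leaf rx)) < s'
          rw [← hs]; exact lt_irrefl _)
  | graze A B hA hB hr hg nd l =>
    have hg' := hg
    obtain ⟨g1, g2, -, g4⟩ := hg'
    rcases h.both' hΦ hε le_rfl l ((le_max_right _ _).trans g1.le) hr g2 with h1 | ⟨h1, h2⟩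
    · exact .graze A B hA hB hr hg nd h1.1 h1.2
    · exfalso
      refine g4 ?_
      have hm := h.pl.ok₀.2.2.2.1
      rcases h2 with ⟨rfl, rfl⟩ | ⟨rfl, rfl⟩
      · exact ⟨hm, h1.symm⟩
      · exact ⟨(meets_swap (ln Φ ε (leaf rx), ln Φ ε (leaf ry))).2 hm,
          (hitT_swap (ln Φ ε (leaf rx), ln Φ ε (leaf ry))).trans h1.symm⟩

/-- **The conversion of the outputs.** -/
theorem pairOut {hΦ : IsPotential Φ} {hε : 0 < ε} (h : PT Φ ε L W K k₀ rx ry s s')
    {V₀ ins ins' all all' : Set Src} {t : ℝ} {m N : ℕ} (hi : ins ⊆ ins') (ha : all ⊆ all')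
    (hO : DetOut hΦ hε L V₀ ins all (LvC Φ ε L W K) (LgC Φ ε L W K) t m N s') :
    PairOut hΦ hε L V₀ ins' all' rx ry (s2 Φ ε rx ry) t m N s' := by
  have hall : ∀ {F : Finset CTree} {G : List Gh},
      BFam Φ ε s' N all (LvC Φ ε L W K) (LgC Φ ε L W K) F G →
      BFam Φ ε s' N all' (fun _ => True) (fun _ _ => True) F G := fun hB =>
    ⟨hB.fam, hB.cardF, hB.lenG, fun a h1 => ha (hB.sub a h1),
      fun a b hab => ⟨(hB.live a b hab).1, trivial⟩, fun _ _ => ⟨trivial, trivial⟩⟩
  cases hO with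
  | clean σ hσ hh => exact .clean σ (hi hσ) hh
  | closed F G hB σ hσ hσF hJ hc =>
    exact .closed F G (hall hB) (h.npair hΦ hε hB) σ (hi hσ) hσF hJ hc
  | irr F G es hB σ hσ hσF hJ hI =>
    exact .irr F G es (hall hB) (h.npair hΦ hε hB) σ (hi hσ) hσF hJ (h.irrN hΦ hε hI)

end PT

end Vale.Agent.P119.IND
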