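import Vale.Agent.P119.IND.Final

/-!
# P119, block IND: a cube of worlds with a colliding pair of lines (`helper621`)

The index `k₀` of a cube of worlds `W J`, `J ⊆ K`, inserts two free lines `rx`, `ry` which collide with
each other at the time `s₀ = sig (node (leaf rx) (leaf ry))`.  Up to the first failing time `s` of the
cube, in no world a third tree is in contact with one of the two lines before `s₀`
(`PL.nc_lt`), if this is so in the full world `W K` (`PL.free`).  Consequences: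

* `PL.leaf_live`: the two leaves are live up to `s₀`;
* `PL.no_node`, `PL.ext_le`: the trees of the two particles are the leaves up to `s₀`, afterwards the
  collision takes place;
* `PL.not_mem`: no other tree contains the two particles before `s₀`;
* `PL.both`, `PL.one`: contacts with the two particles.
-/

open MeasureTheory Filter Topology Set
open scoped ENNReal NNReal

noncomputable section

namespace Vale.Agent.P119.IND

open KU M M.CTree TL RB

variable {Φ : E3 → ℝ} {ε : ℝ} {L : ℕ} {ι : Type*} {W : Finset ι → Set Src} {K : Finset ι}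
  {k₀ : ι} {rx ry : Src} {s : ℝ}

/-- The beginning of the collision. -/
abbrev s2 (Φ : E3 → ℝ) (ε : ℝ) (rx ry : Src) : ℝ := sig Φ ε (node (leaf rx) (leaf ry))

/-- No contact of a third tree with the two lines at the time `r`. -/
def NC (Φ : E3 → ℝ) (ε : ℝ) (L : ℕ) (W : Finset ι → Set Src) (K : Finset ι) (k₀ : ι) (rx ry : Src)
    (r : ℝ) : Prop :=
  ∀ J, J ⊆ K → k₀ ∈ J → ∀ B, Bg Φ ε B r → live Φ ε L (W J) B r → B.root ≠ rx → B.root ≠ ry →
    (rx.1 ≤ r → ¬Ctc ε (st Φ ε B r) (KU.free r rx.2.1)) ∧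
      (ry.1 ≤ r → ¬Ctc ε (st Φ ε B r) (KU.free r ry.2.1))

theorem NC.swap {r : ℝ} (h : NC Φ ε L W K k₀ rx ry r) : NC Φ ε L W K k₀ ry rx r :=
  fun J hJ hk B hb hl h1 h2 => (h J hJ hk B hb hl h2 h1).symm

/-- The cube with a colliding pair of lines, up to the first failing time `s`. -/
structure PL (Φ : E3 → ℝ) (ε : ℝ) (L : ℕ) (W : Finset ι → Set Src) (K : Finset ι) (k₀ : ι)
    (rx ry : Src) (s : ℝ) : Prop where
  cube : CubeW W K
  mem : k₀ ∈ K
  mx : ∀ J, J ⊆ K → (rx ∈ W J ↔ k₀ ∈ J)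
  my : ∀ J, J ⊆ K → (ry ∈ W J ↔ k₀ ∈ J)
  ok₀ : ok Φ ε (node (leaf rx) (leaf ry))
  dx : rx.2.2 ≤ L
  dy : ry.2.2 ≤ L
  ni : ∀ e ∈ allTimes Φ ε L (W K), e < s → NI Φ ε L W K e ∧ NIB Φ ε L W K e
  free : ∀ r ≤ s, r ≤ s2 Φ ε rx ry → ∀ B, Bg Φ ε B r → live Φ ε L (W K) B r → B.root ≠ rx →
    B.root ≠ ry → (rx.1 ≤ r → ¬Ctc ε (st Φ ε B r) (KU.free r rx.2.1)) ∧
      (ry.1 ≤ r → ¬Ctc ε (st Φ ε B r) (KU.free r ry.2.1))

theorem s2_swap (rx ry : Src) : s2 Φ ε ry rx = s2 Φ ε rx ry := sig_swap _ _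

/-- Before `s₀` the two lines are not in contact. -/
theorem not_ctc_lt (hε : 0 < ε) (h : ok Φ ε (node (leaf rx) (leaf ry))) {r : ℝ}
    (hr : r < s2 Φ ε rx ry) : ¬Ctc ε (KU.free r rx.2.1) (KU.free r ry.2.1) := by
  intro hc
  have h1 := lt_dist_of_lt_hitT hε h.2.2.2.1 hr
  exact absurd hc.le (not_le.2 h1)

namespace PL

theorem swap (hΦ : IsPotential Φ) (h : PL Φ ε L W K k₀ rx ry s) : PL Φ ε L W K k₀ ry rx s :=
  ⟨h.cube, h.mem, h.my, h.mx, ok_swap hΦ h.ok₀, h.dy, h.dx, h.ni, fun r hr hr' B hb hl h1 h2 =>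
    (h.free r hr (by rw [s2_swap] at hr'; exact hr') B hb hl h2 h1).symm⟩

theorem ne (h : PL Φ ε L W K k₀ rx ry s) : rx ≠ ry := by
  rintro rfl
  exact Set.disjoint_left.1 h.ok₀.2.2.1 (mem_singleton _) (mem_singleton _)

theorem birth_x (h : PL Φ ε L W K k₀ rx ry s) : rx.1 < s2 Φ ε rx ry := h.ok₀.2.2.2.2.2.1

theorem birth_y (h : PL Φ ε L W K k₀ rx ry s) : ry.1 < s2 Φ ε rx ry := h.ok₀.2.2.2.2.2.2

/-- The trees of the two particles which begin before `s₀` are the leaves. -/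
theorem no_node (hΦ : IsPotential Φ) (hε : 0 < ε) (h : PL Φ ε L W K k₀ rx ry s) {r₁ : ℝ}
    (hN : ∀ r ∈ allTimes Φ ε L (W K), r < r₁ → r < s2 Φ ε rx ry → NC Φ ε L W K k₀ rx ry r)
    {J : Finset ι} (hJ : J ⊆ K) : ∀ (T : CTree) (q : ℝ), live Φ ε L (W J) T q →
    (T.root = rx ∨ T.root = ry) → sig Φ ε T < r₁ → sig Φ ε T < s2 Φ ε rx ry →
    T = leaf T.root := by
  intro T
  induction T with
  | leaf σ => exact fun _ _ _ _ _ => rfl
  | node a b iha ihb =>
    intro q hl hr h1 h2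
    exfalso
    have hW := h.cube.fin J hJ
    have ha := live_left hΦ hε hW hl
    have hb := live_right hΦ hε hW hl
    have la := ((alive_iff_live hΦ hε hW).1 ha).1
    have lb := ((alive_iff_live hΦ hε hW).1 hb).1
    have sa : sig Φ ε a < sig Φ ε (node a b) :=
      (sig_le_ext hΦ hε hl.ok.1).trans_lt hl.ok.2.2.2.2.2.1
    have sb : sig Φ ε b < sig Φ ε (node a b) :=
      (sig_le_ext hΦ hε hl.ok.2.1).trans_lt hl.ok.2.2.2.2.2.2
    have hra : a.root = rx ∨ a.root = ry := hr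
    have ea := iha _ la hra (sa.trans h1) (sa.trans h2)
    have hne : a.root ≠ b.root := fun hcon =>
      Set.disjoint_left.1 hl.ok.2.2.1 a.root_mem_leaves (hcon ▸ b.root_mem_leaves)
    have hk : k₀ ∈ J := by
      rcases hra with h3 | h3
      · exact (h.mx J hJ).1 (h3 ▸ la.sub a.root_mem_leaves)
      · exact (h.my J hJ).1 (h3 ▸ la.sub a.root_mem_leaves)
    have hc : Ctc ε (KU.free (sig Φ ε (node a b)) (ln Φ ε a))
        (KU.free (sig Φ ε (node a b)) (ln Φ ε b)) := ctc_hitT hε hl.ok.2.2.2.1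
    by_cases hrb : b.root = rx ∨ b.root = ry
    · have eb := ihb _ lb hrb (sb.trans h1) (sb.trans h2)
      have e : sig Φ ε (node a b) = s2 Φ ε rx ry := by
        rw [ea, eb]
        rcases hra with h3 | h3 <;> rcases hrb with h4 | h4
        · exact absurd (h3.trans h4.symm) hne
        · rw [h3, h4]
        · rw [h3, h4]; exact sig_swap _ _
        · exact absurd (h3.trans h4.symm) hne
      rw [e] at h2
      exact absurd h2 (lt_irrefl _)
    · push Not at hrb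
      have hmem : sig Φ ε (node a b) ∈ allTimes Φ ε L (W K) :=
        Or.inl ⟨_, ⟨hl.sub.trans (h.cube.mono J hJ), hl.depth⟩, rfl⟩
      have h3 := hN _ hmem h1 h2 J hJ hk b (Bg.of_alive hΦ hε hb) lb hrb.1 hrb.2
      rw [st_after hΦ hε lb.ok (alive_pre hb).ext_le] at h3
      rcases hra with h4 | h4
      · refine h3.1 ?_ ?_
        · have h5 := (root_birth_le_sig hΦ hε hl.ok.1).trans sa.le
          rwa [h4] at h5
        · have h5 := hc.symm
          rw [ea, h4] at h5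
          rw [ea, h4]
          exact h5
      · refine h3.2 ?_ ?_
        · have h5 := (root_birth_le_sig hΦ hε hl.ok.1).trans sa.le
          rwa [h4] at h5
        · have h5 := hc.symm
          rw [ea, h4] at h5
          rw [ea, h4]
          exact h5

/-- The first leaf is live until `s₀`. -/
theorem leaf_live (hΦ : IsPotential Φ) (hε : 0 < ε) (h : PL Φ ε L W K k₀ rx ry s) {r : ℝ}
    (hN : ∀ r' ∈ allTimes Φ ε L (W K), r' < r → r' < s2 Φ ε rx ry → NC Φ ε L W K k₀ rx ry r')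
    {J : Finset ι} (hJ : J ⊆ K) (hk : k₀ ∈ J) (hr : r ≤ s2 Φ ε rx ry) (hb : rx.1 ≤ r) :
    live Φ ε L (W J) (leaf rx) r := by
  have hokx : ok Φ ε (leaf rx) := h.ok₀.1
  refine ⟨singleton_subset_iff.2 ((h.mx J hJ).2 hk), hokx, h.dx, hb, fun T' r' hr' hh ha => ?_⟩
  have h2 := fh_hit hΦ hε hokx hh
  have h3 := fh_le hΦ hε hokx hh
  have h4 : alive Φ ε L (W J) T' (fh Φ ε (leaf rx) T') := alive_anti ha h3 (hit_ext_le h2)
  have hW := h.cube.fin J hJ
  have l4 := ((alive_iff_live hΦ hε hW).1 h4).1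
  set u := fh Φ ε (leaf rx) T' with hu
  have hur : u < r := h3.trans_lt hr'
  have hmem : u ∈ allTimes Φ ε L (W K) := by
    refine Or.inr ⟨(leaf rx, T'), ⟨⟨?_, h.dx⟩, ⟨l4.sub.trans (h.cube.mono J hJ), l4.depth⟩⟩, rfl⟩
    exact singleton_subset_iff.2 ((h.mx K (Finset.Subset.refl K)).2 h.mem)
  have hne : T'.root ≠ rx := by
    intro hcon
    exact h2.2.2.1 (hcon ▸ T'.root_mem_leaves)
  by_cases hry : T'.root = ry
  · have h5 : sig Φ ε T' ≤ u := (sig_le_ext hΦ hε l4.ok).trans (alive_pre h4).ext_le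
    rcases T' with σ | ⟨a, b⟩
    · have h6 : σ = ry := hry
      have h7 : Ctc ε (KU.free u rx.2.1) (KU.free u σ.2.1) := h2.2.2.2
      rw [h6] at h7
      exact not_ctc_lt hε h.ok₀ (hur.trans_le hr) h7
    · have h6 := (sig_lt_ext hΦ hε l4.ok).trans_le (alive_pre h4).ext_le
      have h7 := h.no_node hΦ hε (r₁ := r) hN hJ _ _ l4 (Or.inr hry) (h6.trans hur)
        ((h6.trans hur).trans_le hr)
      cases h7
  · have h5 := (hN u hmem hur (hur.trans_le hr) J hJ hk T' (Bg.of_alive hΦ hε h4) l4 hne hry).1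
      h2.1
    rw [st_after hΦ hε l4.ok (alive_pre h4).ext_le] at h5
    exact h5 h2.2.2.2.symm

section dec

variable [DecidableEq ι]

theorem depTo (hΦ : IsPotential Φ) (hε : 0 < ε) (h : PL Φ ε L W K k₀ rx ry s) :
    DepTo Φ ε L W K s := depTo_of_min hΦ hε h.cube fun e he hes => (h.ni e he hes).1

/-- A tree which is live in a world with `k₀` and not in the full world is altered by another
index. -/
theorem exists_alt_of_not_full (hΦ : IsPotential Φ) (hε : 0 < ε) (h : PL Φ ε L W K k₀ rx ry s)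
    {r : ℝ} (hr : r ≤ s) {J : Finset ι} (hJ : J ⊆ K) (hk : k₀ ∈ J) {B : CTree}
    (hb : Bg Φ ε B r) (hl : live Φ ε L (W J) B r) (hn : ¬live Φ ε L (W K) B r) :
    ∃ k ∈ K, k ≠ k₀ ∧ k ∉ J ∧ DepOn K (fun J => live Φ ε L (W J) B r) k ∧
      live Φ ε L (W ∅) B r ∧ ¬live Φ ε L (W {k}) B r := by
  obtain ⟨k, hd⟩ := h.depTo hΦ hε r hr B hb
  have h1 : ¬(k ∈ J ↔ k ∈ K) := fun hcon =>
    hn ((hd J K hJ (Finset.Subset.refl K) hcon).1 hl)
  have h2 : k ∉ J := fun h2 => h1 ⟨fun _ => hJ h2, fun _ => h2⟩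
  have h3 : k ∈ K := by
    by_contra h3
    exact h1 ⟨fun h => absurd h h2, fun h => absurd h h3⟩
  refine ⟨k, h3, fun hcon => h2 (hcon ▸ hk), h2, hd, ?_, fun hcon => hn ?_⟩
  · exact (hd J ∅ hJ (Finset.empty_subset _) (by simp [h2])).1 hl
  · exact (hd {k} K (Finset.singleton_subset_iff.2 h3) (Finset.Subset.refl K) (by simp [h3])).1
      hcon

/-- The condition at the times of `allTimes`. -/
theorem nc_mem (hΦ : IsPotential Φ) (hε : 0 < ε) (h : PL Φ ε L W K k₀ rx ry s) :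
    ∀ r ∈ allTimes Φ ε L (W K), r < s → r ≤ s2 Φ ε rx ry → NC Φ ε L W K k₀ rx ry r := by
  have hfin := allTimes_finite (Φ := Φ) (ε := ε) (L := L) (h.cube.fin K (Finset.Subset.refl K))
  -- one half
  have key : ∀ {rx ry : Src}, PL Φ ε L W K k₀ rx ry s → ∀ r ∈ allTimes Φ ε L (W K), r < s →
      r ≤ s2 Φ ε rx ry → (∀ r' ∈ allTimes Φ ε L (W K), r' < r → r' < s2 Φ ε rx ry →
        NC Φ ε L W K k₀ rx ry r') → ∀ J, J ⊆ K → k₀ ∈ J → ∀ B, Bg Φ ε B r →
      live Φ ε L (W J) B r → B.root ≠ rx → B.root ≠ ry → rx.1 ≤ r →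
      ¬Ctc ε (st Φ ε B r) (KU.free r rx.2.1) := by
    intro rx ry h r hr hrs hr0 ih J hJ hk B hb hl h1 h2 h3 hc
    by_cases hf : live Φ ε L (W K) B r
    · exact (h.free r hrs.le hr0 B hb hf h1 h2).1 h3 hc
    obtain ⟨k, hkK, hkk, -, -, hl0, hn⟩ := h.exists_alt_of_not_full hΦ hε hrs.le hJ hk hb hl hf
    have hk0 : ({k₀} : Finset ι) ⊆ K := Finset.singleton_subset_iff.2 h.mem
    have hk1 : ({k} : Finset ι) ⊆ K := Finset.singleton_subset_iff.2 hkK
    have hleaf := h.leaf_live hΦ hε (r := r) ih hk0 (Finset.mem_singleton_self _) hr0 h3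
    refine (h.ni r hr hrs).2.nocon k₀ h.mem k hkK hkk.symm r le_rfl rx B.root h1.symm ?_ ?_ {k₀}
      (Finset.Subset.refl _) ∅ (Finset.empty_subset _) (leaf rx) B rfl rfl hleaf hl0 hc.symm
    · intro hcon
      have h4 := hcon.1.2 ((h.mx _ hk0).2 (Finset.mem_singleton_self _))
      exact Finset.notMem_empty _ ((h.mx ∅ (Finset.empty_subset _)).1 h4)
    · intro hcon
      exact hn (live_congr hΦ hε (h.cube.fin _ (Finset.empty_subset _)) (h.cube.fin _ hk1) hcon.1.1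
        (fun r' hr' => hcon.2 r' hr'.le) hl0 hb)
  -- the induction
  intro r hr
  obtain ⟨n, hn⟩ : ∃ n, (allTimes Φ ε L (W K) ∩ Iio r).ncard = n := ⟨_, rfl⟩
  induction n using Nat.strong_induction_on generalizing r with
  | _ n ih =>
    intro hrs hr0
    have ih' : ∀ r' ∈ allTimes Φ ε L (W K), r' < r → r' < s2 Φ ε rx ry →
        NC Φ ε L W K k₀ rx ry r' := by
      intro r' hr' hlt hlt'
      refine ih _ ?_ r' hr' rfl (hlt.trans hrs) hlt'.le
      rw [← hn]
      refine ncard_lt_ncard ⟨fun x hx => ⟨hx.1, lt_trans hx.2 hlt⟩, fun hcon => ?_⟩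
        (hfin.inter_of_left _)
      exact lt_irrefl r' (hcon ⟨hr', hlt⟩).2
    intro J hJ hk B hb hl h1 h2
    refine ⟨key h r hr hrs hr0 ih' J hJ hk B hb hl h1 h2, ?_⟩
    refine key (h.swap hΦ) r hr hrs (by rw [s2_swap]; exact hr0) ?_ J hJ hk B hb hl h2 h1
    intro r' hr' h3 h4
    rw [s2_swap] at h4
    exact (ih' r' hr' h3 h4).swap

/-- No other tree contains the two particles before `s₀`. -/
theorem not_mem (hΦ : IsPotential Φ) (hε : 0 < ε) (h : PL Φ ε L W K k₀ rx ry s)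
    {J : Finset ι} (hJ : J ⊆ K) : ∀ (T : CTree) (q : ℝ), live Φ ε L (W J) T q →
    T.root ≠ rx → T.root ≠ ry → (sig Φ ε T < s ∧ sig Φ ε T ≤ s2 Φ ε rx ry ∨ T = leaf T.root) →
    rx ∉ T.leaves ∧ ry ∉ T.leaves := by
  have hN : ∀ r' ∈ allTimes Φ ε L (W K), r' < s → r' < s2 Φ ε rx ry →
      NC Φ ε L W K k₀ rx ry r' := fun r' h1 h2 h3 => h.nc_mem hΦ hε r' h1 h2 h3.le
  intro T
  induction T with
  | leaf σ => exact fun _ _ h1 h2 _ => ⟨fun h3 => h1 (mem_singleton_iff.1 h3).symm,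
      fun h3 => h2 (mem_singleton_iff.1 h3).symm⟩
  | node a b iha ihb =>
    intro q hl h1 h2 h3
    have hW := h.cube.fin J hJ
    have ha := live_left hΦ hε hW hl
    have hb := live_right hΦ hε hW hl
    have la := ((alive_iff_live hΦ hε hW).1 ha).1
    have lb := ((alive_iff_live hΦ hε hW).1 hb).1
    have sa : sig Φ ε a < sig Φ ε (node a b) :=
      (sig_le_ext hΦ hε hl.ok.1).trans_lt hl.ok.2.2.2.2.2.1
    have sb : sig Φ ε b < sig Φ ε (node a b) :=
      (sig_le_ext hΦ hε hl.ok.2.1).trans_lt hl.ok.2.2.2.2.2.2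
    have hsg : sig Φ ε (node a b) < s ∧ sig Φ ε (node a b) ≤ s2 Φ ε rx ry := by
      rcases h3 with h3 | h3
      · exact h3
      · cases h3
    obtain ⟨h3, h4⟩ := hsg
    have iha' := iha _ la h1 h2 (Or.inl ⟨sa.trans h3, sa.le.trans h4⟩)
    by_cases hrb : b.root = rx ∨ b.root = ry
    · exfalso
      have hk : k₀ ∈ J := by
        rcases hrb with h5 | h5
        · exact (h.mx J hJ).1 (h5 ▸ lb.sub b.root_mem_leaves)
        · exact (h.my J hJ).1 (h5 ▸ lb.sub b.root_mem_leaves)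
      have eb := h.no_node hΦ hε hN hJ b _ lb hrb (sb.trans h3) (sb.trans_le h4)
      have hmem : sig Φ ε (node a b) ∈ allTimes Φ ε L (W K) :=
        Or.inl ⟨_, ⟨hl.sub.trans (h.cube.mono J hJ), hl.depth⟩, rfl⟩
      have h5 := h.nc_mem hΦ hε _ hmem h3 h4 J hJ hk a (Bg.of_alive hΦ hε ha) la h1 h2
      rw [st_after hΦ hε la.ok (alive_pre ha).ext_le] at h5
      have hc : Ctc ε (KU.free (sig Φ ε (node a b)) (ln Φ ε a))
          (KU.free (sig Φ ε (node a b)) (ln Φ ε b)) := ctc_hitT hε hl.ok.2.2.2.1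
      have hbb := (root_birth_le_sig hΦ hε hl.ok.2.1).trans sb.le
      rcases hrb with h6 | h6
      · rw [h6] at hbb
        refine h5.1 hbb ?_
        rw [eb, h6] at hc ⊢
        exact hc
      · rw [h6] at hbb
        refine h5.2 hbb ?_
        rw [eb, h6] at hc ⊢
        exact hc
    · push Not at hrb
      have ihb' := ihb _ lb hrb.1 hrb.2 (Or.inl ⟨sb.trans h3, sb.le.trans h4⟩)
      refine ⟨?_, ?_⟩
      · rintro (h5 | h5)
        · exact iha'.1 h5
        · exact ihb'.1 h5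
      · rintro (h5 | h5)
        · exact iha'.2 h5
        · exact ihb'.2 h5

/-- **The condition before the first failing time.** -/
theorem nc_lt (hΦ : IsPotential Φ) (hε : 0 < ε) (h : PL Φ ε L W K k₀ rx ry s) {r : ℝ}
    (hrs : r < s) (hr0 : r ≤ s2 Φ ε rx ry) : NC Φ ε L W K k₀ rx ry r := by
  have key : ∀ {rx ry : Src}, PL Φ ε L W K k₀ rx ry s → r ≤ s2 Φ ε rx ry → ∀ J, J ⊆ K →
      k₀ ∈ J → ∀ B, Bg Φ ε B r → live Φ ε L (W J) B r → B.root ≠ rx → B.root ≠ ry → rx.1 ≤ r →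
      ¬Ctc ε (st Φ ε B r) (KU.free r rx.2.1) := by
    intro rx ry h hr0 J hJ hk B hb hl h1 h2 h3 hc
    have hN : ∀ r' ∈ allTimes Φ ε L (W K), r' < r → r' < s2 Φ ε rx ry →
        NC Φ ε L W K k₀ rx ry r' := fun r' g1 g2 g3 => h.nc_mem hΦ hε r' g1 (g2.trans hrs) g3.le
    have hleaf := h.leaf_live hΦ hε hN hJ hk hr0 h3
    have hnm : rx ∉ B.leaves := by
      refine (h.not_mem hΦ hε hJ B r hl h1 h2 ?_).1
      rcases hb with hb | hb
      · exact Or.inl ⟨hb.trans hrs, hb.le.trans hr0⟩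
      · exact Or.inr hb
    have hh : hit Φ ε B (leaf rx) r := by
      have hs := hl.sig_le
      rcases B with τ | ⟨a, b⟩
      · exact ⟨hs, h3, fun g => hnm (mem_singleton_iff.2 (mem_singleton_iff.1 g).symm), hc⟩
      · exact Or.inr ⟨hs, h3, Set.disjoint_singleton_right.2 hnm, Or.inl hc⟩
    have g2 := fh_hit hΦ hε hl.ok hh
    have g3 := fh_le hΦ hε hl.ok hh
    have hmem : fh Φ ε B (leaf rx) ∈ allTimes Φ ε L (W K) := by
      refine Or.inr ⟨(B, leaf rx), ⟨⟨hl.sub.trans (h.cube.mono J hJ), hl.depth⟩, ⟨?_, h.dx⟩⟩, rfl⟩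
      exact singleton_subset_iff.2 ((h.mx K (Finset.Subset.refl K)).2 h.mem)
    rcases g3.lt_or_eq with g4 | g4
    · refine hl.nohit (leaf rx) _ g4 g2 ((alive_iff_live hΦ hε (h.cube.fin J hJ)).2 ⟨?_, ?_⟩)
      · exact hleaf.anti g3 (hit_ext_le g2)
      · exact hit_ext_le g2
    · rw [g4] at hmem
      exact (h.nc_mem hΦ hε r hmem hrs hr0 J hJ hk B hb hl h1 h2).1 h3 hc
  intro J hJ hk B hb hl h1 h2
  exact ⟨key h hr0 J hJ hk B hb hl h1 h2,
    key (h.swap hΦ) (by rw [s2_swap]; exact hr0) J hJ hk B hb hl h2 h1⟩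

omit [DecidableEq ι] in
/-- The hit of the two lines. -/
theorem hit₀ (hε : 0 < ε) (h : PL Φ ε L W K k₀ rx ry s) :
    hit Φ ε (leaf rx) (leaf ry) (s2 Φ ε rx ry) :=
  ⟨h.birth_x.le, h.birth_y.le, fun g => h.ne (mem_singleton_iff.1 g), ctc_hitT hε h.ok₀.2.2.2.1⟩

/-- A collision of one of the two particles ends after the collision of the pair. -/
theorem ext_le (hΦ : IsPotential Φ) (hε : 0 < ε) (h : PL Φ ε L W K k₀ rx ry s)
    {J : Finset ι} (hJ : J ⊆ K) {a b : CTree} {q : ℝ} (hl : live Φ ε L (W J) (node a b) q)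
    (hr : a.root = rx ∨ a.root = ry) (hs : sig Φ ε (node a b) < s) :
    ext Φ ε (node (leaf rx) (leaf ry)) ≤ ext Φ ε (node a b) := by
  have key : ∀ {rx ry : Src}, PL Φ ε L W K k₀ rx ry s → ∀ (T : CTree) (q : ℝ),
      live Φ ε L (W J) T q → T.root = rx → sig Φ ε T < s →
      T = leaf T.root ∨ ext Φ ε (node (leaf rx) (leaf ry)) ≤ ext Φ ε T := by
    intro rx ry h T
    have hN : ∀ r' ∈ allTimes Φ ε L (W K), r' < s → r' < s2 Φ ε rx ry →
        NC Φ ε L W K k₀ rx ry r' := fun r' g1 g2 g3 => h.nc_mem hΦ hε r' g1 g2 g3.le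
    induction T with
    | leaf σ => exact fun _ _ _ _ => Or.inl rfl
    | node a b iha _ =>
      intro q hl hr hs
      right
      have hW := h.cube.fin J hJ
      have ha := live_left hΦ hε hW hl
      have hb := live_right hΦ hε hW hl
      have la := ((alive_iff_live hΦ hε hW).1 ha).1
      have lb := ((alive_iff_live hΦ hε hW).1 hb).1
      have xa : ext Φ ε a < sig Φ ε (node a b) := hl.ok.2.2.2.2.2.1
      have xb : ext Φ ε b < sig Φ ε (node a b) := hl.ok.2.2.2.2.2.2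
      have sa := (sig_le_ext hΦ hε hl.ok.1).trans_lt xa
      have sb := (sig_le_ext hΦ hε hl.ok.2.1).trans_lt xb
      have hra : a.root = rx := hr
      rcases iha _ la hra (sa.trans hs) with ea | ea
      swap
      · exact (ea.trans xa.le).trans (sig_lt_ext hΦ hε hl.ok).le
      rw [hra] at ea
      have hk : k₀ ∈ J := (h.mx J hJ).1 (hra ▸ la.sub a.root_mem_leaves)
      rcases lt_trichotomy (sig Φ ε (node a b)) (s2 Φ ε rx ry) with h1 | h1 | h1
      · have h2 := h.no_node hΦ hε hN hJ _ _ hl (Or.inl hr) hs h1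
        cases h2
      · have hne : b.root ≠ rx := fun hcon =>
          Set.disjoint_left.1 hl.ok.2.2.1 a.root_mem_leaves
            (hra.symm ▸ hcon ▸ b.root_mem_leaves)
        have hc : Ctc ε (KU.free (sig Φ ε (node a b)) (ln Φ ε a))
            (KU.free (sig Φ ε (node a b)) (ln Φ ε b)) := ctc_hitT hε hl.ok.2.2.2.1
        by_cases hry : b.root = ry
        · have eb := h.no_node hΦ hε hN hJ b _ lb (Or.inr hry) (sb.trans hs) (sb.trans_le h1.le)
          rw [hry] at eb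
          rw [ea, eb]
        · exfalso
          have h2 := (h.nc_lt hΦ hε hs h1.le J hJ hk b (Bg.of_alive hΦ hε hb) lb hne hry).1
            (by rw [h1]; exact h.birth_x.le)
          rw [st_after hΦ hε lb.ok xb.le] at h2
          refine h2 ?_
          have h3 := hc.symm
          rw [ea] at h3 ⊢
          exact h3
      · exfalso
        have hN' : ∀ r' ∈ allTimes Φ ε L (W K), r' < s2 Φ ε rx ry → r' < s2 Φ ε ry rx →
            NC Φ ε L W K k₀ ry rx r' := fun r' g1 g2 _ =>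
          (hN r' g1 (g2.trans (h1.trans hs)) g2).swap
        have h2 := (h.swap hΦ).leaf_live hΦ hε hN' hJ hk (s2_swap rx ry).ge h.birth_y.le
        refine la.nohit (leaf ry) _ h1 ?_ ((alive_iff_live hΦ hε hW).2 ⟨h2, h.birth_y.le⟩)
        rw [ea]
        exact h.hit₀ hε
  rcases hr with hr | hr
  · rcases key h _ q hl hr hs with h1 | h1
    · cases h1
    · exact h1
  · rcases key (h.swap hΦ) _ q hl hr hs with h1 | h1
    · cases h1
    · rwa [ext_swap hΦ (leaf rx) (leaf ry)] at h1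

/-- The first leaf is live at `s₀` in the worlds with `k₀`. -/
theorem live_iff (hΦ : IsPotential Φ) (hε : 0 < ε) (h : PL Φ ε L W K k₀ rx ry s)
    (hs : s2 Φ ε rx ry ≤ s) {J : Finset ι} (hJ : J ⊆ K) :
    live Φ ε L (W J) (leaf rx) (s2 Φ ε rx ry) ↔ k₀ ∈ J := by
  constructor
  · exact fun hl => (h.mx J hJ).1 (hl.sub (mem_singleton _))
  · exact fun hk => h.leaf_live hΦ hε
      (fun r' g1 g2 _ => h.nc_mem hΦ hε r' g1 (g2.trans_le hs) g2.le) hJ hk le_rfl h.birth_x.le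

end dec

end PL

/-- A time `s'` up to which there is no contact of a third tree with the two lines. -/
structure PT (Φ : E3 → ℝ) (ε : ℝ) (L : ℕ) (W : Finset ι → Set Src) (K : Finset ι) (k₀ : ι)
    (rx ry : Src) (s s' : ℝ) : Prop where
  pl : PL Φ ε L W K k₀ rx ry s
  le : s' ≤ s
  nc : ∀ r ≤ s', r ≤ s2 Φ ε rx ry → NC Φ ε L W K k₀ rx ry r
  lt : s' < ext Φ ε (node (leaf rx) (leaf ry))

namespace PT

variable {s' r : ℝ} {A B : CTree} {J : Finset ι}

theorem swap (hΦ : IsPotential Φ) (h : PT Φ ε L W K k₀ rx ry s s') :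
    PT Φ ε L W K k₀ ry rx s s' :=
  ⟨h.pl.swap hΦ, h.le, fun r h1 h2 => (h.nc r h1 (by rw [s2_swap] at h2; exact h2)).swap, by
    rw [ext_swap hΦ (leaf rx) (leaf ry)]; exact h.lt⟩

variable [DecidableEq ι]

/-- A contact of a flying history of `rx`. -/
theorem one_x (hΦ : IsPotential Φ) (hε : 0 < ε) (h : PT Φ ε L W K k₀ rx ry s s') (hr : r ≤ s')
    (hJ : J ⊆ K) (hA : alive Φ ε L (W J) A r) (hB : live Φ ε L (W J) B r) (hb : Bg Φ ε B r)
    (hne : A.root ≠ B.root) (hc : Ctc ε (KU.free r (ln Φ ε A)) (st Φ ε B r))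
    (hA' : A.root = rx) : A = leaf rx ∧ B = leaf ry ∧ r = s2 Φ ε rx ry := by
  have hW := h.pl.cube.fin J hJ
  have lA := ((alive_iff_live hΦ hε hW).1 hA).1
  have xA := (alive_pre hA).ext_le
  have hrs : r ≤ s := hr.trans h.le
  have eA : A = leaf rx := by
    rcases A with σ | ⟨a, b⟩
    · exact congrArg leaf hA'
    · exfalso
      have h1 := h.pl.ext_le hΦ hε hJ lA (Or.inl hA')
        ((sig_lt_ext hΦ hε lA.ok).trans_le (xA.trans hrs))
      exact absurd (h1.trans (xA.trans hr)) (not_le.2 h.lt)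
  subst eA
  have hk : k₀ ∈ J := (h.pl.mx J hJ).1 (lA.sub (mem_singleton _))
  have hr0 : r ≤ s2 Φ ε rx ry := by
    by_contra hcon
    rw [not_le] at hcon
    have h2 := ((h.pl.swap hΦ).live_iff hΦ hε (by
      rw [s2_swap]; exact hcon.le.trans hrs) hJ).2 hk
    rw [s2_swap] at h2
    exact lA.nohit (leaf ry) _ hcon (h.pl.hit₀ hε)
      ((alive_iff_live hΦ hε hW).2 ⟨h2, h.pl.birth_y.le⟩)
  have hBx : B.root ≠ rx := fun hcon => hne hcon.symm
  have hBy : B.root = ry := by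
    by_contra hcon
    exact (h.nc r hr hr0 J hJ hk B hb hB hBx hcon).1 lA.sig_le hc.symm
  have eB : B = leaf ry := by
    rcases hb with hb | hb
    · rw [← hBy]
      exact h.pl.no_node hΦ hε (r₁ := s) (fun r' g1 g2 g3 => h.pl.nc_mem hΦ hε r' g1 g2 g3.le) hJ
        B r hB (Or.inr hBy) (hb.trans_le hrs) (hb.trans_le hr0)
    · rw [← hBy]
      exact hb
  refine ⟨rfl, eB, le_antisymm hr0 ?_⟩
  by_contra hcon
  rw [eB] at hc
  exact not_ctc_lt hε h.pl.ok₀ (not_le.1 hcon) hc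

/-- A contact of a flying history of `rx` or `ry`. -/
theorem one (hΦ : IsPotential Φ) (hε : 0 < ε) (h : PT Φ ε L W K k₀ rx ry s s') (hr : r ≤ s')
    (hJ : J ⊆ K) (hA : alive Φ ε L (W J) A r) (hB : live Φ ε L (W J) B r) (hb : Bg Φ ε B r)
    (hne : A.root ≠ B.root) (hc : Ctc ε (KU.free r (ln Φ ε A)) (st Φ ε B r))
    (hA' : A.root = rx ∨ A.root = ry) :
    r = s2 Φ ε rx ry ∧ (A = leaf rx ∧ B = leaf ry ∨ A = leaf ry ∧ B = leaf rx) := by
  rcases hA' with hA' | hA'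
  · obtain ⟨h1, h2, h3⟩ := h.one_x hΦ hε hr hJ hA hB hb hne hc hA'
    exact ⟨h3, Or.inl ⟨h1, h2⟩⟩
  · obtain ⟨h1, h2, h3⟩ := (h.swap hΦ).one_x hΦ hε hr hJ hA hB hb hne hc hA'
    rw [s2_swap] at h3
    exact ⟨h3, Or.inr ⟨h1, h2⟩⟩

/-- A contact of two flying histories. -/
theorem both (hΦ : IsPotential Φ) (hε : 0 < ε) (h : PT Φ ε L W K k₀ rx ry s s') (hr : r ≤ s')
    (hJ : J ⊆ K) (hA : alive Φ ε L (W J) A r) (hB : alive Φ ε L (W J) B r)
    (hne : A.root ≠ B.root) (hc : Ctc ε (KU.free r (ln Φ ε A)) (KU.free r (ln Φ ε B)))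
    (hAB : (A.root = rx ∨ A.root = ry) ∨ B.root = rx ∨ B.root = ry) :
    r = s2 Φ ε rx ry ∧ (A = leaf rx ∧ B = leaf ry ∨ A = leaf ry ∧ B = leaf rx) := by
  have hW := h.pl.cube.fin J hJ
  have lA := ((alive_iff_live hΦ hε hW).1 hA).1
  have lB := ((alive_iff_live hΦ hε hW).1 hB).1
  rcases hAB with hAB | hAB
  · refine h.one hΦ hε hr hJ hA lB (Bg.of_alive hΦ hε hB) hne ?_ hAB
    rw [st_after hΦ hε lB.ok (alive_pre hB).ext_le]
    exact hc
  · obtain ⟨h1, h2⟩ := h.one hΦ hε hr hJ hB lA (Bg.of_alive hΦ hε hA) hne.symm (by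
      rw [st_after hΦ hε lA.ok (alive_pre hA).ext_le]
      exact hc.symm) hAB
    exact ⟨h1, h2.symm.imp And.symm And.symm⟩

end PT

end Vale.Agent.P119.IND
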