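import Vale.Agent.P119.IND.GraftC
import Vale.Agent.P119.IND.IrrMem

/-!
# P119, block IND: one more contact in a grafted program (`helper667`)

* `InsOK Φ ε M β Z a b s₀`: the final lines of the labels `a`, `b` of the program `M` are in contact at
  the time `s₀`; the labels are not dropped and not used after `s₀`; `InsOK.insert`: the contact is
  inserted as a ghost event, dropping `a`;
* `IrrX.congr`, `IrrX.insA`, `IrrX.insB`: the irregular contacts of the program with the inserted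
  contact;
* `NP`: the families of a world with a colliding pair; `PairB`: the pair, in the base;
  `Grf.insOK`: the pair, in the grafted program;
* `Grf.irrP_map`: the irregular contacts, the labels of the edges being exported;
  `Grf.cover'`: the covering sets, with additional edges.
-/

open Set
open scoped ENNReal

set_option linter.unusedSectionVars false

noncomputable section

namespace Vale.Agent.P119.IND

open KU M M.CTree TL GC AU

variable {Φ : E3 → ℝ} {ε T t : ℝ}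

/-! ### Inserting a contact -/

section Ins

variable {ι : Type} [DecidableEq ι]

/-- The final lines of the labels `a`, `b` are in contact at the time `s₀`; the labels are not dropped
and not used after `s₀`. -/
structure InsOK (Φ : E3 → ℝ) (ε : ℝ) (M : List (Ev ι × ℝ)) (β : ι → ℝ) (Z : ι → Ph) (a b : ι)
    (s₀ : ℝ) : Prop where
  ne : a ≠ b
  ua : UseLe M a s₀
  ub : UseLe M b s₀
  na : NotDr M a
  nb : NotDr M b
  ba : finB Φ ε M β Z a ≤ s₀
  bb : finB Φ ε M β Z b ≤ s₀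
  ctc : Ctc ε (KU.free s₀ (finZ Φ ε M Z a)) (KU.free s₀ (finZ Φ ε M Z b))

theorem InsOK.symm {M : List (Ev ι × ℝ)} {β : ι → ℝ} {Z : ι → Ph} {a b : ι} {s₀ : ℝ}
    (h : InsOK Φ ε M β Z a b s₀) : InsOK Φ ε M β Z b a s₀ :=
  ⟨h.ne.symm, h.ub, h.ua, h.nb, h.na, h.bb, h.ba, h.ctc.symm⟩

/-- **The contact is inserted.** -/
theorem InsOK.insert {A L : List (Ev ι × ℝ)} {β : ι → ℝ} {Z : ι → Ph} {a b : ι} {s₀ : ℝ}
    (h : InsOK Φ ε (A ++ L) β Z a b s₀) (hr : RunT Φ ε T 0 (A ++ L) β Z) (hw : Wf (A ++ L))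
    (h0 : 0 ≤ s₀) (hT : s₀ ≤ T) (hA : ∀ e ∈ A, e.2 ≤ s₀) (hL : ∀ e ∈ L, s₀ < e.2) :
    RunT Φ ε T 0 (A ++ (Ev.gh a b, s₀) :: L) β Z ∧ Wf (A ++ (Ev.gh a b, s₀) :: L) := by
  have va : NoUse L a := h.ua.noUse le_rfl hL
  have vb : NoUse L b := h.ub.noUse le_rfl hL
  have h1 := h.ba
  have h2 := h.bb
  have h3 := h.ctc
  rw [va.finB] at h1
  rw [vb.finB] at h2
  rw [va.finZ, vb.finZ] at h3
  refine ⟨hr.insert h0 hT hA (fun e he => (hL e he).le) h.ne h1 h2 h3,
    wf_insert hw (fun e he i k hik => ?_) va⟩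
  exact ⟨h.na e (List.mem_append_left _ he) i k hik, h.nb e (List.mem_append_left _ he) i k hik⟩

/-- The irregular contacts depend on the lines, the births and the uses of the labels. -/
theorem IrrX.congr {A A' B B' : List (Ev ι × ℝ)} {β : ι → ℝ} {Z : ι → Ph} {s : ℝ}
    {es : List (ι × ι)} (h : IrrX Φ ε A B β Z s es) (eZ : finZ Φ ε A' Z = finZ Φ ε A Z)
    (eB : finB Φ ε A' β Z = finB Φ ε A β Z)
    (hD : ∀ p ∈ es, (NotDr (A ++ B) p.1 → NotDr (A' ++ B') p.1) ∧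
      (NotDr (A ++ B) p.2 → NotDr (A' ++ B') p.2))
    (hU : (∀ p ∈ es, ((∀ r, UseLe A p.1 r → UseLe A' p.1 r) ∧ (NoUse B p.1 → NoUse B' p.1)) ∧
        (∀ r, UseLe A p.2 r → UseLe A' p.2 r) ∧ (NoUse B p.2 → NoUse B' p.2)) ∨
      ∃ x y a C, es = [(x, y), (a, C)] ∧
        ((∀ r, UseLe A x r → UseLe A' x r) ∧ (NoUse B x → NoUse B' x)) ∧
        (∀ r, UseLe A y r → UseLe A' y r) ∧ (NoUse B y → NoUse B' y)) :
    IrrX Φ ε A' B' β Z s es := by
  cases h with
  | tri x y C hcol hCx hCy bC hc nx ny nC ux uy vx vy =>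
    have key : ((∀ r, UseLe A x r → UseLe A' x r) ∧ (NoUse B x → NoUse B' x)) ∧
        (∀ r, UseLe A y r → UseLe A' y r) ∧ (NoUse B y → NoUse B' y) := by
      rcases hU with h1 | ⟨x', y', a, C', h1, h2⟩
      · exact h1 (x, y) (by simp)
      · simp only [List.cons.injEq, Prod.mk.injEq] at h1
        obtain ⟨⟨rfl, rfl⟩, -⟩ := h1
        exact h2
    refine .tri x y C ?_ hCx hCy ?_ ?_ ((hD (x, y) (by simp)).1 nx) ((hD (x, y) (by simp)).2 ny)
      ((hD (x, C) (by simp)).2 nC) ?_ ?_ (key.1.2 vx) (key.2.2 vy)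
    · rw [eZ, eB]; exact hcol
    · rw [eB]; exact bC
    · rw [eZ]; exact hc
    · rw [eZ]; exact key.1.1 _ ux
    · rw [eZ]; exact key.2.1 _ uy
  | quad x y u v hcol hcol' r1 r2 r3 r4 hc nx ny nu nv ux uy uu uv vx vy vu vv =>
    have key := hU.resolve_right (by
      rintro ⟨x', y', a, C', h1, -⟩
      simp at h1)
    have k1 := key (x, y) (by simp)
    have k2 := key (u, v) (by simp)
    have d1 := hD (x, y) (by simp)
    have d2 := hD (u, v) (by simp)
    refine .quad x y u v ?_ ?_ r1 r2 r3 r4 ?_ (d1.1 nx) (d1.2 ny) (d2.1 nu) (d2.2 nv) ?_ ?_ ?_ ?_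
      (k1.1.2 vx) (k1.2.2 vy) (k2.1.2 vu) (k2.2.2 vv)
    · rw [eZ, eB]; exact hcol
    · rw [eZ, eB]; exact hcol'
    · rw [eZ]; exact hc
    · rw [eZ]; exact k1.1.1 _ ux
    · rw [eZ]; exact k1.2.1 _ uy
    · rw [eZ]; exact k2.1.1 _ uu
    · rw [eZ]; exact k2.2.1 _ uv
  | trip x y C hxy hCx hCy bx by' bC hm hh hc nx ny nC vx vy =>
    have key : ((∀ r, UseLe A x r → UseLe A' x r) ∧ (NoUse B x → NoUse B' x)) ∧
        (∀ r, UseLe A y r → UseLe A' y r) ∧ (NoUse B y → NoUse B' y) := by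
      rcases hU with h1 | ⟨x', y', a, C', h1, h2⟩
      · exact h1 (x, y) (by simp)
      · simp only [List.cons.injEq, Prod.mk.injEq] at h1
        obtain ⟨⟨rfl, rfl⟩, -⟩ := h1
        exact h2
    refine .trip x y C hxy hCx hCy ?_ ?_ ?_ ?_ ?_ ?_ ((hD (x, y) (by simp)).1 nx)
      ((hD (x, y) (by simp)).2 ny) ((hD (y, C) (by simp)).2 nC) (key.1.2 vx) (key.2.2 vy)
    · rw [eB]; exact bx
    · rw [eB]; exact by'
    · rw [eB]; exact bC
    · rw [eZ]; exact hm
    · rw [eZ]; exact hh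
    · rw [eZ]; exact hc
  | two i k hik bi bk hc hI ni nk vi vk =>
    have key := hU.resolve_right (by
      rintro ⟨x', y', a, C', h1, -⟩
      simp at h1)
    have k1 := key (i, k) (by simp)
    have d1 := hD (i, k) (by simp)
    refine .two i k hik ?_ ?_ ?_ ?_ (d1.1 ni) (d1.2 nk) (k1.1.2 vi) (k1.2.2 vk)
    · rw [eB]; exact bi
    · rw [eB]; exact bk
    · rw [eZ]; exact hc
    · rw [eZ, eB]; exact hI

theorem NotDr.insert {A L : List (Ev ι × ℝ)} {a b j : ι} {s₀ : ℝ} (h : NotDr (A ++ L) j)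
    (hj : j ≠ a) : NotDr (A ++ (Ev.gh a b, s₀) :: L) j := by
  intro e he i k hik
  rcases List.mem_append.1 he with h1 | h1
  · exact h e (List.mem_append_left _ h1) i k hik
  · rcases List.mem_cons.1 h1 with rfl | h1
    · have h2 : Ev.gh a b = Ev.gh i k := hik
      injection h2 with h3 h4
      exact fun h5 => hj (h5 ▸ h3.symm)
    · exact h e (List.mem_append_right _ h1) i k hik

theorem UseLe.insert {A L : List (Ev ι × ℝ)} {a b j : ι} {s₀ r : ℝ} (h : UseLe (A ++ L) j r)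
    (ha : j ≠ a) (hb : j ≠ b) : UseLe (A ++ (Ev.gh a b, s₀) :: L) j r := by
  intro e he hj
  rcases List.mem_append.1 he with h1 | h1
  · exact h e (List.mem_append_left _ h1) hj
  · rcases List.mem_cons.1 h1 with rfl | h1
    · rcases hj with hj | hj
      · exact absurd hj.symm ha
      · exact absurd hj.symm hb
    · exact h e (List.mem_append_right _ h1) hj

theorem NoUse.insert {A L : List (Ev ι × ℝ)} {a b j : ι} {s₀ : ℝ} (h : NoUse (A ++ L) j)
    (ha : j ≠ a) (hb : j ≠ b) : NoUse (A ++ (Ev.gh a b, s₀) :: L) j := by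
  intro e he
  rcases List.mem_append.1 he with h1 | h1
  · exact h e (List.mem_append_left _ h1)
  · rcases List.mem_cons.1 h1 with rfl | h1
    · exact ⟨ha.symm, hb.symm⟩
    · exact h e (List.mem_append_right _ h1)

/-- **The contact is inserted before the irregular contact.** -/
theorem IrrX.insA {A₁ A₂ B : List (Ev ι × ℝ)} {β : ι → ℝ} {Z : ι → Ph} {s s₀ : ℝ}
    {es : List (ι × ι)} {a b : ι} (h : IrrX Φ ε (A₁ ++ A₂) B β Z s es)
    (hn : ∀ p ∈ es, (p.1 ≠ a ∧ p.1 ≠ b) ∧ p.2 ≠ a ∧ p.2 ≠ b) :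
    IrrX Φ ε (A₁ ++ (Ev.gh a b, s₀) :: A₂) B β Z s es := by
  have hd : ∀ {j : ι}, j ≠ a → NotDr ((A₁ ++ A₂) ++ B) j →
      NotDr ((A₁ ++ (Ev.gh a b, s₀) :: A₂) ++ B) j := by
    intro j hj h1
    rw [List.append_assoc] at h1 ⊢
    exact h1.insert hj
  refine h.congr (finZ_ghost a b s₀ A₁ A₂ Z) (finB_ghost a b s₀ A₁ A₂ β Z)
    (fun p hp => ⟨hd (hn p hp).1.1, hd (hn p hp).2.1⟩) (Or.inl fun p hp => ?_)
  obtain ⟨⟨h1, h2⟩, h3, h4⟩ := hn p hp
  exact ⟨⟨fun r hr => hr.insert h1 h2, id⟩, fun r hr => hr.insert h3 h4, id⟩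

/-- **The contact is inserted after the irregular contact**; the third label of the irregular contact
may be the label which is not dropped. -/
theorem IrrX.insB {A B₁ B₂ : List (Ev ι × ℝ)} {β : ι → ℝ} {Z : ι → Ph} {s s₀ : ℝ}
    {es : List (ι × ι)} {a b : ι} (h : IrrX Φ ε A (B₁ ++ B₂) β Z s es)
    (ha : ∀ p ∈ es, p.1 ≠ a ∧ p.2 ≠ a)
    (hb : (∀ p ∈ es, p.1 ≠ b ∧ p.2 ≠ b) ∨ ∃ x y c C, es = [(x, y), (c, C)] ∧ x ≠ b ∧ y ≠ b) :
    IrrX Φ ε A (B₁ ++ (Ev.gh a b, s₀) :: B₂) β Z s es := by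
  have hd : ∀ {j : ι}, j ≠ a → NotDr (A ++ (B₁ ++ B₂)) j →
      NotDr (A ++ (B₁ ++ (Ev.gh a b, s₀) :: B₂)) j := by
    intro j hj h1
    rw [← List.append_assoc] at h1 ⊢
    exact h1.insert hj
  refine h.congr rfl rfl (fun p hp => ⟨hd (ha p hp).1, hd (ha p hp).2⟩) ?_
  rcases hb with hb | ⟨x, y, c, C, he, h1, h2⟩
  · exact Or.inl fun p hp => ⟨⟨fun r hr => hr, fun hv => hv.insert (ha p hp).1 (hb p hp).1⟩,
      fun r hr => hr, fun hv => hv.insert (ha p hp).2 (hb p hp).2⟩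
  · have h3 := ha (x, y) (by rw [he]; simp)
    exact Or.inr ⟨x, y, c, C, he, ⟨fun r hr => hr, fun hv => hv.insert h3.1 h1⟩,
      fun r hr => hr, fun hv => hv.insert h3.2 h2⟩

end Ins

/-! ### The pair in the base -/

/-- **The families of a world with the colliding pair `r₁`, `r₂`**: its lines do not collide with other
particles, and all their contacts are before the collision. -/
structure NP (r₁ r₂ : Src) (s₀ : ℝ) (F : Finset CTree) (G : List Gh) : Prop where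
  nd : ∀ a b, node a b ∈ F → a.root ≠ r₁ ∧ a.root ≠ r₂
  fst : ∀ g ∈ G, g.1.root ≠ r₁ ∧ g.1.root ≠ r₂
  snd : ∀ g ∈ G, g.2.1.root = r₁ ∨ g.2.1.root = r₂ → g.2.2 ≤ s₀

variable {κ : Type} [DecidableEq κ]

/-- **The colliding pair of a base**: the lines of the labels `i₁`, `i₂` are in contact at the time
`s₀`. -/
structure PairB (ε T : ℝ) (x : κ → Src) (D : Set κ) (i₁ i₂ : κ) (s₀ : ℝ) : Prop where
  ne : i₁ ≠ i₂
  d₁ : i₁ ∉ D
  d₂ : i₂ ∉ D
  b₁ : (x i₁).1 ≤ s₀
  b₂ : (x i₂).1 ≤ s₀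
  ctc : Ctc ε (KU.free s₀ (x i₁).2.1) (KU.free s₀ (x i₂).2.1)
  le : s₀ ≤ T

namespace Grf

variable {z x : κ → Src} {D : Set κ} {Q : List (Ev κ × ℝ)} {F : Finset CTree} {G : List Gh}
  {V : Set Src} [DecidableEq (κ ⊕ Frl F V)] {M Q₁ : List (Ev (κ ⊕ Frl F V) × ℝ)}

/-- The uses of a label which does not collide in the family. -/
theorem use_of_nd (hΦ : IsPotential Φ) (hε : 0 < ε) (hB : BaseP Φ ε T z x D Q)
    (h : Grf Φ ε T z x D Q F G V M Q₁) (hF : Fam Φ ε T F G) {k : κ} (hk : k ∉ D) {s₀ : ℝ}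
    (hb : (x k).1 ≤ s₀) (hn : ∀ a b, node a b ∈ F → a.root ≠ x k)
    (hf : ∀ g ∈ G, g.1.root ≠ x k) (hs : ∀ g ∈ G, g.2.1.root = x k → g.2.2 ≤ s₀) :
    UseLe M (Sum.inl k) s₀ ∧ NotDr M (Sum.inl k) := by
  constructor
  · intro e he hj
    rcases h.cases_mem he with ⟨e₀, he₀, h1⟩ | h1
    · rw [h1] at hj ⊢
      simp only [Ev.map_fst, Ev.map_snd] at hj
      change e₀.2 ≤ s₀
      cases hev : e₀.1 with
      | sc c d =>
        rw [hev] at hj
        obtain ⟨h3, h4⟩ := hB.run.lt_finB hΦ hε e₀ he₀ c d hev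
        rcases hj with hj | hj
        · have hk' : c = k := Sum.inl_injective hj
          subst hk'
          exact (h3.trans_le ((hB.bir c hk).trans hb)).le
        · have hk' : d = k := Sum.inl_injective hj
          subst hk'
          exact (h4.trans_le ((hB.bir d hk).trans hb)).le
      | gh c d =>
        rw [hev] at hj
        obtain ⟨h3, h4⟩ := hB.ghost e₀ he₀ c d hev
        rcases hj with hj | hj
        · have hk' : c = k := Sum.inl_injective hj
          subst hk'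
          exact absurd h3 hk
        · have hk' : d = k := Sum.inl_injective hj
          subst hk'
          exact (h4 hk).trans hb
    · rcases h.mem e h1 with ⟨a, b, hab, h2, h3, h4, -⟩ | ⟨g, hgG, h2, h3, h4, -⟩
      · rcases hj with hj | hj
        · rw [hj] at h2
          exact absurd h2.symm (hn a b hab)
        · rw [hj] at h3
          exact absurd h3.symm (hn b a (hF.sub a b hab).2.2)
      · rw [h4]
        rcases hj with hj | hj
        · rw [hj] at h2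
          exact absurd h2.symm (hf g hgG)
        · rw [hj] at h3
          exact hs g hgG h3.symm
  · intro e he a b hab hai
    subst hai
    rcases h.cases_mem he with ⟨e₀, he₀, h1⟩ | h1
    · rw [h1] at hab
      cases hev : e₀.1 with
      | sc c d => rw [hev] at hab; exact absurd hab (by simp [Ev.map])
      | gh c d =>
        rw [hev] at hab
        simp only [Ev.map, Ev.gh.injEq] at hab
        have hck : c = k := Sum.inl_injective hab.1
        exact hk (hck ▸ (hB.ghost e₀ he₀ c d hev).1)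
    · have e1 : e.1.fst = Sum.inl k := by rw [hab]; rfl
      rcases h.mem e h1 with ⟨c, d, -, -, -, -, h2⟩ | ⟨g, hgG, h2, -, -, -⟩
      · rw [hab] at h2
        exact absurd h2 (by simp)
      · rw [e1] at h2
        exact hf g hgG h2.symm

/-- **The pair in the grafted program.** -/
theorem insOK (hΦ : IsPotential Φ) (hε : 0 < ε) (hB : BaseP Φ ε T z x D Q)
    (h : Grf Φ ε T z x D Q F G V M Q₁) (hF : Fam Φ ε T F G) {i₁ i₂ : κ} {s₀ : ℝ}
    (hP : PairB ε T x D i₁ i₂ s₀) (hN : NP (x i₁) (x i₂) s₀ F G) :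
    InsOK Φ ε M (fun i => (zAll z F V i).1) (fun i => (zAll z F V i).2.1) (Sum.inl i₁)
      (Sum.inl i₂) s₀ := by
  have hl : ∀ k, (∀ a b, node a b ∈ F → a.root ≠ x k) →
      ∀ P ∈ F, P.root = x k → P = leaf (x k) := by
    intro k hk P hP hr
    cases P with
    | leaf σ => rw [← hr]; rfl
    | node a b => exact absurd hr (hk a b hP)
  have n₁ : ∀ a b, node a b ∈ F → a.root ≠ x i₁ := fun a b hab => (hN.nd a b hab).1
  have n₂ : ∀ a b, node a b ∈ F → a.root ≠ x i₂ := fun a b hab => (hN.nd a b hab).2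
  obtain ⟨u₁, d₁⟩ := h.use_of_nd hΦ hε hB hF hP.d₁ hP.b₁ n₁ (fun g hg => (hN.fst g hg).1)
    fun g hg hr => hN.snd g hg (Or.inl hr)
  obtain ⟨u₂, d₂⟩ := h.use_of_nd hΦ hε hB hF hP.d₂ hP.b₂ n₂ (fun g hg => (hN.fst g hg).2)
    fun g hg hr => hN.snd g hg (Or.inr hr)
  refine ⟨fun h' => hP.ne (Sum.inl_injective h'), u₁, u₂, d₁, d₂, ?_, ?_, ?_⟩
  · rw [h.birL i₁ hP.d₁ (hl i₁ n₁)]
    exact (hB.bir i₁ hP.d₁).trans hP.b₁
  · rw [h.birL i₂ hP.d₂ (hl i₂ n₂)]
    exact (hB.bir i₂ hP.d₂).trans hP.b₂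
  · rw [h.linL i₁ hP.d₁ (hl i₁ n₁), h.linL i₂ hP.d₂ (hl i₂ n₂)]
    exact hP.ctc

section irr

variable {s : ℝ}

/-- **The irregular final contacts of the grafted program**, with the labels of the edges (after `irrP'` of
`helper810`). -/
theorem irrP_map (hΦ : IsPotential Φ) (hε : 0 < ε) (hB : BaseP Φ ε T z x D Q)
    (h : Grf Φ ε T z x D Q F G V M Q₁) (hF : Fam Φ ε T F G)
    (hV : ∀ σ ∈ lab F, σ ∈ V ∨ ∃ i ∉ D, x i = σ)
    (hGs : ∀ g ∈ G, g.2.2 ≤ s) {es : List (Src × Src)}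
    (hb : (∃ p, es = [p]) → ∀ k ∉ D,
      finB Φ ε Q (fun i => (z i).1) (fun i => (z i).2.1) k = (x k).1 ∨ s ≠ (x k).1)
    {Lg : Bool → Gh → Prop} (hI : Irr Φ ε Lg F G s es) :
    ∃ es' : List ((κ ⊕ Frl F V) × (κ ⊕ Frl F V)),
      IrrP Φ ε M (fun i => (zAll z F V i).1) (fun i => (zAll z F V i).2.1) s es' ∧
      es = es'.map (Prod.map (zAll x F V) (zAll x F V)) ∧
      ∀ p ∈ es', p.1 ∉ Sum.inl '' D ∧ p.2 ∉ Sum.inl '' D := by
  set β : κ ⊕ Frl F V → ℝ := fun i => (zAll z F V i).1 with hβ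
  set Z : κ ⊕ Frl F V → Ph := fun i => (zAll z F V i).2.1 with hZ
  have hlbl : ∀ S, IsLast F S → ∃ i : κ ⊕ Frl F V, i ∉ Sum.inl '' D ∧ zAll x F V i = S.root :=
    fun S hS => exists_lbl hV hS.root_mem
  have hne : ∀ {i k : κ ⊕ Frl F V} {S S' : CTree}, zAll x F V i = S.root →
      zAll x F V k = S'.root → S.root ≠ S'.root → i ≠ k := by
    rintro i k S S' h1 h2 h3 rfl
    exact h3 (h1.symm.trans h2)
  cases hI with
  | tri X Y C hX hY hC hok h1 h2 eC hCx hCy hc nd tg _ =>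
    obtain ⟨iX, dX, xX⟩ := hlbl X hX
    obtain ⟨iY, dY, xY⟩ := hlbl Y hY
    obtain ⟨iC, dC, xC⟩ := hlbl C hC
    have sX := h.lst hX dX xX
    have sY := h.lst hY dY xY
    have sC := h.lst hC dC xC
    rw [← hβ, ← hZ] at sX sY sC
    have hXY : X.root ≠ Y.root := by
      intro hr
      exact Set.disjoint_left.1 hok.2.2.1 X.root_mem_leaves (hr ▸ Y.root_mem_leaves)
    refine ⟨[(iX, iY), (iX, iC)], .tri iX iY iC (hne xX xY hXY) (hne xC xX hCx)
      (hne xC xY hCy) ?_ ?_ ?_ ?_ ?_ ?_ ?_ ?_ ?_ ?_ ?_ ?_ ?_ ?_, ?_⟩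
    · rw [sX.lin, sY.lin]; exact hok.2.2.2.1
    · rw [sX.lin, sY.lin]; exact hok.2.2.2.2.1
    · rw [sX.lin, sY.lin]; exact sX.bir.trans_lt hok.2.2.2.2.2.1
    · rw [sX.lin, sY.lin]; exact sY.bir.trans_lt hok.2.2.2.2.2.2
    · rw [sX.lin, sY.lin]; exact h1
    · rw [sX.lin, sY.lin]; exact h2
    · exact sC.bir.trans eC
    · rw [sX.lin, sY.lin, sC.lin]
      rw [st_swap hΦ X Y s] at hc
      exact hc.imp_right Or.inl
    · exact h.notDr hB dX xX fun g hg => (nd g hg).1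
    · exact h.notDr hB dY xY fun g hg => (nd g hg).2.1
    · exact h.notDr hB dC xC fun g hg => (nd g hg).2.2
    · rw [sX.lin, sY.lin]
      exact h.useLe hΦ hε hB hF hX dX xX hok.2.2.2.2.2.1.le (fun g hg => (nd g hg).1)
        fun g hg hr => tg g hg (Or.inl hr)
    · rw [sX.lin, sY.lin]
      exact h.useLe hΦ hε hB hF hY dY xY hok.2.2.2.2.2.2.le (fun g hg => (nd g hg).2.1)
        fun g hg hr => tg g hg (Or.inr hr)
    · exact h.useLe hΦ hε hB hF hC dC xC eC (fun g hg => (nd g hg).2.2) fun g hg _ => hGs g hg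
    · refine ⟨by simp [xX, xY, xC], fun p hp => ?_⟩
      simp only [List.mem_cons, List.not_mem_nil, or_false] at hp
      rcases hp with rfl | rfl
      · exact ⟨dX, dY⟩
      · exact ⟨dX, dC⟩
  | quad X Y U W hX hY hU hW hok h1 h2 hok' h1' h2' r1 r2 r3 r4 hc nd tg tg' _ _ =>
    obtain ⟨iX, dX, xX⟩ := hlbl X hX
    obtain ⟨iY, dY, xY⟩ := hlbl Y hY
    obtain ⟨iU, dU, xU⟩ := hlbl U hU
    obtain ⟨iW, dW, xW⟩ := hlbl W hW
    have sX := h.lst hX dX xX
    have sY := h.lst hY dY xY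
    have sU := h.lst hU dU xU
    have sW := h.lst hW dW xW
    rw [← hβ, ← hZ] at sX sY sU sW
    have hXY : X.root ≠ Y.root := by
      intro hr
      exact Set.disjoint_left.1 hok.2.2.1 X.root_mem_leaves (hr ▸ Y.root_mem_leaves)
    have hUW : U.root ≠ W.root := by
      intro hr
      exact Set.disjoint_left.1 hok'.2.2.1 U.root_mem_leaves (hr ▸ W.root_mem_leaves)
    refine ⟨[(iX, iY), (iU, iW), (iX, iU)], .quad iX iY iU iW (hne xX xY hXY) (hne xU xW hUW)
      (hne xX xU r1) (hne xX xW r2) (hne xY xU r3) (hne xY xW r4) ?_ ?_ ?_ ?_ ?_ ?_ ?_ ?_ ?_ ?_ ?_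
      ?_ ?_ ?_ ?_ ?_ ?_ ?_ ?_ ?_ ?_, ?_⟩
    · rw [sX.lin, sY.lin]; exact hok.2.2.2.1
    · rw [sX.lin, sY.lin]; exact hok.2.2.2.2.1
    · rw [sX.lin, sY.lin]; exact sX.bir.trans_lt hok.2.2.2.2.2.1
    · rw [sX.lin, sY.lin]; exact sY.bir.trans_lt hok.2.2.2.2.2.2
    · rw [sX.lin, sY.lin]; exact h1
    · rw [sX.lin, sY.lin]; exact h2
    · rw [sU.lin, sW.lin]; exact hok'.2.2.2.1
    · rw [sU.lin, sW.lin]; exact hok'.2.2.2.2.1
    · rw [sU.lin, sW.lin]; exact sU.bir.trans_lt hok'.2.2.2.2.2.1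
    · rw [sU.lin, sW.lin]; exact sW.bir.trans_lt hok'.2.2.2.2.2.2
    · rw [sU.lin, sW.lin]; exact h1'
    · rw [sU.lin, sW.lin]; exact h2'
    · rw [sX.lin, sY.lin, sU.lin, sW.lin]
      exact hc
    · exact h.notDr hB dX xX fun g hg => (nd g hg).1
    · exact h.notDr hB dY xY fun g hg => (nd g hg).2.1
    · exact h.notDr hB dU xU fun g hg => (nd g hg).2.2.1
    · exact h.notDr hB dW xW fun g hg => (nd g hg).2.2.2
    · rw [sX.lin, sY.lin]
      exact h.useLe hΦ hε hB hF hX dX xX hok.2.2.2.2.2.1.le (fun g hg => (nd g hg).1)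
        fun g hg hr => tg g hg (Or.inl hr)
    · rw [sX.lin, sY.lin]
      exact h.useLe hΦ hε hB hF hY dY xY hok.2.2.2.2.2.2.le (fun g hg => (nd g hg).2.1)
        fun g hg hr => tg g hg (Or.inr hr)
    · rw [sU.lin, sW.lin]
      exact h.useLe hΦ hε hB hF hU dU xU hok'.2.2.2.2.2.1.le (fun g hg => (nd g hg).2.2.1)
        fun g hg hr => tg' g hg (Or.inl hr)
    · rw [sU.lin, sW.lin]
      exact h.useLe hΦ hε hB hF hW dW xW hok'.2.2.2.2.2.2.le (fun g hg => (nd g hg).2.2.2)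
        fun g hg hr => tg' g hg (Or.inr hr)
    · refine ⟨by simp [xX, xY, xU, xW], fun p hp => ?_⟩
      simp only [List.mem_cons, List.not_mem_nil, or_false] at hp
      rcases hp with rfl | rfl | rfl
      · exact ⟨dX, dY⟩
      · exact ⟨dU, dW⟩
      · exact ⟨dX, dU⟩
  | trip X Y C hX hY hC ex ey eC hXY hCx hCy hm hh hc nd _ _ =>
    obtain ⟨iX, dX, xX⟩ := hlbl X hX
    obtain ⟨iY, dY, xY⟩ := hlbl Y hY
    obtain ⟨iC, dC, xC⟩ := hlbl C hC
    have sX := h.lst hX dX xX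
    have sY := h.lst hY dY xY
    have sC := h.lst hC dC xC
    rw [← hβ, ← hZ] at sX sY sC
    refine ⟨[(iX, iY), (iY, iC)], .trip iX iY iC (hne xX xY hXY) (hne xC xX hCx)
      (hne xC xY hCy) (sX.bir.trans_lt ex) (sY.bir.trans_lt ey) (sC.bir.trans eC) ?_ ?_ ?_
      (h.notDr hB dX xX fun g hg => (nd g hg).1) (h.notDr hB dY xY fun g hg => (nd g hg).2.1)
      (h.notDr hB dC xC fun g hg => (nd g hg).2.2)
      (h.useLe hΦ hε hB hF hX dX xX ex.le (fun g hg => (nd g hg).1) fun g hg _ => hGs g hg)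
      (h.useLe hΦ hε hB hF hY dY xY ey.le (fun g hg => (nd g hg).2.1) fun g hg _ => hGs g hg)
      (h.useLe hΦ hε hB hF hC dC xC eC (fun g hg => (nd g hg).2.2) fun g hg _ => hGs g hg), ?_⟩
    · rw [sX.lin, sY.lin]; exact hm
    · rw [sX.lin, sY.lin]; exact hh
    · rw [sY.lin, sC.lin]; exact hc
    · refine ⟨by simp [xX, xY, xC], fun p hp => ?_⟩
      simp only [List.mem_cons, List.not_mem_nil, or_false] at hp
      rcases hp with rfl | rfl
      · exact ⟨dX, dY⟩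
      · exact ⟨dY, dC⟩
  | born A B hA hB' hr hs hc nd _ =>
    obtain ⟨iA, dA, xA⟩ := hlbl A hA
    obtain ⟨iB, dB, xB⟩ := hlbl B hB'
    have sA := h.lst hA dA xA
    have sB := h.lst hB' dB xB
    have cA := h.bir_cases (s := s) hA dA xA (hb ⟨_, rfl⟩)
    have cB := h.bir_cases (s := s) hB' dB xB (hb ⟨_, rfl⟩)
    rw [← hβ, ← hZ] at sA sB cA cB
    have lA : ext Φ ε A ≤ s := by rw [hs]; exact le_max_left _ _
    have lB : ext Φ ε B ≤ s := by rw [hs]; exact le_max_right _ _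
    have hs' : s = max (finB Φ ε M β Z iA) (finB Φ ε M β Z iB) := by
      rcases cA with cA | cA
      · rcases cB with cB | cB
        · rw [cA, cB]; exact hs
        · have h3 : ext Φ ε A = s := by
            rcases max_choice (ext Φ ε A) (ext Φ ε B) with h4 | h4
            · rw [hs, h4]
            · exact absurd (by rw [hs, h4]) cB
          rw [cA, h3, max_eq_left (sB.bir.trans lB)]
      · have h3 : ext Φ ε B = s := by
          rcases max_choice (ext Φ ε A) (ext Φ ε B) with h4 | h4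
          · exact absurd (by rw [hs, h4]) cA
          · rw [hs, h4]
        rcases cB with cB | cB
        · rw [cB, h3, max_eq_right (sA.bir.trans lA)]
        · exact absurd h3 cB
    refine ⟨[(iA, iB)], .born iA iB (hne xA xB hr) hs' ?_
      (h.notDr hB dA xA fun g hg => (nd g hg).1) (h.notDr hB dB xB fun g hg => (nd g hg).2)
      (h.useLe hΦ hε hB hF hA dA xA lA (fun g hg => (nd g hg).1) fun g hg _ => hGs g hg)
      (h.useLe hΦ hε hB hF hB' dB xB lB (fun g hg => (nd g hg).2) fun g hg _ => hGs g hg), ?_⟩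
    · rw [sA.lin, sB.lin]; exact hc
    · refine ⟨by simp [xA, xB], fun p hp => ?_⟩
      simp only [List.mem_cons, List.not_mem_nil, or_false] at hp
      subst hp
      exact ⟨dA, dB⟩
  | graze A B hA hB' hr hg nd _ =>
    obtain ⟨iA, dA, xA⟩ := hlbl A hA
    obtain ⟨iB, dB, xB⟩ := hlbl B hB'
    have sA := h.lst hA dA xA
    have sB := h.lst hB' dB xB
    rw [← hβ, ← hZ] at sA sB
    have lA : ext Φ ε A ≤ s := (le_max_left _ _).trans hg.1.le
    have lB : ext Φ ε B ≤ s := (le_max_right _ _).trans hg.1.le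
    have ht := hg.tangent hε
    refine ⟨[(iA, iB)], .graze iA iB (hne xA xB hr) (sA.bir.trans lA) (sB.bir.trans lB) ?_ ?_ ?_
      (h.notDr hB dA xA fun g hg => (nd g hg).1) (h.notDr hB dB xB fun g hg => (nd g hg).2)
      (h.useLe hΦ hε hB hF hA dA xA lA (fun g hg => (nd g hg).1) fun g hg _ => hGs g hg)
      (h.useLe hΦ hε hB hF hB' dB xB lB (fun g hg => (nd g hg).2) fun g hg _ => hGs g hg), ?_⟩
    · rw [sA.lin, sB.lin]; exact ht.1
    · rw [sA.lin, sB.lin]; exact ht.2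
    · rw [sA.lin, sB.lin]; exact hg.2.1
    · refine ⟨by simp [xA, xB], fun p hp => ?_⟩
      simp only [List.mem_cons, List.not_mem_nil, or_false] at hp
      subst hp
      exact ⟨dA, dB⟩

end irr

/-- **The covering set of the base, with additional edges, covers the grafted program.** -/
theorem cover' (hB : BaseP Φ ε T z x D Q) (h : Grf Φ ε T z x D Q F G V M Q₁)
    (hF : Fam Φ ε T F G) (hV : ∀ σ ∈ lab F, σ ∈ V ∨ ∃ i ∉ D, x i = σ) (hVx : ∀ i ∉ D, x i ∉ V)
    {es : List (Src × Src)} {es' : List ((κ ⊕ Frl F V) × (κ ⊕ Frl F V))}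
    (hes : ∀ p ∈ es, ∃ i k, i ∉ Sum.inl '' D ∧ k ∉ Sum.inl '' D ∧ zAll x F V i = p.1 ∧
        zAll x F V k = p.2 ∧ (i, k) ∈ es')
    {es₀ : List (κ × κ)}
    (hes₀ : ∀ p ∈ es₀, Edg.Joined (edges M ++ es') (Sum.inl p.1) (Sum.inl p.2))
    (hc : ∀ σ ∈ lab F, σ ∈ V → ∃ i ∉ D, FX F G es (x i) σ)
    {R₀ : Finset κ} (hR₀ : ∀ i, ∃ r ∈ R₀, Edg.Joined (edges Q ++ es₀) i r)
    (i : κ ⊕ Frl F V) :
    ∃ r ∈ R₀.map ⟨Sum.inl, Sum.inl_injective⟩, Edg.Joined (edges M ++ es') i r := by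
  have hb : ∀ a : κ, ∃ r ∈ R₀.map ⟨Sum.inl, Sum.inl_injective⟩,
      Edg.Joined (edges M ++ es') (Sum.inl a) r := by
    intro a
    obtain ⟨r, hr, hJ⟩ := hR₀ a
    refine ⟨Sum.inl r, Finset.mem_map.2 ⟨r, hr, rfl⟩, ?_⟩
    refine (hJ.map (Sum.inl : κ → κ ⊕ Frl F V)).of_edges fun p hp => ?_
    rw [List.map_append] at hp
    rcases List.mem_append.1 hp with h1 | h1
    · refine Edg.joined_edge (List.mem_append_left _ ?_)
      obtain ⟨p₀, h2, rfl⟩ := List.mem_map.1 h1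
      obtain ⟨e, he, rfl⟩ := List.mem_map.1 h2
      refine List.mem_map.2 ⟨(e.1.map Sum.inl, e.2), ?_, ?_⟩
      · exact h.perm.symm.subset (List.mem_append_left _ (List.mem_map.2 ⟨e, he, rfl⟩))
      · simp only [Ev.map_fst, Ev.map_snd]
        rfl
    · obtain ⟨p₀, h2, rfl⟩ := List.mem_map.1 h1
      exact hes₀ p₀ h2
  rcases i with a | ⟨σ, h1, h2⟩
  · exact hb a
  · obtain ⟨a, ha, hJ⟩ := hc σ h1 h2
    obtain ⟨r, hr, hJ'⟩ := hb a
    have h3 := h.joined_trail hB hF hV hVx hes (i := Sum.inl a) (k := Sum.inr ⟨σ, h1, h2⟩)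
      (inl_notMem ha) inr_notMem hJ
    exact ⟨r, hr, h3.symm.trans hJ'⟩

end Grf

end Vale.Agent.P119.IND
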