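import Vale.Agent.P119.KU.Scat11
import Vale.Agent.P119.M.Near
import Vale.Agent.P119.MM.Time

/-!
# P119, block IND: programs (`helper295`)

A *program* on a type of labels `ι` is a list of events.  The state is a birth time and a line for
every label.  `Ev.sc i k`: the lines of `i` and `k` meet and are scattered; `Ev.gh i k`: the line
of `i` is in contact with the line of `k`, nothing is changed.

* `At Φ ε T e d β Z s`: the event `e` occurs at the time `s` (at most `d` after the last birth);
* `Run Φ ε T r P β Z`: the events of `P` occur one after the other, at times in `[r, T]`;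
* covariance under the action of `Ph` on a set of labels which is closed for the program;
* measurability.
-/

open MeasureTheory Filter Topology Set
open scoped ENNReal

set_option linter.unusedSectionVars false

noncomputable section

namespace Vale.Agent.P119.IND

open KU MM

/-- The events. -/
inductive Ev (ι : Type) : Type
  | sc (i k : ι) : Ev ι
  | gh (i k : ι) : Ev ι

variable {ι : Type} [DecidableEq ι] {Φ : E3 → ℝ} {ε T : ℝ}

namespace Ev

/-- The first label. -/
def fst : Ev ι → ι
  | sc i _ => i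
  | gh i _ => i

/-- The second label. -/
def snd : Ev ι → ι
  | sc _ k => k
  | gh _ k => k

end Ev

/-- The pair of the lines of an event. -/
def pr (e : Ev ι) (Z : ι → Ph) : Ph × Ph := (Z e.fst, Z e.snd)

variable (Φ ε T) in
/-- The new lines. -/
def lineApp : Ev ι → (ι → Ph) → ι → Ph
  | Ev.sc i k, Z => Function.update (Function.update Z i (sc2 Φ ε (Z i, Z k)).1) k
      (sc2 Φ ε (Z i, Z k)).2
  | Ev.gh _ _, Z => Z

variable (Φ ε T) in
/-- The new birth times. -/
def birthApp : Ev ι → (ι → ℝ) → (ι → Ph) → ι → ℝ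
  | Ev.sc i k, β, Z => Function.update (Function.update β i (sepT Φ ε (Z i, Z k))) k
      (sepT Φ ε (Z i, Z k))
  | Ev.gh _ _, β, _ => β

variable (Φ ε T) in
/-- The event `e` occurs at the time `s`, at most `d` after the last birth. -/
def At : Ev ι → ℝ → (ι → ℝ) → (ι → Ph) → ℝ → Prop
  | Ev.sc i k, d, β, Z, s => i ≠ k ∧ Meets ε (Z i, Z k) ∧ Exits Φ (rel ε (Z i, Z k)) ∧
      hitT ε (Z i, Z k) = s ∧ β i < s ∧ β k < s ∧ sepT Φ ε (Z i, Z k) ≤ T ∧
      s ≤ max (β i) (β k) + d
  | Ev.gh i k, d, β, Z, s => i ≠ k ∧ β i ≤ s ∧ β k ≤ s ∧ Ctc ε (free s (Z i)) (free s (Z k)) ∧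
      s ≤ max (β i) (β k) + d

variable (Φ ε T) in
/-- The events occur one after the other. -/
def Run : ℝ → List (Ev ι × ℝ) → (ι → ℝ) → (ι → Ph) → Prop
  | _, [], _, _ => True
  | r, e :: P, β, Z => ∃ s, r ≤ s ∧ s ≤ T ∧ At Φ ε T e.1 e.2 β Z s ∧
      Run s P (birthApp Φ ε e.1 β Z) (lineApp Φ ε e.1 Z)

variable (Φ ε) in
/-- The final lines. -/
def finZ : List (Ev ι × ℝ) → (ι → Ph) → ι → Ph
  | [], Z => Z
  | e :: P, Z => finZ P (lineApp Φ ε e.1 Z)

variable (Φ ε) in
/-- The final birth times. -/
def finB : List (Ev ι × ℝ) → (ι → ℝ) → (ι → Ph) → ι → ℝ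
  | [], β, _ => β
  | e :: P, β, Z => finB P (birthApp Φ ε e.1 β Z) (lineApp Φ ε e.1 Z)

theorem Run.mono {P : List (Ev ι × ℝ)} {r r' : ℝ} {β : ι → ℝ} {Z : ι → Ph} (h : r' ≤ r)
    (hR : Run Φ ε T r P β Z) : Run Φ ε T r' P β Z := by
  cases P with
  | nil => trivial
  | cons e P =>
    obtain ⟨s, h1, h2⟩ := hR
    exact ⟨s, h.trans h1, h2⟩

/-! ### The action of `Ph` on a set of labels -/

/-- The lines of the labels of `B` are moved by `c`. -/
def mv (B : Finset ι) (c : Ph) (Z : ι → Ph) (i : ι) : Ph := if i ∈ B then boost c (Z i) else Z i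

/-- No event joins `B` to its complement. -/
def Cl (B : Finset ι) (P : List (Ev ι × ℝ)) : Prop := ∀ e ∈ P, (e.1.fst ∈ B ↔ e.1.snd ∈ B)

theorem boost_zero (p : Ph) : boost 0 p = p := by
  unfold boost; simp

theorem boost_boost (c d p : Ph) : boost c (boost d p) = boost (c + d) p := by
  unfold boost
  simp only [Prod.fst_add, Prod.snd_add]
  exact Prod.ext (by simp only; abel) (by simp only; abel)

theorem mv_of_mem {B : Finset ι} {i : ι} (h : i ∈ B) (c : Ph) (Z : ι → Ph) :
    mv B c Z i = boost c (Z i) := if_pos h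

theorem mv_of_notMem {B : Finset ι} {i : ι} (h : i ∉ B) (c : Ph) (Z : ι → Ph) :
    mv B c Z i = Z i := if_neg h

theorem mv_pair {B : Finset ι} {i k : ι} (h : i ∈ B ↔ k ∈ B) (c : Ph) (Z : ι → Ph) :
    (mv B c Z i, mv B c Z k) = (boost (if i ∈ B then c else 0) (Z i),
      boost (if i ∈ B then c else 0) (Z k)) := by
  by_cases hi : i ∈ B
  · rw [mv_of_mem hi, mv_of_mem (h.1 hi), if_pos hi]
  · rw [mv_of_notMem hi, mv_of_notMem fun hk => hi (h.2 hk), if_neg hi, boost_zero, boost_zero]

theorem meets_boost (c : Ph) (q : Ph × Ph) :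
    Meets ε (boost c q.1, boost c q.2) ↔ Meets ε q := by
  have h1 : ∀ q : Ph × Ph, q.1.2 - q.2.2 = (rel ε q).2 := fun q => rfl
  unfold Meets
  rw [h1, h1, rel_boost]

theorem sepT_boost (c : Ph) (q : Ph × Ph) :
    sepT Φ ε (boost c q.1, boost c q.2) = sepT Φ ε q := by
  unfold sepT; rw [rel_boost]

theorem ctc_boost (c p q : Ph) : Ctc ε (boost c p) (boost c q) ↔ Ctc ε p q := by
  unfold Ctc boost
  simp only [add_sub_add_right_eq_sub]

theorem lineApp_mv {B : Finset ι} {e : Ev ι} (h : e.fst ∈ B ↔ e.snd ∈ B) (c : Ph) (Z : ι → Ph) :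
    lineApp Φ ε e (mv B c Z) = mv B c (lineApp Φ ε e Z) := by
  cases e with
  | gh i k => rfl
  | sc i k =>
    change (i ∈ B ↔ k ∈ B) at h
    simp only [lineApp]
    rw [mv_pair h, sc2_boost _ (Z i, Z k)]
    funext j
    by_cases hk : j = k
    · subst hk
      rw [Function.update_self]
      by_cases hj : j ∈ B
      · rw [mv_of_mem hj, Function.update_self, if_pos (h.2 hj)]
      · rw [mv_of_notMem hj, Function.update_self, if_neg (fun hi => hj (h.1 hi))]
        exact boost_zero _
    · rw [Function.update_of_ne hk]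
      by_cases hi : j = i
      · subst hi
        rw [Function.update_self]
        by_cases hj : j ∈ B
        · rw [mv_of_mem hj, Function.update_of_ne hk, Function.update_self, if_pos hj]
        · rw [mv_of_notMem hj, Function.update_of_ne hk, Function.update_self, if_neg hj,
            boost_zero]
      · rw [Function.update_of_ne hi]
        by_cases hj : j ∈ B
        · rw [mv_of_mem hj, mv_of_mem hj, Function.update_of_ne hk, Function.update_of_ne hi]
        · rw [mv_of_notMem hj, mv_of_notMem hj, Function.update_of_ne hk, Function.update_of_ne hi]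

theorem birthApp_mv {B : Finset ι} {e : Ev ι} (h : e.fst ∈ B ↔ e.snd ∈ B) (c : Ph) (β : ι → ℝ)
    (Z : ι → Ph) : birthApp Φ ε e β (mv B c Z) = birthApp Φ ε e β Z := by
  cases e with
  | gh i k => rfl
  | sc i k =>
    change (i ∈ B ↔ k ∈ B) at h
    simp only [birthApp]
    rw [mv_pair h, sepT_boost (q := (Z i, Z k))]

theorem at_mv {B : Finset ι} {e : Ev ι} (h : e.fst ∈ B ↔ e.snd ∈ B) (c : Ph) (d : ℝ) (β : ι → ℝ)
    (Z : ι → Ph) (s : ℝ) : At Φ ε T e d β (mv B c Z) s ↔ At Φ ε T e d β Z s := by
  cases e with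
  | gh i k =>
    change (i ∈ B ↔ k ∈ B) at h
    have h1 := mv_pair h c Z
    rw [Prod.mk.injEq] at h1
    simp only [At]
    rw [h1.1, h1.2, free_boost, free_boost, ctc_boost]
  | sc i k =>
    change (i ∈ B ↔ k ∈ B) at h
    simp only [At]
    rw [mv_pair h, meets_boost (q := (Z i, Z k)), rel_boost _ (Z i, Z k), hitT_boost _ (Z i, Z k),
      sepT_boost (q := (Z i, Z k))]

theorem finZ_mv {B : Finset ι} {P : List (Ev ι × ℝ)} (h : Cl B P) (c : Ph) (Z : ι → Ph) :
    finZ Φ ε P (mv B c Z) = mv B c (finZ Φ ε P Z) := by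
  induction P generalizing Z with
  | nil => rfl
  | cons e P ih =>
    unfold finZ
    rw [lineApp_mv (h e List.mem_cons_self)]
    exact ih (fun e' he' => h e' (List.mem_cons_of_mem _ he')) _

theorem finB_mv {B : Finset ι} {P : List (Ev ι × ℝ)} (h : Cl B P) (c : Ph) (β : ι → ℝ)
    (Z : ι → Ph) : finB Φ ε P β (mv B c Z) = finB Φ ε P β Z := by
  induction P generalizing β Z with
  | nil => rfl
  | cons e P ih =>
    unfold finB
    rw [lineApp_mv (h e List.mem_cons_self), birthApp_mv (h e List.mem_cons_self)]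
    exact ih (fun e' he' => h e' (List.mem_cons_of_mem _ he')) _ _

/-- **Covariance.** -/
theorem run_mv {B : Finset ι} {P : List (Ev ι × ℝ)} (h : Cl B P) (c : Ph) (r : ℝ) (β : ι → ℝ)
    (Z : ι → Ph) : Run Φ ε T r P β (mv B c Z) ↔ Run Φ ε T r P β Z := by
  induction P generalizing r β Z with
  | nil => exact Iff.rfl
  | cons e P ih =>
    unfold Run
    refine exists_congr fun s => ?_
    rw [at_mv (h e List.mem_cons_self), lineApp_mv (h e List.mem_cons_self),
      birthApp_mv (h e List.mem_cons_self), ih fun e' he' => h e' (List.mem_cons_of_mem _ he')]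

/-! ### Concatenation -/

theorem finZ_append (P Q : List (Ev ι × ℝ)) (Z : ι → Ph) :
    finZ Φ ε (P ++ Q) Z = finZ Φ ε Q (finZ Φ ε P Z) := by
  induction P generalizing Z with
  | nil => rfl
  | cons e P ih => exact ih _

theorem finB_append (P Q : List (Ev ι × ℝ)) (β : ι → ℝ) (Z : ι → Ph) :
    finB Φ ε (P ++ Q) β Z = finB Φ ε Q (finB Φ ε P β Z) (finZ Φ ε P Z) := by
  induction P generalizing β Z with
  | nil => rfl
  | cons e P ih => exact ih _ _

theorem Run.left {P Q : List (Ev ι × ℝ)} {r : ℝ} {β : ι → ℝ} {Z : ι → Ph}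
    (h : Run Φ ε T r (P ++ Q) β Z) : Run Φ ε T r P β Z := by
  induction P generalizing r β Z with
  | nil => trivial
  | cons e P ih =>
    obtain ⟨s, h1, h2, h3, h4⟩ := h
    exact ⟨s, h1, h2, h3, ih h4⟩

theorem Run.right {P Q : List (Ev ι × ℝ)} {r : ℝ} {β : ι → ℝ} {Z : ι → Ph}
    (h : Run Φ ε T r (P ++ Q) β Z) : Run Φ ε T r Q (finB Φ ε P β Z) (finZ Φ ε P Z) := by
  induction P generalizing r β Z with
  | nil => exact h
  | cons e P ih =>
    obtain ⟨s, h1, h2, h3, h4⟩ := h
    exact Run.mono h1 (ih h4)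

/-! ### Measurability -/

section Meas

variable {X : Type*} [MeasurableSpace X]

theorem measurable_lineApp [Fintype ι] (hΦ : IsPotential Φ) (hε : ε ≠ 0) (e : Ev ι)
    {Z : X → ι → Ph} (hZ : Measurable Z) : Measurable fun x => lineApp Φ ε e (Z x) := by
  cases e with
  | gh i k => exact hZ
  | sc i k =>
    simp only [lineApp]
    have h1 : Measurable fun x => sc2 Φ ε (Z x i, Z x k) :=
      (measurable_sc2 hΦ hε).comp (((measurable_pi_apply i).comp hZ).prodMk
        ((measurable_pi_apply k).comp hZ))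
    refine measurable_pi_iff.2 fun j => ?_
    by_cases hk : j = k
    · subst hk
      simp only [Function.update_self]
      exact h1.snd
    · simp only [Function.update_of_ne hk]
      by_cases hi : j = i
      · subst hi
        simp only [Function.update_self]
        exact h1.fst
      · simp only [Function.update_of_ne hi]
        exact (measurable_pi_apply j).comp hZ

theorem measurable_birthApp [Fintype ι] (hΦ : IsPotential Φ) (e : Ev ι)
    {β : X → ι → ℝ} (hβ : Measurable β) {Z : X → ι → Ph} (hZ : Measurable Z) :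
    Measurable fun x => birthApp Φ ε e (β x) (Z x) := by
  cases e with
  | gh i k => exact hβ
  | sc i k =>
    simp only [birthApp]
    have h1 : Measurable fun x => sepT Φ ε (Z x i, Z x k) :=
      (measurable_sepT hΦ).comp (((measurable_pi_apply i).comp hZ).prodMk
        ((measurable_pi_apply k).comp hZ))
    refine measurable_pi_iff.2 fun j => ?_
    by_cases hk : j = k
    · subst hk
      simp only [Function.update_self]
      exact h1
    · simp only [Function.update_of_ne hk]
      by_cases hi : j = i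
      · subst hi
        simp only [Function.update_self]
        exact h1
      · simp only [Function.update_of_ne hi]
        exact (measurable_pi_apply j).comp hβ

/-- The times of contact of two lines. -/
theorem sc_ctc {p q : X → Ph} (hp : Measurable p) (hq : Measurable q) :
    SC fun x => {s | Ctc ε (free s (p x)) (free s (q x))} := by
  have hd : ∀ s, Measurable fun x => (free s (p x)).1 - (free s (q x)).1 := by
    intro s
    unfold free
    exact (hp.fst.add (hp.snd.const_smul s)).sub (hq.fst.add (hq.snd.const_smul s))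
  have hdc : ∀ x, Continuous fun s => (free s (p x)).1 - (free s (q x)).1 := by
    intro x
    unfold free
    fun_prop
  have h1 : SC fun x => {s | ‖(free s (p x)).1 - (free s (q x)).1‖ - ε ≤ 0} :=
    SC.closed (F := fun x s => ‖(free s (p x)).1 - (free s (q x)).1‖ - ε)
      (fun s => (hd s).norm.sub_const ε) (fun x => (hdc x).norm.sub continuous_const)
  have h2 : SC fun x => {s | ‖(free s (p x)).1 - (free s (q x)).1‖ - ε < 0} :=
    SC.open (F := fun x s => ‖(free s (p x)).1 - (free s (q x)).1‖ - ε)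
      (fun s => (hd s).norm.sub_const ε) (fun x => (hdc x).norm.sub continuous_const)
  have h3 : SC fun x => {s | (inner ℝ ((free s (p x)).1 - (free s (q x)).1)
      ((free s (p x)).2 - (free s (q x)).2) : ℝ) ≤ 0} :=
    SC.closed (F := fun x s => (inner ℝ ((free s (p x)).1 - (free s (q x)).1)
      ((free s (p x)).2 - (free s (q x)).2) : ℝ))
      (fun s => (hd s).inner (hp.snd.sub hq.snd))
      (fun x => (hdc x).inner (continuous_const (y := (p x).2 - (q x).2)))
  refine (h2.or (h1.and h3)).congr fun x s => ?_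
  simp only [mem_ofPred_eq, Ctc, sub_nonpos, sub_neg]
  constructor
  · rintro ⟨h4, h5⟩
    rcases lt_or_eq_of_le h4 with h6 | h6
    · exact Or.inl h6
    · exact Or.inr ⟨h4, not_lt.1 fun h7 => h5 ⟨h6, h7⟩⟩
  · rintro (h4 | ⟨h4, h5⟩)
    · exact ⟨h4.le, fun h => h4.ne h.1⟩
    · exact ⟨h4, fun h => absurd h.2 (not_lt.2 h5)⟩

/-- The times of an event. -/
theorem sc_at (hΦ : IsPotential Φ) (e : Ev ι) (d : ℝ)
    {β : X → ι → ℝ} (hβ : Measurable β) {Z : X → ι → Ph} (hZ : Measurable Z) :
    SC fun x => {s | At Φ ε T e d (β x) (Z x) s} := by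
  have hz : ∀ j, Measurable fun x => Z x j := fun j => (measurable_pi_apply j).comp hZ
  have hb : ∀ j, Measurable fun x => β x j := fun j => (measurable_pi_apply j).comp hβ
  cases e with
  | gh i k =>
    simp only [At]
    exact (SC.cond (MeasurableSet.const _)).and ((SC.ge (hb i)).and ((SC.ge (hb k)).and
      ((sc_ctc (hz i) (hz k)).and (SC.le (((hb i).max (hb k)).add_const d)))))
  | sc i k =>
    simp only [At]
    have hp : Measurable fun x => (Z x i, Z x k) := (hz i).prodMk (hz k)
    have h1 : SC fun x => {s | hitT ε (Z x i, Z x k) = s} :=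
      (SC.eq_time (u := fun x => hitT ε (Z x i, Z x k)) (measurable_hitT.comp hp)).congr
        fun x s => ⟨fun h => h.symm, fun h => h.symm⟩
    exact (SC.cond (MeasurableSet.const _)).and ((SC.cond (hp measurableSet_meets)).and
      ((SC.cond ((continuous_rel.measurable.comp hp) (measurableSet_exits hΦ))).and
      (h1.and ((SC.gt (hb i)).and ((SC.gt (hb k)).and
      ((SC.cond (measurableSet_le ((measurable_sepT hΦ).comp hp) measurable_const)).and
        (SC.le (((hb i).max (hb k)).add_const d))))))))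

/-- `{r | A x meets [r, T]}`. -/
theorem SC.exists_ge {A : X → Set ℝ} (h : SC A) (T : ℝ) :
    SC fun x => {r | ∃ s, r ≤ s ∧ s ≤ T ∧ s ∈ A x} := by
  have h1 : ∀ q : ℚ, SC fun x => {r : ℝ | r ≤ (q : ℝ) ∧
      (x ∈ {x | ∃ s, (q : ℝ) ≤ s ∧ s ≤ T ∧ s ∈ A x})} := fun q =>
    (SC.le measurable_const).and (SC.cond (h.meet measurable_const measurable_const))
  refine ((SC.iUnion h1).or ((SC.le (u := fun _ => T) measurable_const).and h)).congr
    fun x r => ?_
  simp only [mem_ofPred_eq]
  constructor
  · rintro ⟨s, h2, h3, h4⟩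
    rcases lt_or_eq_of_le h2 with h5 | h5
    · obtain ⟨q, hq1, hq2⟩ := exists_rat_btwn h5
      exact Or.inl ⟨q, hq1.le, s, hq2.le, h3, h4⟩
    · exact Or.inr ⟨h5 ▸ h3, h5 ▸ h4⟩
  · rintro (⟨q, hq, s, h2, h3, h4⟩ | ⟨h2, h3⟩)
    · exact ⟨s, hq.trans h2, h3, h4⟩
    · exact ⟨r, le_rfl, h2, h3⟩

theorem sc_run [Fintype ι] (hΦ : IsPotential Φ) (hε : ε ≠ 0) (P : List (Ev ι × ℝ)) :
    ∀ {β : X → ι → ℝ} (_ : Measurable β) {Z : X → ι → Ph} (_ : Measurable Z),
    SC fun x => {r | Run Φ ε T r P (β x) (Z x)} := by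
  induction P with
  | nil =>
    intro β hβ Z hZ
    exact SC.true
  | cons e P ih =>
    intro β hβ Z hZ
    have h1 := (sc_at (T := T) (ε := ε) hΦ e.1 e.2 hβ hZ).and
      (ih (measurable_birthApp (ε := ε) hΦ e.1 hβ hZ) (measurable_lineApp hΦ hε e.1 hZ))
    exact (SC.exists_ge h1 T).congr fun x r => Iff.rfl

theorem measurableSet_run [Fintype ι] (hΦ : IsPotential Φ) (hε : ε ≠ 0) (P : List (Ev ι × ℝ))
    {β : X → ι → ℝ} (hβ : Measurable β) {Z : X → ι → Ph} (hZ : Measurable Z) (r : ℝ) :
    MeasurableSet {x | Run Φ ε T r P (β x) (Z x)} :=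
  (sc_run hΦ hε P hβ hZ).mem (t := fun _ => r) measurable_const

theorem measurable_finZ [Fintype ι] (hΦ : IsPotential Φ) (hε : ε ≠ 0) (P : List (Ev ι × ℝ))
    {Z : X → ι → Ph} (hZ : Measurable Z) : Measurable fun x => finZ Φ ε P (Z x) := by
  induction P generalizing Z with
  | nil => exact hZ
  | cons e P ih => exact ih (measurable_lineApp hΦ hε e.1 hZ)

theorem measurable_finB [Fintype ι] (hΦ : IsPotential Φ) (hε : ε ≠ 0) (P : List (Ev ι × ℝ))
    {β : X → ι → ℝ} (hβ : Measurable β) {Z : X → ι → Ph} (hZ : Measurable Z) :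
    Measurable fun x => finB Φ ε P (β x) (Z x) := by
  induction P generalizing β Z with
  | nil => exact hβ
  | cons e P ih =>
    exact ih (measurable_birthApp (ε := ε) hΦ e.1 hβ hZ) (measurable_lineApp hΦ hε e.1 hZ)

theorem measurable_mv [Fintype ι] (B : Finset ι) {c : X → Ph} (hc : Measurable c)
    {Z : X → ι → Ph} (hZ : Measurable Z) : Measurable fun x => mv B (c x) (Z x) := by
  refine measurable_pi_iff.2 fun i => ?_
  have hz : Measurable fun x => Z x i := (measurable_pi_apply i).comp hZ
  by_cases hi : i ∈ B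
  · simp only [mv_of_mem hi]
    unfold boost
    exact (hz.fst.add hc.fst).prodMk (hz.snd.add hc.snd)
  · simp only [mv_of_notMem hi]
    exact hz

end Meas

end Vale.Agent.P119.IND
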