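import Vale.Agent.P119.IND.Prog4

/-!
# P119, block IND: tools for the small lemma (`helper295`)

* `dist_sepT`, `not_ctc_after`: outgoing lines are at distance `ε` at the time of separation and
  are never in contact afterwards;
* `run_births`: plain programs are monotone in the births;
* `lineApp_le`: change of variables to the lines after the first event;
* `base_change`: the localised label of a class can be replaced by any covariant point;
* `vol_lag_le`: the motions which realise two contacts.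
-/

open MeasureTheory Filter Topology Set
open scoped ENNReal

set_option linter.unusedSectionVars false

noncomputable section

namespace Vale.Agent.P119.IND

open KU MM

variable {ι : Type} [DecidableEq ι] [Fintype ι] {Φ : E3 → ℝ} {ε T b : ℝ}

/-! ### The lines after a collision -/

theorem dist_out_sq (hΦ : IsPotential Φ) (hε : 0 < ε) {q : Ph × Ph} (hq : Meets ε q) (t : ℝ) :
    ‖(free t (sc2 Φ ε q).1).1 - (free t (sc2 Φ ε q).2).1‖ ^ 2 =
      ε ^ 2 * (1 + ((t - sepT Φ ε q) / ε) * (2 * half (rel ε q) + (t - sepT Φ ε q) / ε) *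
        ‖(rel ε q).2‖ ^ 2) := by
  have h1 := M.dist_lines_sq hε (sc2 Φ ε q) t
  rw [rel_sc2 hε.ne', norm_perp_scat hΦ, scat_snd_norm hΦ] at h1
  have hv : (rel ε q).2 ≠ 0 := hq.1
  have h3 := half_sq hv hq.2.le
  have h2 : crd (scat Φ (rel ε q)) + t / ε = half (rel ε q) + (t - sepT Φ ε q) / ε := by
    unfold sepT tout
    rw [sub_div, mul_div_cancel_left₀ _ hε.ne']
    ring
  rw [h2] at h1
  have h4 : (half (rel ε q) + (t - sepT Φ ε q) / ε) ^ 2 * ‖(rel ε q).2‖ ^ 2 =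
      half (rel ε q) ^ 2 * ‖(rel ε q).2‖ ^ 2 + ((t - sepT Φ ε q) / ε) *
        (2 * half (rel ε q) + (t - sepT Φ ε q) / ε) * ‖(rel ε q).2‖ ^ 2 := by ring
  rw [h4, h3] at h1
  rw [h1]
  ring

/-- At the time of separation the distance is `ε`. -/
theorem dist_sepT (hΦ : IsPotential Φ) (hε : 0 < ε) {q : Ph × Ph} (hq : Meets ε q) :
    ‖(free (sepT Φ ε q) (sc2 Φ ε q).1).1 - (free (sepT Φ ε q) (sc2 Φ ε q).2).1‖ = ε := by
  have h1 := dist_out_sq hΦ hε hq (sepT Φ ε q)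
  rw [sub_self, zero_div, zero_mul, zero_mul, add_zero, mul_one] at h1
  exact (pow_left_inj₀ (norm_nonneg _) hε.le two_ne_zero).1 h1

theorem lt_dist_after (hΦ : IsPotential Φ) (hε : 0 < ε) {q : Ph × Ph} (hq : Meets ε q) {t : ℝ}
    (ht : sepT Φ ε q < t) :
    ε < ‖(free t (sc2 Φ ε q).1).1 - (free t (sc2 Φ ε q).2).1‖ := by
  have h1 := dist_out_sq hΦ hε hq t
  have hv : (rel ε q).2 ≠ 0 := hq.1
  have h4 := half_nonneg (rel ε q)
  have h5 : 0 < ‖(rel ε q).2‖ := norm_pos_iff.2 hv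
  have h6 : 0 < (t - sepT Φ ε q) / ε := div_pos (by linarith) hε
  have h7 : 0 < ((t - sepT Φ ε q) / ε) * (2 * half (rel ε q) + (t - sepT Φ ε q) / ε) *
      ‖(rel ε q).2‖ ^ 2 := by positivity
  have h9 : ε ^ 2 < ‖(free t (sc2 Φ ε q).1).1 - (free t (sc2 Φ ε q).2).1‖ ^ 2 := by
    rw [h1]
    have h10 : 0 < ε ^ 2 := by positivity
    nlinarith
  exact lt_of_pow_lt_pow_left₀ 2 (norm_nonneg _) h9

theorem inner_sepT (hΦ : IsPotential Φ) (hε : 0 < ε) {q : Ph × Ph} (hq : Meets ε q) :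
    0 < (inner ℝ ((free (sepT Φ ε q) (sc2 Φ ε q).1).1 - (free (sepT Φ ε q) (sc2 Φ ε q).2).1)
      ((free (sepT Φ ε q) (sc2 Φ ε q).1).2 - (free (sepT Φ ε q) (sc2 Φ ε q).2).2) : ℝ) := by
  have hv : (rel ε q).2 ≠ 0 := hq.1
  have h2 : crd (scat Φ (rel ε q)) + sepT Φ ε q / ε = half (rel ε q) := by
    unfold sepT tout
    rw [mul_div_cancel_left₀ _ hε.ne']
    ring
  have h3 := inner_free (scat Φ (rel ε q)) (sepT Φ ε q / ε)
  rw [h2, ← rel_sc2 hε.ne', ← rel_free hε.ne'] at h3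
  have h4 : (rel ε (free (sepT Φ ε q) (sc2 Φ ε q).1, free (sepT Φ ε q) (sc2 Φ ε q).2)).1 =
      ε⁻¹ • ((free (sepT Φ ε q) (sc2 Φ ε q).1).1 - (free (sepT Φ ε q) (sc2 Φ ε q).2).1) := rfl
  have h5 : (rel ε (free (sepT Φ ε q) (sc2 Φ ε q).1, free (sepT Φ ε q) (sc2 Φ ε q).2)).2 =
      (free (sepT Φ ε q) (sc2 Φ ε q).1).2 - (free (sepT Φ ε q) (sc2 Φ ε q).2).2 := rfl
  rw [h4, h5, real_inner_smul_left] at h3
  have h6 : 0 < half (rel ε q) * ‖(rel ε (sc2 Φ ε q)).2‖ ^ 2 := by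
    rw [rel_sc2 hε.ne', scat_snd_norm hΦ]
    exact mul_pos (half_pos hv hq.2) (by have := norm_pos_iff.2 hv; positivity)
  rw [← h3] at h6
  exact (mul_pos_iff_of_pos_left (inv_pos.2 hε)).1 h6

theorem not_ctc_after (hΦ : IsPotential Φ) (hε : 0 < ε) {q : Ph × Ph} (hq : Meets ε q) {t : ℝ}
    (ht : sepT Φ ε q ≤ t) : ¬Ctc ε (free t (sc2 Φ ε q).1) (free t (sc2 Φ ε q).2) := by
  intro h
  rcases eq_or_lt_of_le ht with h1 | h1
  · subst h1
    exact h.2 ⟨dist_sepT hΦ hε hq, inner_sepT hΦ hε hq⟩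
  · exact absurd h.1 (not_le.2 (lt_dist_after hΦ hε hq h1))

/-- The two lines of an event do not meet again immediately. -/
theorem not_at_after (hΦ : IsPotential Φ) (hε : 0 < ε) {i k : ι} {Z : ι → Ph}
    (hq : Meets ε (Z i, Z k)) {e : Ev ι} (he : (e.fst = i ∧ e.snd = k) ∨ (e.fst = k ∧ e.snd = i))
    {β : ι → ℝ} (hβ : β i = sepT Φ ε (Z i, Z k)) {W : ι → Ph}
    (hWi : W i = (sc2 Φ ε (Z i, Z k)).1) (hWk : W k = (sc2 Φ ε (Z i, Z k)).2) {d s : ℝ}
    (h : At Φ ε T e d β W s) : False := by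
  have h1 : sepT Φ ε (Z i, Z k) ≤ s := by
    obtain ⟨h2, -, -⟩ := at_dist hε h
    rcases he with ⟨he1, he2⟩ | ⟨he1, he2⟩
    · rw [he1, he2, hβ] at h2
      exact (le_max_left _ _).trans h2
    · rw [he1, he2, hβ] at h2
      exact (le_max_right _ _).trans h2
  have h3 := not_ctc_after hΦ hε hq h1
  rw [← hWi, ← hWk] at h3
  have h4 : Ctc ε (free s (W e.fst)) (free s (W e.snd)) := by
    cases e with
    | gh j l => exact h.2.2.2.1
    | sc j l =>
      obtain ⟨-, h5, -, rfl, -⟩ := h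
      exact M.ctc_hitT hε h5
  rcases he with ⟨he1, he2⟩ | ⟨he1, he2⟩
  · rw [he1, he2] at h4
    exact h3 h4
  · rw [he1, he2] at h4
    exact h3 h4.symm

/-! ### Plain programs -/

theorem birthApp_le {e : Ev ι} {β β' : ι → ℝ} (h : ∀ i, β' i ≤ β i) (Z : ι → Ph) (i : ι) :
    birthApp Φ ε e β' Z i ≤ birthApp Φ ε e β Z i := by
  cases e with
  | gh j k => exact h i
  | sc j k =>
    simp only [birthApp]
    by_cases hk : i = k
    · subst hk; simp
    · rw [Function.update_of_ne hk, Function.update_of_ne hk]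
      by_cases hj : i = j
      · subst hj; simp
      · rw [Function.update_of_ne hj, Function.update_of_ne hj]
        exact h i

theorem birthApp_nonneg (hΦ : IsPotential Φ) (hε : 0 < ε) {e : Ev ι} {d : ℝ} {β : ι → ℝ}
    {Z : ι → Ph} {s : ℝ} (hs : 0 ≤ s) (h : At Φ ε T e d β Z s) {β' : ι → ℝ} (hβ : ∀ i, 0 ≤ β' i)
    (i : ι) : 0 ≤ birthApp Φ ε e β' Z i := by
  cases e with
  | gh j k => exact hβ i
  | sc j k =>
    obtain ⟨-, h1, h2, rfl, -⟩ := h
    have h3 := hitT_lt_sepT hΦ hε h2 h1.2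
    simp only [birthApp]
    by_cases hk : i = k
    · subst hk
      rw [Function.update_self]
      linarith
    · rw [Function.update_of_ne hk]
      by_cases hj : i = j
      · subst hj
        rw [Function.update_self]
        linarith
      · rw [Function.update_of_ne hj]
        exact hβ i

theorem at_births {e : Ev ι} {β β' : ι → ℝ} (h0 : ∀ i, 0 ≤ β' i) (hle : ∀ i, β' i ≤ β i)
    {Z : ι → Ph} {s : ℝ} (hs : s ≤ T) (h : At Φ ε T e T β Z s) : At Φ ε T e T β' Z s := by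
  cases e with
  | gh j k =>
    obtain ⟨h1, h2, h3, h4, -⟩ := h
    exact ⟨h1, (hle j).trans h2, (hle k).trans h3, h4, by
      have := le_max_left (β' j) (β' k); linarith [h0 j]⟩
  | sc j k =>
    obtain ⟨h1, h2, h3, h4, h5, h6, h7, -⟩ := h
    exact ⟨h1, h2, h3, h4, (hle j).trans_lt h5, (hle k).trans_lt h6, h7, by
      have := le_max_left (β' j) (β' k); linarith [h0 j]⟩

/-- **Plain programs are monotone in the births.** -/
theorem run_births (hΦ : IsPotential Φ) (hε : 0 < ε) {P : List (Ev ι × ℝ)}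
    (hP : ∀ e ∈ P, e.2 = T) {r : ℝ} (hr : 0 ≤ r) {β β' : ι → ℝ} (h0 : ∀ i, 0 ≤ β' i)
    (hle : ∀ i, β' i ≤ β i) {Z : ι → Ph} (h : Run Φ ε T r P β Z) : Run Φ ε T r P β' Z := by
  induction P generalizing r β β' Z with
  | nil => trivial
  | cons e P ih =>
    obtain ⟨s, h1, h2, h3, h4⟩ := h
    have he := hP e List.mem_cons_self
    rw [he] at h3
    refine ⟨s, h1, h2, by rw [he]; exact at_births h0 hle h2 h3, ?_⟩
    exact ih (fun e' he' => hP e' (List.mem_cons_of_mem _ he')) (hr.trans h1)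
      (birthApp_nonneg hΦ hε (hr.trans h1) h3 h0) (birthApp_le hle Z) h4

theorem run_zero (hΦ : IsPotential Φ) (hε : 0 < ε) {P : List (Ev ι × ℝ)}
    (hP : ∀ e ∈ P, e.2 = T) {r : ℝ} (hr : 0 ≤ r) {β : ι → ℝ} (h0 : ∀ i, 0 ≤ β i) {Z : ι → Ph}
    (h : Run Φ ε T r P β Z) : Run Φ ε T 0 P (fun _ => 0) Z :=
  (run_births hΦ hε hP hr (fun _ => le_rfl) h0 h).mono hr

/-! ### The first event -/

variable (ε) in
/-- The condition of the change of variables. -/
def Oc : Ev ι → (ι → Ph) → Prop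
  | Ev.sc i k, Z => Meets ε (Z i, Z k)
  | Ev.gh _ _, _ => True

theorem lineApp_fst {i k : ι} (hik : i ≠ k) (Z : ι → Ph) :
    lineApp Φ ε (Ev.sc i k) Z i = (sc2 Φ ε (Z i, Z k)).1 := by
  simp only [lineApp]
  rw [Function.update_of_ne hik, Function.update_self]

theorem lineApp_snd {i k : ι} (Z : ι → Ph) :
    lineApp Φ ε (Ev.sc i k) Z k = (sc2 Φ ε (Z i, Z k)).2 := by
  simp only [lineApp]
  rw [Function.update_self]

theorem lineApp_other {e : Ev ι} {j : ι} (h1 : j ≠ e.fst) (h2 : j ≠ e.snd) (Z : ι → Ph) :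
    lineApp Φ ε e Z j = Z j := by
  cases e with
  | gh i k => rfl
  | sc i k =>
    change j ≠ i at h1
    change j ≠ k at h2
    simp only [lineApp]
    rw [Function.update_of_ne h2, Function.update_of_ne h1]

theorem birthApp_other {e : Ev ι} {j : ι} (h1 : j ≠ e.fst) (h2 : j ≠ e.snd) (β : ι → ℝ)
    (Z : ι → Ph) : birthApp Φ ε e β Z j = β j := by
  cases e with
  | gh i k => rfl
  | sc i k =>
    change j ≠ i at h1
    change j ≠ k at h2
    simp only [birthApp]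
    rw [Function.update_of_ne h2, Function.update_of_ne h1]

theorem at_oc {e : Ev ι} {d : ℝ} {β : ι → ℝ} {Z : ι → Ph} {s : ℝ} (h : At Φ ε T e d β Z s) :
    Oc ε e Z := by
  cases e with
  | gh i k => trivial
  | sc i k => exact h.2.1

/-- After an event the two new lines are within `ε` at some time of `[0, T]`. -/
theorem at_exit (hΦ : IsPotential Φ) (hε : 0 < ε) {e : Ev ι} {d : ℝ} {β : ι → ℝ} {Z : ι → Ph}
    {s : ℝ} (hs : 0 ≤ s) (hsT : s ≤ T) (h : At Φ ε T e d β Z s) :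
    ∃ θ, 0 ≤ θ ∧ θ ≤ T ∧ ‖(free θ (lineApp Φ ε e Z e.fst)).1 -
      (free θ (lineApp Φ ε e Z e.snd)).1‖ ≤ ε := by
  cases e with
  | gh i k => exact ⟨s, hs, hsT, h.2.2.2.1.1⟩
  | sc i k =>
    obtain ⟨h0, h1, h2, rfl, -, -, h3, -⟩ := h
    have h4 := hitT_lt_sepT hΦ hε h2 h1.2
    refine ⟨sepT Φ ε (Z i, Z k), by linarith, h3, ?_⟩
    change ‖(free _ (lineApp Φ ε (Ev.sc i k) Z i)).1 - (free _ (lineApp Φ ε (Ev.sc i k) Z k)).1‖ ≤ ε
    rw [lineApp_fst h0, lineApp_snd]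
    exact (dist_sepT hΦ hε h1).le

theorem measurableSet_oc (e : Ev ι) : MeasurableSet {Z : ι → Ph | Oc ε e Z} := by
  cases e with
  | gh i k => exact MeasurableSet.univ
  | sc i k =>
    have h : Measurable fun Z : ι → Ph => (Z i, Z k) :=
      (measurable_pi_apply i).prodMk (measurable_pi_apply k)
    exact h measurableSet_meets

/-- **Change of variables** to the lines after the event. -/
theorem lineApp_le (hΦ : IsPotential Φ) (hε : ε ≠ 0) {e : Ev ι} (he : e.fst ≠ e.snd)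
    {G : (ι → Ph) → ℝ≥0∞} (hG : Measurable G) :
    ∫⁻ Z, {Z : ι → Ph | Oc ε e Z}.indicator 1 Z * G (lineApp Φ ε e Z) ≤ ∫⁻ Z, G Z := by
  cases e with
  | gh i k =>
    refine lintegral_mono fun Z => ?_
    have h1 : {Z : ι → Ph | Oc ε (Ev.gh i k) Z}.indicator (1 : (ι → Ph) → ℝ≥0∞) Z = 1 :=
      indicator_of_mem (show Z ∈ {Z : ι → Ph | Oc ε (Ev.gh i k) Z} from trivial) _
    rw [h1, one_mul]
    rfl
  | sc i k =>
    change i ≠ k at he
    have h0 : Measurable ({Z : ι → Ph | Oc ε (Ev.sc i k) Z}.indicator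
        (1 : (ι → Ph) → ℝ≥0∞)) := measurable_one.indicator (measurableSet_oc (Ev.sc i k))
    have h1 := lintegral_lineApp hΦ hε he (G := fun Z Z' =>
      {Z : ι → Ph | Oc ε (Ev.sc i k) Z}.indicator (1 : (ι → Ph) → ℝ≥0∞) Z * G Z')
      ((h0.comp measurable_fst).mul (hG.comp measurable_snd)) (fun Z Z' h => by
          rw [indicator_of_notMem (show Z ∉ {Z : ι → Ph | Oc ε (Ev.sc i k) Z} from h), zero_mul])
    rw [h1]
    refine lintegral_mono fun Z => ?_
    by_cases hZ : Z ∈ {Z : ι → Ph | Meets ε (Z i, Z k)}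
    · rw [indicator_of_mem hZ]
      refine (mul_le_mul' (indicator_le_self' (fun _ _ => zero_le) _) le_rfl).trans ?_
      simp
    · rw [indicator_of_notMem hZ]
      exact zero_le

/-- **Base change.** -/
theorem base_change {B : Finset ι} {r : ι} (hr : r ∈ B) {F : (ι → Ph) → ℝ≥0∞} (hF : Measurable F)
    (hFi : ∀ a : E3, ∀ Z, F (mv B (a, 0) Z) = F Z) {g : Ph → ℝ≥0∞} (hg : Measurable g)
    {U : (ι → Ph) → E3} (hU : Measurable U) (hUa : ∀ a : E3, ∀ Z, U (mv B (a, 0) Z) = U Z + a) :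
    ω₃ * ∫⁻ Z, F Z * g (Z r) =
      ∫⁻ Z, F Z * φ₁ (U Z) * ∫⁻ x : E3, g (x, (Z r).2) := by
  have h1 := lintegral_avg B hF (H := fun Z => g (Z r)) (hg.comp (measurable_pi_apply r)) hFi
    hU hUa measurable_φ₁
  rw [lintegral_φ₁] at h1
  rw [h1]
  refine lintegral_congr fun Z => ?_
  congr 1
  have h2 : ∀ a : E3, g (mv B (a, 0) Z r) = (fun x => g (x, (Z r).2)) ((Z r).1 + a) := by
    intro a
    rw [mv_of_mem hr]
    unfold boost
    simp
  simp only [h2]
  exact lintegral_add_left_eq_self (fun x => g (x, (Z r).2)) _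

end Vale.Agent.P119.IND
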