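import Vale.Agent.P119.IND.Prog5

/-!
# P119, block IND: two contacts with a lag (`helper295`)

* `vol_lag_le`: the motions which realise a contact at a time `θ` and another one at a time
  `σ ≥ θ + δ`: `C ε⁴ δ⁻³`;
* `lag_le`: the corresponding bound for the mass of a program.
-/

open MeasureTheory Filter Topology Set
open scoped ENNReal

set_option linter.unusedSectionVars false

noncomputable section

namespace Vale.Agent.P119.IND

open KU MM

variable {ι : Type} [DecidableEq ι] [Fintype ι] {Φ : E3 → ℝ} {ε T b : ℝ}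

/-- Two contacts with a lag: the volume of the motions. -/
theorem vol_lag_le (hT : 0 ≤ T) (hε : 0 < ε) (hε1 : ε ≤ 1) {δ V : ℝ} (hδ : ε ≤ δ) (hV : 0 ≤ V)
    (y u z w : E3) (hu : ‖u‖ ≤ V) (hw : ‖w‖ ≤ V) :
    volume {c : Ph | ‖c.2‖ ≤ 1 ∧ ∃ θ σ, 0 ≤ θ ∧ θ + δ ≤ σ ∧ σ ≤ T ∧
      ‖y + θ • u + (c.1 + θ • c.2)‖ ≤ ε ∧ ‖z + σ • w + (c.1 + σ • c.2)‖ ≤ ε} ≤
    ENNReal.ofReal (4096 * (4 * T + 3) ^ 2 * (1 + V) ^ 2 * (ε ^ 4 / δ ^ 3)) * (ω₃ * ω₃) := by
  have hδ0 : 0 < δ := lt_of_lt_of_le hε hδ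
  set n : ℕ := ⌈4 * T * (1 + V) / ε⌉₊ + 1 with hn
  have hn0 : 0 < n := Nat.succ_pos _
  have hn' : (0 : ℝ) < n := by exact_mod_cast hn0
  have hn1 : 4 * T * (1 + V) / ε ≤ n := by
    have := Nat.le_ceil (4 * T * (1 + V) / ε)
    rw [hn]; push_cast; linarith
  have hn2 : (n : ℝ) + 1 ≤ (4 * T + 3) * (1 + V) / ε := by
    have h1 := Nat.ceil_lt_add_one (show 0 ≤ 4 * T * (1 + V) / ε by positivity)
    have h2 : (3 : ℝ) ≤ 3 * (1 + V) / ε := by
      rw [le_div_iff₀ hε]; nlinarith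
    have h3 : (4 * T + 3) * (1 + V) / ε = 4 * T * (1 + V) / ε + 3 * (1 + V) / ε := by ring
    rw [h3, hn]; push_cast; linarith
  have hmesh : T / n * (1 + V) ≤ ε / 4 := by
    rw [div_mul_eq_mul_div, div_le_iff₀ hn']
    rw [div_le_iff₀ hε] at hn1
    linarith
  have hmesh0 : 0 ≤ T / n := by positivity
  have hmesh1 : T / n ≤ δ / 4 := by nlinarith
  -- the grid
  set G : Fin (n + 1) × Fin (n + 1) → Set Ph := fun q =>
    {c : Ph | δ / 2 ≤ (q.2 : ℝ) * (T / n) - (q.1 : ℝ) * (T / n) ∧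
      ‖(y + ((q.1 : ℝ) * (T / n)) • u) + (c.1 + ((q.1 : ℝ) * (T / n)) • c.2)‖ ≤ 2 * ε ∧
      ‖(z + ((q.2 : ℝ) * (T / n)) • w) + (c.1 + ((q.2 : ℝ) * (T / n)) • c.2)‖ ≤ 2 * ε} with hG
  have hsub : {c : Ph | ‖c.2‖ ≤ 1 ∧ ∃ θ σ, 0 ≤ θ ∧ θ + δ ≤ σ ∧ σ ≤ T ∧
      ‖y + θ • u + (c.1 + θ • c.2)‖ ≤ ε ∧ ‖z + σ • w + (c.1 + σ • c.2)‖ ≤ ε} ⊆ ⋃ q, G q := by
    rintro c ⟨hc, θ, σ, h1, h2, h3, h4, h5⟩
    obtain ⟨i, hi⟩ := exists_grid (s₀ := 0) (d := T) h1 (by linarith) n hn0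
    obtain ⟨j, hj⟩ := exists_grid (s₀ := 0) (d := T) (s := σ) (by linarith) (by linarith) n hn0
    rw [zero_add] at hi hj
    have key : ∀ (y u : E3) (θ τ : ℝ), ‖u‖ ≤ V → |θ - τ| ≤ T / n →
        ‖y + θ • u + (c.1 + θ • c.2)‖ ≤ ε → ‖(y + τ • u) + (c.1 + τ • c.2)‖ ≤ 2 * ε := by
      intro y u θ τ hu hτ h
      have h6 : (y + τ • u) + (c.1 + τ • c.2) =
          (y + θ • u + (c.1 + θ • c.2)) - (θ - τ) • (u + c.2) := by
        rw [sub_smul, smul_add, smul_add]; abel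
      rw [h6]
      have h7 : ‖(θ - τ) • (u + c.2)‖ ≤ ε / 4 := by
        rw [norm_smul, Real.norm_eq_abs]
        have h8 : ‖u + c.2‖ ≤ 1 + V := (norm_add_le _ _).trans (by linarith)
        exact (mul_le_mul hτ h8 (norm_nonneg _) hmesh0).trans hmesh
      have := norm_sub_le (y + θ • u + (c.1 + θ • c.2)) ((θ - τ) • (u + c.2))
      linarith
    refine mem_iUnion.2 ⟨(i, j), ?_, key y u θ _ hu hi h4, key z w σ _ hw hj h5⟩
    rw [abs_le] at hi hj
    simp only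
    linarith [hi.1, hi.2, hj.1, hj.2]
  have hvol : ∀ q, volume (G q) ≤ ENNReal.ofReal (4096 * (ε ^ 6 / δ ^ 3)) * (ω₃ * ω₃) := by
    intro q
    by_cases hq : δ / 2 ≤ (q.2 : ℝ) * (T / n) - (q.1 : ℝ) * (T / n)
    · have h1 : G q ⊆ {c : Ph |
          ‖(y + ((q.1 : ℝ) * (T / n)) • u) + (c.1 + ((q.1 : ℝ) * (T / n)) • c.2)‖ ≤ 2 * ε ∧
          ‖(z + ((q.2 : ℝ) * (T / n)) • w) + (c.1 + ((q.2 : ℝ) * (T / n)) • c.2)‖ ≤ 2 * ε} :=
        fun c hc => hc.2
      refine (measure_mono h1).trans ((vol_pair_le (by linarith) (by positivity) _ _).trans ?_)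
      refine mul_le_mul' (ENNReal.ofReal_le_ofReal ?_) le_rfl
      have h2 : (δ / 2) ^ 3 ≤ ((q.2 : ℝ) * (T / n) - (q.1 : ℝ) * (T / n)) ^ 3 :=
        pow_le_pow_left₀ (by positivity) hq 3
      calc 8 * (2 * ε) ^ 6 / ((q.2 : ℝ) * (T / n) - (q.1 : ℝ) * (T / n)) ^ 3
          ≤ 8 * (2 * ε) ^ 6 / (δ / 2) ^ 3 :=
            div_le_div_of_nonneg_left (by positivity) (by positivity) h2
        _ = 4096 * (ε ^ 6 / δ ^ 3) := by field_simp; ring
    · have h1 : G q = ∅ := eq_empty_iff_forall_notMem.2 fun c hc => hq hc.1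
      rw [h1, measure_empty]
      exact zero_le
  refine (measure_mono hsub).trans ((measure_iUnion_le _).trans ?_)
  refine (ENNReal.tsum_le_tsum hvol).trans ?_
  rw [tsum_fintype, Finset.sum_const, Finset.card_univ, Fintype.card_prod, Fintype.card_fin,
    nsmul_eq_mul, ← mul_assoc]
  refine mul_le_mul' ?_ le_rfl
  rw [← ENNReal.ofReal_natCast, ← ENNReal.ofReal_mul (by positivity)]
  refine ENNReal.ofReal_le_ofReal ?_
  push_cast
  have h1 : ((n : ℝ) + 1) * ((n : ℝ) + 1) ≤ ((4 * T + 3) * (1 + V) / ε) ^ 2 := by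
    rw [← pow_two]
    exact pow_le_pow_left₀ (by positivity) hn2 2
  calc ((n : ℝ) + 1) * ((n : ℝ) + 1) * (4096 * (ε ^ 6 / δ ^ 3))
      ≤ ((4 * T + 3) * (1 + V) / ε) ^ 2 * (4096 * (ε ^ 6 / δ ^ 3)) :=
        mul_le_mul_of_nonneg_right h1 (by positivity)
    _ = _ := by field_simp

theorem SC.shift {X : Type*} [MeasurableSpace X] {A : X → Set ℝ} (h : SC A) (δ : ℝ) :
    SC fun x => {s | s + δ ∈ A x} := by
  obtain ⟨F, h1, h2, h3⟩ := h
  exact ⟨fun n x s => F n x (s + δ), fun n s => h1 n (s + δ),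
    fun n x => (h2 n x).comp (continuous_id.add continuous_const), fun x s => h3 x (s + δ)⟩

/-- Measurability of two times with a lag. -/
theorem measurableSet_lag {X : Type*} [MeasurableSpace X] {A A' : X → Set ℝ} (h : SC A)
    (h' : SC A') (δ T : ℝ) :
    MeasurableSet {x | ∃ θ σ, 0 ≤ θ ∧ θ + δ ≤ σ ∧ σ ≤ T ∧ θ ∈ A x ∧ σ ∈ A' x} := by
  have h1 := ((SC.ge (l := fun _ : X => (0 : ℝ)) measurable_const).and
    (h.and (SC.shift (SC.exists_ge h' T) δ))).nonempty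
  refine h1.congr ?_
  ext x
  constructor
  · rintro ⟨θ, h2, h3, σ, h4, h5, h6⟩
    exact ⟨θ, σ, h2, h4, h5, h3, h6⟩
  · rintro ⟨θ, σ, h2, h4, h5, h3, h6⟩
    exact ⟨θ, h2, h3, σ, h4, h5, h6⟩

/-- The times at which two moving points are within `ε`. -/
theorem sc_dist {X : Type*} [MeasurableSpace X] {p q : X → Ph} (hp : Measurable p)
    (hq : Measurable q) (ε : ℝ) : SC fun x => {s | ‖(free s (p x)).1 - (free s (q x)).1‖ ≤ ε} := by
  have h1 : SC fun x => {s | ‖(free s (p x)).1 - (free s (q x)).1‖ - ε ≤ 0} := by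
    refine SC.closed (F := fun x s => ‖(free s (p x)).1 - (free s (q x)).1‖ - ε)
      (fun s => ?_) (fun x => ?_)
    · unfold free
      exact (((hp.fst.add (hp.snd.const_smul s)).sub
        (hq.fst.add (hq.snd.const_smul s))).norm.sub_const ε)
    · unfold free
      fun_prop
  refine h1.congr fun x s => ?_
  change ‖(free s (p x)).1 - (free s (q x)).1‖ ≤ ε ↔ ‖(free s (p x)).1 - (free s (q x)).1‖ - ε ≤ 0
  exact sub_nonpos.symm

/-! ### Energy and motions -/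

theorem En_mv_le {B : Finset ι} {c : Ph} (hc : ‖c.2‖ ≤ 1) (Z : ι → Ph) :
    En (mv B c Z) ≤ 2 * En Z + 2 * Fintype.card ι := by
  have h1 : ∀ i, ‖(mv B c Z i).2‖ ^ 2 ≤ 2 * ‖(Z i).2‖ ^ 2 + 2 := by
    intro i
    by_cases hi : i ∈ B
    · rw [mv_of_mem hi]
      have h2 : ‖(boost c (Z i)).2‖ ≤ ‖(Z i).2‖ + 1 := (norm_add_le _ _).trans (by linarith)
      have h3 := norm_nonneg (boost c (Z i)).2
      have h4 := norm_nonneg (Z i).2
      nlinarith [sq_nonneg (‖(Z i).2‖ - 1)]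
    · rw [mv_of_notMem hi]
      nlinarith [sq_nonneg ‖(Z i).2‖]
  unfold En
  calc ∑ i, ‖(mv B c Z i).2‖ ^ 2 ≤ ∑ i, (2 * ‖(Z i).2‖ ^ 2 + 2) :=
        Finset.sum_le_sum fun i _ => h1 i
    _ = _ := by
      rw [Finset.sum_add_distrib, ← Finset.mul_sum, Finset.sum_const, Finset.card_univ,
        nsmul_eq_mul]
      ring

theorem le_En_mv {B : Finset ι} {c : Ph} (hc : ‖c.2‖ ≤ 1) (Z : ι → Ph) :
    En Z ≤ 2 * En (mv B c Z) + 2 * Fintype.card ι := by
  have h1 : ‖(-c).2‖ ≤ 1 := by simpa using hc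
  have h2 := En_mv_le (B := B) h1 (mv B c Z)
  rwa [mv_mv, neg_add_cancel, mv_zero] at h2

theorem wgt_mv_le (hb : 0 ≤ b) {B : Finset ι} {c : Ph} (hc : ‖c.2‖ ≤ 1) (Z : ι → Ph) :
    wgt b (mv B c Z) ≤ ENNReal.ofReal (Real.exp (b * Fintype.card ι)) * wgt (b / 2) Z := by
  unfold wgt
  rw [← ENNReal.ofReal_mul (Real.exp_pos _).le, ← Real.exp_add]
  refine ENNReal.ofReal_le_ofReal (Real.exp_le_exp.2 ?_)
  have h := le_En_mv (B := B) hc Z
  nlinarith

theorem absorb_pow (hb : 0 < b) {E : ℝ} (hE : 0 ≤ E) (m : ℕ) (hm : m ≠ 0) :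
    (1 + E) ^ m * Real.exp (-(b * E)) ≤ (1 + 2 * m / b) ^ m * Real.exp (-(b / 2 * E)) := by
  have hm' : (0 : ℝ) < m := by exact_mod_cast Nat.pos_of_ne_zero hm
  have h1 := absorb (b := b / m) (by positivity) hE
  have h3 : Real.exp (-(b * E)) = Real.exp (-(b / m * E)) ^ m := by
    rw [← Real.exp_nat_mul]; congr 1; field_simp
  have h4 : Real.exp (-(b / 2 * E)) = Real.exp (-(b / m / 2 * E)) ^ m := by
    rw [← Real.exp_nat_mul]; congr 1; field_simp
  have h5 : 1 + 2 / (b / m) = 1 + 2 * m / b := by field_simp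
  rw [h3, h4, ← mul_pow, ← mul_pow, ← h5]
  exact pow_le_pow_left₀ (by positivity) h1 m

theorem wgt_absorb_pow (hb : 0 < b) (m : ℕ) (hm : m ≠ 0) (Z : ι → Ph) :
    ENNReal.ofReal ((1 + En Z) ^ m) * wgt b Z ≤
      ENNReal.ofReal ((1 + 2 * m / b) ^ m) * wgt (b / 2) Z := by
  have hE := En_nonneg Z
  unfold wgt
  rw [← ENNReal.ofReal_mul (by positivity), ← ENNReal.ofReal_mul (by positivity)]
  exact ENNReal.ofReal_le_ofReal (absorb_pow hb hE m hm)

/-! ### The mass of two contacts with a lag -/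

variable (Φ ε T) in
/-- The lines of `a` and `c` are in contact at a time `θ`, the final lines of `i` and `k` at a time
`σ ≥ θ + δ`. -/
def Lag (δ : ℝ) (P : List (Ev ι × ℝ)) (a c i k : ι) (Z : ι → Ph) : Prop :=
  ∃ θ σ, 0 ≤ θ ∧ θ + δ ≤ σ ∧ σ ≤ T ∧ ‖(free θ (Z a)).1 - (free θ (Z c)).1‖ ≤ ε ∧
    ‖(free σ (finZ Φ ε P Z i)).1 - (free σ (finZ Φ ε P Z k)).1‖ ≤ ε

theorem measurableSet_Lag (hΦ : IsPotential Φ) (hε : ε ≠ 0) (δ : ℝ) (P : List (Ev ι × ℝ))
    (a c i k : ι) : MeasurableSet {Z : ι → Ph | Lag Φ ε T δ P a c i k Z} := by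
  have hfZ : Measurable fun Z : ι → Ph => finZ Φ ε P Z := measurable_finZ hΦ hε P measurable_id
  exact measurableSet_lag (sc_dist (measurable_pi_apply a) (measurable_pi_apply c) ε)
    (sc_dist ((measurable_pi_apply i).comp hfZ) ((measurable_pi_apply k).comp hfZ) ε) δ T

/-- The two labels are not far from each other. -/
def Loc (L : ℝ) (a c : ι) (Z : ι → Ph) : Prop := ‖(Z a).1 - (Z c).1‖ ≤ L * (1 + En Z)

theorem measurableSet_Loc (L : ℝ) (a c : ι) : MeasurableSet {Z : ι → Ph | Loc L a c Z} :=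
  measurableSet_le (((measurable_pi_apply a).fst.sub (measurable_pi_apply c).fst).norm)
    ((measurable_En.const_add 1).const_mul L)

theorem loc_of_lag (hT : 0 ≤ T) (hε1 : ε ≤ 1) {δ : ℝ} (hδ : 0 ≤ δ) {P : List (Ev ι × ℝ)}
    {a c i k : ι} (hac : a ≠ c) {Z : ι → Ph} (h : Lag Φ ε T δ P a c i k Z) :
    Loc (1 + T) a c Z := by
  obtain ⟨θ, σ, h1, h2, h3, h4, -⟩ := h
  have hE := En_nonneg Z
  have h5 : (Z a).1 - (Z c).1 = ((free θ (Z a)).1 - (free θ (Z c)).1) -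
      θ • ((Z a).2 - (Z c).2) := by
    unfold free
    simp only
    rw [smul_sub]; abel
  have h6 : ‖θ • ((Z a).2 - (Z c).2)‖ ≤ T * (1 + En Z) := by
    rw [norm_smul, Real.norm_eq_abs, abs_of_nonneg h1]
    exact mul_le_mul (by linarith) (speed_le Z hac) (norm_nonneg _) hT
  unfold Loc
  rw [h5]
  have h7 := norm_sub_le ((free θ (Z a)).1 - (free θ (Z c)).1) (θ • ((Z a).2 - (Z c).2))
  nlinarith

theorem loc_mv {L : ℝ} (hL : 0 ≤ L) {B : Finset ι} {a c : ι} (ha : a ∉ B) (hc : c ∈ B) {u : Ph}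
    (hu : ‖u.1‖ ≤ 1) (hu2 : ‖u.2‖ ≤ 1) {Z : ι → Ph} (h : Loc L a c (mv B u Z)) :
    Loc (1 + (3 + 2 * Fintype.card ι) * L) a c Z := by
  unfold Loc at *
  rw [mv_of_notMem ha, mv_of_mem hc] at h
  have hE := En_nonneg Z
  have h1 := En_mv_le (B := B) hu2 Z
  have h2 : (Z a).1 - (Z c).1 = ((Z a).1 - (boost u (Z c)).1) + u.1 := by
    unfold boost
    simp only
    abel
  rw [h2]
  have h3 := norm_add_le ((Z a).1 - (boost u (Z c)).1) u.1
  have hn : (0 : ℝ) ≤ Fintype.card ι := by positivity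
  have h4 : L * (1 + En (mv B u Z)) ≤ L * (1 + (2 * En Z + 2 * Fintype.card ι)) :=
    mul_le_mul_of_nonneg_left (by linarith) hL
  have h5 : 0 ≤ L * En Z := mul_nonneg hL hE
  have h6 : 0 ≤ L * (Fintype.card ι * En Z) := mul_nonneg hL (mul_nonneg hn hE)
  nlinarith

/-- **The mass of two contacts with a lag.** -/
theorem lag_le (hΦ : IsPotential Φ) (hT : 0 ≤ T) (hε : 0 < ε) (hε1 : ε ≤ 1) (hb : 0 < b) {δ : ℝ}
    (hδ : ε ≤ δ) {P : List (Ev ι × ℝ)} {a c i k : ι} {R : Finset ι} (ha : ¬Jn P c a)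
    (hi : ¬Jn P c i) (hk : Jn P c k) (hR : ∀ r ∈ R, ¬Jn P c r) :
    ∫⁻ Z, spat R Z * (wgt b Z * (runI Φ ε T P Z *
      {Z : ι → Ph | Lag Φ ε T δ P a c i k Z}.indicator 1 Z)) ≤
    ENNReal.ofReal (Real.exp (b * Fintype.card ι) * (4096 * (4 * T + 3) ^ 2) *
      (4 * (1 + (3 + 2 * Fintype.card ι) * (1 + T)) ^ 3) * (1 + 2 * (5 : ℕ) / (b / 2)) ^ 5) *
      ENNReal.ofReal (ε ^ 4 / δ ^ 3) * mass Φ ε T (b / 2 / 2) (insert c R) P := by
  have hδ0 : 0 < δ := lt_of_lt_of_le hε hδ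
  set B : Finset ι := cls P c with hB
  have hcl : Cl B P := cl_cls P c
  have hcB : c ∈ B := self_mem_cls P c
  have haB : a ∉ B := fun h => ha (mem_cls.1 h)
  have hiB : i ∉ B := fun h => hi (mem_cls.1 h)
  have hkB : k ∈ B := mem_cls.2 hk
  have hRB : ∀ r ∈ R, r ∉ B := fun r hr h => hR r hr (mem_cls.1 h)
  have hcR : c ∉ R := fun h => hRB c h hcB
  have hac : a ≠ c := fun h => haB (h ▸ hcB)
  have hik : i ≠ k := fun h => hiB (h ▸ hkB)
  set n : ℝ := ((Fintype.card ι : ℕ) : ℝ) with hn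
  have hn0 : 0 ≤ n := by rw [hn]; positivity
  set L : ℝ := 1 + (3 + 2 * n) * (1 + T) with hL
  have hL0 : 0 ≤ L := by rw [hL]; positivity
  set H : (ι → Ph) → ℝ≥0∞ := {Z : ι → Ph | Lag Φ ε T δ P a c i k Z}.indicator 1 with hH
  set l : (ι → Ph) → ℝ≥0∞ := {Z : ι → Ph | Loc (1 + T) a c Z}.indicator 1 with hl
  set l' : (ι → Ph) → ℝ≥0∞ := {Z : ι → Ph | Loc L a c Z}.indicator 1 with hl'
  have hHm : Measurable H := measurable_one.indicator (measurableSet_Lag hΦ hε.ne' δ P a c i k)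
  have hlm : Measurable l := measurable_one.indicator (measurableSet_Loc _ a c)
  have hl'm : Measurable l' := measurable_one.indicator (measurableSet_Loc _ a c)
  have hrm := measurable_runI (T := T) hΦ hε.ne' P
  have hfZ : Measurable fun Z : ι → Ph => finZ Φ ε P Z :=
    measurable_finZ hΦ hε.ne' P measurable_id
  -- the averaging over the motions
  set K : Set Ph := Metric.closedBall (0 : E3) 1 ×ˢ Metric.closedBall (0 : E3) 1 with hK
  have hKm : MeasurableSet K :=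
    Metric.isClosed_closedBall.measurableSet.prod Metric.isClosed_closedBall.measurableSet
  have hKv : volume K = ω₃ * ω₃ := by
    rw [hK, Measure.volume_eq_prod, Measure.prod_prod]
    rfl
  set F : (ι → Ph) → ℝ≥0∞ := fun Z => spat R Z * (wgt b Z * (runI Φ ε T P Z * l Z)) with hF
  set F' : (ι → Ph) → ℝ≥0∞ := fun Z => spat R Z * ((ENNReal.ofReal (Real.exp (b * n)) *
    wgt (b / 2) Z) * (runI Φ ε T P Z * l' Z)) with hF'
  have hFm : Measurable F := (measurable_spat R).mul ((measurable_wgt b).mul (hrm.mul hlm))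
  have hF'm : Measurable F' := (measurable_spat R).mul
    (((measurable_wgt (b / 2)).const_mul _).mul (hrm.mul hl'm))
  have h1 := lintegral_boost_avg B hF'm hFm hHm hKm (by
    intro u hu Z
    obtain ⟨hu1, hu2⟩ := hu
    rw [mem_closedBall_zero_iff] at hu1 hu2
    simp only [hF, hF']
    rw [spat_mv hRB, runI_mv hcl]
    refine mul_le_mul' le_rfl (mul_le_mul' (wgt_mv_le hb.le hu2 Z) (mul_le_mul' le_rfl ?_))
    by_cases hZ : mv B u Z ∈ {Z : ι → Ph | Loc (1 + T) a c Z}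
    · have hZ' : Z ∈ {Z : ι → Ph | Loc L a c Z} := loc_mv (by linarith) haB hcB hu1 hu2 hZ
      simp only [hl, hl']
      rw [indicator_of_mem hZ, indicator_of_mem hZ']
      rfl
    · simp only [hl]
      rw [indicator_of_notMem hZ]
      exact zero_le)
  -- the volume of the motions
  have h2 : ∀ Z, F' Z * ∫⁻ u in K, H (mv B u Z) ≤ F' Z *
      (ENNReal.ofReal (4096 * (4 * T + 3) ^ 2 * (1 + (1 + En Z)) ^ 2 * (ε ^ 4 / δ ^ 3)) *
        (ω₃ * ω₃)) := by
    intro Z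
    have hE := En_nonneg Z
    by_cases hP : Run Φ ε T 0 P (fun _ => 0) Z
    swap
    · simp only [hF']
      rw [runI_not _ hP]
      simp
    refine mul_le_mul' le_rfl ?_
    have h3 : ‖(finZ Φ ε P Z k).2 - (finZ Φ ε P Z i).2‖ ≤ 1 + En Z := by
      rw [← En_finZ hΦ hε.ne' hP]
      exact speed_le _ hik.symm
    refine le_trans ?_ (vol_lag_le hT hε hε1 hδ (by linarith) ((Z c).1 - (Z a).1)
      ((Z c).2 - (Z a).2) ((finZ Φ ε P Z k).1 - (finZ Φ ε P Z i).1)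
      ((finZ Φ ε P Z k).2 - (finZ Φ ε P Z i).2) (speed_le Z hac.symm) h3)
    rw [← lintegral_indicator hKm]
    refine le_trans (lintegral_mono fun u => ?_) (lintegral_indicator_one_le _)
    by_cases hu : u ∈ K
    · rw [indicator_of_mem hu]
      by_cases h4 : mv B u Z ∈ {Z : ι → Ph | Lag Φ ε T δ P a c i k Z}
      · rw [indicator_of_mem]
        · simp only [hH]
          rw [indicator_of_mem h4]
          rfl
        · refine ⟨by simpa using hu.2, ?_⟩
          obtain ⟨θ, σ, h5, h6, h7, h8, h9⟩ := h4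
          refine ⟨θ, σ, h5, h6, h7, ?_, ?_⟩
          · rw [mv_of_notMem haB, mv_of_mem hcB] at h8
            have h10 : (Z c).1 - (Z a).1 + θ • ((Z c).2 - (Z a).2) + (u.1 + θ • u.2) =
                -((free θ (Z a)).1 - (free θ (boost u (Z c))).1) := by
              unfold free boost
              simp only
              rw [smul_sub, smul_add]; abel
            rw [h10, norm_neg]
            exact h8
          · rw [finZ_mv hcl, mv_of_notMem hiB, mv_of_mem hkB] at h9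
            have h10 : (finZ Φ ε P Z k).1 - (finZ Φ ε P Z i).1 +
                σ • ((finZ Φ ε P Z k).2 - (finZ Φ ε P Z i).2) + (u.1 + σ • u.2) =
                -((free σ (finZ Φ ε P Z i)).1 - (free σ (boost u (finZ Φ ε P Z k))).1) := by
              unfold free boost
              simp only
              rw [smul_sub, smul_add]; abel
            rw [h10, norm_neg]
            exact h9
      · simp only [hH]
        rw [indicator_of_notMem h4]
        exact zero_le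
    · rw [indicator_of_notMem hu]
      exact zero_le
  have h3 : ω₃ * ω₃ * ∫⁻ Z, F Z * H Z ≤ ω₃ * ω₃ * ∫⁻ Z, F' Z *
      ENNReal.ofReal (4096 * (4 * T + 3) ^ 2 * (1 + (1 + En Z)) ^ 2 * (ε ^ 4 / δ ^ 3)) := by
    have hm : Measurable fun Z : ι → Ph => F' Z *
        ENNReal.ofReal (4096 * (4 * T + 3) ^ 2 * (1 + (1 + En Z)) ^ 2 * (ε ^ 4 / δ ^ 3)) :=
      hF'm.mul (((((measurable_En.const_add 1).const_add 1).pow_const 2).const_mul _).mul_const
        _).ennreal_ofReal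
    rw [← lintegral_const_mul _ hm]
    rw [hKv] at h1
    refine h1.trans (lintegral_mono fun Z => (h2 Z).trans (le_of_eq ?_))
    ring
  rw [ENNReal.mul_le_mul_iff_right (mul_ne_zero ω₃_ne_zero ω₃_ne_zero)
    (ENNReal.mul_ne_top ω₃_ne_top ω₃_ne_top)] at h3
  -- the localisation of `c`
  set F₂ : (ι → Ph) → ℝ≥0∞ := fun Z => spat R Z * ((ENNReal.ofReal ((1 + (1 + En Z)) ^ 2) *
    wgt (b / 2) Z) * runI Φ ε T P Z) with hF₂
  have hF₂m : Measurable F₂ := (measurable_spat R).mul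
    ((((((measurable_En.const_add 1).const_add 1).pow_const 2).ennreal_ofReal).mul
      (measurable_wgt (b / 2))).mul hrm)
  have hEmv : ∀ (x : E3) (Z : ι → Ph), En (mv B (x, 0) Z) = En Z := by
    intro x Z
    unfold En
    refine Finset.sum_congr rfl fun j _ => ?_
    by_cases hj : j ∈ B
    · rw [mv_of_mem hj]
      unfold boost
      simp
    · rw [mv_of_notMem hj]
  have h4 := lintegral_avg B hF₂m hl'm
    (fun x Z => by simp only [hF₂]; rw [spat_mv hRB, wgt_mv, runI_mv hcl, hEmv])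
    (U := fun Z => (Z c).1) (measurable_pi_apply c).fst
    (fun x Z => by rw [mv_of_mem hcB]; rfl) measurable_φ₁
  rw [lintegral_φ₁] at h4
  have h5 : ∀ Z, ∫⁻ x : E3, l' (mv B (x, 0) Z) ≤
      ENNReal.ofReal ((L * (1 + En Z)) ^ 3) * ω₃ := by
    intro Z
    have hE := En_nonneg Z
    rw [← vol_closedBall ((Z a).1 - (Z c).1) (by positivity)]
    refine le_trans (lintegral_mono fun x => ?_) (lintegral_indicator_one_le _)
    by_cases hx : mv B (x, 0) Z ∈ {Z : ι → Ph | Loc L a c Z}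
    · rw [indicator_of_mem]
      · simp only [hl']
        rw [indicator_of_mem hx]
        rfl
      · change ‖(mv B (x, 0) Z a).1 - (mv B (x, 0) Z c).1‖ ≤ L * (1 + En (mv B (x, 0) Z)) at hx
        rw [hEmv, mv_of_notMem haB, mv_of_mem hcB] at hx
        rw [Metric.mem_closedBall, dist_eq_norm, norm_sub_rev]
        have h6 : (Z a).1 - (Z c).1 - x = (Z a).1 - (boost (x, 0) (Z c)).1 := by
          unfold boost
          simp only
          abel
        rw [h6]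
        exact hx
    · simp only [hl']
      rw [indicator_of_notMem hx]
      exact zero_le
  have h6 : ω₃ * ∫⁻ Z, F₂ Z * l' Z ≤ ω₃ * ∫⁻ Z, F₂ Z * φ₁ (Z c).1 *
      ENNReal.ofReal ((L * (1 + En Z)) ^ 3) := by
    have hm : Measurable fun Z : ι → Ph => F₂ Z * φ₁ (Z c).1 *
        ENNReal.ofReal ((L * (1 + En Z)) ^ 3) :=
      (hF₂m.mul (measurable_φ₁.comp (measurable_pi_apply c).fst)).mul
        ((((measurable_En.const_add 1).const_mul L).pow_const 3).ennreal_ofReal)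
    rw [h4, ← lintegral_const_mul _ hm]
    refine lintegral_mono fun Z => (mul_le_mul' le_rfl (h5 Z)).trans (le_of_eq ?_)
    ring
  rw [ENNReal.mul_le_mul_iff_right ω₃_ne_zero ω₃_ne_top] at h6
  -- conclusion
  have h7 : ∫⁻ Z, spat R Z * (wgt b Z * (runI Φ ε T P Z * H Z)) ≤ ∫⁻ Z, F Z * H Z := by
    refine lintegral_mono fun Z => ?_
    simp only [hF]
    by_cases hZ : Z ∈ {Z : ι → Ph | Lag Φ ε T δ P a c i k Z}
    · have h8 : Z ∈ {Z : ι → Ph | Loc (1 + T) a c Z} := loc_of_lag hT hε1 hδ0.le hac hZ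
      have h9 : l Z = 1 := by simp only [hl]; rw [indicator_of_mem h8]; rfl
      rw [h9, mul_one]
      apply le_of_eq; ring
    · have h9 : H Z = 0 := by simp only [hH]; rw [indicator_of_notMem hZ]
      rw [h9]; simp
  set c₁ : ℝ := Real.exp (b * n) * (4096 * (4 * T + 3) ^ 2) with hc₁
  have hc₁0 : 0 ≤ c₁ := by rw [hc₁]; positivity
  have h8 : ∫⁻ Z, F' Z * ENNReal.ofReal (4096 * (4 * T + 3) ^ 2 * (1 + (1 + En Z)) ^ 2 *
      (ε ^ 4 / δ ^ 3)) = ENNReal.ofReal c₁ * ENNReal.ofReal (ε ^ 4 / δ ^ 3) *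
        ∫⁻ Z, F₂ Z * l' Z := by
    have hm : Measurable fun Z : ι → Ph => F₂ Z * l' Z := hF₂m.mul hl'm
    rw [← lintegral_const_mul _ hm]
    refine lintegral_congr fun Z => ?_
    have hE := En_nonneg Z
    simp only [hF', hF₂, hc₁]
    rw [ENNReal.ofReal_mul (by positivity), ENNReal.ofReal_mul (by positivity),
      ENNReal.ofReal_mul (p := Real.exp (b * n)) (by positivity)]
    ring
  refine h7.trans (h3.trans ?_)
  rw [h8]
  have h9 : ∫⁻ Z, F₂ Z * φ₁ (Z c).1 * ENNReal.ofReal ((L * (1 + En Z)) ^ 3) ≤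
      ENNReal.ofReal ((4 * L ^ 3) * (1 + 2 * (5 : ℕ) / (b / 2)) ^ 5) *
        mass Φ ε T (b / 2 / 2) (insert c R) P := by
    have hm : Measurable fun Z : ι → Ph => spat (insert c R) Z *
        (wgt (b / 2 / 2) Z * runI Φ ε T P Z) :=
      (measurable_spat _).mul ((measurable_wgt _).mul hrm)
    unfold mass
    rw [← lintegral_const_mul _ hm]
    refine lintegral_mono fun Z => ?_
    have hE := En_nonneg Z
    simp only [hF₂]
    rw [spat_insert hcR]
    have h10 : ENNReal.ofReal ((1 + (1 + En Z)) ^ 2) * ENNReal.ofReal ((L * (1 + En Z)) ^ 3) ≤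
        ENNReal.ofReal (4 * L ^ 3) * ENNReal.ofReal ((1 + En Z) ^ 5) := by
      rw [← ENNReal.ofReal_mul (by positivity), ← ENNReal.ofReal_mul (by positivity)]
      refine ENNReal.ofReal_le_ofReal ?_
      have h11 : (1 + (1 + En Z)) ^ 2 ≤ 4 * (1 + En Z) ^ 2 := by nlinarith
      have h12 : 0 ≤ (L * (1 + En Z)) ^ 3 := by positivity
      calc _ ≤ 4 * (1 + En Z) ^ 2 * (L * (1 + En Z)) ^ 3 :=
            mul_le_mul_of_nonneg_right h11 h12
        _ = _ := by ring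
    have h13 := wgt_absorb_pow (b := b / 2) (by positivity) 5 (by norm_num) Z
    rw [ENNReal.ofReal_mul (p := 4 * L ^ 3) (by positivity)]
    calc spat R Z * ((ENNReal.ofReal ((1 + (1 + En Z)) ^ 2) * wgt (b / 2) Z) * runI Φ ε T P Z) *
          φ₁ (Z c).1 * ENNReal.ofReal ((L * (1 + En Z)) ^ 3)
        = (ENNReal.ofReal ((1 + (1 + En Z)) ^ 2) * ENNReal.ofReal ((L * (1 + En Z)) ^ 3)) *
          (φ₁ (Z c).1 * spat R Z * runI Φ ε T P Z * wgt (b / 2) Z) := by ring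
      _ ≤ (ENNReal.ofReal (4 * L ^ 3) * ENNReal.ofReal ((1 + En Z) ^ 5)) *
          (φ₁ (Z c).1 * spat R Z * runI Φ ε T P Z * wgt (b / 2) Z) := mul_le_mul' h10 le_rfl
      _ = ENNReal.ofReal (4 * L ^ 3) * (φ₁ (Z c).1 * spat R Z * runI Φ ε T P Z) *
          (ENNReal.ofReal ((1 + En Z) ^ 5) * wgt (b / 2) Z) := by ring
      _ ≤ ENNReal.ofReal (4 * L ^ 3) * (φ₁ (Z c).1 * spat R Z * runI Φ ε T P Z) *
          (ENNReal.ofReal ((1 + 2 * (5 : ℕ) / (b / 2)) ^ 5) * wgt (b / 2 / 2) Z) :=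
          mul_le_mul' le_rfl h13
      _ = _ := by ring
  refine (mul_le_mul' le_rfl (h6.trans h9)).trans (le_of_eq ?_)
  rw [mul_assoc (c₁), ENNReal.ofReal_mul hc₁0]
  ring

end Vale.Agent.P119.IND
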