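import Vale.Agent.P119.IND.Prog6

/-!
# P119, block IND: the small lemma (`helper295`)

`small_le`: the mass of a closed plain program is smaller by a factor `ε^{1/2}` than the bound of
`mass_le`.
-/

open MeasureTheory Filter Topology Set
open scoped ENNReal

set_option linter.unusedSectionVars false

noncomputable section

namespace Vale.Agent.P119.IND

open KU MM

variable {ι : Type} [DecidableEq ι] [Fintype ι] {Φ : E3 → ℝ} {ε T b : ℝ}

/-! ### The graph -/

theorem Jn.mono' {P Q : List (Ev ι × ℝ)} (h : ∀ e ∈ P, ∃ e' ∈ Q, e'.1 = e.1) {i k : ι}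
    (hJ : Jn P i k) : Jn Q i k := by
  induction hJ with
  | rel i k hr =>
    obtain ⟨e, he, rfl, rfl⟩ := hr
    obtain ⟨e', he', h1⟩ := h e he
    rw [← h1]
    exact jn_of_mem he'
  | refl i => exact Jn.refl _ i
  | symm i k _ ih => exact ih.symm
  | trans i k l _ _ ih1 ih2 => exact ih1.trans ih2

/-- The delays do not matter. -/
theorem jn_mark {P₁ P₂ : List (Ev ι × ℝ)} {g : Ev ι × ℝ} {δ : ℝ} {i k : ι} :
    Jn (P₁ ++ (g.1, δ) :: P₂) i k ↔ Jn (P₁ ++ g :: P₂) i k := by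
  constructor
  · refine Jn.mono' fun e he => ?_
    simp only [List.mem_append, List.mem_cons] at he ⊢
    rcases he with he | he | he
    · exact ⟨e, Or.inl he, rfl⟩
    · exact ⟨g, Or.inr (Or.inl rfl), by rw [he]⟩
    · exact ⟨e, Or.inr (Or.inr he), rfl⟩
  · refine Jn.mono' fun e he => ?_
    simp only [List.mem_append, List.mem_cons] at he ⊢
    rcases he with he | he | he
    · exact ⟨e, Or.inl he, rfl⟩
    · exact ⟨(g.1, δ), Or.inr (Or.inl rfl), by rw [he]⟩
    · exact ⟨e, Or.inr (Or.inr he), rfl⟩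

/-- A label which is not used is joined to itself only. -/
theorem jn_unused {P : List (Ev ι × ℝ)} {a : ι} (h : ∀ e ∈ P, e.1.fst ≠ a ∧ e.1.snd ≠ a) {i k : ι}
    (hJ : Jn P i k) : i = a ↔ k = a := by
  induction hJ with
  | rel i k hr =>
    obtain ⟨e, he, rfl, rfl⟩ := hr
    have h1 := h e he
    exact ⟨fun h2 => absurd h2 h1.1, fun h2 => absurd h2 h1.2⟩
  | refl i => exact Iff.rfl
  | symm i k _ ih => exact ih.symm
  | trans i k l _ _ ih1 ih2 => exact ih1.trans ih2

theorem finZ_unused {P : List (Ev ι × ℝ)} {a : ι} (h : ∀ e ∈ P, e.1.fst ≠ a ∧ e.1.snd ≠ a)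
    (Z : ι → Ph) : finZ Φ ε P Z a = Z a := by
  induction P generalizing Z with
  | nil => rfl
  | cons e P ih =>
    have h1 := h e List.mem_cons_self
    unfold finZ
    rw [ih fun e' he' => h e' (List.mem_cons_of_mem _ he'), lineApp_other h1.1.symm h1.2.symm]

theorem finB_unused {P : List (Ev ι × ℝ)} {a : ι} (h : ∀ e ∈ P, e.1.fst ≠ a ∧ e.1.snd ≠ a)
    (β : ι → ℝ) (Z : ι → Ph) : finB Φ ε P β Z a = β a := by
  induction P generalizing β Z with
  | nil => rfl
  | cons e P ih =>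
    have h1 := h e List.mem_cons_self
    unfold finB
    rw [ih fun e' he' => h e' (List.mem_cons_of_mem _ he'), birthApp_other h1.1.symm h1.2.symm]

/-- The first event which uses `a` or `c`. -/
theorem first_use (P : List (Ev ι × ℝ)) (a c : ι) :
    (∀ e ∈ P, (e.1.fst ≠ a ∧ e.1.snd ≠ a) ∧ e.1.fst ≠ c ∧ e.1.snd ≠ c) ∨
      ∃ P₁ g P₂, P = P₁ ++ g :: P₂ ∧
        (∀ e ∈ P₁, (e.1.fst ≠ a ∧ e.1.snd ≠ a) ∧ e.1.fst ≠ c ∧ e.1.snd ≠ c) ∧
        (g.1.fst = a ∨ g.1.snd = a ∨ g.1.fst = c ∨ g.1.snd = c) := by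
  induction P with
  | nil => left; intro e he; exact absurd he List.not_mem_nil
  | cons e P ih =>
    by_cases h : e.1.fst = a ∨ e.1.snd = a ∨ e.1.fst = c ∨ e.1.snd = c
    · exact Or.inr ⟨[], e, P, rfl, fun e he => absurd he List.not_mem_nil, h⟩
    · rw [not_or, not_or, not_or] at h
      rcases ih with ih | ⟨P₁, g, P₂, h1, h2, h3⟩
      · left
        intro e' he'
        rcases List.mem_cons.1 he' with rfl | he'
        · exact ⟨⟨h.1, h.2.1⟩, h.2.2.1, h.2.2.2⟩
        · exact ih e' he'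
      · right
        refine ⟨e :: P₁, g, P₂, by rw [h1]; rfl, ?_, h3⟩
        intro e' he'
        rcases List.mem_cons.1 he' with rfl | he'
        · exact ⟨⟨h.1, h.2.1⟩, h.2.2.1, h.2.2.2⟩
        · exact h2 e' he'

theorem at_delay {e : Ev ι} {d d' : ℝ} {β : ι → ℝ} {Z : ι → Ph} {s : ℝ} (h : At Φ ε T e d β Z s)
    (h' : s ≤ max (β e.fst) (β e.snd) + d') : At Φ ε T e d' β Z s := by
  cases e with
  | gh i k =>
    obtain ⟨h1, h2, h3, h4, -⟩ := h
    exact ⟨h1, h2, h3, h4, h'⟩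
  | sc i k =>
    obtain ⟨h1, h2, h3, h4, h5, h6, h7, -⟩ := h
    exact ⟨h1, h2, h3, h4, h5, h6, h7, h'⟩

/-- Either the last event is late, or the event `g` is early. -/
theorem run_mark {δ θ : ℝ} {P₁ P₂ : List (Ev ι × ℝ)} {g e : Ev ι × ℝ} {r : ℝ} {β : ι → ℝ}
    {Z : ι → Ph} (h : Run Φ ε T r (P₁ ++ g :: (P₂ ++ [e])) β Z)
    (hθ : θ ≤ max (finB Φ ε P₁ β Z g.1.fst) (finB Φ ε P₁ β Z g.1.snd)) :
    (∃ σ, θ + δ ≤ σ ∧ σ ≤ T ∧ At Φ ε T e.1 e.2 (finB Φ ε (P₁ ++ g :: P₂) β Z)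
      (finZ Φ ε (P₁ ++ g :: P₂) Z) σ) ∨ Run Φ ε T r (P₁ ++ (g.1, δ) :: P₂) β Z := by
  induction P₁ generalizing r β Z with
  | nil =>
    obtain ⟨s, h1, h2, h3, h4⟩ := h
    obtain ⟨σ, h5, h6, h7⟩ := h4.last
    by_cases hσ : θ + δ ≤ σ
    · exact Or.inl ⟨σ, hσ, h6, h7⟩
    · right
      refine ⟨s, h1, h2, at_delay h3 ?_, h4.left⟩
      have h8 : θ ≤ max (β g.1.fst) (β g.1.snd) := hθ
      linarith [not_le.1 hσ]
  | cons e' P₁ ih =>
    obtain ⟨s, h1, h2, h3, h4⟩ := h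
    rcases ih h4 hθ with h5 | h5
    · exact Or.inl h5
    · exact Or.inr ⟨s, h1, h2, h3, h5⟩

/-! ### The first event -/

theorem oc_mv {B : Finset ι} {e : Ev ι} (h : e.fst ∈ B ↔ e.snd ∈ B) (u : Ph) (Z : ι → Ph) :
    Oc ε e (mv B u Z) ↔ Oc ε e Z := by
  cases e with
  | gh i k => exact Iff.rfl
  | sc i k =>
    change (i ∈ B ↔ k ∈ B) at h
    change Meets ε (mv B u Z i, mv B u Z k) ↔ Meets ε (Z i, Z k)
    rw [mv_pair h, meets_boost (q := (Z i, Z k))]

/-- **Change of variables** for a localised integral. -/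
theorem first_step (hΦ : IsPotential Φ) (hε : ε ≠ 0) {f : Ev ι} (hne : f.fst ≠ f.snd)
    {C R : Finset ι} {r : ι} (hr : r ∈ R) (hrC : r ∈ C) (h1 : f.fst ∈ C) (h2 : f.snd ∈ C)
    (hRC : ∀ j ∈ R.erase r, j ∉ C) {D : Set (ι → Ph)} (hD : MeasurableSet D)
    (hDi : ∀ x : E3, ∀ Z, mv C (x, 0) Z ∈ D ↔ Z ∈ D) :
    ∫⁻ Z, spat R Z * (wgt b Z *
      {Z : ι → Ph | Oc ε f Z ∧ lineApp Φ ε f Z ∈ D}.indicator 1 Z) ≤
    ∫⁻ Z, spat (insert f.fst (R.erase r)) Z * (wgt b Z * D.indicator 1 Z) := by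
  set S : Set (ι → Ph) := {Z : ι → Ph | Oc ε f Z ∧ lineApp Φ ε f Z ∈ D} with hS
  have hLm : Measurable fun Z : ι → Ph => lineApp Φ ε f Z :=
    measurable_lineApp hΦ hε f measurable_id
  have hSm : MeasurableSet S := (measurableSet_oc f).inter (hLm hD)
  have hfC : f.fst ∈ C ↔ f.snd ∈ C := ⟨fun _ => h2, fun _ => h1⟩
  have hfR : f.fst ∉ R.erase r := fun h => hRC _ h h1
  set F : (ι → Ph) → ℝ≥0∞ := fun Z => spat (R.erase r) Z * (wgt b Z * S.indicator 1 Z) with hF
  have hFm : Measurable F :=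
    (measurable_spat _).mul ((measurable_wgt b).mul (measurable_one.indicator hSm))
  have hFi : ∀ x : E3, ∀ Z, F (mv C (x, 0) Z) = F Z := by
    intro x Z
    have h3 : mv C (x, 0) Z ∈ S ↔ Z ∈ S := by
      simp only [hS, mem_ofPred_eq]
      rw [oc_mv hfC, lineApp_mv hfC, hDi]
    simp only [hF]
    rw [spat_mv hRC, wgt_mv]
    by_cases h4 : Z ∈ S
    · rw [indicator_of_mem h4, indicator_of_mem (h3.2 h4)]; rfl
    · rw [indicator_of_notMem h4, indicator_of_notMem fun h => h4 (h3.1 h)]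
  have h3 := base_change hrC hFm hFi (g := fun z => φ₁ z.1) (measurable_φ₁.comp measurable_fst)
    (U := fun Z => (lineApp Φ ε f Z f.fst).1) ((measurable_pi_apply _).comp hLm).fst
    (fun x Z => by
      rw [lineApp_mv hfC, mv_of_mem h1]
      rfl)
  simp only [lintegral_φ₁] at h3
  have h4 : ω₃ * ∫⁻ Z, F Z * φ₁ (Z r).1 =
      ω₃ * ∫⁻ Z, F Z * φ₁ (lineApp Φ ε f Z f.fst).1 := by
    have hm : Measurable fun Z : ι → Ph => F Z * φ₁ (lineApp Φ ε f Z f.fst).1 :=
      hFm.mul (measurable_φ₁.comp ((measurable_pi_apply _).comp hLm).fst)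
    rw [h3, ← lintegral_const_mul _ hm]
    refine lintegral_congr fun Z => ?_
    ring
  rw [ENNReal.mul_right_inj ω₃_ne_zero ω₃_ne_top] at h4
  have h5 : ∫⁻ Z, spat R Z * (wgt b Z * S.indicator 1 Z) = ∫⁻ Z, F Z * φ₁ (Z r).1 := by
    refine lintegral_congr fun Z => ?_
    simp only [hF]
    rw [spat_erase hr]
    ring
  rw [h5, h4]
  set G : (ι → Ph) → ℝ≥0∞ := fun Z =>
    spat (insert f.fst (R.erase r)) Z * (wgt b Z * D.indicator 1 Z) with hG
  have hGm : Measurable G :=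
    (measurable_spat _).mul ((measurable_wgt b).mul (measurable_one.indicator hD))
  refine le_trans (lintegral_mono fun Z => ?_) (lineApp_le hΦ hε hne hGm)
  by_cases hZ : Z ∈ S
  swap
  · simp only [hF]
    rw [indicator_of_notMem hZ]
    simp
  have h6 : {Z : ι → Ph | Oc ε f Z}.indicator (1 : (ι → Ph) → ℝ≥0∞) Z = 1 :=
    indicator_of_mem (show Z ∈ {Z : ι → Ph | Oc ε f Z} from hZ.1) _
  have h7 : D.indicator (1 : (ι → Ph) → ℝ≥0∞) (lineApp Φ ε f Z) = 1 := indicator_of_mem hZ.2 _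
  have h8 : spat (R.erase r) (lineApp Φ ε f Z) = spat (R.erase r) Z := by
    refine Finset.prod_congr rfl fun j hj => ?_
    have h10 : j ≠ f.fst := fun h => hRC j hj (by rw [h]; exact h1)
    have h11 : j ≠ f.snd := fun h => hRC j hj (by rw [h]; exact h2)
    rw [lineApp_other h10 h11]
  have h9 : wgt b (lineApp Φ ε f Z) = wgt b Z := by
    unfold wgt
    rw [En_lineApp hΦ hε hne]
  rw [h6, one_mul]
  simp only [hF]
  rw [spat_insert hfR, h7, h8, h9, indicator_of_mem hZ]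
  apply le_of_eq
  simp only [Pi.one_apply]
  ring

/-- The set of the classes, with the representative `f.fst` for the class of the first event. -/
theorem Trv.first {f : Ev ι × ℝ} {Q : List (Ev ι × ℝ)} {R : Finset ι} (hR : Trv (f :: Q) R) :
    ∃ r ∈ R, Jn (f :: Q) r f.1.fst ∧
      (∀ j ∈ R.erase r, j ∉ cls (f :: Q) r) ∧
      Trv (f :: Q) (insert f.1.fst (R.erase r)) ∧
      (insert f.1.fst (R.erase r)).card = R.card := by
  obtain ⟨r, hr, hJ⟩ := hR.cov f.1.fst
  have h1 : ∀ j ∈ R.erase r, j ∉ cls (f :: Q) r := by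
    intro j hj hjc
    obtain ⟨h2, h3⟩ := Finset.mem_erase.1 hj
    exact h2 (hR.uni r hr j h3 (mem_cls.1 hjc)).symm
  refine ⟨r, hr, hJ.symm, h1, hR.swap hr hJ.symm, ?_⟩
  rw [Finset.card_insert_of_notMem fun h => h1 _ h (mem_cls.2 hJ.symm),
    Finset.card_erase_of_mem hr]
  have := Finset.card_pos.2 ⟨r, hr⟩
  omega

/-- **Peeling the first event**, if it is a bridge. -/
theorem peel_first (hΦ : IsPotential Φ) (hT : 0 ≤ T) (hε : 0 < ε) (hε1 : ε ≤ 1) (hb : 0 < b)
    {f : Ev ι × ℝ} {Q : List (Ev ι × ℝ)} (hpl : ∀ e ∈ Q, e.2 = T) {R : Finset ι}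
    (hR : Trv (f :: Q) R) (hbr : ¬Jn Q f.1.fst f.1.snd) :
    ∃ R', Trv Q R' ∧ R'.card = R.card + 1 ∧ mass Φ ε T b R (f :: Q) ≤
      ENNReal.ofReal (32 * (1 + T) * (1 + 2 / b)) * ENNReal.ofReal (ε ^ 2) *
        mass Φ ε T (b / 2) R' Q := by
  obtain ⟨r, hr, hJ, hRC, hR₁, hcard⟩ := hR.first
  have hne : f.1.fst ≠ f.1.snd := fun h => hbr (h ▸ Jn.refl _ _)
  obtain ⟨h1, h2, h3⟩ := hR₁.split (fun c d => jn_cons) (Or.inl ⟨rfl, rfl⟩) hbr
    (Finset.mem_insert_self _ _) (Jn.refl Q _) (Jn.refl Q _)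
  refine ⟨insert f.1.snd (insert f.1.fst (R.erase r)), h3, by
    rw [Finset.card_insert_of_notMem h1, hcard], ?_⟩
  set R₁ : Finset ι := insert f.1.fst (R.erase r) with hR₁'
  -- the set of the configurations after the event
  have hQm := measurable_runI (T := T) hΦ hε.ne' Q
  set D : Set (ι → Ph) := {Z : ι → Ph | Run Φ ε T 0 Q (fun _ => 0) Z ∧ ∃ θ, 0 ≤ θ ∧ θ ≤ T ∧
    θ ∈ {s | ‖(free s (Z f.1.fst)).1 - (free s (Z f.1.snd)).1‖ ≤ ε}} with hD
  have hDm : MeasurableSet D :=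
    (measurableSet_run hΦ hε.ne' Q (β := fun _ _ => 0) measurable_const measurable_id 0).inter
      ((sc_dist (measurable_pi_apply f.1.fst) (measurable_pi_apply f.1.snd) ε).meet
        measurable_const measurable_const)
  have hfC : f.1.fst ∈ cls (f :: Q) r := mem_cls.2 hJ
  have hsC : f.1.snd ∈ cls (f :: Q) r := mem_cls.2 (hJ.trans (jn_of_mem List.mem_cons_self))
  have hclQ : Cl (cls (f :: Q) r) Q :=
    (cl_cls (f :: Q) r).mono fun e he => List.mem_cons_of_mem _ he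
  have hDi : ∀ x : E3, ∀ Z, mv (cls (f :: Q) r) (x, 0) Z ∈ D ↔ Z ∈ D := by
    intro x Z
    simp only [hD, mem_ofPred_eq]
    rw [run_mv hclQ, mv_of_mem hfC, mv_of_mem hsC]
    refine and_congr_right fun _ => exists_congr fun s => and_congr_right fun _ =>
      and_congr_right fun _ => ?_
    have h4 : (free s (boost (x, 0) (Z f.1.fst))).1 - (free s (boost (x, 0) (Z f.1.snd))).1 =
        (free s (Z f.1.fst)).1 - (free s (Z f.1.snd)).1 := by
      unfold free boost
      simp only [add_zero]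
      abel
    rw [h4]
  have h4 := first_step (b := b) hΦ hε.ne' hne hr (self_mem_cls _ _) hfC hsC hRC hDm hDi
  have h5 : mass Φ ε T b R (f :: Q) ≤ ∫⁻ Z, spat R Z * (wgt b Z *
      {Z : ι → Ph | Oc ε f.1 Z ∧ lineApp Φ ε f.1 Z ∈ D}.indicator 1 Z) := by
    refine lintegral_mono fun Z => mul_le_mul' le_rfl (mul_le_mul' le_rfl ?_)
    by_cases hP : Run Φ ε T 0 (f :: Q) (fun _ => 0) Z
    · rw [runI_of _ hP, indicator_of_mem]
      · rfl
      obtain ⟨s, h6, h7, h8, h9⟩ := hP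
      refine ⟨at_oc h8, ?_, at_exit hΦ hε h6 h7 h8⟩
      exact run_zero hΦ hε hpl h6 (birthApp_nonneg hΦ hε h6 h8 fun _ => le_rfl) h9
    · rw [runI_not _ hP]
      exact zero_le
  refine h5.trans (h4.trans ?_)
  -- the translation of the class of the second label
  set B : Finset ι := cls Q f.1.snd with hB
  have hcl : Cl B Q := cl_cls Q _
  have hsB : f.1.snd ∈ B := self_mem_cls _ _
  have hfB : f.1.fst ∉ B := fun h => hbr (mem_cls.1 h).symm
  have hRB : ∀ j ∈ R₁, j ∉ B := fun j hj h => h2 j hj (mem_cls.1 h)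
  set F : (ι → Ph) → ℝ≥0∞ := fun Z => wgt b Z * runI Φ ε T Q Z with hF
  have hFm : Measurable F := (measurable_wgt b).mul hQm
  have h6 := peel_tube hε hsB hRB hFm
    (fun a Z => by simp only [hF]; rw [wgt_mv, runI_mv hcl])
    (p := fun Z => Z f.1.fst) (q := fun Z => Z f.1.snd)
    (measurable_pi_apply _) (measurable_pi_apply _)
    (fun a Z => mv_of_notMem hfB _ _) (fun a Z => mv_of_mem hsB _ _)
    (m := fun _ => 0) measurable_const (fun a Z => rfl) hT
  have h7 : ∫⁻ Z, spat R₁ Z * (wgt b Z * D.indicator 1 Z) ≤ ∫⁻ Z, spat R₁ Z * F Z *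
      {Z : ι → Ph | ∃ s, 0 ≤ s ∧ s ≤ 0 + T ∧
        ‖(free s (Z f.1.fst)).1 - (free s (Z f.1.snd)).1‖ ≤ ε}.indicator 1 Z := by
    refine lintegral_mono fun Z => ?_
    simp only [hF]
    rw [mul_assoc, mul_assoc]
    refine mul_le_mul' le_rfl (mul_le_mul' le_rfl ?_)
    by_cases hZ : Z ∈ D
    · rw [indicator_of_mem hZ, runI_of _ hZ.1, one_mul, indicator_of_mem]
      obtain ⟨θ, h8, h9, h10⟩ := hZ.2
      exact ⟨θ, h8, by linarith, h10⟩
    · rw [indicator_of_notMem hZ]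
      exact zero_le
  refine h7.trans (h6.trans ?_)
  have hGm : Measurable fun Z : ι → Ph =>
      spat (insert f.1.snd R₁) Z * (wgt (b / 2) Z * runI Φ ε T Q Z) :=
    (measurable_spat _).mul ((measurable_wgt _).mul hQm)
  unfold mass
  rw [← lintegral_const_mul _ hGm]
  refine lintegral_mono fun Z => ?_
  have hE := En_nonneg Z
  simp only [hF]
  have h8 : ENNReal.ofReal (32 * ε ^ 2 * (ε + T * ‖(Z f.1.fst).2 - (Z f.1.snd).2‖)) ≤
      ENNReal.ofReal (32 * (1 + T)) * ENNReal.ofReal (ε ^ 2) * ENNReal.ofReal (1 + En Z) := by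
    rw [← ENNReal.ofReal_mul (by positivity), ← ENNReal.ofReal_mul (by positivity)]
    refine ENNReal.ofReal_le_ofReal ?_
    have h9 := speed_le Z hne
    have h10 : ε + T * ‖(Z f.1.fst).2 - (Z f.1.snd).2‖ ≤ (1 + T) * (1 + En Z) := by
      have := mul_le_mul_of_nonneg_left h9 hT
      nlinarith [mul_nonneg hT hE]
    calc _ ≤ 32 * ε ^ 2 * ((1 + T) * (1 + En Z)) :=
          mul_le_mul_of_nonneg_left h10 (by positivity)
      _ = _ := by ring
  calc spat (insert f.1.snd R₁) Z * (wgt b Z * runI Φ ε T Q Z) *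
        ENNReal.ofReal (32 * ε ^ 2 * (ε + T * ‖(Z f.1.fst).2 - (Z f.1.snd).2‖))
      ≤ spat (insert f.1.snd R₁) Z * (wgt b Z * runI Φ ε T Q Z) *
        (ENNReal.ofReal (32 * (1 + T)) * ENNReal.ofReal (ε ^ 2) * ENNReal.ofReal (1 + En Z)) :=
        mul_le_mul' le_rfl h8
    _ = ENNReal.ofReal (32 * (1 + T)) * ENNReal.ofReal (ε ^ 2) *
        (spat (insert f.1.snd R₁) Z * runI Φ ε T Q Z) *
        (ENNReal.ofReal (1 + En Z) * wgt b Z) := by ring
    _ ≤ ENNReal.ofReal (32 * (1 + T)) * ENNReal.ofReal (ε ^ 2) *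
        (spat (insert f.1.snd R₁) Z * runI Φ ε T Q Z) *
        (ENNReal.ofReal (1 + 2 / b) * wgt (b / 2) Z) := mul_le_mul' le_rfl (wgt_absorb hb Z)
    _ = _ := by
      rw [ENNReal.ofReal_mul (p := 32 * (1 + T)) (by positivity)]
      ring

/-! ### The cycle -/

theorem mass_zero {R : Finset ι} {P : List (Ev ι × ℝ)}
    (h : ∀ Z : ι → Ph, ¬Run Φ ε T 0 P (fun _ => 0) Z) : mass Φ ε T b R P = 0 := by
  unfold mass
  have h1 : ∀ Z : ι → Ph, spat R Z * (wgt b Z * runI Φ ε T P Z) = 0 := fun Z => by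
    rw [runI_not _ (h Z)]; simp
  simp only [h1]
  exact lintegral_zero

theorem lag_mv {C : Finset ι} {δ : ℝ} {P : List (Ev ι × ℝ)} (h : Cl C P) {a c i k : ι} (ha : a ∈ C)
    (hc : c ∈ C) (hi : i ∈ C) (hk : k ∈ C) (x : E3) (Z : ι → Ph) :
    Lag Φ ε T δ P a c i k (mv C (x, 0) Z) ↔ Lag Φ ε T δ P a c i k Z := by
  unfold Lag
  have h4 : ∀ (s : ℝ) (p q : Ph), (free s (boost (x, 0) p)).1 - (free s (boost (x, 0) q)).1 =
      (free s p).1 - (free s q).1 := by
    intro s p q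
    unfold free boost
    simp only [add_zero]
    abel
  rw [finZ_mv h, mv_of_mem ha, mv_of_mem hc, mv_of_mem hi, mv_of_mem hk]
  simp only [h4]

/-- **The cycle**: the first event `f` is a collision on the cycle which is closed by the last
event `e`. -/
theorem cycle_le (hΦ : IsPotential Φ) (hT : 0 ≤ T) (n : ℕ) (hb : 0 < b) :
    ∃ C : ℝ≥0∞, C ≠ ∞ ∧ ∀ (a c : ι) (P : List (Ev ι × ℝ)) (e : Ev ι × ℝ), P.length = n →
    (∀ e' ∈ P, e'.2 = T) → e.2 = T → ¬Closed ((Ev.sc a c, T) :: P) →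
    Jn ((Ev.sc a c, T) :: P) e.1.fst e.1.snd → Jn (P ++ [e]) a c →
    ∀ ε : ℝ, 0 < ε → ε ≤ 1 → ∀ R : Finset ι, Trv ((Ev.sc a c, T) :: (P ++ [e])) R →
    mass Φ ε T b R ((Ev.sc a c, T) :: (P ++ [e])) ≤
      C * ENNReal.ofReal (ε ^ 2) ^ (Fintype.card ι - R.card) * ENNReal.ofReal (√ε) := by
  obtain ⟨C₁, hC₁, H₁⟩ := mass_le (ι := ι) hΦ T n (b / 2 / 2) (by positivity)
  obtain ⟨C₂, hC₂, H₂⟩ := mass_le (ι := ι) hΦ T (n + 1) b hb
  set K : ℝ≥0∞ := ENNReal.ofReal (Real.exp (b * Fintype.card ι) * (4096 * (4 * T + 3) ^ 2) *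
      (4 * (1 + (3 + 2 * Fintype.card ι) * (1 + T)) ^ 3) * (1 + 2 * (5 : ℕ) / (b / 2)) ^ 5)
    with hK
  set τ : ℝ≥0∞ := ENNReal.ofReal (1 + T) with hτ
  refine ⟨K * C₁ * τ ^ n + C₂ * (2 * τ ^ n), ENNReal.add_ne_top.2 ⟨?_, ?_⟩, ?_⟩
  · exact ENNReal.mul_ne_top (ENNReal.mul_ne_top ENNReal.ofReal_ne_top hC₁)
      (ENNReal.pow_ne_top ENNReal.ofReal_ne_top)
  · exact ENNReal.mul_ne_top hC₂ (ENNReal.mul_ne_top (by simp)
      (ENNReal.pow_ne_top ENNReal.ofReal_ne_top))
  intro a c P e hn hpl he hfor hcl hJe ε hε hε1 R hR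
  set f : Ev ι × ℝ := (Ev.sc a c, T) with hf
  have hff : f.1.fst = a := rfl
  have hfs : f.1.snd = c := rfl
  set δ : ℝ := √ε with hδ
  have hδ0 : 0 < δ := Real.sqrt_pos.2 hε
  have hδ2 : δ ^ 2 = ε := Real.sq_sqrt hε.le
  have hδ1 : δ ≤ 1 := Real.sqrt_le_one.2 hε1
  have hεδ : ε ≤ δ := by nlinarith
  -- the graph
  have hforest := forest_of_not_closed hfor
  have hac : ¬Jn P a c := hforest [] f P rfl
  have hne : a ≠ c := fun h => hac (h ▸ Jn.refl _ _)
  have hRP : Trv (f :: P) R := by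
    refine hR.congr fun i k => ?_
    rw [← List.cons_append]
    exact jn_concat_of_jn hcl i k
  obtain ⟨i, k, hik, hai, hck⟩ : ∃ i k, ((i = e.1.fst ∧ k = e.1.snd) ∨
      (i = e.1.snd ∧ k = e.1.fst)) ∧ Jn P a i ∧ Jn P c k := by
    rcases jn_concat.1 hJe with h | ⟨h1, h2⟩ | ⟨h1, h2⟩
    · exact absurd h hac
    · exact ⟨_, _, Or.inl ⟨rfl, rfl⟩, h1, h2.symm⟩
    · exact ⟨_, _, Or.inr ⟨rfl, rfl⟩, h1, h2.symm⟩
  have hlast : ∀ {β : ι → ℝ} {W : ι → Ph} {σ : ℝ}, At Φ ε T e.1 e.2 β W σ →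
      ‖(free σ (W i)).1 - (free σ (W k)).1‖ ≤ ε := by
    intro β W σ h
    have h1 := (at_dist hε h).2.2
    rcases hik with ⟨rfl, rfl⟩ | ⟨rfl, rfl⟩
    · exact h1
    · rw [norm_sub_rev]; exact h1
  -- the first part: a lag
  obtain ⟨r, hr, hJ, hRC, hR₁, hcard⟩ := hRP.first
  obtain ⟨hc1, hc2, hc3⟩ := hR₁.split (fun c d => jn_cons) (Or.inl ⟨rfl, rfl⟩) hac
    (Finset.mem_insert_self _ _) (Jn.refl P _) (Jn.refl P _)
  rw [hff, hfs] at hc3
  rw [hfs] at hc1 hc2
  rw [hff] at hc1 hc2 hcard hR₁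
  set R₁ : Finset ι := insert a (R.erase r) with hR₁'
  set D : Set (ι → Ph) := {Z : ι → Ph | Run Φ ε T 0 P (fun _ => 0) Z ∧ Lag Φ ε T δ P a c i k Z}
    with hD
  have hDm : MeasurableSet D :=
    (measurableSet_run hΦ hε.ne' P (β := fun _ _ => 0) measurable_const measurable_id 0).inter
      (measurableSet_Lag hΦ hε.ne' δ P a c i k)
  have hlift : ∀ {j l : ι}, Jn P j l → Jn (f :: P) j l := fun h =>
    h.mono fun e' he' => List.mem_cons_of_mem _ he'
  have haC : a ∈ cls (f :: P) r := mem_cls.2 hJ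
  have hcC : c ∈ cls (f :: P) r := mem_cls.2 (hJ.trans (jn_of_mem List.mem_cons_self))
  have hiC : i ∈ cls (f :: P) r := mem_cls.2 (hJ.trans (hlift hai))
  have hkC : k ∈ cls (f :: P) r := mem_cls.2 ((mem_cls.1 hcC).trans (hlift hck))
  have hclP : Cl (cls (f :: P) r) P :=
    (cl_cls (f :: P) r).mono fun e he => List.mem_cons_of_mem _ he
  have hDi : ∀ x : E3, ∀ Z, mv (cls (f :: P) r) (x, 0) Z ∈ D ↔ Z ∈ D := by
    intro x Z
    simp only [hD, mem_ofPred_eq]
    rw [run_mv hclP, lag_mv hclP haC hcC hiC hkC]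
  have hI1 := first_step (b := b) hΦ hε.ne' (f := f.1) hne hr (self_mem_cls _ _) haC hcC hRC
    hDm hDi
  have hI2 : ∫⁻ Z, spat (insert f.1.fst (R.erase r)) Z * (wgt b Z * D.indicator 1 Z) ≤
      K * ENNReal.ofReal (ε ^ 4 / δ ^ 3) * mass Φ ε T (b / 2 / 2) (insert c R₁) P := by
    refine le_trans (lintegral_mono fun Z => ?_) (lag_le hΦ hT hε hε1 hb hεδ
      (a := a) (c := c) (i := i) (k := k) (R := R₁) (P := P)
      (fun h => hac h.symm) (fun h => hac (hai.trans h.symm)) hck hc2)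
    refine mul_le_mul' le_rfl (mul_le_mul' le_rfl ?_)
    by_cases hZ : Z ∈ D
    · rw [indicator_of_mem hZ, runI_of _ hZ.1, one_mul, indicator_of_mem]
      exact hZ.2
    · rw [indicator_of_notMem hZ]
      exact zero_le
  have hI3 : ∫⁻ Z, spat R Z * (wgt b Z *
      {Z : ι → Ph | Oc ε f.1 Z ∧ lineApp Φ ε f.1 Z ∈ D}.indicator 1 Z) ≤
      K * C₁ * τ ^ n * ENNReal.ofReal (ε ^ 2) ^ (Fintype.card ι - R.card) *
        ENNReal.ofReal δ := by
    refine hI1.trans (hI2.trans ?_)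
    have h1 := H₁ P hn (fun e' he' => by rw [hpl e' he']; exact hT) ε hε _ hc3
    rw [Finset.card_insert_of_notMem hc1, hcard] at h1
    have h2 : cost ε [] P ≤ τ ^ n := by
      rw [← hn]
      exact cost_le hT hε1 [] fun e' he' => (hpl e' he').le
    have h3 : R.card + 1 ≤ Fintype.card ι := by
      rw [← hcard, ← Finset.card_insert_of_notMem hc1]
      exact Finset.card_le_univ _
    have h4 : ENNReal.ofReal (ε ^ 2) ^ (Fintype.card ι - R.card) =
        ENNReal.ofReal (ε ^ 2) ^ (Fintype.card ι - (R.card + 1)) * ENNReal.ofReal (ε ^ 2) := by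
      rw [← pow_succ]; congr 1; omega
    have h5 : ε ^ 4 / δ ^ 3 = ε ^ 2 * δ := by
      rw [div_eq_iff (by positivity)]
      have : ε ^ 4 = ε ^ 2 * (δ ^ 2) ^ 2 := by rw [hδ2]; ring
      rw [this]; ring
    rw [h5, ENNReal.ofReal_mul (by positivity)]
    calc K * (ENNReal.ofReal (ε ^ 2) * ENNReal.ofReal δ) *
          mass Φ ε T (b / 2 / 2) (insert c R₁) P
        ≤ K * (ENNReal.ofReal (ε ^ 2) * ENNReal.ofReal δ) *
          (C₁ * ENNReal.ofReal (ε ^ 2) ^ (Fintype.card ι - (R.card + 1)) * τ ^ n) :=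
          mul_le_mul' le_rfl (h1.trans (mul_le_mul' le_rfl h2))
      _ = _ := by rw [h4]; ring
  -- the second part: an early event
  rcases first_use P a c with hu | ⟨P₁, g, P₂, hP, hu, hg⟩
  · -- no event: impossible
    have hia : i = a := ((jn_unused (fun e he => (hu e he).1) hai).1 rfl)
    have hkc : k = c := ((jn_unused (fun e he => (hu e he).2) hck).1 rfl)
    have h0 : mass Φ ε T b R (f :: (P ++ [e])) = 0 := by
      refine mass_zero fun Z => ?_
      rintro ⟨s, h1, h2, h3, h4⟩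
      obtain ⟨σ, -, -, h5⟩ := h4.last
      have hM : Meets ε (Z a, Z c) := h3.2.1
      refine not_at_after (i := a) (k := c) hΦ hε hM ?_
        (by
          rw [finB_unused fun e he => (hu e he).1]
          change birthApp Φ ε (Ev.sc a c) _ Z a = _
          simp only [birthApp]
          rw [Function.update_of_ne hne, Function.update_self])
        (by
          rw [finZ_unused fun e he => (hu e he).1]
          exact lineApp_fst hne Z)
        (by
          rw [finZ_unused fun e he => (hu e he).2]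
          exact lineApp_snd Z) h5
      rcases hik with ⟨h6, h7⟩ | ⟨h6, h7⟩
      · exact Or.inl ⟨h6 ▸ hia, h7 ▸ hkc⟩
      · exact Or.inr ⟨h7 ▸ hkc, h6 ▸ hia⟩
    rw [h0]
    exact zero_le
  · -- the event `g`
    have hgT : g.2 = T := hpl g (by rw [hP]; simp)
    set P' : List (Ev ι × ℝ) := f :: (P₁ ++ (g.1, δ) :: P₂) with hP'
    have hsplit : ∀ Z, Run Φ ε T 0 (f :: (P ++ [e])) (fun _ => 0) Z →
        (Oc ε f.1 Z ∧ lineApp Φ ε f.1 Z ∈ D) ∨ Run Φ ε T 0 P' (fun _ => 0) Z := by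
      rintro Z ⟨s, h1, h2, h3, h4⟩
      rw [hP, List.append_assoc, List.cons_append] at h4
      have hM : Meets ε (Z a, Z c) := h3.2.1
      have hX : Exits Φ (rel ε (Z a, Z c)) := h3.2.2.1
      have hs : hitT ε (Z a, Z c) = s := h3.2.2.2.1
      have hsep := hitT_lt_sepT hΦ hε hX hM.2
      have hsT : sepT Φ ε (Z a, Z c) ≤ T := h3.2.2.2.2.2.2.1
      have hβa : ∀ x : ι → ℝ, birthApp Φ ε (Ev.sc a c) x Z a = sepT Φ ε (Z a, Z c) := by
        intro x
        simp only [birthApp]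
        rw [Function.update_of_ne hne, Function.update_self]
      have hβc : ∀ x : ι → ℝ, birthApp Φ ε (Ev.sc a c) x Z c = sepT Φ ε (Z a, Z c) := by
        intro x
        simp only [birthApp]
        rw [Function.update_self]
      have hθ : sepT Φ ε (Z a, Z c) ≤ max
          (finB Φ ε P₁ (birthApp Φ ε f.1 (fun _ => 0) Z) (lineApp Φ ε f.1 Z) g.1.fst)
          (finB Φ ε P₁ (birthApp Φ ε f.1 (fun _ => 0) Z) (lineApp Φ ε f.1 Z) g.1.snd) := by
        rcases hg with h | h | h | h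
        · refine le_trans (le_of_eq ?_) (le_max_left _ _)
          rw [h, finB_unused fun e he => (hu e he).1]
          exact (hβa _).symm
        · refine le_trans (le_of_eq ?_) (le_max_right _ _)
          rw [h, finB_unused fun e he => (hu e he).1]
          exact (hβa _).symm
        · refine le_trans (le_of_eq ?_) (le_max_left _ _)
          rw [h, finB_unused fun e he => (hu e he).2]
          exact (hβc _).symm
        · refine le_trans (le_of_eq ?_) (le_max_right _ _)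
          rw [h, finB_unused fun e he => (hu e he).2]
          exact (hβc _).symm
      rcases run_mark (δ := δ) h4 hθ with ⟨σ, h5, h6, h7⟩ | h5
      · left
        refine ⟨at_oc h3, ?_, sepT Φ ε (Z a, Z c), σ, by linarith, h5, h6, ?_, ?_⟩
        · rw [hP]
          have h8 : Run Φ ε T s ((P₁ ++ g :: P₂) ++ [e]) (birthApp Φ ε f.1 (fun _ => 0) Z)
              (lineApp Φ ε f.1 Z) := by
            rw [List.append_assoc, List.cons_append]; exact h4
          exact run_zero hΦ hε (fun e' he' => hpl e' (by rw [hP]; exact he')) h1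
            (birthApp_nonneg hΦ hε h1 h3 fun _ => le_rfl) h8.left
        · change ‖(free _ (lineApp Φ ε (Ev.sc a c) Z a)).1 -
            (free _ (lineApp Φ ε (Ev.sc a c) Z c)).1‖ ≤ ε
          rw [lineApp_fst hne, lineApp_snd]
          exact (dist_sepT hΦ hε hM).le
        · rw [hP]
          exact hlast h7
      · exact Or.inr ⟨s, h1, h2, h3, h5⟩
    have h1 : mass Φ ε T b R (f :: (P ++ [e])) ≤ (∫⁻ Z, spat R Z * (wgt b Z *
        {Z : ι → Ph | Oc ε f.1 Z ∧ lineApp Φ ε f.1 Z ∈ D}.indicator 1 Z)) +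
        mass Φ ε T b R P' := by
      unfold mass
      have hLm : Measurable fun Z : ι → Ph => lineApp Φ ε f.1 Z :=
        measurable_lineApp hΦ hε.ne' f.1 measurable_id
      have hSm : MeasurableSet {Z : ι → Ph | Oc ε f.1 Z ∧ lineApp Φ ε f.1 Z ∈ D} :=
        (measurableSet_oc f.1).inter (hLm hDm)
      have hm : Measurable fun Z : ι → Ph => spat R Z * (wgt b Z *
          {Z : ι → Ph | Oc ε f.1 Z ∧ lineApp Φ ε f.1 Z ∈ D}.indicator 1 Z) :=
        (measurable_spat _).mul ((measurable_wgt _).mul (measurable_one.indicator hSm))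
      rw [← lintegral_add_left hm]
      refine lintegral_mono fun Z => ?_
      rw [← mul_add, ← mul_add]
      refine mul_le_mul' le_rfl (mul_le_mul' le_rfl ?_)
      by_cases hZ : Run Φ ε T 0 (f :: (P ++ [e])) (fun _ => 0) Z
      · rw [runI_of _ hZ]
        rcases hsplit Z hZ with h | h
        · rw [indicator_of_mem (show Z ∈ {Z : ι → Ph | Oc ε f.1 Z ∧
            lineApp Φ ε f.1 Z ∈ D} from h)]
          exact le_self_add
        · rw [runI_of _ h]
          exact le_add_self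
      · rw [runI_not _ hZ]
        exact zero_le
    have h2 : mass Φ ε T b R P' ≤ C₂ * (2 * τ ^ n) *
        ENNReal.ofReal (ε ^ 2) ^ (Fintype.card ι - R.card) * ENNReal.ofReal δ := by
      have hlen : P₁.length + P₂.length + 1 = n := by
        rw [← hn, hP]; simp; omega
      have h3 := H₂ P' (by simp [hP']; omega) (by
        intro e' he'
        simp only [hP', List.mem_cons, List.mem_append] at he'
        rcases he' with h | h | h | h
        · rw [h]; exact hT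
        · rw [hpl e' (by rw [hP]; simp [h])]; exact hT
        · rw [h]; exact hδ0.le
        · rw [hpl e' (by rw [hP]; simp [h])]; exact hT) ε hε R (by
          refine hRP.congr fun i k => ?_
          rw [hP, hP', ← List.cons_append, ← List.cons_append]
          exact jn_mark.symm)
      have h4 : cost ε [] P' ≤ 2 * τ ^ n * ENNReal.ofReal δ := by
        have h5 : P' = (f :: P₁) ++ (g.1, δ) :: P₂ := rfl
        rw [h5, cost_append, List.nil_append]
        have h6 : ¬Jn (f :: P₁) g.1.fst g.1.snd := by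
          intro h
          exact hfor ⟨f :: P₁, g, P₂, by rw [hP]; rfl, h⟩
        have h7 : cost ε [] (f :: P₁) ≤ τ ^ (P₁.length + 1) := by
          have := cost_le (P := f :: P₁) hT hε1 [] (by
            intro e' he'
            rcases List.mem_cons.1 he' with h | h
            · rw [h]
            · exact (hpl e' (by rw [hP]; simp [h])).le)
          simpa using this
        have h8 : cost ε (f :: P₁) ((g.1, δ) :: P₂) ≤ (2 * ENNReal.ofReal δ) *
            τ ^ P₂.length := by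
          simp only [cost]
          rw [if_neg h6]
          refine mul_le_mul' ?_ (cost_le hT hε1 _ fun e' he' =>
            (hpl e' (by rw [hP]; simp [he'])).le)
          have : (2 : ℝ≥0∞) = ENNReal.ofReal 2 := by simp
          rw [this, ← ENNReal.ofReal_mul (by norm_num)]
          exact ENNReal.ofReal_le_ofReal (by linarith)
        calc cost ε [] (f :: P₁) * cost ε (f :: P₁) ((g.1, δ) :: P₂)
            ≤ τ ^ (P₁.length + 1) * ((2 * ENNReal.ofReal δ) * τ ^ P₂.length) :=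
              mul_le_mul' h7 h8
          _ = 2 * τ ^ (P₁.length + 1 + P₂.length) * ENNReal.ofReal δ := by
              rw [pow_add]; ring
          _ = _ := by
              congr 3; omega
      calc mass Φ ε T b R P' ≤ C₂ * ENNReal.ofReal (ε ^ 2) ^ (Fintype.card ι - R.card) *
            cost ε [] P' := h3
        _ ≤ C₂ * ENNReal.ofReal (ε ^ 2) ^ (Fintype.card ι - R.card) *
            (2 * τ ^ n * ENNReal.ofReal δ) := mul_le_mul' le_rfl h4
        _ = _ := by ring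
    calc mass Φ ε T b R (f :: (P ++ [e])) ≤ _ := h1
      _ ≤ K * C₁ * τ ^ n * ENNReal.ofReal (ε ^ 2) ^ (Fintype.card ι - R.card) *
          ENNReal.ofReal δ + C₂ * (2 * τ ^ n) *
          ENNReal.ofReal (ε ^ 2) ^ (Fintype.card ι - R.card) * ENNReal.ofReal δ :=
          add_le_add hI3 h2
      _ = _ := by ring

end Vale.Agent.P119.IND
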