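import Vale.Agent.P119.IND.OneWorld
import Vale.Agent.P119.IND.Extract

/-!
# P119, block IND: families of histories from records (`helper498`)

`𝒲 v` are finite worlds.  A record `m` is a history `m.R` with a time `m.r` and the set `m.S` of the
worlds in which it is up at `m.r`; it is not live at `m.r` in the other worlds (`Rec.Ok`).

* `AllFree R x`: `R` has no hit before `x` in any of the worlds;
* `GP m m'`: the relation between two records which occurs in the explorations;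
* `GP.cmp`: the participants are comparable; `GP.last`: the root of `m.R` is not used by `m'` after
  `m.R`; `GP.ne`: the roots are different; `cur_of_allFree`, `ne_of_allFree`: legs.
* `exists_fam`: the family of all the participants with the ghosts.
-/

open MeasureTheory Filter Topology Set
open scoped ENNReal NNReal

noncomputable section

namespace Vale.Agent.P119.IND

open KU M M.CTree TL

variable {Φ : E3 → ℝ} {ε : ℝ} {L : ℕ} {κ : Type*} {𝒲 : κ → Set Src}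

/-- A record. -/
structure Rc (κ : Type*) where
  /-- the history -/
  R : CTree
  /-- the time -/
  r : ℝ
  /-- the worlds in which it is up -/
  S : Set κ

/-- The conditions on a record. -/
structure Rc.Ok (Φ : E3 → ℝ) (ε : ℝ) (L : ℕ) (𝒲 : κ → Set Src) (m : Rc κ) : Prop where
  up : ∀ v ∈ m.S, Up Φ ε L (𝒲 v) m.R m.r
  down : ∀ v, v ∉ m.S → ¬live Φ ε L (𝒲 v) m.R m.r
  ne : m.S.Nonempty

/-- No hit before `x` in any world. -/
def AllFree (Φ : E3 → ℝ) (ε : ℝ) (L : ℕ) (𝒲 : κ → Set Src) (R : CTree) (x : ℝ) : Prop :=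
  ∀ v, Free Φ ε L (𝒲 v) R x

/-- The relation between two records. -/
def GP (Φ : E3 → ℝ) (ε : ℝ) (L : ℕ) (𝒲 : κ → Set Src) (m m' : Rc κ) : Prop :=
  (AllFree Φ ε L 𝒲 m.R m'.r ∧ m'.S ≠ univ) ∨ (AllFree Φ ε L 𝒲 m'.R m.r ∧ m.S ≠ univ) ∨
    ((∃ v, v ∈ m.S ∧ v ∈ m'.S) ∧ (m.r < m'.r → ∃ v, v ∈ m'.S ∧ v ∉ m.S) ∧
      (m'.r < m.r → ∃ v, v ∈ m.S ∧ v ∉ m'.S) ∧
      (m.r = m'.r → m.S ≠ m'.S ∨ m.R.root ≠ m'.R.root))

theorem GP.symm {m m' : Rc κ} (h : GP Φ ε L 𝒲 m m') : GP Φ ε L 𝒲 m' m := by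
  rcases h with h | h | ⟨⟨v, h1, h2⟩, h3, h4, h5⟩
  · exact Or.inr (Or.inl h)
  · exact Or.inl h
  · exact Or.inr (Or.inr ⟨⟨v, h2, h1⟩, h4, h3, fun h6 => (h5 h6.symm).imp Ne.symm Ne.symm⟩)

theorem Rc.Ok.ok {m : Rc κ} (h : m.Ok Φ ε L 𝒲) : ok Φ ε m.R := by
  obtain ⟨v, hv⟩ := h.ne
  exact (h.up v hv).live.ok

theorem Rc.Ok.depth {m : Rc κ} (h : m.Ok Φ ε L 𝒲) : m.R.depth ≤ L := by
  obtain ⟨v, hv⟩ := h.ne
  exact (h.up v hv).live.depth

/-- Nodes among the participants begin before the time of the record. -/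
theorem Rc.Ok.sig_lt (hΦ : IsPotential Φ) (hε : 0 < ε) {m : Rc κ} (h : m.Ok Φ ε L 𝒲) {a b : CTree}
    (hP : node a b ∈ parts m.R) : sig Φ ε (node a b) < m.r := by
  obtain ⟨v, hv⟩ := h.ne
  rcases (h.up v hv).sig_lt hΦ hε hP with h1 | h1
  · exact h1
  · exact absurd h1 (by simp [CTree.root])

theorem Rc.Ok.sig_lt' (hΦ : IsPotential Φ) (hε : 0 < ε) {m : Rc κ} (h : m.Ok Φ ε L 𝒲) {P : CTree}
    (hP : P ∈ parts m.R) : sig Φ ε P < m.r ∨ P = leaf P.root := by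
  obtain ⟨v, hv⟩ := h.ne
  exact (h.up v hv).sig_lt hΦ hε hP

theorem AllFree.mono {R : CTree} {x y : ℝ} (h : AllFree Φ ε L 𝒲 R x) (hy : y ≤ x) :
    AllFree Φ ε L 𝒲 R y := fun v => (h v).mono hy

/-- **Participants are comparable.** -/
theorem GP.cmp (hΦ : IsPotential Φ) (hε : 0 < ε) (hW : ∀ v, (𝒲 v).Finite) {m m' : Rc κ}
    (hm : m.Ok Φ ε L 𝒲) (hm' : m'.Ok Φ ε L 𝒲) (h : GP Φ ε L 𝒲 m m') {P Q : CTree}
    (hP : P ∈ parts m.R) (hQ : Q ∈ parts m'.R) (hr : P.root = Q.root) :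
    Spine P Q ∨ Spine Q P := by
  rcases h with ⟨h, -⟩ | ⟨h, -⟩ | ⟨⟨v, h1, h2⟩, -⟩
  · obtain ⟨v, hv⟩ := hm'.ne
    exact comparable hΦ hε (hW v) (h v) (hm'.up v hv) le_rfl hP hQ hr
  · obtain ⟨v, hv⟩ := hm.ne
    exact (comparable hΦ hε (hW v) (h v) (hm.up v hv) le_rfl hQ hP hr.symm).symm
  · rcases le_total m'.r m.r with h3 | h3
    · exact comparable hΦ hε (hW v) (hm.up v h1).free (hm'.up v h2) h3 hP hQ hr
    · exact (comparable hΦ hε (hW v) (hm'.up v h2).free (hm.up v h1) h3 hQ hP hr.symm).symm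

/-- Participants of one record are comparable. -/
theorem Rc.Ok.cmp (hΦ : IsPotential Φ) (hε : 0 < ε) (hW : ∀ v, (𝒲 v).Finite) {m : Rc κ}
    (hm : m.Ok Φ ε L 𝒲) {P Q : CTree} (hP : P ∈ parts m.R) (hQ : Q ∈ parts m.R)
    (hr : P.root = Q.root) : Spine P Q ∨ Spine Q P := by
  obtain ⟨v, hv⟩ := hm.ne
  exact comparable hΦ hε (hW v) (hm.up v hv).free (hm.up v hv) le_rfl hP hQ hr

/-- A participant of `m'` with the root of `m.R`, if `m.R` is free up to the time of `m'`. -/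
theorem spine_of_parts (hΦ : IsPotential Φ) (hε : 0 < ε) (hW : ∀ v, (𝒲 v).Finite) {R : CTree}
    {m' : Rc κ} (hm' : m'.Ok Φ ε L 𝒲) {v : κ} (hv : v ∈ m'.S) (h : Free Φ ε L (𝒲 v) R m'.r)
    {Q : CTree} (hQ : Q ∈ parts m'.R) (hr : Q.root = R.root) : Spine Q R := by
  rcases (hm'.up v hv).sig_lt hΦ hε hQ with h1 | h1
  · exact spine_of_free hΦ hε (hW v) h
      ((FB.of_parts hΦ hε (hm'.up v hv).free hQ).lives h1) h1 hr
  · rw [h1, hr]
    exact Spine.leaf R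

/-- **The root of `m.R` is not used by `m'` after `m.R`.** -/
theorem GP.last (hΦ : IsPotential Φ) (hε : 0 < ε) (hW : ∀ v, (𝒲 v).Finite) {m m' : Rc κ}
    (hm : m.Ok Φ ε L 𝒲) (hm' : m'.Ok Φ ε L 𝒲) (h : GP Φ ε L 𝒲 m m') {Q : CTree}
    (hx : m'.r ≤ m.r ∨ ext Φ ε m.R ≤ m.r)
    (hQ : Q ∈ parts m'.R) (hr : Q.root = m.R.root) : Spine Q m.R := by
  have key : ∀ {v v' : κ} {ρ : ℝ}, v ∈ m.S → v' ∉ m.S → ext Φ ε m.R ≤ m.r →
      Free Φ ε L (𝒲 v) m'.R ρ → Free Φ ε L (𝒲 v') m'.R ρ → (m.r ≤ ρ ∨ sig Φ ε Q < ρ) →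
      Spine Q m.R := by
    intro v v' ρ hv hv' he h1 h2 h3
    rcases h.cmp hΦ hε hW hm hm' (self_mem_parts m.R) hQ hr.symm with h4 | h4
    · have h5 : m.R = Q := eq_of_spine hΦ hε (hW v) (hW v')
        ((alive_iff_live hΦ hε (hW v)).2 ⟨(hm.up v hv).live, he⟩)
        (fun hal => hm.down v' hv' ((alive_iff_live hΦ hε (hW v')).1 hal).1)
        (FB.of_parts hΦ hε h1 hQ) (FB.of_parts hΦ hε h2 hQ) h3 h4
      rw [h5]
      exact Spine.refl Q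
    · exact h4
  rcases h with ⟨h, -⟩ | ⟨h, hS⟩ | ⟨⟨v, h1, h2⟩, h3, -⟩
  · obtain ⟨v, hv⟩ := hm'.ne
    exact spine_of_parts hΦ hε hW hm' hv (h v) hQ hr
  · obtain ⟨v', hv'⟩ := (ne_univ_iff_exists_notMem _).1 hS
    obtain ⟨v, hv⟩ := hm.ne
    rcases hx with hx | hx
    · have h1 := (hm.up v hv).free
      obtain ⟨w, hw⟩ := hm'.ne
      by_cases hwS : w ∈ m.S
      · exact spine_of_parts hΦ hε hW hm' hw ((hm.up w hwS).free.mono hx) hQ hr
      · -- `m'.R` is free everywhere up to `m.r`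
        rcases (hm'.up w hw).sig_lt hΦ hε hQ with h4 | h4
        · exact spine_of_free hΦ hε (hW v) h1
            ((FB.of_parts hΦ hε (h v) hQ).lives (h4.trans_le hx)) (h4.trans_le hx) hr
        · rw [h4, hr]
          exact Spine.leaf _
    · exact key hv hv' hx (h v) (h v') (Or.inl le_rfl)
  · rcases le_or_gt m'.r m.r with h4 | h4
    · exact spine_of_parts hΦ hε hW hm' h2 ((hm.up v h1).free.mono h4) hQ hr
    · obtain ⟨v', h5, h6⟩ := h3 h4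
      rcases hm'.sig_lt' hΦ hε hQ with h7 | h7
      · exact key h1 h6 (hx.resolve_left (not_le.2 h4)) (hm'.up v h2).free (hm'.up v' h5).free
          (Or.inr h7)
      · rw [h7, hr]
        exact Spine.leaf _

theorem Rc.Ok.last (hΦ : IsPotential Φ) (hε : 0 < ε) (hW : ∀ v, (𝒲 v).Finite) {m : Rc κ}
    (hm : m.Ok Φ ε L 𝒲) {Q : CTree} (hQ : Q ∈ parts m.R) (hr : Q.root = m.R.root) :
    Spine Q m.R := by
  obtain ⟨v, hv⟩ := hm.ne
  exact spine_of_parts hΦ hε hW hm hv (hm.up v hv).free hQ hr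

/-- **The roots of two records are different.** -/
theorem GP.root_ne (hΦ : IsPotential Φ) (hε : 0 < ε) (hW : ∀ v, (𝒲 v).Finite) {m m' : Rc κ}
    (hm : m.Ok Φ ε L 𝒲) (hm' : m'.Ok Φ ε L 𝒲) (h : GP Φ ε L 𝒲 m m')
    (hx : ext Φ ε m.R ≤ m.r) (hx' : ext Φ ε m'.R ≤ m'.r) : m.R.root ≠ m'.R.root := by
  intro hr
  have e : m.R = m'.R := by
    refine Spine.antisymm ?_ ?_
    · exact h.symm.last hΦ hε hW hm' hm (Or.inr hx') (self_mem_parts _) hr
    · exact h.last hΦ hε hW hm hm' (Or.inr hx) (self_mem_parts _) hr.symm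
  have hs := (sig_le_ext hΦ hε hm.ok).trans hx
  have hs' := (sig_le_ext hΦ hε hm'.ok).trans hx'
  rcases h with ⟨h, hS⟩ | ⟨h, hS⟩ | ⟨⟨v, h1, h2⟩, h3, h4, h5⟩
  · obtain ⟨v, hv⟩ := (ne_univ_iff_exists_notMem _).1 hS
    refine hm'.down v hv ?_
    rw [← e]
    exact (h v).live (by rw [e]; exact hs')
  · obtain ⟨v, hv⟩ := (ne_univ_iff_exists_notMem _).1 hS
    refine hm.down v hv ?_
    rw [e]
    exact (h v).live (by rw [← e]; exact hs)
  · rcases lt_trichotomy m.r m'.r with h6 | h6 | h6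
    · obtain ⟨w, h7, h8⟩ := h3 h6
      refine hm.down w h8 ?_
      rw [e]
      exact ((hm'.up w h7).free.mono h6.le).live (by rw [← e]; exact hs)
    · rcases h5 h6 with h7 | h7
      · refine h7 (Set.ext fun w => ⟨fun h8 => ?_, fun h8 => ?_⟩)
        · by_contra h9
          refine hm'.down w h9 ?_
          rw [← e, ← h6]
          exact (hm.up w h8).live
        · by_contra h9
          refine hm.down w h9 ?_
          rw [e, h6]
          exact (hm'.up w h8).live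
      · exact h7 hr
    · obtain ⟨w, h7, h8⟩ := h4 h6
      refine hm'.down w h8 ?_
      rw [← e]
      exact ((hm.up w h7).free.mono h6.le).live (by rw [e]; exact hs')

/-- **A leg which is hit at `x` has no collision before `x`.** -/
theorem cur_of_allFree (hΦ : IsPotential Φ) (hε : 0 < ε) (hW : ∀ v, (𝒲 v).Finite) {m' : Rc κ}
    (hm' : m'.Ok Φ ε L 𝒲) {Y y : CTree} {x : ℝ} (hY : AllFree Φ ε L 𝒲 Y x)
    (hN : node Y y ∈ parts m'.R) : x ≤ sig Φ ε (node Y y) := by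
  obtain ⟨v, hv⟩ := hm'.ne
  exact le_sig_of_leg hΦ hε (hW v) (hY v).nohit (FB.of_parts hΦ hε (hm'.up v hv).free hN)
    (Or.inl (hm'.sig_lt hΦ hε hN))

/-- **The root of a record is not the root of a leg which is hit later.** -/
theorem GP.leg_ne (hΦ : IsPotential Φ) (hε : 0 < ε) (hW : ∀ v, (𝒲 v).Finite) {m m' : Rc κ}
    (hm : m.Ok Φ ε L 𝒲) (hm' : m'.Ok Φ ε L 𝒲) (h : GP Φ ε L 𝒲 m m' ∨ m = m')
    (hx : ext Φ ε m.R ≤ m.r) (hS : m.S ≠ univ) {Y : CTree} {x : ℝ} (hxr : m.r ≤ x)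
    (hY : AllFree Φ ε L 𝒲 Y x) (hYm : Y ∈ parts m'.R) : m.R.root ≠ Y.root := by
  intro hr
  have h1 : Spine Y m.R := by
    rcases h with h | h
    · exact h.last hΦ hε hW hm hm' (Or.inr hx) hYm hr.symm
    · subst h
      exact hm.last hΦ hε hW hYm hr.symm
  by_cases hne : Y = m.R
  · obtain ⟨v, hv⟩ := (ne_univ_iff_exists_notMem _).1 hS
    refine hm.down v hv ?_
    rw [← hne]
    refine ((hY v).mono hxr).live ?_
    rw [hne]
    exact (sig_le_ext hΦ hε hm.ok).trans hx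
  · obtain ⟨y, hy⟩ := IND.exists_next h1 hne
    have h2 : node Y y ∈ parts m.R := Or.inl (sub_of_spine hy)
    have h3 := cur_of_allFree hΦ hε hW hm hY h2
    have h4 := hm.sig_lt hΦ hε h2
    linarith

/-! ### The family -/

theorem parts_ext_le (hΦ : IsPotential Φ) (hε : 0 < ε) {P R : CTree} (h : P ∈ parts R)
    (hR : ok Φ ε R) : ext Φ ε P ≤ ext Φ ε R := by
  rcases h with h | h
  · exact h.ext_le hΦ hε hR
  · obtain ⟨a, b, h1, rfl⟩ := exs_iff.1 h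
    rw [ext_swap hΦ a b]
    exact h1.ext_le hΦ hε hR

open Classical in
/-- The participants of a list of records. -/
def famF (𝓜 : List (Rc κ)) : Finset CTree :=
  𝓜.toFinset.biUnion fun m => (parts_finite m.R).toFinset

theorem mem_famF {𝓜 : List (Rc κ)} {P : CTree} : P ∈ famF 𝓜 ↔ ∃ m ∈ 𝓜, P ∈ parts m.R := by
  classical
  unfold famF
  simp only [Finset.mem_biUnion, List.mem_toFinset, Finite.mem_toFinset]

open Classical in
/-- The participants which have left their collisions at the time `T`. -/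
def famT (Φ : E3 → ℝ) (ε T : ℝ) (𝓜 : List (Rc κ)) : Finset CTree :=
  (famF 𝓜).filter fun P => ext Φ ε P ≤ T

theorem mem_famT {𝓜 : List (Rc κ)} {T : ℝ} {P : CTree} :
    P ∈ famT Φ ε T 𝓜 ↔ (∃ m ∈ 𝓜, P ∈ parts m.R) ∧ ext Φ ε P ≤ T := by
  classical
  unfold famT
  rw [Finset.mem_filter, mem_famF]

/-- A link: the record `m` is in contact with the undisturbed history `Y`. -/
structure Lk (Φ : E3 → ℝ) (ε : ℝ) (L : ℕ) (𝒲 : κ → Set Src) (𝓜 : List (Rc κ)) (m : Rc κ)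
    (Y : CTree) : Prop where
  mem : m ∈ 𝓜
  ext : ext Φ ε m.R ≤ m.r
  ne : m.S ≠ univ
  free : AllFree Φ ε L 𝒲 Y m.r
  tgt : ∃ m' ∈ 𝓜, Y ∈ parts m'.R
  extY : CTree.ext Φ ε Y ≤ m.r
  ctc : Ctc ε (KU.free m.r (ln Φ ε m.R)) (KU.free m.r (ln Φ ε Y))
  root_ne : m.R.root ≠ Y.root

/-- The ghosts of a path of histories at the time `s`. -/
def pg (s : ℝ) : List (Rc κ) → List Gh
  | a :: b :: l => (a.R, b.R, s) :: pg s (b :: l)
  | [_] => []
  | [] => []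

theorem mem_pg {s : ℝ} {R : Rc κ → Rc κ → Prop} : ∀ {l : List (Rc κ)}, l.IsChain R → ∀ {g : Gh},
    g ∈ pg s l → ∃ a ∈ l, ∃ b ∈ l, R a b ∧ g = (a.R, b.R, s)
  | [], _, _, hg => absurd hg (by simp [pg])
  | [_], _, _, hg => absurd hg (by simp [pg])
  | a :: b :: l, h, g, hg => by
    rw [List.isChain_cons_cons] at h
    rcases List.mem_cons.1 hg with rfl | hg
    · exact ⟨a, List.mem_cons_self, b, List.mem_cons_of_mem _ List.mem_cons_self, h.1, rfl⟩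
    · obtain ⟨c, hc, d, hd, h1, h2⟩ := mem_pg h.2 hg
      exact ⟨c, List.mem_cons_of_mem _ hc, d, List.mem_cons_of_mem _ hd, h1, h2⟩

theorem mem_pg' {s : ℝ} : ∀ {l : List (Rc κ)} {g : Gh},
    g ∈ pg s l → ∃ a ∈ l, ∃ b ∈ l, g = (a.R, b.R, s) := by
  intro l g hg
  obtain ⟨a, ha, b, hb, -, h⟩ := mem_pg (R := fun _ _ => True) (l := l)
    (List.isChain_iff_getElem.2 fun _ _ => trivial) hg
  exact ⟨a, ha, b, hb, h⟩

/-- The roots of the path are different: the first label of a ghost does not occur later. -/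
theorem pairwise_pg {s : ℝ} : ∀ {l : List (Rc κ)},
    l.Pairwise (fun a b => a.R.root ≠ b.R.root) →
    (pg s l).Pairwise fun g g' => g.2.2 ≤ g'.2.2 ∧ g.1.root ≠ g'.1.root ∧ g.1.root ≠ g'.2.1.root
  | [], _ => List.Pairwise.nil
  | [_], _ => List.Pairwise.nil
  | a :: b :: l, h => by
    have h1 := List.pairwise_cons.1 h
    refine List.pairwise_cons.2 ⟨fun g hg => ?_, pairwise_pg h1.2⟩
    obtain ⟨c, hc, d, hd, rfl⟩ := mem_pg' hg
    exact ⟨le_rfl, h1.1 c hc, h1.1 d hd⟩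

/-- The ghosts of the links. -/
def lgs (𝓛 : List (Rc κ × CTree)) : List Gh := 𝓛.map fun x => (x.1.R, x.2, x.1.r)

/-- **The family of all the participants of the records, with the ghosts.** -/
theorem exists_fam (hΦ : IsPotential Φ) (hε : 0 < ε) (hW : ∀ v, (𝒲 v).Finite) {T s : ℝ}
    (𝓜 : List (Rc κ)) (hok : ∀ m ∈ 𝓜, m.Ok Φ ε L 𝒲)
    (hgp : ∀ m ∈ 𝓜, ∀ m' ∈ 𝓜, m = m' ∨ GP Φ ε L 𝒲 m m')
    (𝓛 : List (Rc κ × CTree))
    (hL : ∀ x ∈ 𝓛, Lk Φ ε L 𝒲 𝓜 x.1 x.2) (hLp : 𝓛.Pairwise fun x y => GP Φ ε L 𝒲 x.1 y.1)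
    (hs : ∀ x ∈ 𝓛, x.1.r < s) (hsT : s ≤ T) (Pa : List (Rc κ))
    (hP : ∀ m ∈ Pa, m ∈ 𝓜 ∧ m.r = s ∧ ext Φ ε m.R ≤ s) (hPp : Pa.Pairwise (GP Φ ε L 𝒲))
    (hPc : Pa.IsChain fun a b => Ctc ε (KU.free s (ln Φ ε a.R)) (KU.free s (ln Φ ε b.R))) :
    ∃ G₁ : List Gh, G₁.Perm (lgs 𝓛) ∧ Fam Φ ε T (famT Φ ε T 𝓜) (G₁ ++ pg s Pa) := by
  classical
  -- the relations
  have last : ∀ m ∈ 𝓜, ext Φ ε m.R ≤ m.r → ∀ Q ∈ famF 𝓜, Q.root = m.R.root → Spine Q m.R := by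
    intro m hm he Q hQ hr
    obtain ⟨m', hm', hQ'⟩ := mem_famF.1 hQ
    rcases hgp m hm m' hm' with h | h
    · subst h
      exact (hok m hm).last hΦ hε hW hQ' hr
    · exact h.last hΦ hε hW (hok m hm) (hok m' hm') (Or.inr he) hQ' hr
  have cmp : ∀ P ∈ famF 𝓜, ∀ Q ∈ famF 𝓜, P.root = Q.root → Spine P Q ∨ Spine Q P := by
    intro P hP Q hQ hr
    obtain ⟨m, hm, hP'⟩ := mem_famF.1 hP
    obtain ⟨m', hm', hQ'⟩ := mem_famF.1 hQ
    rcases hgp m hm m' hm' with h | h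
    · subst h
      exact (hok m hm).cmp hΦ hε hW hP' hQ' hr
    · exact h.cmp hΦ hε hW (hok m hm) (hok m' hm') hP' hQ' hr
  have cur : ∀ Y x, AllFree Φ ε L 𝒲 Y x → ∀ y, node Y y ∈ famF 𝓜 → x ≤ sig Φ ε (node Y y) := by
    intro Y x hY y hy
    obtain ⟨m', hm', hy'⟩ := mem_famF.1 hy
    exact cur_of_allFree hΦ hε hW (hok m' hm') hY hy'
  -- two links
  have pair : ∀ x ∈ 𝓛, ∀ y ∈ 𝓛, GP Φ ε L 𝒲 x.1 y.1 → x.1.r ≤ y.1.r →
      x.1.R.root ≠ y.1.R.root ∧ x.1.R.root ≠ y.2.root := by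
    intro x hx y hy hxy hle
    have h1 := hL x hx
    have h2 := hL y hy
    refine ⟨hxy.root_ne hΦ hε hW (hok _ h1.mem) (hok _ h2.mem) h1.ext h2.ext, ?_⟩
    obtain ⟨m', hm', hY⟩ := h2.tgt
    exact GP.leg_ne hΦ hε hW (hok _ h1.mem) (hok _ hm') ((hgp _ h1.mem _ hm').symm)
      h1.ext h1.ne hle h2.free hY
  -- sorting
  let le : Gh → Gh → Prop := fun g g' => g.2.2 ≤ g'.2.2
  have htot : Std.Total le := ⟨fun a b => le_total _ _⟩
  have htr : IsTrans Gh le := ⟨fun a b c => le_trans⟩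
  let G₁ : List Gh := List.insertionSort le (lgs 𝓛)
  have hperm : G₁.Perm (lgs 𝓛) := List.perm_insertionSort _ _
  have hsorted : G₁.Pairwise le := List.pairwise_insertionSort le _
  have hmem : ∀ g, g ∈ G₁ ↔ ∃ x ∈ 𝓛, g = (x.1.R, x.2, x.1.r) := by
    intro g
    rw [hperm.mem_iff]
    unfold lgs
    rw [List.mem_map]
    exact ⟨fun ⟨x, h1, h2⟩ => ⟨x, h1, h2.symm⟩, fun ⟨x, h1, h2⟩ => ⟨x, h1, h2.symm⟩⟩
  let rel : Gh → Gh → Prop := fun g g' =>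
    (g.2.2 ≤ g'.2.2 → g.1.root ≠ g'.1.root ∧ g.1.root ≠ g'.2.1.root) ∧
      (g'.2.2 ≤ g.2.2 → g'.1.root ≠ g.1.root ∧ g'.1.root ≠ g.2.1.root)
  have hrel : (lgs 𝓛).Pairwise rel := by
    unfold lgs
    rw [List.pairwise_map]
    refine hLp.imp_of_mem fun {x y} hx hy hxy => ?_
    exact ⟨fun h => pair x hx y hy hxy h, fun h => pair y hy x hx hxy.symm h⟩
  have hrel' : G₁.Pairwise rel :=
    (hperm.pairwise_iff (R := rel) fun {x y} h => ⟨h.2, h.1⟩).2 hrel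
  have hsrt : G₁.Pairwise fun g g' => g.2.2 ≤ g'.2.2 ∧ g.1.root ≠ g'.1.root ∧
      g.1.root ≠ g'.2.1.root := by
    refine (hsorted.and hrel').imp fun {g g'} h => ⟨h.1, h.2.1 h.1⟩
  have hroot : Pa.Pairwise fun a b => a.R.root ≠ b.R.root := by
    refine hPp.imp_of_mem fun {a b} ha hb hab => ?_
    obtain ⟨h1, h2, h3⟩ := hP a ha
    obtain ⟨h4, h5, h6⟩ := hP b hb
    exact hab.root_ne hΦ hε hW (hok _ h1) (hok _ h4) (by rw [h2]; exact h3) (by rw [h5]; exact h6)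
  have hmF : ∀ m ∈ 𝓜, ext Φ ε m.R ≤ T → m.R ∈ famT Φ ε T 𝓜 :=
    fun m hm he => mem_famT.2 ⟨⟨m, hm, self_mem_parts _⟩, he⟩
  have hsub : ∀ P ∈ famT Φ ε T 𝓜, P ∈ famF 𝓜 := fun P hP => mem_famF.2 (mem_famT.1 hP).1
  -- the ghosts of the path
  have hpath : ∀ g ∈ pg s Pa, ∃ a b, a ∈ 𝓜 ∧ b ∈ 𝓜 ∧ a.r = s ∧ b.r = s ∧ ext Φ ε a.R ≤ s ∧
      ext Φ ε b.R ≤ s ∧ a.R.root ≠ b.R.root ∧
      Ctc ε (KU.free s (ln Φ ε a.R)) (KU.free s (ln Φ ε b.R)) ∧ g = (a.R, b.R, s) := by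
    intro g hg
    have h0 : Pa.IsChain fun a b => Ctc ε (KU.free s (ln Φ ε a.R)) (KU.free s (ln Φ ε b.R)) ∧
        a.R.root ≠ b.R.root := by
      rw [List.isChain_iff_getElem] at hPc ⊢
      intro i hi
      exact ⟨hPc i hi, List.pairwise_iff_getElem.1 hroot i (i + 1) (by omega) hi (by omega)⟩
    obtain ⟨a, ha, b, hb, ⟨h1, h2⟩, h3⟩ := mem_pg h0 hg
    obtain ⟨h4, h5, h6⟩ := hP a ha
    obtain ⟨h7, h8, h9⟩ := hP b hb
    exact ⟨a, b, h4, h7, h5, h8, h6, h9, h2, h1, h3⟩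
  have hokF : ∀ P ∈ famT Φ ε T 𝓜, ok Φ ε P := by
    intro P hP
    obtain ⟨⟨m, hm, hP'⟩, -⟩ := mem_famT.1 hP
    exact parts_ok hΦ hP' (hok m hm).ok
  refine ⟨G₁, hperm, hokF, fun P hP => (mem_famT.1 hP).2, ?_,
    fun P hP Q hQ => cmp P (hsub P hP) Q (hsub Q hQ), ?_, ?_, ?_, ?_⟩
  · intro a b hab
    obtain ⟨⟨m, hm, h1⟩, h2⟩ := mem_famT.1 hab
    have h3 := hokF _ hab
    have h4 := sig_lt_ext hΦ hε h3
    have h5 : ext Φ ε a < sig Φ ε (node a b) := h3.2.2.2.2.2.1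
    have h6 : ext Φ ε b < sig Φ ε (node a b) := h3.2.2.2.2.2.2
    exact ⟨mem_famT.2 ⟨⟨m, hm, mem_parts_of_sub h1 (Sub.left b (Sub.refl a))⟩, by linarith⟩,
      mem_famT.2 ⟨⟨m, hm, mem_parts_of_sub h1 (Sub.right a (Sub.refl b))⟩, by linarith⟩,
      mem_famT.2 ⟨⟨m, hm, swap_mem_parts h1⟩, by rw [ext_swap hΦ]; exact h2⟩⟩
  · intro g hg
    rcases List.mem_append.1 hg with hg | hg
    · obtain ⟨x, hx, rfl⟩ := (hmem g).1 hg
      have h1 := hL x hx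
      obtain ⟨m', hm', hY⟩ := h1.tgt
      have h2 := (hs x hx).le.trans hsT
      exact ⟨hmF _ h1.mem (h1.ext.trans h2), mem_famT.2 ⟨⟨m', hm', hY⟩, h1.extY.trans h2⟩,
        h1.root_ne, h1.ext, h1.extY, h2, h1.ctc⟩
    · obtain ⟨a, b, h1, h2, h3, h4, h5, h6, h7, h8, rfl⟩ := hpath g hg
      exact ⟨hmF _ h1 (h5.trans hsT), hmF _ h2 (h6.trans hsT), h7, h5, h6, hsT, h8⟩
  · intro g hg P hP hr
    replace hP := hsub P hP
    rcases List.mem_append.1 hg with hg | hg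
    · obtain ⟨x, hx, rfl⟩ := (hmem g).1 hg
      exact last _ (hL x hx).mem (hL x hx).ext P hP hr
    · obtain ⟨a, b, h1, h2, h3, h4, h5, h6, h7, h8, rfl⟩ := hpath g hg
      exact last a h1 (by rw [h3]; exact h5) P hP hr
  · intro g hg y hy
    replace hy := hsub _ hy
    rcases List.mem_append.1 hg with hg | hg
    · obtain ⟨x, hx, rfl⟩ := (hmem g).1 hg
      exact cur x.2 x.1.r (hL x hx).free y hy
    · obtain ⟨a, b, h1, h2, h3, h4, h5, h6, h7, h8, rfl⟩ := hpath g hg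
      exfalso
      have h9 := last b h2 (by rw [h4]; exact h6) _ hy rfl
      have h10 := Spine.antisymm h9 (Spine.left y (Spine.refl b.R))
      have h11 := congrArg CTree.depth h10
      simp only [CTree.depth] at h11
      omega
  · rw [List.pairwise_append]
    refine ⟨hsrt, pairwise_pg hroot, fun g hg g' hg' => ?_⟩
    obtain ⟨x, hx, rfl⟩ := (hmem g).1 hg
    obtain ⟨a, b, h1, h2, h3, h4, h5, h6, h7, h8, rfl⟩ := hpath g' hg'
    have h9 := hL x hx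
    have h10 : ∀ c ∈ 𝓜, c.r = s → ext Φ ε c.R ≤ s → x.1.R.root ≠ c.R.root := by
      intro c hc hcs hce
      rcases hgp _ h9.mem _ hc with h | h
      · exfalso
        have := hs x hx
        rw [h, hcs] at this
        exact lt_irrefl _ this
      · exact h.root_ne hΦ hε hW (hok _ h9.mem) (hok _ hc) h9.ext (by rw [hcs]; exact hce)
    exact ⟨(hs x hx).le, h10 a h1 h3 h5, h10 b h2 h4 h6⟩

end Vale.Agent.P119.IND
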