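import Vale.Agent.P119.IND.Prog4

/-!
# P119, block IND: runs which end before a given time (`helper76`)

`RunTo Φ ε T r P β Z σ`: the events of `P` occur one after the other, at times in `[r, σ]`.
-/

open MeasureTheory Filter Topology Set
open scoped ENNReal

set_option linter.unusedSectionVars false

noncomputable section

namespace Vale.Agent.P119.IND

open KU MM

variable {ι : Type} [DecidableEq ι] {Φ : E3 → ℝ} {ε T : ℝ}

variable (Φ ε T) in
/-- `Run`, all event times being in `[r, σ]`. -/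
def RunTo : ℝ → List (Ev ι × ℝ) → (ι → ℝ) → (ι → Ph) → ℝ → Prop
  | r, [], _, _, σ => r ≤ σ
  | r, e :: P, β, Z, σ => ∃ s, r ≤ s ∧ s ≤ T ∧ At Φ ε T e.1 e.2 β Z s ∧
      RunTo s P (birthApp Φ ε e.1 β Z) (lineApp Φ ε e.1 Z) σ

theorem RunTo.le {P : List (Ev ι × ℝ)} {r σ : ℝ} {β : ι → ℝ} {Z : ι → Ph}
    (h : RunTo Φ ε T r P β Z σ) : r ≤ σ := by
  induction P generalizing r β Z with
  | nil => exact h
  | cons e P ih =>
    obtain ⟨s, h1, -, -, h4⟩ := h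
    exact h1.trans (ih h4)

theorem RunTo.run {P : List (Ev ι × ℝ)} {r σ : ℝ} {β : ι → ℝ} {Z : ι → Ph}
    (h : RunTo Φ ε T r P β Z σ) : Run Φ ε T r P β Z := by
  induction P generalizing r β Z with
  | nil => trivial
  | cons e P ih =>
    obtain ⟨s, h1, h2, h3, h4⟩ := h
    exact ⟨s, h1, h2, h3, ih h4⟩

theorem RunTo.mono_left {P : List (Ev ι × ℝ)} {r r' σ : ℝ} {β : ι → ℝ} {Z : ι → Ph} (h : r' ≤ r)
    (hR : RunTo Φ ε T r P β Z σ) : RunTo Φ ε T r' P β Z σ := by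
  cases P with
  | nil => exact h.trans hR
  | cons e P =>
    obtain ⟨s, h1, h2⟩ := hR
    exact ⟨s, h.trans h1, h2⟩

theorem RunTo.mono_right {P : List (Ev ι × ℝ)} {r σ σ' : ℝ} {β : ι → ℝ} {Z : ι → Ph}
    (h : σ ≤ σ') (hR : RunTo Φ ε T r P β Z σ) : RunTo Φ ε T r P β Z σ' := by
  induction P generalizing r β Z with
  | nil => exact le_trans hR h
  | cons e P ih =>
    obtain ⟨s, h1, h2, h3, h4⟩ := hR
    exact ⟨s, h1, h2, h3, ih h4⟩

/-- Concatenation. -/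
theorem RunTo.append {P Q : List (Ev ι × ℝ)} {r σ : ℝ} {β : ι → ℝ} {Z : ι → Ph}
    (h : RunTo Φ ε T r P β Z σ) (h' : Run Φ ε T σ Q (finB Φ ε P β Z) (finZ Φ ε P Z)) :
    Run Φ ε T r (P ++ Q) β Z := by
  induction P generalizing r β Z with
  | nil => exact Run.mono h h'
  | cons e P ih =>
    obtain ⟨s, h1, h2, h3, h4⟩ := h
    exact ⟨s, h1, h2, h3, ih h4 h'⟩

theorem RunTo.append_to {P Q : List (Ev ι × ℝ)} {r σ τ : ℝ} {β : ι → ℝ} {Z : ι → Ph}
    (h : RunTo Φ ε T r P β Z σ) (h' : RunTo Φ ε T σ Q (finB Φ ε P β Z) (finZ Φ ε P Z) τ) :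
    RunTo Φ ε T r (P ++ Q) β Z τ := by
  induction P generalizing r β Z with
  | nil => exact RunTo.mono_left h h'
  | cons e P ih =>
    obtain ⟨s, h1, h2, h3, h4⟩ := h
    exact ⟨s, h1, h2, h3, ih h4 h'⟩

/-- Splitting a run. -/
theorem Run.split {P Q : List (Ev ι × ℝ)} {r : ℝ} {β : ι → ℝ} {Z : ι → Ph}
    (h : Run Φ ε T r (P ++ Q) β Z) : ∃ σ, RunTo Φ ε T r P β Z σ ∧
      Run Φ ε T σ Q (finB Φ ε P β Z) (finZ Φ ε P Z) := by
  induction P generalizing r β Z with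
  | nil => exact ⟨r, le_rfl, h⟩
  | cons e P ih =>
    obtain ⟨s, h1, h2, h3, h4⟩ := h
    obtain ⟨σ, h5, h6⟩ := ih h4
    exact ⟨σ, ⟨s, h1, h2, h3, h5⟩, h6⟩

theorem RunTo.split {P Q : List (Ev ι × ℝ)} {r τ : ℝ} {β : ι → ℝ} {Z : ι → Ph}
    (h : RunTo Φ ε T r (P ++ Q) β Z τ) : ∃ σ, RunTo Φ ε T r P β Z σ ∧
      RunTo Φ ε T σ Q (finB Φ ε P β Z) (finZ Φ ε P Z) τ := by
  induction P generalizing r β Z with
  | nil => exact ⟨r, le_rfl, h⟩
  | cons e P ih =>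
    obtain ⟨s, h1, h2, h3, h4⟩ := h
    obtain ⟨σ, h5, h6⟩ := ih h4
    exact ⟨σ, ⟨s, h1, h2, h3, h5⟩, h6⟩

/-- The last event. -/
theorem RunTo.last {P : List (Ev ι × ℝ)} {e : Ev ι × ℝ} {r τ : ℝ} {β : ι → ℝ} {Z : ι → Ph}
    (h : RunTo Φ ε T r (P ++ [e]) β Z τ) : ∃ s, RunTo Φ ε T r P β Z s ∧ r ≤ s ∧ s ≤ τ ∧ s ≤ T ∧
      At Φ ε T e.1 e.2 (finB Φ ε P β Z) (finZ Φ ε P Z) s := by
  obtain ⟨σ, h1, s, h2, h3, h4, h5⟩ := h.split
  exact ⟨s, h1.mono_right h2, h1.le.trans h2, h5, h3, h4⟩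

theorem RunTo.concat {P : List (Ev ι × ℝ)} {e : Ev ι × ℝ} {r s : ℝ} {β : ι → ℝ} {Z : ι → Ph}
    (h : RunTo Φ ε T r P β Z s) (hs : s ≤ T)
    (he : At Φ ε T e.1 e.2 (finB Φ ε P β Z) (finZ Φ ε P Z) s) :
    RunTo Φ ε T r (P ++ [e]) β Z s :=
  h.append_to ⟨s, le_rfl, hs, he, le_rfl⟩

/-- Covariance. -/
theorem runTo_mv {B : Finset ι} {P : List (Ev ι × ℝ)} (h : Cl B P) (c : Ph) (r : ℝ) (β : ι → ℝ)
    (Z : ι → Ph) (σ : ℝ) : RunTo Φ ε T r P β (mv B c Z) σ ↔ RunTo Φ ε T r P β Z σ := by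
  induction P generalizing r β Z with
  | nil => exact Iff.rfl
  | cons e P ih =>
    unfold RunTo
    refine exists_congr fun s => ?_
    rw [at_mv (h e List.mem_cons_self), lineApp_mv (h e List.mem_cons_self),
      birthApp_mv (h e List.mem_cons_self), ih fun e' he' => h e' (List.mem_cons_of_mem _ he')]

/-! ### Monotonicity in the parameters -/

theorem At.widen {T' d d' : ℝ} (hT : T ≤ T') (hd : d ≤ d') {e : Ev ι} {β : ι → ℝ} {Z : ι → Ph}
    {s : ℝ} (h : At Φ ε T e d β Z s) : At Φ ε T' e d' β Z s := by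
  cases e with
  | gh i k =>
    obtain ⟨h1, h2, h3, h4, h5⟩ := h
    exact ⟨h1, h2, h3, h4, by linarith⟩
  | sc i k =>
    obtain ⟨h1, h2, h3, h4, h5, h6, h7, h8⟩ := h
    exact ⟨h1, h2, h3, h4, h5, h6, h7.trans hT, by linarith⟩

/-- A larger final time. -/
theorem RunTo.widen {T' : ℝ} (hT : T ≤ T') {P : List (Ev ι)} {r σ : ℝ} {β : ι → ℝ} {Z : ι → Ph}
    (h : RunTo Φ ε T r (pl T P) β Z σ) : RunTo Φ ε T' r (pl T' P) β Z σ := by
  induction P generalizing r β Z with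
  | nil => exact h
  | cons e P ih =>
    obtain ⟨s, h1, h2, h3, h4⟩ := h
    exact ⟨s, h1, h2.trans hT, h3.widen hT hT, ih h4⟩

theorem Run.widen {T' : ℝ} (hT : T ≤ T') {P : List (Ev ι)} {r : ℝ} {β : ι → ℝ} {Z : ι → Ph}
    (h : Run Φ ε T r (pl T P) β Z) : Run Φ ε T' r (pl T' P) β Z := by
  induction P generalizing r β Z with
  | nil => trivial
  | cons e P ih =>
    obtain ⟨s, h1, h2, h3, h4⟩ := h
    exact ⟨s, h1, h2.trans hT, h3.widen hT hT, ih h4⟩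

theorem finZ_plT (T T' : ℝ) (P : List (Ev ι)) (Z : ι → Ph) :
    finZ Φ ε (pl T P) Z = finZ Φ ε (pl T' P) Z := by
  induction P generalizing Z with
  | nil => rfl
  | cons e P ih => exact ih _

theorem finB_plT (T T' : ℝ) (P : List (Ev ι)) (β : ι → ℝ) (Z : ι → Ph) :
    finB Φ ε (pl T P) β Z = finB Φ ε (pl T' P) β Z := by
  induction P generalizing β Z with
  | nil => rfl
  | cons e P ih => exact ih _ _

theorem birthApp_mono {e : Ev ι} {β β' : ι → ℝ} (h : β' ≤ β) (Z : ι → Ph) :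
    birthApp Φ ε e β' Z ≤ birthApp Φ ε e β Z := by
  cases e with
  | gh i k => exact h
  | sc i k =>
    intro j
    simp only [birthApp]
    by_cases hk : j = k
    · subst hk; simp
    · by_cases hi : j = i
      · subst hi; simp [Function.update_of_ne hk]
      · rw [Function.update_of_ne hk, Function.update_of_ne hk, Function.update_of_ne hi,
          Function.update_of_ne hi]
        exact h j

theorem finB_mono (P : List (Ev ι × ℝ)) {β β' : ι → ℝ} (h : β' ≤ β) (Z : ι → Ph) :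
    finB Φ ε P β' Z ≤ finB Φ ε P β Z := by
  induction P generalizing β β' Z with
  | nil => exact h
  | cons e P ih => exact ih (birthApp_mono h Z) _

theorem birthApp_nonneg_to (hΦ : IsPotential Φ) (hε : 0 < ε) {e : Ev ι} {d : ℝ} {β : ι → ℝ}
    (h : 0 ≤ β) {β' : ι → ℝ} (h' : 0 ≤ β') {Z : ι → Ph} {s : ℝ} (hA : At Φ ε T e d β Z s) :
    0 ≤ birthApp Φ ε e β' Z := by
  cases e with
  | gh i k => exact h'
  | sc i k =>
    obtain ⟨h1, h2, h3, h4, h5, h6, h7, h8⟩ := hA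
    have h9 : 0 ≤ sepT Φ ε (Z i, Z k) := by
      have h10 := hitT_lt_sepT hΦ hε h3 h2.2
      have h11 := h i
      simp only [Pi.zero_apply] at h11
      linarith
    intro j
    simp only [birthApp]
    by_cases hk : j = k
    · subst hk
      rw [Function.update_self]; exact h9
    · by_cases hi : j = i
      · subst hi
        rw [Function.update_of_ne hk, Function.update_self]; exact h9
      · rw [Function.update_of_ne hk, Function.update_of_ne hi]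
        exact h' j

theorem At.birth_mono {e : Ev ι} {β β' : ι → ℝ} (h0 : 0 ≤ β') (h : β' ≤ β) {d : ℝ}
    {Z : ι → Ph} {s : ℝ} (hs : s ≤ T) (hA : At Φ ε T e d β Z s) : At Φ ε T e T β' Z s := by
  have hm : ∀ i k : ι, s ≤ max (β' i) (β' k) + T := by
    intro i k
    have h1 : (0 : ℝ) ≤ β' i := h0 i
    have h2 : (0 : ℝ) ≤ max (β' i) (β' k) := h1.trans (le_max_left _ _)
    linarith
  cases e with
  | gh i k =>
    obtain ⟨h1, h2, h3, h4, h5⟩ := hA
    exact ⟨h1, (h i).trans h2, (h k).trans h3, h4, hm i k⟩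
  | sc i k =>
    obtain ⟨h1, h2, h3, h4, h5, h6, h7, h8⟩ := hA
    exact ⟨h1, h2, h3, h4, (h i).trans_lt h5, (h k).trans_lt h6, h7, hm i k⟩

/-- Earlier births. -/
theorem RunTo.birth (hΦ : IsPotential Φ) (hε : 0 < ε) {P : List (Ev ι)} {r σ : ℝ}
    {β β' : ι → ℝ} (h0 : 0 ≤ β') (hβ : β' ≤ β) {Z : ι → Ph}
    (h : RunTo Φ ε T r (pl T P) β Z σ) : RunTo Φ ε T r (pl T P) β' Z σ := by
  induction P generalizing r β β' Z with
  | nil => exact h
  | cons e P ih =>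
    obtain ⟨s, h1, h2, h3, h4⟩ := h
    exact ⟨s, h1, h2, h3.birth_mono h0 hβ h2,
      ih (birthApp_nonneg_to hΦ hε (h0.trans hβ) h0 h3) (birthApp_mono hβ Z) h4⟩

theorem Run.birth (hΦ : IsPotential Φ) (hε : 0 < ε) {P : List (Ev ι)} {r : ℝ}
    {β β' : ι → ℝ} (h0 : 0 ≤ β') (hβ : β' ≤ β) {Z : ι → Ph}
    (h : Run Φ ε T r (pl T P) β Z) : Run Φ ε T r (pl T P) β' Z := by
  induction P generalizing r β β' Z with
  | nil => exact h
  | cons e P ih =>
    obtain ⟨s, h1, h2, h3, h4⟩ := h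
    exact ⟨s, h1, h2, h3.birth_mono h0 hβ h2,
      ih (birthApp_nonneg_to hΦ hε (h0.trans hβ) h0 h3) (birthApp_mono hβ Z) h4⟩

theorem finB_nonneg (hΦ : IsPotential Φ) (hε : 0 < ε) {P : List (Ev ι × ℝ)} {r : ℝ} {β : ι → ℝ}
    (h0 : 0 ≤ β) {Z : ι → Ph} (h : Run Φ ε T r P β Z) : 0 ≤ finB Φ ε P β Z := by
  induction P generalizing r β Z with
  | nil => exact h0
  | cons e P ih =>
    obtain ⟨s, h1, h2, h3, h4⟩ := h
    exact ih (birthApp_nonneg_to hΦ hε h0 h0 h3) h4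

/-! ### Measurability -/

section Meas

variable {X : Type*} [MeasurableSpace X]

theorem sc_runTo [Fintype ι] (hΦ : IsPotential Φ) (hε : ε ≠ 0) (P : List (Ev ι × ℝ))
    {u : X → ℝ} (hu : Measurable u) :
    ∀ {β : X → ι → ℝ} (_ : Measurable β) {Z : X → ι → Ph} (_ : Measurable Z),
    SC fun x => {r | RunTo Φ ε T r P (β x) (Z x) (u x)} := by
  induction P with
  | nil =>
    intro β hβ Z hZ
    exact SC.le hu
  | cons e P ih =>
    intro β hβ Z hZ
    have h1 := (sc_at (T := T) (ε := ε) hΦ e.1 e.2 hβ hZ).and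
      (ih (measurable_birthApp (ε := ε) hΦ e.1 hβ hZ) (measurable_lineApp hΦ hε e.1 hZ))
    exact (SC.exists_ge h1 T).congr fun x r => Iff.rfl

theorem measurableSet_runTo [Fintype ι] (hΦ : IsPotential Φ) (hε : ε ≠ 0) (P : List (Ev ι × ℝ))
    {β : X → ι → ℝ} (hβ : Measurable β) {Z : X → ι → Ph} (hZ : Measurable Z) {r u : X → ℝ}
    (hr : Measurable r) (hu : Measurable u) :
    MeasurableSet {x | RunTo Φ ε T (r x) P (β x) (Z x) (u x)} :=
  (sc_runTo hΦ hε P hu hβ hZ).mem (t := r) hr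

end Meas

end Vale.Agent.P119.IND
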