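import Vale.Agent.P119.IND.Head

/-!
# P119, block IND: the final time of a family of records (`helper498`)

`Sc s 𝓜 𝓛`: records `𝓜` with times `≤ s` and links `𝓛` with times `< s`.  For a record at the time
`s`: its history is the last one of its root (`Sc.last`), for a colliding history the two children are
last (`Sc.last_fst`, `Sc.last_snd`), the roots are not dropped by the links (`Sc.nd`), and the pair is
not used by the links after the beginning of the collision (`Sc.tg`).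
-/

open MeasureTheory Filter Topology Set
open scoped ENNReal NNReal

noncomputable section

namespace Vale.Agent.P119.IND

open KU M M.CTree TL

variable {Φ : E3 → ℝ} {ε : ℝ} {L : ℕ} {κ : Type*} {𝒲 : κ → Set Src} {s : ℝ}
  {𝓜 : List (Rc κ)} {𝓛 : List (Rc κ × CTree)}

/-- Records with times `≤ s`, and links with times `< s`. -/
structure Sc (Φ : E3 → ℝ) (ε : ℝ) (L : ℕ) (𝒲 : κ → Set Src) (s : ℝ) (𝓜 : List (Rc κ))
    (𝓛 : List (Rc κ × CTree)) : Prop where
  ok : ∀ x ∈ 𝓜, x.Ok Φ ε L 𝒲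
  le : ∀ x ∈ 𝓜, x.r ≤ s
  gp : 𝓜.Pairwise (GP Φ ε L 𝒲)
  lk : ∀ x ∈ 𝓛, Lk Φ ε L 𝒲 𝓜 x.1 x.2 ∧ x.1.r < s

namespace Sc

variable (h : Sc Φ ε L 𝒲 s 𝓜 𝓛) (hΦ : IsPotential Φ) (hε : 0 < ε) (hW : ∀ v, (𝒲 v).Finite)

include h hΦ hε hW

theorem last {x : Rc κ} (hx : x ∈ 𝓜) (hr : x.r = s) {P : CTree} (hP : P ∈ famF 𝓜)
    (hroot : P.root = x.R.root) : Spine P x.R := by
  obtain ⟨m', hm', hP'⟩ := mem_famF.1 hP
  rcases gp_of_pairwise h.gp x hx m' hm' with h1 | h1
  · subst h1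
    exact (h.ok x hx).last hΦ hε hW hP' hroot
  · exact h1.last hΦ hε hW (h.ok x hx) (h.ok m' hm') (Or.inl (by rw [hr]; exact h.le m' hm'))
      hP' hroot

theorem cmp {P Q : CTree} (hP : P ∈ famF 𝓜) (hQ : Q ∈ famF 𝓜) (hr : P.root = Q.root) :
    Spine P Q ∨ Spine Q P := by
  obtain ⟨m, hm, hP'⟩ := mem_famF.1 hP
  obtain ⟨m', hm', hQ'⟩ := mem_famF.1 hQ
  rcases gp_of_pairwise h.gp m hm m' hm' with h1 | h1
  · subst h1
    exact (h.ok m hm).cmp hΦ hε hW hP' hQ' hr
  · exact h1.cmp hΦ hε hW (h.ok m hm) (h.ok m' hm') hP' hQ' hr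

/-- A flying history at the final time. -/
theorem isLast {x : Rc κ} (hx : x ∈ 𝓜) (hr : x.r = s) (he : ext Φ ε x.R ≤ s) :
    IsLast (famT Φ ε s 𝓜) x.R :=
  ⟨mem_famT_self hx he, fun _ hP hroot =>
    h.last hΦ hε hW hx hr (mem_famF.2 (mem_famT.1 hP).1) hroot⟩

omit hW in
theorem sub_famT {P Q : CTree} (hP : P ∈ famF 𝓜) (hQ : Sub Q P) (hne : Q ≠ P) :
    Q ∈ famT Φ ε s 𝓜 := by
  obtain ⟨m, hm, hP'⟩ := mem_famF.1 hP
  refine mem_famT.2 ⟨⟨m, hm, mem_parts_of_sub hP' hQ⟩, ?_⟩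
  have hok := parts_ok hΦ hP' (h.ok m hm).ok
  obtain ⟨v, hv⟩ := (h.ok m hm).ne
  have h1 : sig Φ ε P ≤ s := (parts_sig_le hΦ hε hP' (h.ok m hm).ok).trans
    ((((h.ok m hm).up v hv).live.sig_le).trans (h.le m hm))
  cases hQ with
  | refl => exact absurd rfl hne
  | left b h2 => exact (Sub.ext_lt_sig hΦ hε (Or.inl h2) hok).le.trans h1
  | right a h2 => exact (Sub.ext_lt_sig hΦ hε (Or.inr h2) hok).le.trans h1

/-- A colliding history at the final time: the first child. -/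
theorem last_fst {x : Rc κ} (hx : x ∈ 𝓜) (hr : x.r = s) {a b : CTree} (hR : x.R = node a b)
    (he : s < ext Φ ε (node a b)) : IsLast (famT Φ ε s 𝓜) a := by
  have hmem : node a b ∈ famF 𝓜 := mem_famF.2 ⟨x, hx, hR ▸ self_mem_parts _⟩
  refine ⟨h.sub_famT hΦ hε hmem (Sub.left b (Sub.refl a)) ?_, fun P hP hroot => ?_⟩
  · intro hcon
    have := congrArg CTree.card hcon
    have h2 := b.card_pos
    simp only [CTree.card] at this
    omega
  · have hP' := mem_famT.1 hP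
    have h1 : Spine P (node a b) := by
      rw [← hR]
      exact h.last hΦ hε hW hx hr (mem_famF.2 hP'.1) (by rw [hR]; exact hroot)
    rcases IND.Spine.node_cases h1 with h2 | h2
    · exact absurd hP'.2 (by rw [h2]; exact not_le.2 he)
    · exact h2

/-- A colliding history at the final time: the second child. -/
theorem last_snd {x : Rc κ} (hx : x ∈ 𝓜) {a b : CTree} (hR : x.R = node a b)
    (he : s < ext Φ ε (node a b)) : IsLast (famT Φ ε s 𝓜) b := by
  have hmem : node a b ∈ famF 𝓜 := mem_famF.2 ⟨x, hx, hR ▸ self_mem_parts _⟩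
  have hmem' : node b a ∈ famF 𝓜 :=
    mem_famF.2 ⟨x, hx, swap_mem_parts (hR ▸ self_mem_parts x.R)⟩
  have he' : s < ext Φ ε (node b a) := by rw [ext_swap hΦ a b]; exact he
  refine ⟨h.sub_famT hΦ hε hmem (Sub.right a (Sub.refl b)) ?_, fun P hP hroot => ?_⟩
  · intro hcon
    have := congrArg CTree.card hcon
    have h2 := a.card_pos
    simp only [CTree.card] at this
    omega
  · have hP' := mem_famT.1 hP
    have hne : P ≠ node b a := fun h2 => absurd hP'.2 (by rw [h2]; exact not_le.2 he')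
    rcases h.cmp hΦ hε hW (mem_famF.2 hP'.1) hmem' hroot with h2 | h2
    · exact (IND.Spine.node_cases h2).resolve_left hne
    · exfalso
      obtain ⟨m, hm, h3⟩ := hP'.1
      have hok := parts_ok hΦ h3 (h.ok m hm).ok
      have h4 := Spine.ext_le hΦ hε h2 hok
      linarith [hP'.2]

/-- The roots of the histories at the final time are not dropped by the links. -/
theorem nd {x : Rc κ} (hx : x ∈ 𝓜) (hr : x.r = s) {Q : CTree} (hQ : Q ∈ parts x.R)
    (hQ' : Q = x.R ∨ s < ext Φ ε Q) : ∀ g ∈ lgs 𝓛, g.1.root ≠ Q.root := by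
  intro g hg
  unfold lgs at hg
  obtain ⟨y, hy, rfl⟩ := List.mem_map.1 hg
  obtain ⟨h1, h2⟩ := h.lk y hy
  have hgp : GP Φ ε L 𝒲 y.1 x := by
    rcases gp_of_pairwise h.gp _ h1.mem x hx with h3 | h3
    · exfalso
      rw [h3, hr] at h2
      exact lt_irrefl _ h2
    · exact h3
  intro hroot
  rcases lt_or_ge s (ext Φ ε Q) with h4 | h4
  · have h5 := hgp.last hΦ hε hW (h.ok _ h1.mem) (h.ok x hx) (Or.inr h1.ext) hQ hroot.symm
    have h6 := Spine.ext_le hΦ hε h5 (h.ok _ h1.mem).ok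
    linarith [h1.ext]
  · have h5 := hQ'.resolve_right (not_lt.2 h4)
    subst h5
    exact hgp.root_ne hΦ hε hW (h.ok _ h1.mem) (h.ok x hx) h1.ext (by rw [hr]; exact h4) hroot

/-- The colliding pair is not used by the links after the beginning of the collision. -/
theorem tg {x : Rc κ} (hx : x ∈ 𝓜) {a b : CTree} (hR : x.R = node a b)
    (ha : IsLast (famT Φ ε s 𝓜) a) (hb : IsLast (famT Φ ε s 𝓜) b) :
    ∀ g ∈ lgs 𝓛, g.2.1.root = a.root ∨ g.2.1.root = b.root → g.2.2 ≤ sig Φ ε (node a b) := by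
  intro g hg
  unfold lgs at hg
  obtain ⟨y, hy, rfl⟩ := List.mem_map.1 hg
  obtain ⟨h1, h2⟩ := h.lk y hy
  have hxo := (h.ok x hx)
  have hok : CTree.ok Φ ε (node a b) := hR ▸ hxo.ok
  have hYF : y.2 ∈ famT Φ ε s 𝓜 := mem_famT.2 ⟨h1.tgt, h1.extY.trans h2.le⟩
  have key : ∀ c d : CTree, IsLast (famT Φ ε s 𝓜) c → node c d ∈ parts x.R → CTree.ok Φ ε (node c d) →
      y.2.root = c.root → y.1.r ≤ sig Φ ε (node c d) := by
    intro c d hc hcd hokc hroot
    have h3 := hc.last _ hYF hroot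
    by_cases hne : y.2 = c
    · rw [← hne] at hcd ⊢
      exact cur_of_allFree hΦ hε hW hxo h1.free hcd
    · obtain ⟨z, hz⟩ := IND.exists_next h3 hne
      obtain ⟨⟨m, hm, h4⟩, -⟩ := mem_famT.1 hc.mem
      have h5 : node y.2 z ∈ parts m.R := mem_parts_of_sub h4 (sub_of_spine hz)
      have h6 := cur_of_allFree hΦ hε hW (h.ok m hm) h1.free h5
      have h7 := sig_le_of_sub hΦ hε (sub_of_spine hz) hokc.1
      have h8 := sig_le_ext hΦ hε hokc.1
      have h9 : ext Φ ε c < sig Φ ε (node c d) := hokc.2.2.2.2.2.1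
      linarith
  rintro (hroot | hroot)
  · exact key a b ha (hR ▸ self_mem_parts _) hok hroot
  · have h3 : node b a ∈ parts x.R := swap_mem_parts (hR ▸ self_mem_parts x.R)
    have h4 := key b a hb h3 (parts_ok hΦ h3 hxo.ok) hroot
    rwa [sig_swap a b] at h4

end Sc

end Vale.Agent.P119.IND
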