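import Vale.Agent.P119.IND.GraftC
import Vale.Agent.P119.IND.Base
import Vale.Agent.P119.FB.Window

/-!
# P119, block IND: a third body at the first collision of a line (`helper939`)

`TriW` (FB/Window): a third tree `S` of the world `w` comes, during the collision of the line `l` with
the tree `T`, into contact with the undisturbed line of `T` or with the pair.

* `TriN`, `TriW.normal`: normal form; at its first time, `T` is alive;
* `TriI F G s es`: the irregular final contacts `tri` (also with the undisturbed line) and `quad` of a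
  family;
* `TriN.exists_fam`: the family of the participants, connected together with the contact.
-/

open Set
open scoped ENNReal

set_option linter.unusedSectionVars false

noncomputable section

namespace Vale.Agent.P119.IND

open KU M M.CTree TL RB GC AU _root_.Vale.Agent.P119.FB

variable {Φ : E3 → ℝ} {ε : ℝ} {L : ℕ} {w : Finset Src} {T S : CTree} {l : Src} {r t : ℝ}

/-! ### The normal form -/

/-- The contact of the third tree `S` at the time `r`, `T` is alive. -/
structure TriN (Φ : E3 → ℝ) (ε : ℝ) (L : ℕ) (w : Finset Src) (T : CTree) (l : Src) (r : ℝ)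
    (S : CTree) : Prop where
  r1 : sig Φ ε (node T (leaf l)) ≤ r
  r2 : r < ext Φ ε (node T (leaf l))
  al : alive Φ ε L (w : Set Src) T r
  live : M.live Φ ε L (w : Set Src) S r
  bg : Bg Φ ε S r
  root : S.root ≠ T.root
  ctc : Ctc ε (KU.free r (ln Φ ε T)) (st Φ ε S r) ∨
    Ctc ε (pairLine Φ ε (ln Φ ε T, l.2.1) r).1 (st Φ ε S r) ∨
    Ctc ε (pairLine Φ ε (ln Φ ε T, l.2.1) r).2 (st Φ ε S r)

/-- **At the first time the tree `T` is alive.** -/
theorem TriW_normal (hΦ : IsPotential Φ) (hε : 0 < ε)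
    (hT : alive Φ ε L (w : Set Src) T (sig Φ ε (node T (leaf l)))) (h : TriW Φ ε L w T l t) :
    ∃ r ≤ t, ∃ S, TriN Φ ε L w T l r S := by
  have hfin : (w : Set Src).Finite := w.finite_toSet
  obtain ⟨r, hrt, h1, h2, S, hS, hr, hc⟩ := h
  by_cases hA : ∃ q, sig Φ ε (node T (leaf l)) ≤ q ∧ q < r ∧
      ∃ b, mcon Φ ε L (w : Set Src) q T.root b
  · have hcl : DClosed {q | ∃ c ∈ w, q ∈ {q | sig Φ ε (node T (leaf l)) ≤ q} ∩
        {q | mcon Φ ε L (w : Set Src) q T.root c}} :=
      DClosed.biUnion _ fun c _ => (dclosed_le _).inter (mcon_closed hΦ hε hfin T.root c)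
    obtain ⟨q₀, hq1, hq2, b, hb⟩ := hA
    obtain ⟨q, hq, ⟨c, -, hc1, hc2⟩, hfirst⟩ := hcl.first (m := sig Φ ε (node T (leaf l)))
      (fun q ⟨c, _, h⟩ => h.1) (t := q₀) ⟨b, Finset.mem_coe.1 hb.mem.2, hq1, hb⟩
    have hc1 : sig Φ ε (node T (leaf l)) ≤ q := hc1
    have hal : alive Φ ε L (w : Set Src) T q :=
      fly_live hΦ hε hfin hT (fun u hu1 hu2 b hb =>
        hfirst u hu2 ⟨b, Finset.mem_coe.1 hb.mem.2, hu1, hb⟩) hc1 le_rfl
    have hTl := (alive_iff_live hΦ hε hfin).1 hal
    obtain ⟨hne, P, S', hP, hS', h3, h4, h5⟩ := hc2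
    obtain ⟨P₀, p1, p2, p3, p4⟩ := exists_bg hΦ hε hfin h3
    have e : P₀ = T := Bg.unique hΦ hε hfin p2 hTl.1 p3 (Bg.of_alive hΦ hε hal) (p1.trans hP)
    obtain ⟨S₀, s1, s2, s3, s4⟩ := exists_bg hΦ hε hfin h4
    refine ⟨q, (hq.trans hq2.le).trans hrt, S₀, hc1, (hq.trans_lt hq2).trans h2, hal, s2, s3, ?_,
      Or.inl ?_⟩
    · rw [s1, hS']
      exact hne.symm
    · rw [s4, ← st_after hΦ hε hTl.1.ok hTl.2, ← e, p4]
      exact h5
  · push Not at hA
    have hal : alive Φ ε L (w : Set Src) T r := fly_live hΦ hε hfin hT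
      (fun u hu1 hu2 b => hA u hu1 hu2 b) h1 le_rfl
    obtain ⟨S₀, s1, s2, s3, s4⟩ := exists_bg hΦ hε hfin hS
    refine ⟨r, hrt, S₀, h1, h2, hal, s2, s3, by rw [s1]; exact hr, ?_⟩
    rw [s4]
    exact hc

/-! ### The irregular contacts of the family -/

/-- The irregular final contacts at the time `s`: a flying third tree `C` in contact with one of the
particles of the colliding pair `x`, `y` or with the undisturbed line of `x`; two colliding pairs. -/
inductive TriI (Φ : E3 → ℝ) (ε : ℝ) (F : Finset CTree) (G : List Gh) (s : ℝ) :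
    List (Src × Src) → Prop
  /-- a flying third tree -/
  | tri (x y C : CTree) (hx : IsLast F x) (hy : IsLast F y) (hC : IsLast F C)
      (hok : ok Φ ε (node x y)) (h1 : sig Φ ε (node x y) ≤ s) (h2 : s ≤ ext Φ ε (node x y))
      (eC : ext Φ ε C ≤ s) (hCx : C.root ≠ x.root) (hCy : C.root ≠ y.root)
      (hc : Ctc ε (st Φ ε (node x y) s) (KU.free s (ln Φ ε C)) ∨
        Ctc ε (st Φ ε (node y x) s) (KU.free s (ln Φ ε C)) ∨
        Ctc ε (KU.free s (ln Φ ε x)) (KU.free s (ln Φ ε C)))
      (nd : ∀ g ∈ G, g.1.root ≠ x.root ∧ g.1.root ≠ y.root ∧ g.1.root ≠ C.root)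
      (tg : ∀ g ∈ G, g.2.1.root = x.root ∨ g.2.1.root = y.root →
        g.2.2 ≤ sig Φ ε (node x y)) :
      TriI Φ ε F G s [(x.root, y.root), (x.root, C.root)]
  /-- two colliding pairs -/
  | quad (x y u v : CTree) (hx : IsLast F x) (hy : IsLast F y) (hu : IsLast F u)
      (hv : IsLast F v) (hok : ok Φ ε (node x y)) (h1 : sig Φ ε (node x y) ≤ s)
      (h2 : s ≤ ext Φ ε (node x y)) (hok' : ok Φ ε (node u v)) (h1' : sig Φ ε (node u v) ≤ s)
      (h2' : s ≤ ext Φ ε (node u v)) (r1 : x.root ≠ u.root) (r2 : x.root ≠ v.root)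
      (r3 : y.root ≠ u.root) (r4 : y.root ≠ v.root)
      (hc : Ctc ε (st Φ ε (node x y) s) (st Φ ε (node u v) s))
      (nd : ∀ g ∈ G, g.1.root ≠ x.root ∧ g.1.root ≠ y.root ∧ g.1.root ≠ u.root ∧
        g.1.root ≠ v.root)
      (tg : ∀ g ∈ G, g.2.1.root = x.root ∨ g.2.1.root = y.root →
        g.2.2 ≤ sig Φ ε (node x y))
      (tg' : ∀ g ∈ G, g.2.1.root = u.root ∨ g.2.1.root = v.root →
        g.2.2 ≤ sig Φ ε (node u v)) :
      TriI Φ ε F G s [(x.root, y.root), (u.root, v.root), (x.root, u.root)]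

/-! ### The family -/

/-- The record of a tree in one world. -/
def rcu (R : CTree) (r : ℝ) : Rc Unit := ⟨R, r, univ⟩

theorem rcu_ok (h : live Φ ε L (w : Set Src) S r) (hb : Bg Φ ε S r) :
    (rcu S r).Ok Φ ε L (fun _ : Unit => (w : Set Src)) :=
  ⟨fun _ _ => ⟨h, hb⟩, fun _ hv => absurd (mem_univ _) hv, ⟨(), mem_univ _⟩⟩

theorem rcu_gp {A B : CTree} (hr : A.root ≠ B.root) :
    GP Φ ε L (fun _ : Unit => (w : Set Src)) (rcu A r) (rcu B r) :=
  Or.inr (Or.inr ⟨⟨(), mem_univ _, mem_univ _⟩, fun h => absurd h (lt_irrefl _),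
    fun h => absurd h (lt_irrefl _), fun _ => Or.inr hr⟩)

/-- The common family of the participants of two trees of one world. -/
def fam2 (Φ : E3 → ℝ) (ε : ℝ) (A B : CTree) (r : ℝ) : Finset CTree :=
  famT Φ ε r [rcu A r, rcu B r]

theorem mem_fam2 {A B P : CTree} :
    P ∈ fam2 Φ ε A B r ↔ (P ∈ parts A ∨ P ∈ parts B) ∧ ext Φ ε P ≤ r := by
  unfold fam2
  rw [mem_famT]
  simp [rcu]

theorem fam2_card {A B : CTree} (hA : A.depth ≤ L) (hB : B.depth ≤ L) :
    (fam2 Φ ε A B r).card ≤ 2 * 2 ^ (L + 2) := by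
  refine famT_card_le (L := L) (fun m hm => ?_) (n := 2) (by simp)
  simp only [List.mem_cons, List.not_mem_nil, or_false] at hm
  rcases hm with rfl | rfl
  · exact hA
  · exact hB

theorem fam2_fam (hΦ : IsPotential Φ) (hε : 0 < ε) {A B : CTree}
    (hA : live Φ ε L (w : Set Src) A r) (bA : Bg Φ ε A r) (hB : live Φ ε L (w : Set Src) B r)
    (bB : Bg Φ ε B r) (hr : A.root ≠ B.root) : Fam Φ ε r (fam2 Φ ε A B r) [] := by
  have oA := rcu_ok hA bA
  have oB := rcu_ok hB bB
  obtain ⟨G₁, h1, h2⟩ := exists_fam (𝒲 := fun _ : Unit => (w : Set Src)) hΦ hε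
    (fun _ => w.finite_toSet) (T := r) (s := r) [rcu A r, rcu B r] (fun m hm => by
      simp only [List.mem_cons, List.not_mem_nil, or_false] at hm
      rcases hm with rfl | rfl
      · exact oA
      · exact oB)
    (fun m hm m' hm' => by
      simp only [List.mem_cons, List.not_mem_nil, or_false] at hm hm'
      rcases hm with rfl | rfl <;> rcases hm' with rfl | rfl
      · exact Or.inl rfl
      · exact Or.inr (rcu_gp hr)
      · exact Or.inr (rcu_gp hr.symm)
      · exact Or.inl rfl)
    [] (fun x hx => absurd hx List.not_mem_nil) List.Pairwise.nil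
    (fun x hx => absurd hx List.not_mem_nil) le_rfl [] (fun x hx => absurd hx List.not_mem_nil)
    List.Pairwise.nil List.isChain_nil
  have e : G₁ ++ pg r ([] : List (Rc Unit)) = [] := by
    rw [List.Perm.eq_nil (l := G₁) (by simpa [lgs] using h1)]
    rfl
  rw [e] at h2
  exact h2

/-- A flying tree is the last history of its root. -/
theorem fam2_last (hΦ : IsPotential Φ) (hε : 0 < ε) {A B : CTree}
    (hA : live Φ ε L (w : Set Src) A r) (bA : Bg Φ ε A r) (hB : live Φ ε L (w : Set Src) B r)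
    (bB : Bg Φ ε B r) (hr : A.root ≠ B.root) (hf : ext Φ ε A ≤ r) :
    IsLast (fam2 Φ ε A B r) A := by
  have oA := rcu_ok hA bA
  have oB := rcu_ok hB bB
  refine ⟨mem_fam2.2 ⟨Or.inl (self_mem_parts A), hf⟩, fun P hP hPr => ?_⟩
  rcases (mem_fam2.1 hP).1 with h | h
  · exact oA.last hΦ hε (fun _ => w.finite_toSet) h hPr
  · exact (rcu_gp hr).last hΦ hε (fun _ => w.finite_toSet) oA oB (Or.inl le_rfl) h hPr

theorem fam2_comm {A B : CTree} : fam2 Φ ε A B r = fam2 Φ ε B A r := by
  ext P
  rw [mem_fam2, mem_fam2, or_comm]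

/-- The first partner of a colliding pair is the last history of its root. -/
theorem fam2_last_node (hΦ : IsPotential Φ) (hε : 0 < ε) {a b B : CTree}
    (hA : live Φ ε L (w : Set Src) (node a b) r) (bA : Bg Φ ε (node a b) r)
    (hB : live Φ ε L (w : Set Src) B r) (bB : Bg Φ ε B r) (hr : a.root ≠ B.root)
    (hf : r < ext Φ ε (node a b)) : IsLast (fam2 Φ ε (node a b) B r) a := by
  have oA := rcu_ok hA bA
  have oB := rcu_ok hB bB
  have h1 : ext Φ ε a ≤ r := (hA.ok.2.2.2.2.2.1).le.trans hA.sig_le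
  refine ⟨mem_fam2.2 ⟨Or.inl (Or.inl (Sub.left b (Sub.refl a))), h1⟩, fun P hP hPr => ?_⟩
  have h2 : Spine P (node a b) := by
    rcases (mem_fam2.1 hP).1 with h | h
    · exact oA.last hΦ hε (fun _ => w.finite_toSet) h hPr
    · exact (rcu_gp (A := node a b) hr).last hΦ hε (fun _ => w.finite_toSet) oA oB (Or.inl le_rfl)
        h hPr
  rcases Spine.node_cases h2 with h3 | h3
  · exfalso
    have := (mem_fam2.1 hP).2
    rw [h3] at this
    linarith
  · exact h3

theorem fam2_swap {a b B : CTree} :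
    fam2 Φ ε (node a b) B r = fam2 Φ ε (node b a) B r := by
  have key : ∀ P : CTree, P ∈ parts (node a b) ↔ P ∈ parts (node b a) := by
    intro P
    rw [mem_parts_node, mem_parts_node]
    tauto
  ext P
  rw [mem_fam2, mem_fam2, key]

theorem ok_swap_node {a b : CTree} (h : CTree.ok Φ ε (node a b)) (hΦ : IsPotential Φ) :
    CTree.ok Φ ε (node b a) := parts_ok hΦ (swap_mem_parts (self_mem_parts (node a b))) h

/-- **The family of the participants**, with the line `l`, connected together with the contact. -/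
theorem TriN.exists_fam (hΦ : IsPotential Φ) (hε : 0 < ε) (hl : l ∉ w)
    (hok : CTree.ok Φ ε (node T (leaf l))) (h : TriN Φ ε L w T l r S) :
    ∃ (F : Finset CTree) (G : List Gh) (es : List (Src × Src)), Fam Φ ε r F G ∧
      TriI Φ ε F G r es ∧ F.card ≤ 2 * 2 ^ (L + 2) + 1 ∧ G.length ≤ 1 ∧
      (∀ σ ∈ lab F, σ ∈ w ∨ σ = l) ∧ (∀ σ ∈ T.leaves, σ ∈ lab F) ∧ l ∈ lab F ∧
      ∀ σ ∈ lab F, FX F G es σ l := by
  classical
  have hfin : (w : Set Src).Finite := w.finite_toSet
  have hTl := (alive_iff_live hΦ hε hfin).1 h.al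
  have bT := Bg.of_alive hΦ hε h.al
  have hTw : T.leaves ⊆ (w : Set Src) := hTl.1.sub
  have hSw : S.leaves ⊆ (w : Set Src) := h.live.sub
  have hbl : l.1 < sig Φ ε (node T (leaf l)) := hok.2.2.2.2.2.2
  have hlT : ∀ σ ∈ w, σ ≠ l := fun σ hσ h' => hl (h' ▸ hσ)
  set F₁ := fam2 Φ ε T S r with hF₁
  have f1 : Fam Φ ε r F₁ [] := fam2_fam hΦ hε hTl.1 bT h.live h.bg h.root.symm
  have f2 : Fam Φ ε r (partsF (leaf l)) [] :=
    Fam.of_tree hΦ hε hok.2.1 (hbl.le.trans h.r1)
  have hlab1 : ∀ σ ∈ lab F₁, σ ∈ w := by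
    intro σ hσ
    obtain ⟨P, hP, rfl⟩ := mem_lab.1 hσ
    rcases (mem_fam2.1 hP).1 with h1 | h1
    · exact Finset.mem_coe.1 (hTw (parts_root_mem h1))
    · exact Finset.mem_coe.1 (hSw (parts_root_mem h1))
  have hlab2 : ∀ σ, σ ∈ lab (partsF (leaf l)) ↔ σ = l := by
    intro σ
    rw [← Finset.mem_coe, lab_partsF]
    exact Iff.rfl
  have hd : ∀ σ ∈ lab F₁, σ ∉ lab (partsF (leaf l)) := fun σ hσ h' =>
    hlT σ (hlab1 σ hσ) ((hlab2 σ).1 h')
  set F := F₁ ∪ partsF (leaf l) with hF
  have fF : Fam Φ ε r F [] := f1.union f2 hd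
  have hcard : F.card ≤ 2 * 2 ^ (L + 2) + 1 := by
    have h1 := fam2_card (Φ := Φ) (ε := ε) (r := r) hTl.1.depth h.live.depth
    have h2 : (partsF (leaf l)).card ≤ 1 := by
      rw [Finset.card_le_one]
      intro a ha b hb
      rw [mem_parts_leaf (mem_partsF.1 ha), mem_parts_leaf (mem_partsF.1 hb)]
    have h3 := Finset.card_union_le F₁ (partsF (leaf l))
    rw [← hF] at h3
    rw [← hF₁] at h1
    omega
  have hlabF : ∀ σ ∈ lab F, σ ∈ w ∨ σ = l := by
    intro σ hσ
    rcases mem_lab_union.1 hσ with h1 | h1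
    · exact Or.inl (hlab1 σ h1)
    · exact Or.inr ((hlab2 σ).1 h1)
  have lT : IsLast F T := (fam2_last hΦ hε hTl.1 bT h.live h.bg h.root.symm hTl.2).union_left hd
  have lL : IsLast F (leaf l) := (isLast_of_outs (ε := ε) hok.2.1 (Or.inl rfl)).union_right hd
  have hTF : ∀ σ ∈ T.leaves, σ ∈ lab F := by
    intro σ hσ
    obtain ⟨x, hx, rfl⟩ := TL.exists_out hσ
    have hxp : x ∈ parts T := by
      rcases hx with h' | h'
      · rw [h']; exact self_mem_parts T
      · exact Or.inr h'
    exact root_mem_lab (Finset.mem_union_left _ (mem_fam2.2 ⟨Or.inl hxp,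
      (parts_ext_le hΦ hε hxp hTl.1.ok).trans hTl.2⟩))
  have hlF : l ∈ lab F := root_mem_lab (P := leaf l) lL.mem
  -- the labels of the two trees
  have hcases : ∀ σ ∈ lab F, σ = l ∨ σ ∈ T.leaves ∨ σ ∈ S.leaves := by
    intro σ hσ
    rcases mem_lab_union.1 hσ with h1 | h1
    · obtain ⟨P, hP, rfl⟩ := mem_lab.1 h1
      rcases (mem_fam2.1 hP).1 with h2 | h2
      · exact Or.inr (Or.inl (parts_root_mem h2))
      · exact Or.inr (Or.inr (parts_root_mem h2))
    · exact Or.inl ((hlab2 σ).1 h1)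
  have hrT : T.root ∈ w := Finset.mem_coe.1 (hTw T.root_mem_leaves)
  have hrS : S.root ∈ w := Finset.mem_coe.1 (hSw S.root_mem_leaves)
  have hex : sig Φ ε (node T (leaf l)) ≤ ext Φ ε (node T (leaf l)) := (h.r1.trans h.r2.le)
  have hsub : ∀ a b, node a b ∈ F → a ∈ F ∧ b ∈ F := fun a b hab =>
    ⟨(fF.sub a b hab).1, (fF.sub a b hab).2.1⟩
  have hTroot : ∀ (G : List Gh) (es : List (Src × Src)), ∀ σ ∈ T.leaves,
      FX F G es σ T.root := fun G es σ hσ => FX.root hsub lT.mem σ hσ
  rcases le_or_gt (ext Φ ε S) r with hS | hS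
  · -- `S` is flying
    have lS : IsLast F S := by
      have h1 := fam2_last hΦ hε h.live h.bg hTl.1 bT h.root hS
      rw [fam2_comm] at h1
      exact h1.union_left hd
    have hst : st Φ ε S r = KU.free r (ln Φ ε S) := st_after hΦ hε h.live.ok hS
    refine ⟨F, [], [(T.root, l), (T.root, S.root)], fF, ?_, hcard, by simp, hlabF, hTF, hlF, ?_⟩
    · have hc := h.ctc
      rw [hst] at hc
      refine TriI.tri T (leaf l) S lT lL lS hok h.r1 h.r2.le hS h.root (hlT _ hrS) ?_
        (fun g hg => absurd hg List.not_mem_nil) (fun g hg => absurd hg List.not_mem_nil)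
      rw [st_swap hΦ T (leaf l)]
      rcases hc with hc | hc | hc
      · exact Or.inr (Or.inr hc)
      · exact Or.inl hc
      · exact Or.inr (Or.inl hc)
    · intro σ hσ
      have e1 : FX F [] [(T.root, l), (T.root, S.root)] T.root l := FX.edge (by simp)
      rcases hcases σ hσ with rfl | h1 | h1
      · exact FX.refl _ _ _ _
      · exact (hTroot _ _ σ h1).trans e1
      · exact ((FX.root hsub lS.mem σ h1).trans (FX.edge (by simp)).symm).trans e1
  · -- `S` is colliding
    obtain ⟨a, b, rfl⟩ : ∃ a b, S = node a b := by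
      cases S with
      | leaf σ => exact absurd hS (not_lt.2 h.live.sig_le)
      | node a b => exact ⟨a, b, rfl⟩
    have hokS := h.live.ok
    have hsw : M.live Φ ε L (w : Set Src) (node b a) r := live_swap hΦ h.live hS.le
    have hS' : r < ext Φ ε (node b a) := by rw [ext_swap hΦ a b]; exact hS
    have hra : a.root ≠ T.root := h.root
    have hrb : b.root ≠ T.root := by
      intro hr
      have h1 := Bg.unique hΦ hε hfin hsw hTl.1 h.bg.swap bT hr
      have h2 := hTl.2
      rw [← h1] at h2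
      exact absurd hS' (not_lt.2 h2)
    have haw : a.root ∈ w := Finset.mem_coe.1 (hSw (Or.inl a.root_mem_leaves))
    have hbw : b.root ∈ w := Finset.mem_coe.1 (hSw (Or.inr b.root_mem_leaves))
    have la : IsLast F a := by
      have h1 := fam2_last_node hΦ hε h.live h.bg hTl.1 bT hra hS
      rw [fam2_comm] at h1
      exact h1.union_left hd
    have lb : IsLast F b := by
      have h1 := fam2_last_node hΦ hε hsw h.bg.swap hTl.1 bT hrb hS'
      rw [← fam2_swap, fam2_comm] at h1
      exact h1.union_left hd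
    have hSroot : ∀ (G : List Gh) (es : List (Src × Src)), (a.root, b.root) ∈ es →
        ∀ σ ∈ (node a b).leaves, FX F G es σ a.root := by
      intro G es he σ hσ
      rcases hσ with hσ | hσ
      · exact FX.root hsub la.mem σ hσ
      · exact (FX.root hsub lb.mem σ hσ).trans (FX.edge he).symm
    have hfin' : ∀ (G : List Gh) (es : List (Src × Src)), (a.root, b.root) ∈ es →
        FX F G es T.root l → FX F G es a.root l → ∀ σ ∈ lab F, FX F G es σ l := by
      intro G es he h1 h2 σ hσ
      rcases hcases σ hσ with rfl | h3 | h3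
      · exact FX.refl _ _ _ _
      · exact (hTroot _ _ σ h3).trans h1
      · exact (hSroot G es he σ h3).trans h2
    rcases h.ctc with hc | hc | hc
    · -- with the undisturbed line
      have hcur : ∀ y, node T y ∈ F → sig Φ ε (node T (leaf l)) ≤ sig Φ ε (node T y) := by
        intro y hy
        have h9 := lT.last _ hy rfl
        have h10 := Spine.antisymm h9 (Spine.left y (Spine.refl T))
        have h11 := congrArg CTree.depth h10
        simp only [CTree.depth] at h11
        omega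
      have hg := fF.add_ghost (A := leaf l) (B := T) (r := sig Φ ε (node T (leaf l))) lL.mem lT.mem
        (hlT _ hrT).symm hbl.le hok.2.2.2.2.2.1.le h.r1 (ctc_hitT hε hok.2.2.2.1).symm lL hcur
      refine ⟨F, _, [(a.root, b.root), (a.root, T.root)], hg,
        TriI.tri a b T la lb lT hokS h.live.sig_le hS.le hTl.2 hra.symm hrb.symm
          (Or.inl hc.symm) ?_ ?_, hcard, by simp, hlabF, hTF, hlF, ?_⟩
      · intro g hg
        rw [List.mem_singleton] at hg
        subst hg
        exact ⟨(hlT _ haw).symm, (hlT _ hbw).symm, (hlT _ hrT).symm⟩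
      · intro g hg h1
        rw [List.mem_singleton] at hg
        subst hg
        rcases h1 with h1 | h1
        · exact absurd h1.symm hra
        · exact absurd h1.symm hrb
      · have e1 : FX F [(leaf l, T, sig Φ ε (node T (leaf l)))]
            [(a.root, b.root), (a.root, T.root)] T.root l :=
          (FX.of_FJ (FJ.ghost (g := (leaf l, T, sig Φ ε (node T (leaf l)))) (by simp))).symm
        exact hfin' _ _ (by simp) e1 ((FX.edge (by simp)).trans e1)
    · refine ⟨F, [], [(T.root, l), (a.root, b.root), (T.root, a.root)], fF,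
        TriI.quad T (leaf l) a b lT lL la lb hok h.r1 h.r2.le hokS h.live.sig_le hS.le hra.symm
          hrb.symm (hlT _ haw).symm (hlT _ hbw).symm hc
          (fun g hg => absurd hg List.not_mem_nil) (fun g hg => absurd hg List.not_mem_nil)
          (fun g hg => absurd hg List.not_mem_nil), hcard, by simp, hlabF, hTF, hlF, ?_⟩
      have e1 : FX F [] [(T.root, l), (a.root, b.root), (T.root, a.root)] T.root l :=
        FX.edge (by simp)
      exact hfin' _ _ (by simp) e1 ((FX.edge (x := T.root) (y := a.root) (by simp)).symm.trans e1)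
    · have hok' : CTree.ok Φ ε (node (leaf l) T) := ok_swap_node hok hΦ
      refine ⟨F, [], [(l, T.root), (a.root, b.root), (l, a.root)], fF,
        TriI.quad (leaf l) T a b lL lT la lb hok' (by rw [sig_swap T (leaf l)]; exact h.r1)
          (by rw [ext_swap hΦ T (leaf l)]; exact h.r2.le) hokS h.live.sig_le hS.le
          (hlT _ haw).symm (hlT _ hbw).symm hra.symm hrb.symm
          (by rw [st_swap hΦ T (leaf l)]; exact hc)
          (fun g hg => absurd hg List.not_mem_nil) (fun g hg => absurd hg List.not_mem_nil)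
          (fun g hg => absurd hg List.not_mem_nil), hcard, by simp, hlabF, hTF, hlF, ?_⟩
      have e1 : FX F [] [(l, T.root), (a.root, b.root), (l, a.root)] T.root l :=
        (FX.edge (x := l) (y := T.root) (by simp)).symm
      exact hfin' _ _ (by simp) e1 (FX.edge (x := l) (y := a.root) (by simp)).symm

end Vale.Agent.P119.IND
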