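import Vale.Agent.P119.IND.Peel
import Vale.Agent.P119.IND.Prog8

/-!
# P119, block IND: the later events, and plain programs (`helper76`)

* `mass_pl_le`, `small_pl_le`: the bounded and the small lemma for plain programs;
* `ext_bound`: the events of `L` follow after the lines of `P₀`.
-/

open MeasureTheory Filter Topology Set
open scoped ENNReal

set_option linter.unusedSectionVars false

noncomputable section

namespace Vale.Agent.P119.IND

open KU MM

variable {ι : Type} [DecidableEq ι] [Fintype ι] {Φ : E3 → ℝ} {ε T b : ℝ}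

theorem mass_pl_le (hΦ : IsPotential Φ) (hT : 0 ≤ T) (hb : 0 < b) (P : List (Ev ι)) :
    ∃ C : ℝ≥0∞, C ≠ ∞ ∧ ∀ ε : ℝ, 0 < ε → ε ≤ 1 → ∀ R : Finset ι, Trv (pl T P) R →
      massF b R (runI Φ ε T (pl T P)) ≤ C * ENNReal.ofReal (ε ^ 2) ^ (Fintype.card ι - R.card) := by
  obtain ⟨C, hC, h⟩ := mass_le (ι := ι) hΦ T (pl T P).length b hb
  refine ⟨C * ENNReal.ofReal (1 + T) ^ (pl T P).length,
    ENNReal.mul_ne_top hC (ENNReal.pow_ne_top ENNReal.ofReal_ne_top), ?_⟩
  intro ε hε hε1 R hR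
  have h1 := h (pl T P) rfl (fun e he => by rw [pl_snd he]; exact hT) ε hε R hR
  have h2 : cost ε [] (pl T P) ≤ ENNReal.ofReal (1 + T) ^ (pl T P).length :=
    cost_le hT hε1 [] fun e he => (pl_snd he).le
  refine h1.trans ((mul_le_mul' le_rfl h2).trans (le_of_eq (by ring)))

theorem small_pl_le (hΦ : IsPotential Φ) (hT : 0 ≤ T) (hb : 0 < b) {P : List (Ev ι)}
    (hwf : Wf (pl T P)) (hcl : Closed (pl T P)) :
    ∃ C : ℝ≥0∞, C ≠ ∞ ∧ ∀ ε : ℝ, 0 < ε → ε ≤ 1 → ∀ R : Finset ι, Trv (pl T P) R →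
      massF b R (runI Φ ε T (pl T P)) ≤
        (C * ENNReal.ofReal (√ε)) * ENNReal.ofReal (ε ^ 2) ^ (Fintype.card ι - R.card) := by
  obtain ⟨C, hC, h⟩ := small_le (ι := ι) hΦ hT (pl T P).length b hb
  refine ⟨C, hC, fun ε hε hε1 R hR => ?_⟩
  have h1 := h (pl T P) rfl (fun e he => pl_snd he) hwf hcl ε hε hε1 R hR
  exact h1.trans (le_of_eq (by ring))

/-- A contact during the run of a program is a contact of the final lines. -/
theorem run_last_near (hε : 0 < ε) {L : List (Ev ι × ℝ)} {e : Ev ι × ℝ} {β : ι → ℝ}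
    {Z : ι → Ph} (h : Run Φ ε T 0 (L ++ [e]) β Z) :
    ∃ s, 0 ≤ s ∧ s ≤ T ∧
      ‖(free s (finZ Φ ε L Z e.1.fst)).1 - (free s (finZ Φ ε L Z e.1.snd)).1‖ ≤ ε := by
  obtain ⟨s, h1, h2, h3⟩ := h.last
  exact ⟨s, h1, h2, (at_dist hε h3).2.2⟩

theorem speed_finZ {P : List (Ev ι × ℝ)} {Z : ι → Ph}
    (h : En (finZ Φ ε P Z) = En Z) (i k : ι) :
    ‖(finZ Φ ε P Z i).2 - (finZ Φ ε P Z k).2‖ ≤ 1 + En Z := by
  rw [← h]
  rcases eq_or_ne i k with h0 | h0
  · rw [h0, sub_self, norm_zero]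
    have := En_nonneg (finZ Φ ε P Z)
    linarith
  · exact speed_le _ h0

/-- **The later events.** -/
theorem ext_bound (hΦ : IsPotential Φ) (hT : 0 ≤ T) (P₀ : List (Ev ι × ℝ)) :
    ∀ L : List (Ev ι × ℝ), ∀ b : ℝ, 0 < b → ∃ C : ℝ≥0∞, C ≠ ∞ ∧
    ∀ ε : ℝ, 0 < ε → ε ≤ 1 → ∀ Q : List (Ev ι × ℝ), (∀ e ∈ P₀, e ∈ Q) →
    ∀ F : (ι → Ph) → ℝ≥0∞, Measurable F → Inv Q F →
    (∀ Z, F Z ≠ 0 → En (finZ Φ ε P₀ Z) = En Z) → ∀ X : ℝ≥0∞,
    (∀ R', Trv Q R' → massF (b / 2 ^ L.length) R' F ≤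
      X * ENNReal.ofReal (ε ^ 2) ^ (Fintype.card ι - R'.card)) →
    ∀ R, Trv (Q ++ L) R → massF b R (fun Z => F Z * {Z : ι → Ph |
      Run Φ ε T 0 L (finB Φ ε P₀ (fun _ => 0) Z) (finZ Φ ε P₀ Z)}.indicator 1 Z) ≤
      C * X * ENNReal.ofReal (ε ^ 2) ^ (Fintype.card ι - R.card) := by
  classical
  intro L
  induction L using List.reverseRecOn with
  | nil =>
    intro b hb
    refine ⟨1, by simp, ?_⟩
    intro ε hε hε1 Q hQ F hF hFi hE X hX R hR
    rw [List.append_nil] at hR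
    have h1 := hX R hR
    simp only [List.length_nil, pow_zero, div_one] at h1
    rw [one_mul]
    refine le_trans (massF_mono fun Z => ?_) h1
    have : Z ∈ {Z : ι → Ph | Run Φ ε T 0 [] (finB Φ ε P₀ (fun _ => 0) Z) (finZ Φ ε P₀ Z)} := trivial
    rw [indicator_of_mem this]
    simp
  | append_singleton L e ih =>
    intro b hb
    obtain ⟨C, hC, h⟩ := ih (b / 2) (by positivity)
    refine ⟨(1 + ENNReal.ofReal (32 * 1 ^ 3 * (1 + 2 / b)) * ENNReal.ofReal (1 + T)) * C,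
      ENNReal.mul_ne_top (ENNReal.add_ne_top.2 ⟨by simp, ENNReal.mul_ne_top
        ENNReal.ofReal_ne_top ENNReal.ofReal_ne_top⟩) hC, ?_⟩
    intro ε hε hε1 Q hQ F hF hFi hE X hX R hR
    set G : (ι → Ph) → ℝ≥0∞ := fun Z => F Z * {Z : ι → Ph |
      Run Φ ε T 0 L (finB Φ ε P₀ (fun _ => 0) Z) (finZ Φ ε P₀ Z)}.indicator 1 Z with hG
    have hset : MeasurableSet {Z : ι → Ph |
        Run Φ ε T 0 L (finB Φ ε P₀ (fun _ => 0) Z) (finZ Φ ε P₀ Z)} :=
      measurableSet_run hΦ hε.ne' L (measurable_finB hΦ hε.ne' P₀ (β := fun _ _ => 0)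
        measurable_const measurable_id) (measurable_finZ hΦ hε.ne' P₀ measurable_id) 0
    have hGm : Measurable G := hF.mul (measurable_const.indicator hset)
    have hsub1 : ∀ e ∈ P₀, e ∈ Q ++ L := fun e he => List.mem_append_left _ (hQ e he)
    have hsub2 : ∀ e ∈ P₀ ++ L, e ∈ Q ++ L := fun e he => by
      rcases List.mem_append.1 he with h1 | h1
      · exact hsub1 e h1
      · exact List.mem_append_right _ h1
    have hGi : Inv (Q ++ L) G := by
      intro B hB x Z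
      have h1 : Cl B P₀ := hB.mono hsub1
      have h2 : Cl B L := hB.mono fun e he => List.mem_append_right _ he
      have h3 : F (mv B (x, 0) Z) = F Z :=
        hFi B (hB.mono fun e he => List.mem_append_left _ he) x Z
      have h4 : mv B (x, 0) Z ∈ {Z : ι → Ph |
          Run Φ ε T 0 L (finB Φ ε P₀ (fun _ => 0) Z) (finZ Φ ε P₀ Z)} ↔ Z ∈ {Z : ι → Ph |
          Run Φ ε T 0 L (finB Φ ε P₀ (fun _ => 0) Z) (finZ Φ ε P₀ Z)} := by
        simp only [mem_ofPred_eq]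
        rw [finB_mv h1, finZ_mv h1, run_mv h2]
      simp only [hG]
      rw [h3]
      congr 1
      by_cases h5 : Z ∈ {Z : ι → Ph |
          Run Φ ε T 0 L (finB Φ ε P₀ (fun _ => 0) Z) (finZ Φ ε P₀ Z)}
      · rw [indicator_of_mem h5, indicator_of_mem (h4.2 h5)]; rfl
      · rw [indicator_of_notMem h5, indicator_of_notMem fun h' => h5 (h4.1 h')]
    have hX' : ∀ R', Trv (Q ++ L) R' → massF (b / 2) R' G ≤
        (C * X) * ENNReal.ofReal (ε ^ 2) ^ (Fintype.card ι - R'.card) := by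
      intro R' hR'
      refine h ε hε hε1 Q hQ F hF hFi hE X (fun R'' hR'' => ?_) R' hR'
      have := hX R'' hR''
      rw [List.length_append, List.length_singleton] at this
      rwa [show b / 2 / 2 ^ L.length = b / 2 ^ (L.length + 1) by rw [pow_succ]; field_simp]
    have hZm : Measurable fun Z : ι → Ph => finZ Φ ε (P₀ ++ L) Z :=
      measurable_finZ hΦ hε.ne' _ measurable_id
    have h1 := peel_bound (b := b) (M := 1) (d := T) hε le_rfl hb hT (Q := Q ++ L) (e := e) (R := R)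
      (by rwa [List.append_assoc]) hGm hGi
      (p := fun Z => finZ Φ ε (P₀ ++ L) Z e.1.fst) (q := fun Z => finZ Φ ε (P₀ ++ L) Z e.1.snd)
      ((measurable_pi_apply _).comp hZm) ((measurable_pi_apply _).comp hZm)
      ((covL_finZ _ _).sub hsub2) ((covL_finZ _ _).sub hsub2) (m := fun _ => 0) measurable_const
      (fun _ _ _ _ => rfl) (fun Z hZ => ?_) hX'
    swap
    · have h2 : F Z ≠ 0 := fun h0 => hZ (by simp only [hG, h0, zero_mul])
      have h3 : Run Φ ε T 0 L (finB Φ ε P₀ (fun _ => 0) Z) (finZ Φ ε P₀ Z) := by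
        by_contra h0
        refine hZ ?_
        simp only [hG]
        rw [indicator_of_notMem (by exact h0), mul_zero]
      refine speed_finZ ?_ _ _
      rw [finZ_append, En_finZ hΦ hε.ne' h3, hE Z h2]
    refine le_trans (massF_mono fun Z => ?_) (h1.trans ?_)
    · by_cases hR1 : Run Φ ε T 0 (L ++ [e]) (finB Φ ε P₀ (fun _ => 0) Z) (finZ Φ ε P₀ Z)
      · obtain ⟨s, h2, h3, h4⟩ := run_last_near hε hR1
        have h5 : Z ∈ nearS (1 * ε) T (fun Z => finZ Φ ε (P₀ ++ L) Z e.1.fst)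
            (fun Z => finZ Φ ε (P₀ ++ L) Z e.1.snd) (fun _ => 0) := by
          refine ⟨s, h2, by simpa using h3, ?_⟩
          rw [one_mul]
          simp only [finZ_append]
          exact h4
        have h6 : Z ∈ {Z : ι → Ph |
            Run Φ ε T 0 L (finB Φ ε P₀ (fun _ => 0) Z) (finZ Φ ε P₀ Z)} := hR1.left
        simp only [hG]
        rw [indicator_of_mem h5, indicator_of_mem h6, indicator_of_mem (show Z ∈ {Z : ι → Ph |
          Run Φ ε T 0 (L ++ [e]) (finB Φ ε P₀ (fun _ => 0) Z) (finZ Φ ε P₀ Z)} from hR1)]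
        simp
      · rw [indicator_of_notMem (show Z ∉ {Z : ι → Ph |
          Run Φ ε T 0 (L ++ [e]) (finB Φ ε P₀ (fun _ => 0) Z) (finZ Φ ε P₀ Z)} from hR1), mul_zero]
        exact zero_le
    · rw [mul_assoc _ C X]
      refine mul_le_mul' (mul_le_mul' ?_ le_rfl) le_rfl
      split_ifs
      · exact le_self_add
      · refine le_trans (mul_le_mul' le_rfl (ENNReal.ofReal_le_ofReal ?_)) le_add_self
        linarith

end Vale.Agent.P119.IND
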