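import Vale.Agent.P119.IND.TriMass

/-!
# P119, block IND: a third body at a colliding pair, the masses (`helper76`)

* `LineC c`: the lines `c (p, q)` which can be used for the contact (`com`, `Prod.fst`);
* `triG κ c`: the relation of a third body at a colliding pair, with the line `c`; `triR` is
  `triG (cS) com`;
* `tri_small`: the mass of `triG` is `o(1)`.
-/

open MeasureTheory Filter Topology Set
open scoped ENNReal

set_option linter.unusedSectionVars false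

noncomputable section

namespace Vale.Agent.P119.IND

open KU MM

variable {ι : Type} [DecidableEq ι] {Φ : E3 → ℝ} {ε T b : ℝ}

/-! ### The relation, with a general line -/

/-- The lines which can be used for the contact. -/
structure LineC (c : Ph × Ph → Ph) : Prop where
  meas : Measurable c
  cov : ∀ (u : Ph) (q : Ph × Ph), c (boost u q.1, boost u q.2) = boost u (c q)
  vel : ∀ (q : Ph × Ph) (E : ℝ), ‖q.1.2‖ ≤ E → ‖q.2.2‖ ≤ E → ‖(c q).2‖ ≤ E

theorem lineC_com : LineC com := by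
  refine ⟨continuous_com.measurable, com_boost, fun q E h1 h2 => ?_⟩
  unfold com
  simp only
  rw [norm_smul]
  have h3 := norm_add_le q.1.2 q.2.2
  have h4 : ‖(2 : ℝ)⁻¹‖ = 1 / 2 := by norm_num
  rw [h4]
  linarith

theorem lineC_fst : LineC (Prod.fst : Ph × Ph → Ph) :=
  ⟨measurable_fst, fun _ _ => rfl, fun _ _ h _ => h⟩

theorem lineC_snd : LineC (Prod.snd : Ph × Ph → Ph) :=
  ⟨measurable_snd, fun _ _ => rfl, fun _ _ _ h => h⟩

/-- The size of the neighbourhood of a collision, in units of `ε`, with the constant `κ`. -/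
def nbk (Φ : E3 → ℝ) (κ ε : ℝ) (q : Ph × Ph) (l : Ph) : ℝ :=
  2 + dpl Φ ε q * (κ * (1 + √(‖q.1.2‖ ^ 2 + ‖q.2.2‖ ^ 2)) + ‖l.2‖)

theorem nbp_eq (hΦ : IsPotential Φ) (ε : ℝ) (q : Ph × Ph) (l : Ph) :
    nbp hΦ ε q l = nbk Φ (FL.cS hΦ) ε q l := rfl

/-- **A third body at a colliding pair**, with the line `c`. -/
def triG (Φ : E3 → ℝ) (κ : ℝ) (c : Ph × Ph → Ph) (ε T : ℝ) (P₁ P₂ P₃ : List (Ev ι))
    (a k i : ι) (β : ι → ℝ) : Set (ι → Ph) :=
  winR Φ ε T P₁ P₂ P₃ a k β ∩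
  (cmR ε T (fun Z => c (qq Φ ε T P₁ a k Z)) (fun Z => finZ Φ ε (pl T (P₁ ++ P₂)) Z i) ∩
  {Z | finB Φ ε (pl T (P₁ ++ P₂)) β Z i ≤
      hitT ε (qq Φ ε T P₁ a k Z) + ε * dpl Φ ε (qq Φ ε T P₁ a k Z) ∧
    ‖(KU.free (hitT ε (qq Φ ε T P₁ a k Z)) (qq Φ ε T P₁ a k Z).1).1 -
      (KU.free (hitT ε (qq Φ ε T P₁ a k Z)) (finZ Φ ε (pl T (P₁ ++ P₂)) Z i)).1‖ ≤
      ε * nbk Φ κ ε (qq Φ ε T P₁ a k Z) (finZ Φ ε (pl T (P₁ ++ P₂)) Z i)})

theorem triR_eq (hΦ : IsPotential Φ) (ε T : ℝ) (P₁ P₂ P₃ : List (Ev ι)) (a k i : ι)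
    (β : ι → ℝ) : triR hΦ ε T P₁ P₂ P₃ a k i β =
      triG Φ (FL.cS hΦ) com ε T P₁ P₂ P₃ a k i β := rfl

/-- **A third body at a colliding pair**, on the free line of the first particle of the pair. -/
def triF (hΦ : IsPotential Φ) (ε T : ℝ) (P₁ P₂ P₃ : List (Ev ι)) (a k i : ι) (β : ι → ℝ) :
    Set (ι → Ph) :=
  triG Φ (FL.cS hΦ + 1) Prod.fst ε T P₁ P₂ P₃ a k i β

section Meas

variable [Fintype ι]

theorem measurable_nbk (hΦ : IsPotential Φ) (κ : ℝ) {X : Type*} [MeasurableSpace X]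
    {q : X → Ph × Ph} (hq : Measurable q) {l : X → Ph} (hl : Measurable l) :
    Measurable fun x => nbk Φ κ ε (q x) (l x) := by
  have h1 : Measurable fun x => dpl Φ ε (q x) := (measurable_dpl hΦ).comp hq
  have h2 : Measurable fun x => √(‖(q x).1.2‖ ^ 2 + ‖(q x).2.2‖ ^ 2) :=
    ((hq.fst.snd.norm.pow_const 2).add (hq.snd.snd.norm.pow_const 2)).sqrt
  have h3 : Measurable fun x => ‖(l x).2‖ := hl.snd.norm
  unfold nbk
  exact (h1.mul (((h2.const_add 1).const_mul _).add h3)).const_add 2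

theorem measurableSet_triG (hΦ : IsPotential Φ) (hε : ε ≠ 0) (κ : ℝ) {c : Ph × Ph → Ph}
    (hc : LineC c) (P₁ P₂ P₃ : List (Ev ι)) (a k i : ι) {X : Type*} [MeasurableSpace X]
    {β : X → ι → ℝ} (hβ : Measurable β) {Z : X → ι → Ph} (hZ : Measurable Z) :
    MeasurableSet {x | Z x ∈ triG Φ κ c ε T P₁ P₂ P₃ a k i (β x)} := by
  have hq := measurable_qq (T := T) hΦ hε P₁ a k hZ
  have hh : Measurable fun x => hitT ε (qq Φ ε T P₁ a k (Z x)) := measurable_hitT.comp hq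
  have hB2 := measurable_finB hΦ hε (pl T (P₁ ++ P₂)) hβ hZ
  have hZ2 := measurable_finZ hΦ hε (pl T (P₁ ++ P₂)) hZ
  have hl : Measurable fun x => finZ Φ ε (pl T (P₁ ++ P₂)) (Z x) i :=
    (measurable_pi_apply i).comp hZ2
  have hd : Measurable fun x => hitT ε (qq Φ ε T P₁ a k (Z x)) +
      ε * dpl Φ ε (qq Φ ε T P₁ a k (Z x)) := hh.add (((measurable_dpl hΦ).comp hq).const_mul ε)
  have hn : Measurable fun x => nbk Φ κ ε (qq Φ ε T P₁ a k (Z x))
      (finZ Φ ε (pl T (P₁ ++ P₂)) (Z x) i) := measurable_nbk hΦ κ hq hl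
  have hA : MeasurableSet {x | Z x ∈ winR Φ ε T P₁ P₂ P₃ a k (β x)} :=
    measurableSet_winR hΦ hε P₁ P₂ P₃ a k hβ hZ
  have hp1 : Measurable fun Z : ι → Ph => c (qq Φ ε T P₁ a k Z) :=
    hc.meas.comp (measurable_qq hΦ hε P₁ a k measurable_id)
  have hp2 : Measurable fun Z : ι → Ph => finZ Φ ε (pl T (P₁ ++ P₂)) Z i :=
    (measurable_pi_apply i).comp (measurable_finZ hΦ hε (pl T (P₁ ++ P₂)) measurable_id)
  have hC : MeasurableSet {x | Z x ∈ cmR ε T (fun Z => c (qq Φ ε T P₁ a k Z))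
      (fun Z => finZ Φ ε (pl T (P₁ ++ P₂)) Z i)} := measurableSet_cmR hp1 hp2 hZ
  have hD : MeasurableSet {x | finB Φ ε (pl T (P₁ ++ P₂)) (β x) (Z x) i ≤
      hitT ε (qq Φ ε T P₁ a k (Z x)) + ε * dpl Φ ε (qq Φ ε T P₁ a k (Z x))} :=
    measurableSet_le ((measurable_pi_apply i).comp hB2) hd
  have hE : MeasurableSet {x | ‖(KU.free (hitT ε (qq Φ ε T P₁ a k (Z x)))
      (qq Φ ε T P₁ a k (Z x)).1).1 - (KU.free (hitT ε (qq Φ ε T P₁ a k (Z x)))
        (finZ Φ ε (pl T (P₁ ++ P₂)) (Z x) i)).1‖ ≤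
      ε * nbk Φ κ ε (qq Φ ε T P₁ a k (Z x)) (finZ Φ ε (pl T (P₁ ++ P₂)) (Z x) i)} :=
    measurableSet_le (measurable_dist_line hq.fst hl hh) (hn.const_mul ε)
  exact hA.inter (hC.inter (hD.inter hE))

theorem measurableSet_triF (hΦ : IsPotential Φ) (hε : ε ≠ 0) (P₁ P₂ P₃ : List (Ev ι))
    (a k i : ι) {X : Type*} [MeasurableSpace X] {β : X → ι → ℝ} (hβ : Measurable β)
    {Z : X → ι → Ph} (hZ : Measurable Z) :
    MeasurableSet {x | Z x ∈ triF hΦ ε T P₁ P₂ P₃ a k i (β x)} :=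
  measurableSet_triG hΦ hε _ lineC_fst P₁ P₂ P₃ a k i hβ hZ

end Meas

variable [Fintype ι]

theorem triG_births (hΦ : IsPotential Φ) (hε : 0 < ε) (κ : ℝ) (c : Ph × Ph → Ph)
    (P₁ P₂ P₃ : List (Ev ι)) (a k i : ι) {β : ι → ℝ} (hβ : ∀ j, 0 ≤ β j) :
    triG Φ κ c ε T P₁ P₂ P₃ a k i β ⊆ triG Φ κ c ε T P₁ P₂ P₃ a k i fun _ => 0 := by
  rintro Z ⟨h1, h2, h3, h4⟩
  exact ⟨winR_births hΦ hε _ _ _ _ _ hβ h1, h2,
    (finB_mono (β' := fun _ => 0) _ hβ Z i).trans h3, h4⟩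

theorem covL_line {c : Ph × Ph → Ph} (hc : LineC c) {Q : List (Ev ι × ℝ)} {P : List (Ev ι)}
    {a k : ι} (hQ : ∀ e ∈ pl T P, e ∈ Q) (hak : (Ev.gh a k, T) ∈ Q) :
    CovL Q a fun Z => c (qq Φ ε T P a k Z) := by
  intro B hB x Z
  have h1 : Cl B (pl T P) := hB.mono hQ
  have h2 : a ∈ B ↔ k ∈ B := hB _ hak
  unfold qq
  simp only
  rw [finZ_mv h1, mv_pair h2, hc.cov _ (finZ Φ ε (pl T P) Z a, finZ Φ ε (pl T P) Z k)]

theorem vel_line {c : Ph × Ph → Ph} (hc : LineC c) (hΦ : IsPotential Φ) (hε : ε ≠ 0)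
    {P : List (Ev ι)} (hne : ∀ f ∈ pl T P, f.1.fst ≠ f.1.snd) (Z : ι → Ph) (a k : ι) :
    ‖(c (qq Φ ε T P a k Z)).2‖ ≤ (1 + En Z) / 2 :=
  hc.vel _ _ (vel_fin hΦ hε hne Z a) (vel_fin hΦ hε hne Z k)

/-! ### The near part, no later events -/

theorem Inv.of_cl {P Q : List (Ev ι × ℝ)} (h : ∀ B : Finset ι, Cl B Q → Cl B P) {α : Type*}
    {F : (ι → Ph) → α} (hF : Inv P F) : Inv Q F := fun B hB x Z => hF B (h B hB) x Z

theorem cl_swap {P₁ : List (Ev ι)} {a k i : ι} {B : Finset ι}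
    (h : Cl B (pl T (P₁ ++ [Ev.gh k a]) ++ [(Ev.gh k i, T)])) :
    Cl B (pl T (P₁ ++ [Ev.gh a k]) ++ [(Ev.gh a i, T)]) := by
  have h1 : k ∈ B ↔ a ∈ B := h (Ev.gh k a, T) (by rw [pl_append]; simp [pl])
  have h2 : k ∈ B ↔ i ∈ B := h (Ev.gh k i, T) (by simp)
  intro e he
  rw [pl_append] at he
  simp only [List.mem_append, List.mem_cons, List.not_mem_nil, or_false, pl, List.map_cons,
    List.map_nil, List.mem_map] at he
  rcases he with (⟨f, hf, rfl⟩ | rfl) | rfl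
  · exact h (f, T) (by rw [pl_append]; simp [pl, hf])
  · exact h1.symm
  · exact h1.symm.trans h2

theorem nrS_run {M M' K : ℝ} {P₁ : List (Ev ι)} {a k i : ι} {Z : ι → Ph}
    (hΦ : IsPotential Φ) (hε : 0 < ε) (hak : a ≠ k) (h : Z ∈ nrS Φ T ε M M' K P₁ a k i) :
    Run Φ ε T 0 (pl T (P₁ ++ [Ev.gh a k])) (fun _ => 0) Z := by
  obtain ⟨h0, h1, h2, h3, h6, h4, h5, h7, h8⟩ := h
  have h9 : 0 ≤ finB Φ ε (pl T P₁) (fun _ => 0) Z a :=
    finB_nonneg hΦ hε (β := fun _ => 0) (fun _ => le_rfl) h6.run a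
  have h10 : 0 ≤ max (finB Φ ε (pl T P₁) (fun _ => 0) Z a)
    (finB Φ ε (pl T P₁) (fun _ => 0) Z k) := h9.trans (le_max_left _ _)
  rw [pl_insert]
  refine h6.append ⟨_, le_rfl, h3, ⟨hak, h4, h5, Vale.Agent.P119.M.ctc_hitT hε h1, ?_⟩, trivial⟩
  simp only
  linarith

theorem sqrt_ge {ε : ℝ} (hε : 0 < ε) (hε1 : ε ≤ 1) : ε ≤ √ε := by
  have h1 : √ε ≤ 1 := Real.sqrt_le_one.2 hε1
  have h2 := Real.mul_self_sqrt hε.le
  nlinarith [Real.sqrt_nonneg ε]

/-- **The near part.** -/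
theorem nr_small (hΦ : IsPotential Φ) (hT : 0 ≤ T) (hb : 0 < b) {P₁ : List (Ev ι)} {a k i : ι}
    (hbr : ¬Jn (pl T P₁) a k)
    (hwf : ∀ T', Wf (pl T' (P₁ ++ [Ev.gh a k, Ev.gh i k])))
    (hwf' : ∀ T', Wf (pl T' (P₁ ++ [Ev.gh k a, Ev.gh i a]))) {M M' K : ℝ} (hM : 1 ≤ M)
    (hM' : 0 ≤ M') (hK : 0 ≤ K) : ∃ C : ℝ≥0∞, C ≠ ∞ ∧ ∀ ε : ℝ, 0 < ε → ε ≤ 1 →
    ∀ R, Trv (pl T (P₁ ++ [Ev.gh a k]) ++ [(Ev.gh a i, T)]) R →
    massF b R ((nrS Φ T ε M M' K P₁ a k i).indicator 1) ≤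
      C * ENNReal.ofReal (√ε) * ENNReal.ofReal (ε ^ 2) ^ (Fintype.card ι - R.card) := by
  classical
  have hak : a ≠ k := by
    rintro rfl
    exact hbr (Jn.refl _ _)
  have hM0 : 0 ≤ M := by linarith
  by_cases hJ : Jn (pl T (P₁ ++ [Ev.gh a k])) a i
  · have hJ' : Jn (pl T P₁) a i ∨ Jn (pl T P₁) k i := by
      have hl : pl T (P₁ ++ [Ev.gh a k]) = pl T P₁ ++ [(Ev.gh a k, T)] := by
        rw [pl_insert]; rfl
      rw [hl, jn_concat] at hJ
      rcases hJ with h | ⟨-, h⟩ | ⟨h, -⟩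
      · exact Or.inl h
      · exact Or.inr h
      · exact absurd h hbr
    rcases hJ' with hJ' | hJ'
    · obtain ⟨C, hC, H⟩ := nt_small (ι := ι) hΦ hT hb hbr hJ' hwf hM0 hM' hK
      refine ⟨C, hC, fun ε hε hε1 R hR => H ε hε hε1 _
        (measurableSet_nrS hΦ hε.ne' M M' K P₁ a k i) ?_ ?_ R hR⟩
      · rintro Z ⟨h0, h1, h2, h3, h6, h4, h5, h7, h8⟩
        refine ⟨h0, _, h2, h3, h6, h4, h5, h7, ?_, ?_⟩
        · exact (Vale.Agent.P119.M.dist_hitT hε h1).le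
        · rw [norm_sub_rev]; exact h8
      · refine inv_nrS M M' K (fun e he => ?_) ?_ ?_
        · rw [pl_append]
          exact List.mem_append_left _ (List.mem_append_left _ he)
        · rw [pl_insert]; simp
        · simp
    · obtain ⟨C, hC, H⟩ := nt_small (ι := ι) (a := k) (k := a) (M := M + 1) hΦ hT hb
        (fun h => hbr h.symm) hJ' hwf' (by linarith) hM' hK
      refine ⟨C, hC, fun ε hε hε1 R hR => H ε hε hε1 _
        (measurableSet_nrS hΦ hε.ne' M M' K P₁ a k i) ?_ ?_ R (trv_swap hR)⟩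
      · rintro Z ⟨h0, h1, h2, h3, h6, h4, h5, h7, h8⟩
        have h9 := (Vale.Agent.P119.M.dist_hitT hε h1).le
        refine ⟨h0, _, h2, h3, h6, h5, h4, h7, ?_, ?_⟩
        · rw [norm_sub_rev]; exact h9
        · set s := hitT ε (qq Φ ε T P₁ a k Z) with hs
          have e1 : (KU.free s (finZ Φ ε (pl T P₁) Z i)).1 -
              (KU.free s (finZ Φ ε (pl T P₁) Z k)).1 =
              -((KU.free s (finZ Φ ε (pl T P₁) Z a)).1 -
                (KU.free s (finZ Φ ε (pl T P₁) Z i)).1) +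
              ((KU.free s (finZ Φ ε (pl T P₁) Z a)).1 -
                (KU.free s (finZ Φ ε (pl T P₁) Z k)).1) := by abel
          rw [e1]
          refine (norm_add_le _ _).trans ?_
          rw [norm_neg]
          have h9' : ‖(KU.free s (finZ Φ ε (pl T P₁) Z a)).1 -
                (KU.free s (finZ Φ ε (pl T P₁) Z k)).1‖ ≤ ε := h9
          linarith
      · refine Inv.of_cl (P := pl T (P₁ ++ [Ev.gh a k]) ++ [(Ev.gh a i, T)])
          (fun B hB => cl_swap hB) (inv_nrS M M' K (fun e he => ?_) ?_ ?_)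
        · rw [pl_append]
          exact List.mem_append_left _ (List.mem_append_left _ he)
        · rw [pl_insert]; simp
        · simp
  · obtain ⟨C, hC, H⟩ := mass_pl_le (ι := ι) hΦ hT (show 0 < b / 2 by positivity)
      (P₁ ++ [Ev.gh a k])
    refine ⟨ENNReal.ofReal (32 * M ^ 3 * (1 + 2 / b)) * C,
      ENNReal.mul_ne_top ENNReal.ofReal_ne_top hC, fun ε hε hε1 R hR => ?_⟩
    have hZ : Measurable fun Z : ι → Ph => finZ Φ ε (pl T P₁) Z :=
      measurable_finZ hΦ hε.ne' _ measurable_id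
    have hm1 : ∀ e ∈ pl T P₁, e ∈ pl T (P₁ ++ [Ev.gh a k]) := fun e he => by
      rw [pl_append]; exact List.mem_append_left _ he
    have hh : Measurable fun Z : ι → Ph => hitT ε (qq Φ ε T P₁ a k Z) :=
      measurable_hitT.comp (measurable_qq hΦ hε.ne' P₁ a k measurable_id)
    have h1 := peel_bound (b := b) (M := M) (d := 0) (e := (Ev.gh a i, T)) hε hM hb le_rfl
      (Q := pl T (P₁ ++ [Ev.gh a k])) (R := R) hR
      (measurable_runI hΦ hε.ne' (pl T (P₁ ++ [Ev.gh a k]))) (inv_runI _)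
      (p := fun Z => finZ Φ ε (pl T P₁) Z a) (q := fun Z => finZ Φ ε (pl T P₁) Z i)
      ((measurable_pi_apply _).comp hZ) ((measurable_pi_apply _).comp hZ)
      ((covL_finZ _ _).sub hm1) ((covL_finZ _ _).sub hm1) hh
      (inv_hitT P₁ hm1 (by rw [pl_insert]; simp)) (fun Z hZ0 => ?_) (H ε hε hε1)
    swap
    · refine speed_finZ ?_ _ _
      refine En_fin hΦ hε.ne' (fun f hf => ?_) Z
      have hrun : Run Φ ε T 0 (pl T (P₁ ++ [Ev.gh a k])) (fun _ => 0) Z := by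
        by_contra h0
        exact hZ0 (runI_not _ h0)
      exact run_ne hrun f (hm1 f hf)
    rw [if_neg (show ¬Jn (pl T (P₁ ++ [Ev.gh a k])) (Ev.gh a i, T).1.fst (Ev.gh a i, T).1.snd
      from hJ)] at h1
    refine le_trans (massF_mono fun Z => ?_) (h1.trans ?_)
    · by_cases hZn : Z ∈ nrS Φ T ε M M' K P₁ a k i
      · rw [indicator_of_mem hZn, runI_of _ (nrS_run hΦ hε hak hZn), indicator_of_mem]
        · simp
        · refine ⟨_, le_rfl, by simp, ?_⟩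
          rw [mul_comm M ε]
          exact hZn.2.2.2.2.2.2.2.2
      · rw [indicator_of_notMem hZn]
        exact zero_le
    · rw [add_zero]
      have h2 : ENNReal.ofReal ε ≤ ENNReal.ofReal (√ε) :=
        ENNReal.ofReal_le_ofReal (sqrt_ge hε hε1)
      calc _ ≤ ENNReal.ofReal (32 * M ^ 3 * (1 + 2 / b)) * ENNReal.ofReal (√ε) * C *
            ENNReal.ofReal (ε ^ 2) ^ (Fintype.card ι - R.card) :=
            mul_le_mul' (mul_le_mul' (mul_le_mul' le_rfl h2) le_rfl) le_rfl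
        _ = _ := by ring

/-! ### No event during the collision -/

theorem nbk_le {κ ε M' K : ℝ} (hκ : 0 ≤ κ) {q : Ph × Ph} {l : Ph} (hK : 0 ≤ K)
    (hd : dpl Φ ε q ≤ M') (hq : ‖q.1.2‖ ^ 2 + ‖q.2.2‖ ^ 2 ≤ K) (hl : ‖l.2‖ ≤ 1 + K) :
    nbk Φ κ ε q l ≤ 2 + M' * (κ * (1 + √K) + (1 + K)) := by
  unfold nbk
  have h1 : √(‖q.1.2‖ ^ 2 + ‖q.2.2‖ ^ 2) ≤ √K := Real.sqrt_le_sqrt hq
  have h2 := dpl_nonneg Φ ε q
  have h3 : κ * (1 + √(‖q.1.2‖ ^ 2 + ‖q.2.2‖ ^ 2)) + ‖l.2‖ ≤ κ * (1 + √K) + (1 + K) :=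
    add_le_add (mul_le_mul_of_nonneg_left (by linarith) hκ) hl
  have h4 : 0 ≤ κ * (1 + √K) + (1 + K) := by positivity
  have h5 := mul_le_mul hd h3 (by positivity) (h2.trans hd)
  linarith

/-- The members of `triG`, with bounded energy and duration. -/
theorem triG_nrS (hΦ : IsPotential Φ) (hε : 0 < ε) {κ : ℝ} (hκ : 0 ≤ κ) {c : Ph × Ph → Ph}
    {P₁ P₃ : List (Ev ι)} {a k i : ι} (hak : a ≠ k) {M' K : ℝ} (hK : 0 ≤ K)
    {Z : ι → Ph} (h : Z ∈ triG Φ κ c ε T P₁ [] P₃ a k i fun _ => 0) (hE : En Z ≤ K)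
    (hd : dpl Φ ε (qq Φ ε T P₁ a k Z) ≤ M') :
    Z ∈ nrS Φ T ε (2 + M' * (κ * (1 + √K) + (1 + K))) M' K P₁ a k i := by
  obtain ⟨⟨h1, h2, h3, h4, h5, h6, h7, h8⟩, -, h9, h10⟩ := h
  rw [List.append_nil] at h9 h10
  have hEn : En (finZ Φ ε (pl T P₁) Z) = En Z := En_finZ hΦ hε.ne' h6.run
  refine ⟨hE, h1, h2, h3, h6, h4, h5, h9.trans ?_, h10.trans ?_⟩
  · have := mul_le_mul_of_nonneg_left hd hε.le
    linarith
  · refine mul_le_mul_of_nonneg_left (nbk_le hκ hK hd ?_ ?_) hε.le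
    · refine le_trans ?_ hE
      rw [← hEn]
      exact two_sq_le_En (finZ Φ ε (pl T P₁) Z) hak
    · refine (vel_le (finZ Φ ε (pl T P₁) Z) i).trans ?_
      rw [hEn]
      linarith

/-- **A third body at a colliding pair**, no event during the collision. -/
theorem tri0_small (hΦ : IsPotential Φ) (hT : 0 ≤ T) (hb : 0 < b) {κ : ℝ} (hκ : 0 ≤ κ)
    {c : Ph × Ph → Ph} (hc : LineC c) {P₁ P₃ : List (Ev ι)} {a k i : ι} (hak : a ≠ k)
    (hwf : Wf (pl T (P₁ ++ Ev.gh a k :: P₃)))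
    (hwf1 : ∀ T', Wf (pl T' (P₁ ++ [Ev.gh a k, Ev.gh i k])))
    (hwf2 : ∀ T', Wf (pl T' (P₁ ++ [Ev.gh k a, Ev.gh i a]))) {δ : ℝ≥0∞} (hδ : δ ≠ 0) :
    ∀ᶠ ε : ℝ in 𝓝[>] 0, ∀ R,
      Trv (pl T (P₁ ++ Ev.gh a k :: P₃) ++ [(Ev.gh a i, T)]) R →
      massF b R ((triG Φ κ c ε T P₁ [] P₃ a k i fun _ => 0).indicator 1) ≤
        δ * ENNReal.ofReal (ε ^ 2) ^ (Fintype.card ι - R.card) := by
  classical
  by_cases hne : ∀ f ∈ pl T P₁, f.1.fst ≠ f.1.snd
  swap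
  · refine Eventually.of_forall fun ε R _ => ?_
    rw [massF_empty]
    · exact zero_le
    rintro Z ⟨hZ, -⟩
    refine hne fun f hf => run_ne (winR_run' hZ) f ?_
    rw [pl_append]
    exact List.mem_append_left _ hf
  have hm1 : ∀ f ∈ pl T P₁, f ∈ pl T (P₁ ++ Ev.gh a k :: P₃) := by
    intro f hf
    rw [pl_insert]
    exact List.mem_append_left _ hf
  have hm2 : (Ev.gh a k, T) ∈ pl T (P₁ ++ Ev.gh a k :: P₃) := by
    rw [pl_insert]; simp
  have hpm : ∀ {ε : ℝ}, 0 < ε → Measurable fun Z : ι → Ph => c (qq Φ ε T P₁ a k Z) :=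
    fun hε => hc.meas.comp (measurable_qq hΦ hε.ne' P₁ a k measurable_id)
  have hqm : ∀ {ε : ℝ}, 0 < ε → Measurable fun Z : ι → Ph => finZ Φ ε (pl T (P₁ ++ [])) Z i := by
    intro ε hε
    exact (measurable_pi_apply i).comp (measurable_finZ hΦ hε.ne' _ measurable_id)
  have hqc : ∀ {ε : ℝ}, CovL (pl T (P₁ ++ Ev.gh a k :: P₃)) i
      fun Z => finZ Φ ε (pl T (P₁ ++ [])) Z i := by
    intro ε
    rw [List.append_nil]
    exact (covL_finZ _ _).sub hm1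
  have hsp : ∀ {ε : ℝ}, 0 < ε → ∀ Z : ι → Ph, ‖(c (qq Φ ε T P₁ a k Z)).2 -
      (finZ Φ ε (pl T (P₁ ++ [])) Z i).2‖ ≤ 1 + En Z := by
    intro ε hε Z
    rw [List.append_nil]
    exact speed_le_two (vel_line hc hΦ hε.ne' hne Z a k) (vel_fin hΦ hε.ne' hne Z i)
  by_cases hcl : Closed (pl T (P₁ ++ Ev.gh a k :: P₃))
  · obtain ⟨C, hC, H⟩ := closed_bd (ι := ι) hΦ hT hb hwf hcl a i
    filter_upwards [ev_sqrt hC hδ, ev_one] with ε h1 ⟨h2, h3⟩
    intro R hR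
    refine le_trans (massF_mono fun Z => ?_) ((H ε h2 h3 _ _ (hpm h2) (hqm h2)
      (covL_line hc hm1 hm2) hqc (hsp h2) R hR).trans (mul_le_mul' h1 le_rfl))
    by_cases hZ : Z ∈ triG Φ κ c ε T P₁ [] P₃ a k i fun _ => 0
    · have hr := winR_run hΦ h2 hak hZ.1
      rw [List.nil_append] at hr
      rw [indicator_of_mem hZ, indicator_of_mem hZ.2.1, runI_of _ hr]
      simp
    · rw [indicator_of_notMem hZ]
      exact zero_le
  · have hbr : ¬Jn (pl T P₁) a k := by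
      intro hJ
      exact forest_of_not_closed hcl _ _ _ (pl_insert T P₁ (Ev.gh a k) P₃)
        (hJ.mono fun f hf => List.mem_append_left _ hf)
    obtain ⟨C₁, hC₁, H₁⟩ := high_bd (ι := ι) hΦ hT hb (P₁ ++ Ev.gh a k :: P₃) a i
    obtain ⟨C₂, hC₂, H₂⟩ := long_bd (ι := ι) hΦ hT hb hcl a i
    obtain ⟨K, hK0, hK⟩ := ex_exp hC₁ (third_ne hδ) hb
    obtain ⟨M, hM0, hM⟩ := ex_Xi (b := b / 8) hΦ hC₂ (third_ne hδ) (by positivity)
    set M₁ : ℝ := 2 + M * (κ * (1 + √K) + (1 + K)) with hM₁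
    have hM₁1 : 1 ≤ M₁ := by
      have : 0 ≤ M * (κ * (1 + √K) + (1 + K)) := by positivity
      linarith
    obtain ⟨C₃, hC₃, H₃⟩ := nr_small (ι := ι) (b := b / 2 ^ (pl T P₃).length) hΦ hT
      (by positivity) hbr hwf1 hwf2 hM₁1 hM0 hK0
    obtain ⟨C₄, hC₄, H₄⟩ := ext_bound (ι := ι) hΦ hT (pl T P₁) (pl T P₃) b hb
    filter_upwards [ev_sqrt (ENNReal.mul_ne_top hC₄ hC₃) (third_ne hδ), ev_one] with ε h1 ⟨h2, h3⟩
    intro R hR
    have g1 := H₁ ε h2 h3 _ _ (hpm h2) (hqm h2) (covL_line hc hm1 hm2) hqc (hsp h2) K R hR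
    have g2 := H₂ ε h2 h3 _ _ (hpm h2) (hqm h2) (covL_line hc hm1 hm2) hqc (hsp h2) hne M R hR
    set Q : List (Ev ι × ℝ) := pl T (P₁ ++ [Ev.gh a k]) ++ [(Ev.gh a i, T)] with hQ
    have hmQ : ∀ e ∈ pl T P₁, e ∈ Q := by
      intro e he
      rw [hQ, pl_append]
      exact List.mem_append_left _ (List.mem_append_left _ he)
    have hFm : Measurable ((nrS Φ T ε M₁ M K P₁ a k i).indicator (1 : (ι → Ph) → ℝ≥0∞)) :=
      measurable_const.indicator (measurableSet_nrS hΦ h2.ne' M₁ M K P₁ a k i)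
    have hFi : Inv Q fun Z => (nrS Φ T ε M₁ M K P₁ a k i).indicator (1 : (ι → Ph) → ℝ≥0∞) Z :=
      inv_nrS M₁ M K hmQ (by rw [hQ, pl_insert]; simp) (by rw [hQ]; simp)
    have g3 := H₄ ε h2 h3 Q hmQ _ hFm hFi (fun Z _ => En_fin hΦ h2.ne' hne Z)
      (C₃ * ENNReal.ofReal (√ε)) (fun R' hR' => H₃ ε h2 h3 R' hR') R (hR.congr fun c d => ?_)
    swap
    · refine jn_congr fun f => ?_
      rw [hQ, pl_insert, pl_insert]
      simp only [List.mem_append, List.mem_cons, List.not_mem_nil, or_false, pl, List.map_nil]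
      tauto
    set p : (ι → Ph) → Ph := fun Z => c (qq Φ ε T P₁ a k Z) with hp
    set q : (ι → Ph) → Ph := fun Z => finZ Φ ε (pl T (P₁ ++ [])) Z i with hq
    set G₁ : (ι → Ph) → ℝ≥0∞ := fun Z => (runI Φ ε T (pl T (P₁ ++ Ev.gh a k :: P₃)) Z *
        (cmR ε T p q).indicator 1 Z) * {Z : ι → Ph | K < En Z}.indicator 1 Z with hG₁
    set G₂ : (ι → Ph) → ℝ≥0∞ := fun Z => (runI Φ ε T (pl T (P₁ ++ P₃)) Z *
        (lgS Φ ε T M P₁ a k).indicator 1 Z) * (cmR ε T p q).indicator 1 Z with hG₂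
    set G₃ : (ι → Ph) → ℝ≥0∞ := fun Z => (nrS Φ T ε M₁ M K P₁ a k i).indicator 1 Z *
        {Z : ι → Ph | Run Φ ε T 0 (pl T P₃) (finB Φ ε (pl T P₁) (fun _ => 0) Z)
          (finZ Φ ε (pl T P₁) Z)}.indicator 1 Z with hG₃
    have hcm : Measurable ((cmR ε T p q).indicator (1 : (ι → Ph) → ℝ≥0∞)) :=
      measurable_const.indicator (measurableSet_cmR (hpm h2) (hqm h2) measurable_id)
    have hG₁m : Measurable G₁ :=
      ((measurable_runI hΦ h2.ne' _).mul hcm).mul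
        (measurable_const.indicator (measurableSet_lt measurable_const measurable_En))
    have hG₂m : Measurable G₂ :=
      ((measurable_runI hΦ h2.ne' _).mul (measurable_const.indicator
        (measurableSet_lgS hΦ h2.ne' M P₁ a k))).mul hcm
    have hle : massF b R ((triG Φ κ c ε T P₁ [] P₃ a k i fun _ => 0).indicator 1) ≤
        massF b R (fun Z => G₁ Z + (G₂ Z + G₃ Z)) := by
      refine massF_mono fun Z => ?_
      by_cases hZ : Z ∈ triG Φ κ c ε T P₁ [] P₃ a k i fun _ => 0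
      swap
      · rw [indicator_of_notMem hZ]
        exact zero_le
      rw [indicator_of_mem hZ]
      have hr := winR_run hΦ h2 hak hZ.1
      have hr' := winR_run' hZ.1
      have hr'' := winR_later hZ.1
      rw [List.nil_append] at hr hr'
      rw [List.append_nil] at hr''
      by_cases hE : K < En Z
      · refine le_trans (le_of_eq ?_) le_self_add
        simp only [hG₁]
        rw [runI_of _ hr, indicator_of_mem hZ.2.1,
          indicator_of_mem (show Z ∈ {Z : ι → Ph | K < En Z} from hE)]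
        simp
      by_cases hd : M < dpl Φ ε (qq Φ ε T P₁ a k Z)
      · refine le_trans (le_trans (le_of_eq ?_) le_self_add) le_add_self
        simp only [hG₂]
        rw [runI_of _ hr', indicator_of_mem hZ.2.1,
          indicator_of_mem (winR_long hM0 hZ.1 hd)]
        simp
      · refine le_trans (le_trans (le_of_eq ?_) le_add_self) le_add_self
        simp only [hG₃]
        rw [indicator_of_mem (triG_nrS hΦ h2 hκ hak hK0 hZ (not_lt.1 hE) (not_lt.1 hd)),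
          indicator_of_mem (show Z ∈ {Z : ι → Ph | Run Φ ε T 0 (pl T P₃)
          (finB Φ ε (pl T P₁) (fun _ => 0) Z) (finZ Φ ε (pl T P₁) Z)} from hr'')]
        simp
    refine hle.trans ?_
    rw [massF_add hG₁m, massF_add hG₂m]
    have h1' : C₄ * (C₃ * ENNReal.ofReal √ε) ≤ δ / 3 := by rwa [← mul_assoc]
    calc massF b R G₁ + (massF b R G₂ + massF b R G₃)
        ≤ δ / 3 * ENNReal.ofReal (ε ^ 2) ^ (Fintype.card ι - R.card) +
          (δ / 3 * ENNReal.ofReal (ε ^ 2) ^ (Fintype.card ι - R.card) +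
            δ / 3 * ENNReal.ofReal (ε ^ 2) ^ (Fintype.card ι - R.card)) :=
          add_le_add (g1.trans (mul_le_mul' hK le_rfl))
            (add_le_add (g2.trans (mul_le_mul' hM le_rfl)) (g3.trans (mul_le_mul' h1' le_rfl)))
      _ = (δ / 3 + (δ / 3 + δ / 3)) * ENNReal.ofReal (ε ^ 2) ^ (Fintype.card ι - R.card) := by
          ring
      _ = _ := by rw [third_add]

/-- **A third body at a colliding pair.** -/
theorem tri_small (hΦ : IsPotential Φ) (hT : 0 ≤ T) (hb : 0 < b) {κ : ℝ} (hκ : 0 ≤ κ)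
    {c : Ph × Ph → Ph} (hc : LineC c) {P₁ P₂ P₃ : List (Ev ι)} {a k i : ι} (hak : a ≠ k)
    (hwf : Wf (pl T (P₁ ++ Ev.gh a k :: (P₂ ++ P₃))))
    (hwf1 : ∀ T', Wf (pl T' (P₁ ++ [Ev.gh a k, Ev.gh i k])))
    (hwf2 : ∀ T', Wf (pl T' (P₁ ++ [Ev.gh k a, Ev.gh i a]))) {δ : ℝ≥0∞} (hδ : δ ≠ 0) :
    ∀ᶠ ε : ℝ in 𝓝[>] 0, ∀ β : ι → ℝ, (∀ j, 0 ≤ β j) → ∀ R,
      Trv (pl T (P₁ ++ Ev.gh a k :: (P₂ ++ P₃)) ++ [(Ev.gh a i, T)]) R →
      massF b R ((triG Φ κ c ε T P₁ P₂ P₃ a k i β).indicator 1) ≤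
        δ * ENNReal.ofReal (ε ^ 2) ^ (Fintype.card ι - R.card) := by
  by_cases hP : P₂ = []
  · subst hP
    rw [List.nil_append] at hwf ⊢
    filter_upwards [tri0_small hΦ hT hb hκ hc hak hwf hwf1 hwf2 hδ, ev_one] with ε H ⟨h2, h3⟩
    intro β hβ R hR
    refine le_trans (massF_mono fun Z => ?_) (H R hR)
    exact indicator_le_indicator_of_subset (triG_births hΦ h2 _ _ _ _ _ _ _ _ hβ)
      (fun _ => zero_le) Z
  · have h := win_small (ι := ι) (P₁ := P₁) (L := P₂) (P₃ := P₃) hΦ hT hb hak hP hwf a i hδ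
    filter_upwards [h, ev_one] with ε H ⟨h2, h3⟩
    intro β hβ R hR
    have hm : ∀ f ∈ pl T (P₁ ++ P₂), f ∈ pl T (P₁ ++ Ev.gh a k :: P₂) := by
      intro f hf
      rw [pl_append] at hf
      rw [pl_insert]
      simp only [List.mem_append, List.mem_cons] at hf ⊢
      tauto
    have hm1 : ∀ f ∈ pl T P₁, f ∈ pl T (P₁ ++ Ev.gh a k :: P₂) := by
      intro f hf
      rw [pl_insert]
      exact List.mem_append_left _ hf
    have hH := H (fun Z => c (qq Φ ε T P₁ a k Z)) (fun Z => finZ Φ ε (pl T (P₁ ++ P₂)) Z i)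
      (hc.meas.comp (measurable_qq hΦ h2.ne' P₁ a k measurable_id))
      ((measurable_pi_apply i).comp (measurable_finZ hΦ h2.ne' _ measurable_id))
      (covL_line hc hm1 (by rw [pl_insert]; simp)) ((covL_finZ _ _).sub hm)
      (fun hne Z => speed_le_two
        (vel_line hc hΦ h2.ne' (fun f hf => hne f (by
          rw [pl_append]
          exact List.mem_append_left _ hf)) Z a k)
        (vel_fin hΦ h2.ne' hne Z i)) R hR
    refine le_trans (massF_mono fun Z => ?_) hH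
    refine indicator_le_indicator_of_subset (fun Z hZ => ?_) (fun _ => zero_le) Z
    have h5 := triG_births hΦ h2 _ _ _ _ _ _ _ _ hβ hZ
    exact ⟨h5.1, h5.2.1⟩

end Vale.Agent.P119.IND
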