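import Vale.Agent.P119.IND.TriDef
import Vale.Agent.P119.IND.Long

/-!
# P119, block IND: events during a collision (`helper76`)

`win_small`: a program with an event during the collision of the pair `a`, `k`, and a final contact
`p`, `q`, has mass `o(1)`.
-/

open MeasureTheory Filter Topology Set
open scoped ENNReal

set_option linter.unusedSectionVars false

noncomputable section

namespace Vale.Agent.P119.IND

open KU MM

variable {ι : Type} [DecidableEq ι] [Fintype ι] {Φ : E3 → ℝ} {ε T b : ℝ}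

/-! ### Lists -/

theorem pl_append (T : ℝ) (P Q : List (Ev ι)) : pl T (P ++ Q) = pl T P ++ pl T Q := by
  unfold pl; rw [List.map_append]

theorem pl_cons (T : ℝ) (e : Ev ι) (Q : List (Ev ι)) : pl T (e :: Q) = (e, T) :: pl T Q := rfl

theorem pl_insert (T : ℝ) (P : List (Ev ι)) (e : Ev ι) (Q : List (Ev ι)) :
    pl T (P ++ e :: Q) = pl T P ++ (e, T) :: pl T Q := by
  rw [pl_append, pl_cons]

theorem finZ_gh (P : List (Ev ι)) (a k : ι) (Q : List (Ev ι)) (Z : ι → Ph) :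
    finZ Φ ε (pl T (P ++ Ev.gh a k :: Q)) Z = finZ Φ ε (pl T (P ++ Q)) Z := by
  rw [pl_insert, pl_append, finZ_append, finZ_append]
  rfl

theorem finB_gh (P : List (Ev ι)) (a k : ι) (Q : List (Ev ι)) (β : ι → ℝ) (Z : ι → Ph) :
    finB Φ ε (pl T (P ++ Ev.gh a k :: Q)) β Z = finB Φ ε (pl T (P ++ Q)) β Z := by
  rw [pl_insert, pl_append, finB_append, finB_append]
  rfl

theorem jn_sub {P Q : List (Ev ι × ℝ)} (h : ∀ e ∈ P, ∃ e' ∈ Q, e'.1 = e.1) {i k : ι}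
    (hJ : Jn P i k) : Jn Q i k := by
  induction hJ with
  | rel x y h' =>
    obtain ⟨e, he, rfl, rfl⟩ := h'
    obtain ⟨e', he', h1⟩ := h e he
    rw [← h1]
    exact jn_of_mem he'
  | refl x => exact Jn.refl _ _
  | symm x y _ ih => exact ih.symm
  | trans x y z _ _ ih1 ih2 => exact ih1.trans ih2

/-- The energy is preserved. -/
theorem En_fin (hΦ : IsPotential Φ) (hε : ε ≠ 0) {P : List (Ev ι × ℝ)}
    (h : ∀ e ∈ P, e.1.fst ≠ e.1.snd) (Z : ι → Ph) : En (finZ Φ ε P Z) = En Z := by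
  induction P generalizing Z with
  | nil => rfl
  | cons e P ih =>
    unfold finZ
    rw [ih fun e' he' => h e' (List.mem_cons_of_mem _ he')]
    exact En_lineApp hΦ hε (h e List.mem_cons_self) Z

theorem run_ne {P : List (Ev ι × ℝ)} {r : ℝ} {β : ι → ℝ} {Z : ι → Ph}
    (h : Run Φ ε T r P β Z) : ∀ e ∈ P, e.1.fst ≠ e.1.snd := by
  induction P generalizing r β Z with
  | nil => simp
  | cons e P ih =>
    obtain ⟨s, -, -, h3, h4⟩ := h
    intro e' he'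
    rcases List.mem_cons.1 he' with rfl | h5
    · exact at_ne h3
    · exact ih h4 e' h5

/-! ### The final contact -/

theorem cmR_eq (ε T : ℝ) (p q : (ι → Ph) → Ph) : cmR ε T p q = nearS (2 * ε) T p q fun _ => 0 := rfl

/-- The constant of the final contact. -/
def Cf (b T : ℝ) : ℝ≥0∞ :=
  1 + ENNReal.ofReal (32 * 2 ^ 3 * (1 + 2 / b)) * ENNReal.ofReal (1 + T)

theorem Cf_ne_top (b T : ℝ) : Cf b T ≠ ∞ :=
  ENNReal.add_ne_top.2 ⟨by simp, ENNReal.mul_ne_top ENNReal.ofReal_ne_top ENNReal.ofReal_ne_top⟩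

/-- **Peeling the final contact.** -/
theorem fin_peel (hε : 0 < ε) (hε1 : ε ≤ 1) (hT : 0 ≤ T) (hb : 0 < b) {Q : List (Ev ι × ℝ)}
    {x y : ι} {F : (ι → Ph) → ℝ≥0∞} (hF : Measurable F) (hFi : Inv Q F) {p q : (ι → Ph) → Ph}
    (hp : Measurable p) (hq : Measurable q) (hpc : CovL Q x p) (hqc : CovL Q y q)
    (hs : ∀ Z, ‖(p Z).2 - (q Z).2‖ ≤ 1 + En Z) {X : ℝ≥0∞}
    (hX : ∀ R', Trv Q R' → massF (b / 2) R' F ≤
      X * ENNReal.ofReal (ε ^ 2) ^ (Fintype.card ι - R'.card)) {R : Finset ι}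
    (hR : Trv (Q ++ [(Ev.gh x y, T)]) R) :
    massF b R (fun Z => F Z * (cmR ε T p q).indicator 1 Z) ≤
      Cf b T * X * ENNReal.ofReal (ε ^ 2) ^ (Fintype.card ι - R.card) := by
  classical
  have h := peel_bound (b := b) (M := 2) (d := T) (e := (Ev.gh x y, T)) hε (by norm_num) hb hT hR
    hF hFi hp hq hpc hqc (m := fun _ => 0) measurable_const (fun _ _ _ _ => rfl) (fun Z _ => hs Z)
    hX
  rw [← cmR_eq] at h
  refine h.trans (mul_le_mul' (mul_le_mul' ?_ le_rfl) le_rfl)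
  unfold Cf
  split_ifs
  · exact le_self_add
  · refine le_trans (mul_le_mul' le_rfl (ENNReal.ofReal_le_ofReal ?_)) le_add_self
    linarith

theorem closed_bd (hΦ : IsPotential Φ) (hT : 0 ≤ T) (hb : 0 < b) {P : List (Ev ι)}
    (hwf : Wf (pl T P)) (hcl : Closed (pl T P)) (x y : ι) :
    ∃ C : ℝ≥0∞, C ≠ ∞ ∧ ∀ ε : ℝ, 0 < ε → ε ≤ 1 → ∀ p q : (ι → Ph) → Ph, Measurable p →
      Measurable q → CovL (pl T P) x p → CovL (pl T P) y q →
      (∀ Z, ‖(p Z).2 - (q Z).2‖ ≤ 1 + En Z) → ∀ R, Trv (pl T P ++ [(Ev.gh x y, T)]) R →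
      massF b R (fun Z => runI Φ ε T (pl T P) Z * (cmR ε T p q).indicator 1 Z) ≤
        C * ENNReal.ofReal (√ε) * ENNReal.ofReal (ε ^ 2) ^ (Fintype.card ι - R.card) := by
  obtain ⟨C, hC, h⟩ := small_pl_le (ι := ι) hΦ hT (show 0 < b / 2 by positivity) hwf hcl
  refine ⟨Cf b T * C, ENNReal.mul_ne_top (Cf_ne_top b T) hC, ?_⟩
  intro ε hε hε1 p q hp hq hpc hqc hs R hR
  refine (fin_peel hε hε1 hT hb (measurable_runI hΦ hε.ne' _) (inv_runI _) hp hq hpc hqc hs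
    (h ε hε hε1) hR).trans (le_of_eq (by ring))

theorem high_bd (hΦ : IsPotential Φ) (hT : 0 ≤ T) (hb : 0 < b) (P : List (Ev ι)) (x y : ι) :
    ∃ C : ℝ≥0∞, C ≠ ∞ ∧ ∀ ε : ℝ, 0 < ε → ε ≤ 1 → ∀ p q : (ι → Ph) → Ph, Measurable p →
      Measurable q → CovL (pl T P) x p → CovL (pl T P) y q →
      (∀ Z, ‖(p Z).2 - (q Z).2‖ ≤ 1 + En Z) → ∀ K : ℝ, ∀ R, Trv (pl T P ++ [(Ev.gh x y, T)]) R →
      massF b R (fun Z => (runI Φ ε T (pl T P) Z * (cmR ε T p q).indicator 1 Z) *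
        {Z : ι → Ph | K < En Z}.indicator 1 Z) ≤
        C * ENNReal.ofReal (Real.exp (-(b / 2 * K))) *
          ENNReal.ofReal (ε ^ 2) ^ (Fintype.card ι - R.card) := by
  obtain ⟨C, hC, h⟩ := mass_pl_le (ι := ι) hΦ hT (show 0 < b / 2 / 2 by positivity) P
  refine ⟨Cf (b / 2) T * C, ENNReal.mul_ne_top (Cf_ne_top _ T) hC, ?_⟩
  intro ε hε hε1 p q hp hq hpc hqc hs K R hR
  have hcm : MeasurableSet (cmR ε T p q) := measurableSet_cmR hp hq measurable_id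
  have h1 := massF_high (b := b) (R := R) hb (F := fun Z => runI Φ ε T (pl T P) Z *
    (cmR ε T p q).indicator 1 Z) ((measurable_runI hΦ hε.ne' _).mul
      (measurable_const.indicator hcm)) K
  refine h1.trans ?_
  have h2 := fin_peel hε hε1 hT (show 0 < b / 2 by positivity) (measurable_runI hΦ hε.ne' _)
    (inv_runI _) hp hq hpc hqc hs (h ε hε hε1) hR
  refine (mul_le_mul' le_rfl h2).trans (le_of_eq (by ring))

/-! ### Long collisions -/

/-- The long collisions of `a` and `k` after `P₁`. -/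
def lgS (Φ : E3 → ℝ) (ε T M : ℝ) (P₁ : List (Ev ι)) (a k : ι) : Set (ι → Ph) :=
  {Z | finZ Φ ε (pl T P₁) Z k ∈ longS Φ ε T M (finZ Φ ε (pl T P₁) Z a)}

theorem measurableSet_lgS (hΦ : IsPotential Φ) (hε : ε ≠ 0) (M : ℝ) (P₁ : List (Ev ι))
    (a k : ι) : MeasurableSet (lgS Φ ε T M P₁ a k) := by
  have hZ : Measurable fun Z : ι → Ph => finZ Φ ε (pl T P₁) Z :=
    measurable_finZ hΦ hε _ measurable_id
  exact measurableSet_longS2 hΦ T M ((measurable_pi_apply a).comp hZ)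
    ((measurable_pi_apply k).comp hZ)

theorem ind_congr {α : Type*} {S : Set α} {u v : α} (h : u ∈ S ↔ v ∈ S) :
    S.indicator (1 : α → ℝ≥0∞) u = S.indicator 1 v := by
  by_cases h1 : v ∈ S
  · rw [indicator_of_mem h1, indicator_of_mem (h.2 h1)]; rfl
  · rw [indicator_of_notMem h1, indicator_of_notMem fun h' => h1 (h.1 h')]

theorem inv_lgS (M : ℝ) (P₁ : List (Ev ι)) {Q : List (Ev ι × ℝ)} {a k : ι}
    (hQ : ∀ e ∈ pl T P₁, e ∈ Q) (hak : (Ev.gh a k, T) ∈ Q) :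
    Inv Q fun Z => (lgS Φ ε T M P₁ a k).indicator (1 : (ι → Ph) → ℝ≥0∞) Z := by
  intro B hB x Z
  have h1 : Cl B (pl T P₁) := hB.mono hQ
  have h2 : a ∈ B ↔ k ∈ B := hB _ hak
  refine ind_congr ?_
  unfold lgS
  simp only [mem_ofPred_eq]
  rw [finZ_mv h1]
  have h4 := mv_pair h2 (x, 0) (finZ Φ ε (pl T P₁) Z)
  rw [Prod.mk.injEq] at h4
  rw [h4.1, h4.2]
  unfold longS
  simp only [mem_ofPred_eq]
  rw [meets_boost (q := (finZ Φ ε (pl T P₁) Z a, finZ Φ ε (pl T P₁) Z k)),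
    hitT_boost _ (finZ Φ ε (pl T P₁) Z a, finZ Φ ε (pl T P₁) Z k),
    rel_boost _ (finZ Φ ε (pl T P₁) Z a, finZ Φ ε (pl T P₁) Z k)]

theorem long_bd (hΦ : IsPotential Φ) (hT : 0 ≤ T) (hb : 0 < b) {P₁ Y : List (Ev ι)} {a k : ι}
    (hcl : ¬Closed (pl T (P₁ ++ Ev.gh a k :: Y))) (x y : ι) :
    ∃ C : ℝ≥0∞, C ≠ ∞ ∧ ∀ ε : ℝ, 0 < ε → ε ≤ 1 → ∀ p q : (ι → Ph) → Ph, Measurable p →
      Measurable q → CovL (pl T (P₁ ++ Ev.gh a k :: Y)) x p →
      CovL (pl T (P₁ ++ Ev.gh a k :: Y)) y q →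
      (∀ Z, ‖(p Z).2 - (q Z).2‖ ≤ 1 + En Z) → (∀ e ∈ pl T P₁, e.1.fst ≠ e.1.snd) →
      ∀ M : ℝ, ∀ R, Trv (pl T (P₁ ++ Ev.gh a k :: Y) ++ [(Ev.gh x y, T)]) R →
      massF b R (fun Z => (runI Φ ε T (pl T (P₁ ++ Y)) Z *
        (lgS Φ ε T M P₁ a k).indicator 1 Z) * (cmR ε T p q).indicator 1 Z) ≤
        C * Xi Φ (b / 8) M * ENNReal.ofReal (ε ^ 2) ^ (Fintype.card ι - R.card) := by
  have hbr : ¬Jn (pl T (P₁ ++ Y)) a k := by
    have h := forest_of_not_closed hcl (pl T P₁) (Ev.gh a k, T) (pl T Y) (pl_insert T P₁ _ Y)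
    rwa [← pl_append] at h
  obtain ⟨C, hC, h⟩ := long_le (ι := ι) hΦ hT (show 0 < b / 2 by positivity) (P₁ ++ Y) hbr
  refine ⟨Cf b T * C, ENNReal.mul_ne_top (Cf_ne_top _ T) hC, ?_⟩
  intro ε hε hε1 p q hp hq hpc hqc hs hne M R hR
  have hmem1 : ∀ e ∈ pl T (P₁ ++ Y), e ∈ pl T (P₁ ++ Ev.gh a k :: Y) := by
    intro e he
    rw [pl_append] at he
    rw [pl_insert]
    simp only [List.mem_append, List.mem_cons] at he ⊢
    tauto
  have hmem2 : ∀ e ∈ pl T P₁, e ∈ pl T (P₁ ++ Ev.gh a k :: Y) := by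
    intro e he
    rw [pl_insert]
    exact List.mem_append_left _ he
  have hmem3 : (Ev.gh a k, T) ∈ pl T (P₁ ++ Ev.gh a k :: Y) := by
    rw [pl_insert]; simp
  have h8 : b / 2 / 4 = b / 8 := by ring
  have hX : ∀ R', Trv (pl T (P₁ ++ Ev.gh a k :: Y)) R' →
      massF (b / 2) R' (fun Z => runI Φ ε T (pl T (P₁ ++ Y)) Z *
        (lgS Φ ε T M P₁ a k).indicator 1 Z) ≤
      (C * Xi Φ (b / 8) M) * ENNReal.ofReal (ε ^ 2) ^ (Fintype.card ι - R'.card) := by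
    intro R' hR'
    have h1 := h ε hε hε1 M (pl T P₁) (fun e he => by
      rw [pl_append]; exact List.mem_append_left _ he)
      (fun Z _ => En_fin hΦ hε.ne' hne Z) R' (hR'.congr fun i j => ?_)
    · rw [h8] at h1
      exact h1
    · refine jn_congr fun e => ?_
      rw [pl_insert, pl_append]
      simp only [List.mem_append, List.mem_cons, List.not_mem_nil, or_false]
      tauto
  have hFm : Measurable fun Z : ι → Ph => runI Φ ε T (pl T (P₁ ++ Y)) Z *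
      (lgS Φ ε T M P₁ a k).indicator (1 : (ι → Ph) → ℝ≥0∞) Z :=
    (measurable_runI hΦ hε.ne' _).mul
      (measurable_const.indicator (measurableSet_lgS hΦ hε.ne' M P₁ a k))
  have hFi : Inv (pl T (P₁ ++ Ev.gh a k :: Y)) fun Z => runI Φ ε T (pl T (P₁ ++ Y)) Z *
      (lgS Φ ε T M P₁ a k).indicator (1 : (ι → Ph) → ℝ≥0∞) Z :=
    ((inv_runI _).sub hmem1).mul (inv_lgS M P₁ hmem2 hmem3)
  refine (fin_peel hε hε1 hT hb hFm hFi hp hq hpc hqc hs hX hR).trans (le_of_eq (by ring))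

end Vale.Agent.P119.IND
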