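import Vale.Agent.P119.IND.TriWin

/-!
# P119, block IND: events during a collision, the estimate (`helper76`)

`win_small`: a program with an event during the collision of the pair `a`, `k`, and a final contact
`p`, `q`, has mass `o(1)`.
-/

open MeasureTheory Filter Topology Set
open scoped ENNReal

set_option linter.unusedSectionVars false

noncomputable section

namespace Vale.Agent.P119.IND

open KU MM

variable {ι : Type} [DecidableEq ι] [Fintype ι] {Φ : E3 → ℝ} {ε T b : ℝ}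

/-! ### The members of `winR` -/

section mem

variable {P₁ L P₃ : List (Ev ι)} {a k : ι} {Z : ι → Ph}

theorem winR_run (hΦ : IsPotential Φ) (hε : 0 < ε) (hak : a ≠ k)
    (h : Z ∈ winR Φ ε T P₁ L P₃ a k fun _ => 0) :
    Run Φ ε T 0 (pl T (P₁ ++ Ev.gh a k :: (L ++ P₃))) (fun _ => 0) Z := by
  obtain ⟨h1, h2, h3, h4, h5, h6, h7, h8⟩ := h
  have h9 : 0 ≤ finB Φ ε (pl T P₁) (fun _ => 0) Z a :=
    finB_nonneg hΦ hε (β := fun _ => 0) (fun _ => le_rfl) h6.run a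
  have h10 : 0 ≤ max (finB Φ ε (pl T P₁) (fun _ => 0) Z a)
    (finB Φ ε (pl T P₁) (fun _ => 0) Z k) := h9.trans (le_max_left _ _)
  rw [pl_insert]
  refine h6.append ⟨_, le_rfl, h3, ⟨hak, h4, h5, M.ctc_hitT hε h1, ?_⟩, h8⟩
  simp only
  linarith

theorem winR_run' (h : Z ∈ winR Φ ε T P₁ L P₃ a k fun _ => 0) :
    Run Φ ε T 0 (pl T (P₁ ++ (L ++ P₃))) (fun _ => 0) Z := by
  obtain ⟨h1, h2, h3, h4, h5, h6, h7, h8⟩ := h
  rw [pl_append T P₁]
  exact h6.append h8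

theorem winR_long {M : ℝ} (hM : 0 ≤ M) (h : Z ∈ winR Φ ε T P₁ L P₃ a k fun _ => 0)
    (hd : M < dpl Φ ε (qq Φ ε T P₁ a k Z)) : Z ∈ lgS Φ ε T M P₁ a k := by
  obtain ⟨h1, h2, h3, -⟩ := h
  refine ⟨h1, h2, h3, ?_⟩
  rcases lt_max_iff.1 hd with h4 | h4
  · linarith
  · exact h4

theorem winR_later (h : Z ∈ winR Φ ε T P₁ L P₃ a k fun _ => 0) :
    Run Φ ε T 0 (pl T P₃) (finB Φ ε (pl T (P₁ ++ L)) (fun _ => 0) Z)
      (finZ Φ ε (pl T (P₁ ++ L)) Z) := by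
  obtain ⟨h1, h2, h3, h4, h5, h6, h7, h8⟩ := h
  rw [pl_append T L] at h8
  rw [pl_append T P₁, finB_append, finZ_append]
  exact Run.mono h2 h8.right

theorem winR_last (hε : 0 < ε) {e : Ev ι} {L' : List (Ev ι)} {M : ℝ}
    (h : Z ∈ winR Φ ε T P₁ (L' ++ [e]) P₃ a k fun _ => 0)
    (hd : dpl Φ ε (qq Φ ε T P₁ a k Z) ≤ M) :
    Z ∈ nearS (1 * ε) (ε * M) (fun Z => finZ Φ ε (pl T (P₁ ++ L')) Z e.fst)
      (fun Z => finZ Φ ε (pl T (P₁ ++ L')) Z e.snd) (fun Z => hitT ε (qq Φ ε T P₁ a k Z)) := by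
  obtain ⟨h1, h2, h3, h4, h5, h6, h7, h8⟩ := h
  rw [pl_append T L'] at h7
  obtain ⟨s, -, h9, h10, h11, h12⟩ := RunTo.last (P := pl T L') (e := (e, T)) h7
  refine ⟨s, h9, h10.trans ?_, ?_⟩
  · have := mul_le_mul_of_nonneg_left hd hε.le
    simp only
    linarith
  · have h13 := (at_dist hε h12).2.2
    rw [one_mul]
    simp only [pl_append, finZ_append]
    exact h13

end mem

/-! ### Invariance of contacts -/

theorem inv_nearS {ρ d : ℝ} {Q : List (Ev ι × ℝ)} {x y : ι}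
    (hxy : ∃ e ∈ Q, e.1.fst = x ∧ e.1.snd = y) {p q : (ι → Ph) → Ph} (hp : CovL Q x p)
    (hq : CovL Q y q) {m : (ι → Ph) → ℝ} (hm : Inv Q m) :
    Inv Q fun Z => (nearS ρ d p q m).indicator (1 : (ι → Ph) → ℝ≥0∞) Z := by
  intro B hB u Z
  obtain ⟨e, he, rfl, rfl⟩ := hxy
  have h2 : e.1.fst ∈ B ↔ e.1.snd ∈ B := hB e he
  refine ind_congr ?_
  unfold nearS
  simp only [mem_ofPred_eq]
  rw [hm B hB, hp B hB, hq B hB]
  refine exists_congr fun s => ?_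
  have h3 : (if e.1.fst ∈ B then ((u, 0) : Ph) else 0) = if e.1.snd ∈ B then (u, 0) else 0 := by
    by_cases h : e.1.fst ∈ B
    · rw [if_pos h, if_pos (h2.1 h)]
    · rw [if_neg h, if_neg fun h' => h (h2.2 h')]
  rw [h3]
  have h4 : ∀ c p q : Ph, (KU.free s (boost c p)).1 - (KU.free s (boost c q)).1 =
      (KU.free s p).1 - (KU.free s q).1 := by
    intro c p q
    unfold KU.free boost
    simp only
    module
  rw [h4]

theorem inv_hitT (P₁ : List (Ev ι)) {Q : List (Ev ι × ℝ)} {a k : ι}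
    (hQ : ∀ e ∈ pl T P₁, e ∈ Q) (hak : (Ev.gh a k, T) ∈ Q) :
    Inv Q fun Z => hitT ε (qq Φ ε T P₁ a k Z) := by
  intro B hB x Z
  have h1 : Cl B (pl T P₁) := hB.mono hQ
  have h2 : a ∈ B ↔ k ∈ B := hB _ hak
  unfold qq
  simp only
  rw [finZ_mv h1, mv_pair h2, hitT_boost _ (finZ Φ ε (pl T P₁) Z a, finZ Φ ε (pl T P₁) Z k)]

/-! ### The window -/

/-- The factor of the windows. -/
theorem win_near (hΦ : IsPotential Φ) (hT : 0 ≤ T) (hb : 0 < b) {P₁ L' P₃ : List (Ev ι)}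
    {e : Ev ι} {a k : ι}
    (hcl : ¬Closed (pl T (P₁ ++ Ev.gh a k :: ((L' ++ [e]) ++ P₃)))) (x y : ι) {M' : ℝ}
    (hM' : 0 ≤ M') :
    ∃ C : ℝ≥0∞, C ≠ ∞ ∧ ∀ ε : ℝ, 0 < ε → ε ≤ 1 → ∀ p q : (ι → Ph) → Ph, Measurable p →
      Measurable q → CovL (pl T (P₁ ++ Ev.gh a k :: (L' ++ [e]))) x p →
      CovL (pl T (P₁ ++ Ev.gh a k :: (L' ++ [e]))) y q →
      (∀ Z, ‖(p Z).2 - (q Z).2‖ ≤ 1 + En Z) →
      (∀ f ∈ pl T (P₁ ++ (L' ++ [e])), f.1.fst ≠ f.1.snd) →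
      ∀ R, Trv (pl T (P₁ ++ Ev.gh a k :: ((L' ++ [e]) ++ P₃)) ++ [(Ev.gh x y, T)]) R →
      massF b R (fun Z => ((runI Φ ε T (pl T (P₁ ++ Ev.gh a k :: L')) Z *
        (nearS (1 * ε) (ε * M') (fun Z => finZ Φ ε (pl T (P₁ ++ L')) Z e.fst)
          (fun Z => finZ Φ ε (pl T (P₁ ++ L')) Z e.snd)
          (fun Z => hitT ε (qq Φ ε T P₁ a k Z))).indicator 1 Z) *
        (cmR ε T p q).indicator 1 Z) * {Z : ι → Ph | Run Φ ε T 0 (pl T P₃)
          (finB Φ ε (pl T (P₁ ++ (L' ++ [e]))) (fun _ => 0) Z)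
          (finZ Φ ε (pl T (P₁ ++ (L' ++ [e]))) Z)}.indicator 1 Z) ≤
        C * ENNReal.ofReal ε * ENNReal.ofReal (ε ^ 2) ^ (Fintype.card ι - R.card) := by
  classical
  set b' : ℝ := b / 2 ^ (pl T P₃).length with hb'
  have hb'0 : 0 < b' := by positivity
  obtain ⟨C₁, hC₁, H₁⟩ := ext_bound (ι := ι) hΦ hT (pl T (P₁ ++ (L' ++ [e]))) (pl T P₃) b hb
  obtain ⟨C₃, hC₃, H₃⟩ := mass_pl_le (ι := ι) hΦ hT (show 0 < b' / 2 / 2 by positivity)
    (P₁ ++ Ev.gh a k :: L')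
  set K₂ : ℝ≥0∞ := ENNReal.ofReal (32 * 1 ^ 3 * (1 + 2 / (b' / 2))) with hK₂
  refine ⟨C₁ * (Cf b' T * (K₂ * ENNReal.ofReal (1 + M') * C₃)), ENNReal.mul_ne_top hC₁
    (ENNReal.mul_ne_top (Cf_ne_top b' T) (ENNReal.mul_ne_top (ENNReal.mul_ne_top
      ENNReal.ofReal_ne_top ENNReal.ofReal_ne_top) hC₃)), ?_⟩
  intro ε hε hε1 p q hp hq hpc hqc hs hne R hR
  -- the lists
  have l1 : pl T (P₁ ++ Ev.gh a k :: (L' ++ [e])) = pl T (P₁ ++ Ev.gh a k :: L') ++ [(e, T)] := by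
    rw [pl_insert, pl_insert, pl_append]
    simp [pl]
  have l2 : pl T (P₁ ++ Ev.gh a k :: ((L' ++ [e]) ++ P₃)) =
      pl T (P₁ ++ Ev.gh a k :: L') ++ (e, T) :: pl T P₃ := by
    rw [pl_insert, pl_insert, pl_append, pl_append]
    simp [pl]
  have hbr : ¬Jn (pl T (P₁ ++ Ev.gh a k :: L')) e.fst e.snd := by
    intro hJ
    refine forest_of_not_closed hcl _ _ _ l2 (hJ.mono fun f hf => ?_)
    exact List.mem_append_left _ hf
  have hm1 : ∀ f ∈ pl T (P₁ ++ L'), f ∈ pl T (P₁ ++ Ev.gh a k :: L') := by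
    intro f hf
    rw [pl_append] at hf
    rw [pl_insert]
    simp only [List.mem_append, List.mem_cons] at hf ⊢
    tauto
  have hm2 : ∀ f ∈ pl T P₁, f ∈ pl T (P₁ ++ Ev.gh a k :: L') := by
    intro f hf
    rw [pl_insert]
    exact List.mem_append_left _ hf
  have hm3 : (Ev.gh a k, T) ∈ pl T (P₁ ++ Ev.gh a k :: L') := by
    rw [pl_insert]; simp
  -- measurability
  have hZm : Measurable fun Z : ι → Ph => finZ Φ ε (pl T (P₁ ++ L')) Z :=
    measurable_finZ hΦ hε.ne' _ measurable_id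
  have hhm : Measurable fun Z : ι → Ph => hitT ε (qq Φ ε T P₁ a k Z) :=
    measurable_hitT.comp (measurable_qq hΦ hε.ne' P₁ a k measurable_id)
  set f₁ : (ι → Ph) → Ph := fun Z => finZ Φ ε (pl T (P₁ ++ L')) Z e.fst with hf₁
  set f₂ : (ι → Ph) → Ph := fun Z => finZ Φ ε (pl T (P₁ ++ L')) Z e.snd with hf₂
  set hh : (ι → Ph) → ℝ := fun Z => hitT ε (qq Φ ε T P₁ a k Z) with hhh
  have hf₁m : Measurable f₁ := (measurable_pi_apply _).comp hZm
  have hf₂m : Measurable f₂ := (measurable_pi_apply _).comp hZm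
  have hrm : Measurable (runI Φ ε T (pl T (P₁ ++ Ev.gh a k :: L'))) :=
    measurable_runI hΦ hε.ne' _
  have hnm : Measurable ((nearS (1 * ε) (ε * M') f₁ f₂ hh).indicator
      (1 : (ι → Ph) → ℝ≥0∞)) :=
    measurable_const.indicator (measurableSet_nearS hf₁m hf₂m hhm)
  have hcm : Measurable ((cmR ε T p q).indicator (1 : (ι → Ph) → ℝ≥0∞)) :=
    measurable_const.indicator (measurableSet_cmR hp hq measurable_id)
  have hF₂m : Measurable fun Z : ι → Ph => runI Φ ε T (pl T (P₁ ++ Ev.gh a k :: L')) Z *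
      (nearS (1 * ε) (ε * M') f₁ f₂ hh).indicator 1 Z := hrm.mul hnm
  have hFm : Measurable fun Z : ι → Ph => (runI Φ ε T (pl T (P₁ ++ Ev.gh a k :: L')) Z *
      (nearS (1 * ε) (ε * M') f₁ f₂ hh).indicator 1 Z) * (cmR ε T p q).indicator 1 Z :=
    hF₂m.mul hcm
  -- invariance
  have hsub : ∀ f ∈ pl T (P₁ ++ Ev.gh a k :: L'), f ∈ pl T (P₁ ++ Ev.gh a k :: (L' ++ [e])) := by
    intro f hf
    rw [l1]
    exact List.mem_append_left _ hf
  have hc1 : CovL (pl T (P₁ ++ Ev.gh a k :: L')) e.fst f₁ := (covL_finZ _ _).sub hm1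
  have hc2 : CovL (pl T (P₁ ++ Ev.gh a k :: L')) e.snd f₂ := (covL_finZ _ _).sub hm1
  have hhi : Inv (pl T (P₁ ++ Ev.gh a k :: L')) hh := inv_hitT P₁ hm2 hm3
  have hF₂i : Inv (pl T (P₁ ++ Ev.gh a k :: (L' ++ [e]))) fun Z =>
      runI Φ ε T (pl T (P₁ ++ Ev.gh a k :: L')) Z *
        (nearS (1 * ε) (ε * M') f₁ f₂ hh).indicator 1 Z :=
    ((inv_runI _).sub hsub).mul (inv_nearS ⟨(e, T), by rw [l1]; simp, rfl, rfl⟩
      (hc1.sub hsub) (hc2.sub hsub) (hhi.sub hsub))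
  set Q : List (Ev ι × ℝ) := pl T (P₁ ++ Ev.gh a k :: (L' ++ [e])) ++ [(Ev.gh x y, T)] with hQ
  have hsub2 : ∀ f ∈ pl T (P₁ ++ Ev.gh a k :: (L' ++ [e])), f ∈ Q := fun f hf =>
    List.mem_append_left _ hf
  have hFi : Inv Q fun Z => (runI Φ ε T (pl T (P₁ ++ Ev.gh a k :: L')) Z *
      (nearS (1 * ε) (ε * M') f₁ f₂ hh).indicator 1 Z) * (cmR ε T p q).indicator 1 Z := by
    refine (hF₂i.sub hsub2).mul ?_
    have := inv_nearS (ρ := 2 * ε) (d := T) (Q := Q) (x := x) (y := y) (m := fun _ => 0)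
      ⟨(Ev.gh x y, T), by rw [hQ]; simp, rfl, rfl⟩ (hpc.sub hsub2) (hqc.sub hsub2)
      (fun _ _ _ _ => rfl)
    exact this
  -- the bounds
  have hX₂ : ∀ R'', Trv (pl T (P₁ ++ Ev.gh a k :: (L' ++ [e]))) R'' →
      massF (b' / 2) R'' (fun Z => runI Φ ε T (pl T (P₁ ++ Ev.gh a k :: L')) Z *
        (nearS (1 * ε) (ε * M') f₁ f₂ hh).indicator 1 Z) ≤
      (K₂ * ENNReal.ofReal (ε + ε * M') * C₃) *
        ENNReal.ofReal (ε ^ 2) ^ (Fintype.card ι - R''.card) := by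
    intro R'' hR''
    have h := peel_bound (b := b' / 2) (M := 1) (d := ε * M') hε le_rfl (by positivity)
      (by positivity) (Q := pl T (P₁ ++ Ev.gh a k :: L')) (e := (e, T)) (R := R'')
      (by rwa [l1] at hR'') hrm (inv_runI _) hf₁m hf₂m hc1 hc2 hhm hhi (fun Z _ => ?_)
      (H₃ ε hε hε1)
    · rw [if_neg hbr] at h
      exact h
    · exact speed_finZ (En_fin hΦ hε.ne' (fun f hf => hne f (by
        rw [pl_append, pl_append]
        rw [pl_append] at hf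
        simp only [List.mem_append] at hf ⊢
        tauto)) Z) _ _
  have hX : ∀ R', Trv Q R' → massF (b / 2 ^ (pl T P₃).length) R' (fun Z =>
      (runI Φ ε T (pl T (P₁ ++ Ev.gh a k :: L')) Z *
        (nearS (1 * ε) (ε * M') f₁ f₂ hh).indicator 1 Z) * (cmR ε T p q).indicator 1 Z) ≤
      (Cf b' T * (K₂ * ENNReal.ofReal (ε + ε * M') * C₃)) *
        ENNReal.ofReal (ε ^ 2) ^ (Fintype.card ι - R'.card) := by
    intro R' hR'
    exact fin_peel hε hε1 hT hb'0 hF₂m hF₂i hp hq hpc hqc hs hX₂ hR'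
  have hfin := H₁ ε hε hε1 Q (fun f hf => hsub2 f (by
      rw [pl_append] at hf
      rw [pl_insert]
      simp only [List.mem_append, List.mem_cons] at hf ⊢
      tauto)) _ hFm hFi (fun Z _ => En_fin hΦ hε.ne' hne Z) _ hX R (hR.congr fun i j => ?_)
  · refine hfin.trans (le_of_eq ?_)
    have e1 : ENNReal.ofReal (ε + ε * M') = ENNReal.ofReal ε * ENNReal.ofReal (1 + M') := by
      rw [← ENNReal.ofReal_mul hε.le]; congr 1; ring
    rw [e1]; ring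
  · refine jn_congr fun f => ?_
    rw [hQ, l1, l2]
    simp only [List.mem_append, List.mem_cons, List.not_mem_nil, or_false]
    tauto

end Vale.Agent.P119.IND
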