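import Vale.Agent.P119.IND.TriWin2

/-!
# P119, block IND: events during a collision, conclusion (`helper76`)

`win_small`: a program with an event during the collision of the pair `a`, `k`, and a final contact
`p`, `q`, has mass `o(1)`.  `quad_small`: two colliding pairs in contact.
-/

open MeasureTheory Filter Topology Set
open scoped ENNReal

set_option linter.unusedSectionVars false

noncomputable section

namespace Vale.Agent.P119.IND

open KU MM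

variable {ι : Type} [DecidableEq ι] [Fintype ι] {Φ : E3 → ℝ} {ε T b : ℝ}

/-! ### Choice of the constants -/

theorem ev_sqrt {C δ : ℝ≥0∞} (hC : C ≠ ∞) (hδ : δ ≠ 0) :
    ∀ᶠ ε : ℝ in 𝓝[>] 0, C * ENNReal.ofReal (√ε) ≤ δ := by
  have h1 : Tendsto (fun ε : ℝ => C * ENNReal.ofReal (√ε)) (𝓝 0)
      (𝓝 (C * ENNReal.ofReal (√0))) :=
    ENNReal.Tendsto.const_mul (ENNReal.tendsto_ofReal (Real.continuous_sqrt.tendsto 0))
      (Or.inr hC)
  rw [Real.sqrt_zero, ENNReal.ofReal_zero, mul_zero] at h1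
  exact (h1.mono_left nhdsWithin_le_nhds).eventually (Iic_mem_nhds (pos_iff_ne_zero.2 hδ))

theorem ev_id {C δ : ℝ≥0∞} (hC : C ≠ ∞) (hδ : δ ≠ 0) :
    ∀ᶠ ε : ℝ in 𝓝[>] 0, C * ENNReal.ofReal ε ≤ δ := by
  have h1 : Tendsto (fun ε : ℝ => C * ENNReal.ofReal ε) (𝓝 0) (𝓝 (C * ENNReal.ofReal 0)) :=
    ENNReal.Tendsto.const_mul (ENNReal.tendsto_ofReal tendsto_id) (Or.inr hC)
  rw [ENNReal.ofReal_zero, mul_zero] at h1
  exact (h1.mono_left nhdsWithin_le_nhds).eventually (Iic_mem_nhds (pos_iff_ne_zero.2 hδ))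

theorem ev_one : ∀ᶠ ε : ℝ in 𝓝[>] 0, 0 < ε ∧ ε ≤ 1 := by
  filter_upwards [self_mem_nhdsWithin, nhdsWithin_le_nhds (Iic_mem_nhds (zero_lt_one' ℝ))]
    with ε h1 h2
  exact ⟨h1, h2⟩

theorem ex_exp {C δ : ℝ≥0∞} (hC : C ≠ ∞) (hδ : δ ≠ 0) (hb : 0 < b) :
    ∃ K : ℝ, 0 ≤ K ∧ C * ENNReal.ofReal (Real.exp (-(b / 2 * K))) ≤ δ := by
  have h0 : Tendsto (fun K : ℝ => Real.exp (-(b / 2 * K))) atTop (𝓝 0) := by
    refine Real.tendsto_exp_atBot.comp (tendsto_neg_atTop_atBot.comp ?_)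
    exact tendsto_id.const_mul_atTop (by positivity)
  have h1 : Tendsto (fun K : ℝ => C * ENNReal.ofReal (Real.exp (-(b / 2 * K)))) atTop
      (𝓝 (C * ENNReal.ofReal 0)) :=
    ENNReal.Tendsto.const_mul (ENNReal.tendsto_ofReal h0) (Or.inr hC)
  rw [ENNReal.ofReal_zero, mul_zero] at h1
  obtain ⟨K, h2, h3⟩ := ((h1.eventually (Iic_mem_nhds (pos_iff_ne_zero.2 hδ))).and
    (eventually_ge_atTop 0)).exists
  exact ⟨K, h3, h2⟩

theorem ex_Xi (hΦ : IsPotential Φ) {C δ : ℝ≥0∞} (hC : C ≠ ∞) (hδ : δ ≠ 0) (hb : 0 < b) :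
    ∃ M : ℝ, 0 ≤ M ∧ C * Xi Φ b M ≤ δ := by
  have h1 : Tendsto (fun M : ℕ => C * Xi Φ b (M : ℝ)) atTop (𝓝 (C * 0)) :=
    ENNReal.Tendsto.const_mul (tendsto_Xi hΦ hb) (Or.inr hC)
  rw [mul_zero] at h1
  obtain ⟨M, h2⟩ := (h1.eventually (Iic_mem_nhds (pos_iff_ne_zero.2 hδ))).exists
  exact ⟨M, Nat.cast_nonneg _, h2⟩

theorem third_ne {δ : ℝ≥0∞} (hδ : δ ≠ 0) : δ / 3 ≠ 0 := by
  rw [Ne, ENNReal.div_eq_zero_iff, not_or]
  exact ⟨hδ, by simp⟩

theorem third_add (δ : ℝ≥0∞) : δ / 3 + (δ / 3 + δ / 3) = δ := by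
  rw [← add_assoc, ENNReal.add_thirds]

theorem massF_empty (R : Finset ι) {S : Set (ι → Ph)} (hS : ∀ Z, Z ∉ S) :
    massF b R (S.indicator 1) = 0 := by
  unfold massF
  have : ∀ Z : ι → Ph, spat R Z * (wgt b Z * S.indicator 1 Z) = 0 := by
    intro Z
    rw [indicator_of_notMem (hS Z)]
    simp
  simp only [this, lintegral_zero]

/-- **A program with an event during a collision.** -/
theorem win_small (hΦ : IsPotential Φ) (hT : 0 ≤ T) (hb : 0 < b) {P₁ L P₃ : List (Ev ι)}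
    {a k : ι} (hak : a ≠ k) (hL : L ≠ [])
    (hwf : Wf (pl T (P₁ ++ Ev.gh a k :: (L ++ P₃)))) (x y : ι) {δ : ℝ≥0∞} (hδ : δ ≠ 0) :
    ∀ᶠ ε : ℝ in 𝓝[>] 0, ∀ p q : (ι → Ph) → Ph, Measurable p → Measurable q →
      CovL (pl T (P₁ ++ Ev.gh a k :: L)) x p → CovL (pl T (P₁ ++ Ev.gh a k :: L)) y q →
      ((∀ f ∈ pl T (P₁ ++ L), f.1.fst ≠ f.1.snd) → ∀ Z, ‖(p Z).2 - (q Z).2‖ ≤ 1 + En Z) →
      ∀ R, Trv (pl T (P₁ ++ Ev.gh a k :: (L ++ P₃)) ++ [(Ev.gh x y, T)]) R →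
      massF b R ((winR Φ ε T P₁ L P₃ a k (fun _ => 0) ∩ cmR ε T p q).indicator 1) ≤
        δ * ENNReal.ofReal (ε ^ 2) ^ (Fintype.card ι - R.card) := by
  classical
  obtain ⟨L', e, rfl⟩ : ∃ L' e, L = L' ++ [e] := by
    rcases L.eq_nil_or_concat with h | ⟨L', e, h⟩
    · exact absurd h hL
    · exact ⟨L', e, by rw [h, List.concat_eq_append]⟩
  by_cases hne : ∀ f ∈ pl T (P₁ ++ (L' ++ [e])), f.1.fst ≠ f.1.snd
  swap
  · refine Eventually.of_forall fun ε p q _ _ _ _ _ R _ => ?_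
    rw [massF_empty]
    · exact zero_le
    rintro Z ⟨hZ, -⟩
    refine hne fun f hf => run_ne (winR_run' hZ) f ?_
    rw [pl_append] at hf ⊢
    rw [pl_append (P := L' ++ [e])]
    simp only [List.mem_append] at hf ⊢
    tauto
  have hsub : ∀ f ∈ pl T (P₁ ++ Ev.gh a k :: (L' ++ [e])),
      f ∈ pl T (P₁ ++ Ev.gh a k :: ((L' ++ [e]) ++ P₃)) := by
    intro f hf
    rw [pl_insert] at hf ⊢
    rw [pl_append (P := L' ++ [e])]
    simp only [List.mem_append, List.mem_cons] at hf ⊢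
    tauto
  have hne1 : ∀ f ∈ pl T P₁, f.1.fst ≠ f.1.snd := fun f hf => hne f (by
    rw [pl_append]; exact List.mem_append_left _ hf)
  by_cases hcl : Closed (pl T (P₁ ++ Ev.gh a k :: ((L' ++ [e]) ++ P₃)))
  · obtain ⟨C, hC, H⟩ := closed_bd (ι := ι) hΦ hT hb hwf hcl x y
    filter_upwards [ev_sqrt hC hδ, ev_one] with ε h1 ⟨h2, h3⟩
    intro p q hp hq hpc hqc hs R hR
    refine le_trans (massF_mono fun Z => ?_) ((H ε h2 h3 p q hp hq (hpc.sub hsub)
      (hqc.sub hsub) (hs hne) R hR).trans (mul_le_mul' h1 le_rfl))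
    by_cases hZ : Z ∈ winR Φ ε T P₁ (L' ++ [e]) P₃ a k (fun _ => 0) ∩ cmR ε T p q
    · rw [indicator_of_mem hZ, indicator_of_mem hZ.2, runI_of _ (winR_run hΦ h2 hak hZ.1)]
      simp
    · rw [indicator_of_notMem hZ]
      exact zero_le
  · obtain ⟨C₁, hC₁, H₁⟩ := high_bd (ι := ι) hΦ hT hb
      (P₁ ++ Ev.gh a k :: ((L' ++ [e]) ++ P₃)) x y
    obtain ⟨C₂, hC₂, H₂⟩ := long_bd (ι := ι) hΦ hT hb hcl x y
    obtain ⟨K, hK0, hK⟩ := ex_exp hC₁ (third_ne hδ) hb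
    obtain ⟨M, hM0, hM⟩ := ex_Xi (b := b / 8) hΦ hC₂ (third_ne hδ) (by positivity)
    obtain ⟨C₃, hC₃, H₃⟩ := win_near (ι := ι) hΦ hT hb hcl x y hM0
    filter_upwards [ev_id hC₃ (third_ne hδ), ev_one] with ε h1 ⟨h2, h3⟩
    intro p q hp hq hpc hqc hs R hR
    have hs' := hs hne
    have g1 := H₁ ε h2 h3 p q hp hq (hpc.sub hsub) (hqc.sub hsub) hs' K R hR
    have g2 := H₂ ε h2 h3 p q hp hq (hpc.sub hsub) (hqc.sub hsub) hs' hne1 M R hR
    have g3 := H₃ ε h2 h3 p q hp hq hpc hqc hs' hne R hR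
    set G₁ : (ι → Ph) → ℝ≥0∞ := fun Z =>
      (runI Φ ε T (pl T (P₁ ++ Ev.gh a k :: ((L' ++ [e]) ++ P₃))) Z *
        (cmR ε T p q).indicator 1 Z) * {Z : ι → Ph | K < En Z}.indicator 1 Z with hG₁
    set G₂ : (ι → Ph) → ℝ≥0∞ := fun Z =>
      (runI Φ ε T (pl T (P₁ ++ ((L' ++ [e]) ++ P₃))) Z *
        (lgS Φ ε T M P₁ a k).indicator 1 Z) * (cmR ε T p q).indicator 1 Z with hG₂
    set G₃ : (ι → Ph) → ℝ≥0∞ := fun Z =>
      ((runI Φ ε T (pl T (P₁ ++ Ev.gh a k :: L')) Z *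
        (nearS (1 * ε) (ε * M) (fun Z => finZ Φ ε (pl T (P₁ ++ L')) Z e.fst)
          (fun Z => finZ Φ ε (pl T (P₁ ++ L')) Z e.snd)
          (fun Z => hitT ε (qq Φ ε T P₁ a k Z))).indicator 1 Z) *
        (cmR ε T p q).indicator 1 Z) * {Z : ι → Ph | Run Φ ε T 0 (pl T P₃)
          (finB Φ ε (pl T (P₁ ++ (L' ++ [e]))) (fun _ => 0) Z)
          (finZ Φ ε (pl T (P₁ ++ (L' ++ [e]))) Z)}.indicator 1 Z with hG₃
    have hcm : Measurable ((cmR ε T p q).indicator (1 : (ι → Ph) → ℝ≥0∞)) :=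
      measurable_const.indicator (measurableSet_cmR hp hq measurable_id)
    have hG₁m : Measurable G₁ :=
      ((measurable_runI hΦ h2.ne' _).mul hcm).mul
        (measurable_const.indicator (measurableSet_lt measurable_const measurable_En))
    have hG₂m : Measurable G₂ :=
      ((measurable_runI hΦ h2.ne' _).mul (measurable_const.indicator
        (measurableSet_lgS hΦ h2.ne' M P₁ a k))).mul hcm
    have hle : massF b R ((winR Φ ε T P₁ (L' ++ [e]) P₃ a k (fun _ => 0) ∩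
        cmR ε T p q).indicator 1) ≤ massF b R (fun Z => G₁ Z + (G₂ Z + G₃ Z)) := by
      refine massF_mono fun Z => ?_
      by_cases hZ : Z ∈ winR Φ ε T P₁ (L' ++ [e]) P₃ a k (fun _ => 0) ∩ cmR ε T p q
      swap
      · rw [indicator_of_notMem hZ]
        exact zero_le
      rw [indicator_of_mem hZ]
      by_cases hE : K < En Z
      · refine le_trans (le_of_eq ?_) le_self_add
        simp only [hG₁]
        rw [runI_of _ (winR_run hΦ h2 hak hZ.1), indicator_of_mem hZ.2,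
          indicator_of_mem (show Z ∈ {Z : ι → Ph | K < En Z} from hE)]
        simp
      by_cases hd : M < dpl Φ ε (qq Φ ε T P₁ a k Z)
      · refine le_trans (le_trans (le_of_eq ?_) le_self_add) le_add_self
        simp only [hG₂]
        rw [runI_of _ (winR_run' hZ.1), indicator_of_mem hZ.2,
          indicator_of_mem (winR_long hM0 hZ.1 hd)]
        simp
      · refine le_trans (le_trans (le_of_eq ?_) le_add_self) le_add_self
        simp only [hG₃]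
        have r1 : Run Φ ε T 0 (pl T (P₁ ++ Ev.gh a k :: L')) (fun _ => 0) Z := by
          have := winR_run hΦ h2 hak hZ.1
          have l2 : pl T (P₁ ++ Ev.gh a k :: ((L' ++ [e]) ++ P₃)) =
              pl T (P₁ ++ Ev.gh a k :: L') ++ (e, T) :: pl T P₃ := by
            rw [pl_insert, pl_insert, pl_append, pl_append]
            simp [pl]
          rw [l2] at this
          exact this.left
        rw [runI_of _ r1, indicator_of_mem (winR_last h2 hZ.1 (not_lt.1 hd)),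
          indicator_of_mem hZ.2, indicator_of_mem (show Z ∈ {Z : ι → Ph | Run Φ ε T 0 (pl T P₃)
          (finB Φ ε (pl T (P₁ ++ (L' ++ [e]))) (fun _ => 0) Z)
          (finZ Φ ε (pl T (P₁ ++ (L' ++ [e]))) Z)} from winR_later hZ.1)]
        simp
    refine hle.trans ?_
    rw [massF_add hG₁m, massF_add hG₂m]
    calc massF b R G₁ + (massF b R G₂ + massF b R G₃)
        ≤ δ / 3 * ENNReal.ofReal (ε ^ 2) ^ (Fintype.card ι - R.card) +
          (δ / 3 * ENNReal.ofReal (ε ^ 2) ^ (Fintype.card ι - R.card) +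
            δ / 3 * ENNReal.ofReal (ε ^ 2) ^ (Fintype.card ι - R.card)) :=
          add_le_add (g1.trans (mul_le_mul' hK le_rfl))
            (add_le_add (g2.trans (mul_le_mul' hM le_rfl)) (g3.trans (mul_le_mul' h1 le_rfl)))
      _ = (δ / 3 + (δ / 3 + δ / 3)) * ENNReal.ofReal (ε ^ 2) ^ (Fintype.card ι - R.card) := by
          ring
      _ = _ := by rw [third_add]

end Vale.Agent.P119.IND
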