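import Vale.Agent.P119.TL.Hit

/-!
# P119, block IND: webs (`helper621`)

A web starts from a list `F₀` of lines with births (sources).  In each step one of the present lines
meets the root line of a fresh tree `S`; the line is consumed and replaced by the two outgoing lines
(`out1`, `out2`: the first of the new lines, the head, is the first, second outgoing line), or by the
undeflected root line of `S` (`pass`); the exhausts of `S` are added.  `run F₀ w` is the list of the
present lines, `RunOK` says that all the meetings exist, at regular times `≤ t`, with ok trees of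
depth `≤ L` without common leaves.  `Two`, `Irr`, `Pair`: the ways in which a web closes.
-/

open MeasureTheory Filter Topology Set
open scoped ENNReal NNReal

noncomputable section

namespace Vale.Agent.P119.IND.Web

open KU M M.CTree TL

variable (Φ : E3 → ℝ) (ε : ℝ) (L : ℕ)

/-- The source of the root line of `x`, born at the exit. -/
def lsrc (x : CTree) : Src := (ext Φ ε x, ln Φ ε x, x.depth)

/-- The exhaust lines of a tree. -/
def exl : CTree → List Src
  | leaf _ => []
  | node a b => lsrc Φ ε (node b a) :: (exl a ++ exl b)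

/-- The kinds of the steps. -/
inductive Kind : Type
  | out1 : Kind
  | out2 : Kind
  | pass : Kind
  deriving DecidableEq

/-- The first outgoing line of `l` and `S`. -/
def outl1 (l : Src) (S : CTree) : Src :=
  (sepT Φ ε (l.2.1, ln Φ ε S), (sc2 Φ ε (l.2.1, ln Φ ε S)).1, max l.2.2 S.depth + 1)

/-- The second outgoing line of `l` and `S`. -/
def outl2 (l : Src) (S : CTree) : Src :=
  (sepT Φ ε (l.2.1, ln Φ ε S), (sc2 Φ ε (l.2.1, ln Φ ε S)).2, max l.2.2 S.depth + 1)

/-- The root line of `S` after the meeting, undeflected. -/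
def passl (l : Src) (S : CTree) : Src := (hitT ε (l.2.1, ln Φ ε S), ln Φ ε S, S.depth)

/-- The new lines when the line `l` meets the tree `S`; the first one is the head. -/
def newl : Kind → Src → CTree → List Src
  | .out1, l, S => [outl1 Φ ε l S, outl2 Φ ε l S]
  | .out2, l, S => [outl2 Φ ε l S, outl1 Φ ε l S]
  | .pass, l, S => [passl Φ ε l S]

/-- The line number `n`. -/
def get (F : List Src) (n : ℕ) : Src := F.getD n (0, (0, 0), 0)

/-- The lines after the meeting of the line number `n` with `S`. -/
def grow (k : Kind) (n : ℕ) (S : CTree) (F : List Src) : List Src :=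
  newl Φ ε k (get F n) S ++ (exl Φ ε S ++ F.eraseIdx n)

/-- A step: number of the line, kind, fresh tree. -/
abbrev Att : Type := ℕ × Kind × CTree

/-- The present lines; the last step is the head of the list `w`. -/
def run (F₀ : List Src) : List Att → List Src
  | [] => F₀
  | x :: w => grow Φ ε x.2.1 x.1 x.2.2 (run F₀ w)

/-- The line number `n` of `F` meets `S` at a regular time `≤ t`. -/
structure Reg (t : ℝ) (F : List Src) (n : ℕ) (S : CTree) : Prop where
  lt : n < F.length
  meets : Meets ε ((get F n).2.1, ln Φ ε S)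
  birth : (get F n).1 < hitT ε ((get F n).2.1, ln Φ ε S)
  ready : ext Φ ε S < hitT ε ((get F n).2.1, ln Φ ε S)
  le : hitT ε ((get F n).2.1, ln Φ ε S) ≤ t

/-- The conditions for a step (for the kinds `out1`, `out2` the pair separates again). -/
structure Step (t : ℝ) (F : List Src) (x : Att) : Prop where
  ok : x.2.2.ok Φ ε
  depth : x.2.2.depth ≤ L
  reg : Reg Φ ε t F x.1 x.2.2
  exits : x.2.1 ≠ .pass → Exits Φ (rel ε ((get F x.1).2.1, ln Φ ε x.2.2))

/-- All the steps are regular, with trees without common leaves. -/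
def RunOK (t : ℝ) (F₀ : List Src) : List Att → Prop
  | [] => True
  | x :: w => RunOK t F₀ w ∧ Step Φ ε L t (run Φ ε F₀ w) x ∧
      ∀ y ∈ w, Disjoint x.2.2.leaves y.2.2.leaves

/-- The number of the steps which do not continue with the head line. -/
def starts (w : List Att) : ℕ := (w.filter fun x => x.1 ≠ 0).length

/-- Two of the present lines are in contact at a time `≤ t`. -/
def Two (ε t : ℝ) (F : List Src) : Prop :=
  ∃ n n', n < F.length ∧ n' < F.length ∧ n ≠ n' ∧ ∃ s ≤ t, (get F n).1 ≤ s ∧ (get F n').1 ≤ s ∧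
    Ctc ε (free s (get F n).2.1) (free s (get F n').2.1)

/-- The line number `n` has an irregular contact with the fresh tree `S`: with its root line at the
time `max (birth of the line) (exit of S)`, or during the last collision of `S` (with one of the two
particles), or a grazing contact. -/
def Irr (t : ℝ) (F : List Src) (S : CTree) : Prop :=
  ∃ n, n < F.length ∧ ∃ s ≤ t, (get F n).1 ≤ s ∧ sig Φ ε S ≤ s ∧
    ((Ctc ε (st Φ ε S s) (free s (get F n).2.1) ∧ (s ≤ max (get F n).1 (ext Φ ε S) ∨
        ¬Meets ε ((get F n).2.1, ln Φ ε S))) ∨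
      (s ≤ ext Φ ε S ∧ ∃ a b, S = node a b ∧ Ctc ε (st Φ ε (node b a) s) (free s (get F n).2.1)))

/-- The line number `n'` meets the fresh tree `S`, and the line number `n` is in contact with one of
the two at a time of the collision (or at its beginning). -/
def Pair (t : ℝ) (F : List Src) (S : CTree) : Prop :=
  ∃ n n', n < F.length ∧ n ≠ n' ∧ Reg Φ ε t F n' S ∧ ∃ s ≤ t, (get F n).1 ≤ s ∧
    (s = hitT ε ((get F n').2.1, ln Φ ε S) ∨
      (Exits Φ (rel ε ((get F n').2.1, ln Φ ε S)) ∧ hitT ε ((get F n').2.1, ln Φ ε S) ≤ s ∧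
        s ≤ sepT Φ ε ((get F n').2.1, ln Φ ε S))) ∧
    (Ctc ε (pairLine Φ ε ((get F n').2.1, ln Φ ε S) s).1 (free s (get F n).2.1) ∨
      Ctc ε (pairLine Φ ε ((get F n').2.1, ln Φ ε S) s).2 (free s (get F n).2.1))

/-- There is a closed web with fresh trees in `U`, starting from `F₀`, with at most `c` changes of
the head line. -/
def Closed (t : ℝ) (U : Set Src) (F₀ : List Src) (c : ℕ) : Prop :=
  ∃ w : List Att, RunOK Φ ε L t F₀ w ∧ (∀ x ∈ w, x.2.2.leaves ⊆ U) ∧ starts w ≤ c ∧
    (Two ε t (run Φ ε F₀ w) ∨ ∃ S : CTree, S.ok Φ ε ∧ S.depth ≤ L ∧ S.leaves ⊆ U ∧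
      (∀ x ∈ w, Disjoint S.leaves x.2.2.leaves) ∧
      (Irr Φ ε t (run Φ ε F₀ w) S ∨ Pair Φ ε t (run Φ ε F₀ w) S))

end Vale.Agent.P119.IND.Web
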