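import Vale.Agent.P119.IND.X6bU
import Vale.Agent.P119.IND.KNeg

/-!
# P119, block IND: irregular contacts with the gas, negligible kernels (`helper350`)

* `kneg_fixed`: a kernel which is small for all fixed pairs of lines is negligible;
* **`kneg_irrU`** (X6b): the kernel `∫ ind (IrrU U k t)` is negligible.
-/

open MeasureTheory Filter Topology Set
open scoped ENNReal NNReal

set_option linter.unusedSectionVars false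

noncomputable section

namespace Vale.Agent.P119.IND

open KU FL M M.CTree TL GC MM AU PB.CT

variable {Φ : E3 → ℝ} {f₀ : Ph → ℝ} {κ₀ b c M₀ M₁ T₀ : ℝ}

/-- A kernel which is small for all fixed pairs of lines is negligible. -/
theorem kneg_fixed (h : GoodDatum f₀ κ₀) (hΦ : IsPotential Φ) (hc : 0 ≤ c) (hcb : c < b)
    (hM₀ : 0 ≤ M₀) (hf : ∀ z, f₀ z ≤ M₀ * Real.exp (-b * ‖z.2‖ ^ 2)) (hM₁ : 0 ≤ M₁)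
    (hmarg : ∀ v, ∫⁻ x, ENNReal.ofReal (f₀ (x, v)) ≤ ENNReal.ofReal (M₁ * Real.exp (-b * ‖v‖ ^ 2)))
    {m q L N : ℕ} (hm : 0 < m) (κ : ℕ) (hT₀ : 0 ≤ T₀) {I : ℝ → ℝ → Src → Src → ℝ≥0∞}
    (hI : ∀ ρ : ℝ, 0 < ρ → ∀ᶠ ε : ℝ in 𝓝[>] 0, ∀ t ∈ Icc 0 T₀, ∀ σ τ : Src,
      (0 ≤ σ.1 ∧ σ.1 ≤ t ∧ σ.2.2 ≤ L) → (0 ≤ τ.1 ∧ τ.1 ≤ t ∧ τ.2.2 ≤ L) →
      I ε t σ τ ≤ ENNReal.ofReal ρ * (ML.pw κ σ.2.1.2 * ML.pw κ τ.2.1.2)) :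
    KNeg Φ f₀ b c m q L N T₀ fun ε _ t e k => I ε t e k := by
  obtain ⟨Dl, h0, h1⟩ := mlaw_lim h hΦ hc hcb hM₀ hf hM₁ hmarg hm q L N κ hT₀ hI
  exact ⟨Dl, h0, fun ε hε hε1 t ht s dl W e k CW _ hW => h1 ε hε hε1 t ht s dl W e k CW hW⟩

/-- **(X6b)** -/
theorem kneg_irrU (h : GoodDatum f₀ κ₀) (hΦ : IsPotential Φ) (hb : 0 < b) (hc : 0 ≤ c)
    (hcb : c < b) (hM₀ : 0 ≤ M₀) (hf : ∀ z, f₀ z ≤ M₀ * Real.exp (-b * ‖z.2‖ ^ 2)) (hM₁ : 0 ≤ M₁)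
    (hmarg : ∀ v, ∫⁻ x, ENNReal.ofReal (f₀ (x, v)) ≤ ENNReal.ofReal (M₁ * Real.exp (-b * ‖v‖ ^ 2)))
    {m q L N : ℕ} (hm : 0 < m) (hT₀ : 0 ≤ T₀) :
    KNeg Φ f₀ b c m q L N T₀ fun ε _ t _ k =>
      ∫⁻ w, PB.ind (FB.IrrU Φ ε L (AU.wS (pts w)) k t) ∂(PP f₀ ε) := by
  obtain ⟨Dl, h0, h1⟩ := x6b h hΦ hb hc hcb hM₀ hf hM₁ hmarg hm q L N hT₀
  exact ⟨Dl, h0, fun ε hε hε1 t ht s dl W e k CW _ hW => h1 ε hε hε1 t ht s dl W e k CW hW⟩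

end Vale.Agent.P119.IND
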