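import Vale.Agent.P119.IND.X6b
import Vale.Agent.P119.PB.IrrUm

/-!
# P119, block IND: irregular contacts with the gas of the second marked line (`helper350`)

`x6b`: the probability of an irregular contact of the second marked line with the gas vanishes under
the laws of the marked pairs.
-/

open MeasureTheory Filter Topology Set
open scoped ENNReal NNReal

set_option linter.unusedSectionVars false

noncomputable section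

namespace Vale.Agent.P119.IND

open KU FL M M.CTree TL GC MM AU PB.CT

variable {Φ : E3 → ℝ} {f₀ : Ph → ℝ} {κ₀ b c M₀ M₁ T₀ : ℝ}

/-- **(X6b)** -/
theorem x6b (h : GoodDatum f₀ κ₀) (hΦ : IsPotential Φ) (hb : 0 < b) (hc : 0 ≤ c) (hcb : c < b)
    (hM₀ : 0 ≤ M₀) (hf : ∀ z, f₀ z ≤ M₀ * Real.exp (-b * ‖z.2‖ ^ 2)) (hM₁ : 0 ≤ M₁)
    (hmarg : ∀ v, ∫⁻ x, ENNReal.ofReal (f₀ (x, v)) ≤ ENNReal.ofReal (M₁ * Real.exp (-b * ‖v‖ ^ 2)))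
    {m : ℕ} (hm : 0 < m) (q L N : ℕ) (hT₀ : 0 ≤ T₀) :
    ∃ Dl : ℝ → ℝ≥0∞, Tendsto Dl (𝓝[>] 0) (𝓝 0) ∧ ∀ ε : ℝ, 0 < ε → ε ≤ 1 → ∀ t ∈ Icc 0 T₀,
      ∀ (s : Fin q → ℝ) (dl : Fin q → ℕ) (W : (Fin m → CTree) → (Fin q → Ph) → ℝ≥0∞)
      (e k : (Fin m → CTree) → (Fin q → Ph) → Src) (CW : ℝ≥0∞),
      MLaw Φ ε t c L N s dl W e k CW →
      muE ε ^ q * ∫⁻ T, ∫⁻ l : Fin q → Ph, (∏ j, g1 b (l j).2) * (W T l *
        ∫⁻ w, PB.ind (FB.IrrU Φ ε L (AU.wS (pts w)) (k T l) t) ∂(PP f₀ ε)) ∂volume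
        ∂(Measure.pi fun _ : Fin m => tree (inten f₀ ε) L) ≤ CW * (muE ε * Dl ε) := by
  refine mlaw_lim_snd (κ := 1) (I := fun ε t τ =>
    ∫⁻ w, PB.ind (FB.IrrU Φ ε L (AU.wS (pts w)) τ t) ∂(PP f₀ ε)) h hΦ hc hcb hM₀ hf hM₁ hmarg hm
    q L N hT₀ fun ρ hρ => ?_
  filter_upwards [PB.irrU_small hΦ h hb (show 0 < T₀ + 1 by linarith) hM₀ hf L hρ] with ε h1 t ht
    τ hτ _ _
  exact h1 t (by linarith [ht.2]) τ hτ

end Vale.Agent.P119.IND
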